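import Vale.Agent.P347.Expr

/-!
Laws of expressions compared with Gaussian laws in the Lipschitz dual distance.
-/

namespace Vale.Agent.P347

open MeasureTheory ProbabilityTheory
open scoped NNReal

variable {d : ℕ}

/-- The Gaussian law with mean `μ` and covariance `v • I`. -/
noncomputable def gN (μ : Euc d) (v : ℝ) : Measure (Euc d) :=
  (gauss d).map fun η => μ + √v • η

instance isProbabilityMeasure_gN (μ : Euc d) (v : ℝ) : IsProbabilityMeasure (gN μ v) :=
  Measure.isProbabilityMeasure_map (Measurable.aemeasurable (by fun_prop))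

/-- The law of an expression at the inputs `x`. -/
noncomputable def Expr.law {n : ℕ} (G : Euc d → Euc d) (e : Expr n) (x : Fin n → Euc d) :
    Measure (Euc d) :=
  (noiseLaw d).map fun ω => e.eval G x ω

/-- The dual Lipschitz distance between two laws is at most `E`. -/
def DualClose (ν ν' : Measure (Euc d)) (E : ℝ) : Prop :=
  ∀ f : Euc d → ℝ, LipschitzWith 1 f → |∫ y, f y ∂ν - ∫ y, f y ∂ν'| ≤ E

lemma integral_gN (μ : Euc d) (v : ℝ) {f : Euc d → ℝ} (hf : Continuous f) :
    ∫ y, f y ∂(gN μ v) = ∫ η, f (μ + √v • η) ∂(gauss d) :=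
  integral_map (by fun_prop) hf.aestronglyMeasurable

lemma gauss_integrable_norm : Integrable (fun η : Euc d => ‖η‖) (gauss d) :=
  (gauss_integrable_norm_pow 1).congr (.of_forall fun η => by simp)

lemma gN_integrable_norm (μ : Euc d) (v : ℝ) :
    Integrable (fun y : Euc d => ‖y‖) (gN μ v) := by
  rw [gN, integrable_map_measure (by fun_prop) (by fun_prop)]
  refine gauss_integrable_of_growth (by fun_prop) (C := ‖μ‖ + |√v|) (n := 1) fun η => ?_
  simp only [Function.comp_apply, norm_norm, pow_one]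
  refine (norm_add_le _ _).trans ?_
  rw [norm_smul, Real.norm_eq_abs]
  nlinarith [norm_nonneg η, norm_nonneg μ, abs_nonneg √v]

lemma abs_le_of_lipschitz {K : ℝ} {f : Euc d → ℝ} (hf : ∀ a b, |f a - f b| ≤ K * ‖a - b‖)
    (y : Euc d) : |f y| ≤ |f 0| + K * ‖y‖ := by
  have h := hf y 0
  rw [sub_zero] at h
  linarith [abs_sub_abs_le_abs_sub (f y) (f 0)]

lemma integrable_lipschitz {ν : Measure (Euc d)} [IsFiniteMeasure ν]
    (hν : Integrable (fun y => ‖y‖) ν) {K : ℝ} {f : Euc d → ℝ} (hc : Continuous f)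
    (hf : ∀ a b, |f a - f b| ≤ K * ‖a - b‖) : Integrable f ν :=
  Integrable.mono' ((integrable_const |f 0|).add (hν.const_mul K)) hc.aestronglyMeasurable
    (.of_forall fun y => abs_le_of_lipschitz hf y)

lemma lipschitz_abs_sub {f : Euc d → ℝ} (hf : LipschitzWith 1 f) (a b : Euc d) :
    |f a - f b| ≤ 1 * ‖a - b‖ := by
  simpa [Real.dist_eq, dist_eq_norm] using hf.dist_le_mul a b

lemma integrable_of_lipschitzWith {ν : Measure (Euc d)} [IsFiniteMeasure ν]
    (hν : Integrable (fun y => ‖y‖) ν) {f : Euc d → ℝ} (hf : LipschitzWith 1 f) :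
    Integrable f ν :=
  integrable_lipschitz hν hf.continuous (lipschitz_abs_sub hf)

lemma DualClose.nonneg {ν ν' : Measure (Euc d)} {E : ℝ} (h : DualClose ν ν' E) : 0 ≤ E := by
  have := h 0 ((LipschitzWith.const (0 : ℝ)).weaken zero_le_one)
  simpa using this

lemma DualClose.mono {ν ν' : Measure (Euc d)} {E E' : ℝ} (h : DualClose ν ν' E) (hE : E ≤ E') :
    DualClose ν ν' E' := fun f hf => (h f hf).trans hE

lemma DualClose.refl (ν : Measure (Euc d)) : DualClose ν ν 0 := fun f _ => by simp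

lemma DualClose.symm {ν ν' : Measure (Euc d)} {E : ℝ} (h : DualClose ν ν' E) :
    DualClose ν' ν E := fun f hf => by rw [abs_sub_comm]; exact h f hf

lemma DualClose.trans {ν₁ ν₂ ν₃ : Measure (Euc d)} {E E' : ℝ} (h : DualClose ν₁ ν₂ E)
    (h' : DualClose ν₂ ν₃ E') : DualClose ν₁ ν₃ (E + E') := fun f hf =>
  (abs_sub_le _ _ _).trans (add_le_add (h f hf) (h' f hf))

lemma DualClose.lipschitz {ν ν' : Measure (Euc d)} [IsProbabilityMeasure ν]
    [IsProbabilityMeasure ν'] {E : ℝ} (h : DualClose ν ν' E) {K : ℝ} (hK : 0 ≤ K)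
    {f : Euc d → ℝ} (hf : ∀ a b, |f a - f b| ≤ K * ‖a - b‖) :
    |∫ y, f y ∂ν - ∫ y, f y ∂ν'| ≤ K * E := by
  rcases eq_or_lt_of_le hK with rfl | hK
  · have hconst : f = fun _ => f 0 := by
      funext y
      have h2 : |f y - f 0| ≤ 0 := (hf y 0).trans (by simp)
      linarith [abs_le.1 h2]
    rw [hconst]
    simp
  · have hg : LipschitzWith 1 fun y => f y / K := by
      refine LipschitzWith.of_dist_le_mul fun a b => ?_
      rw [Real.dist_eq, dist_eq_norm, ← sub_div, abs_div, abs_of_pos hK, NNReal.coe_one, one_mul,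
        div_le_iff₀ hK, mul_comm]
      exact hf a b
    have h1 := h _ hg
    rw [integral_div, integral_div, ← sub_div, abs_div, abs_of_pos hK, div_le_iff₀ hK] at h1
    linarith

lemma gauss_integral_norm_le : ∫ η, ‖η‖ ∂(gauss d) ≤ √d := by
  have h2 : ∫ η, ‖η‖ ^ 2 ∂(gauss d) = d := by
    have hi : ∀ i : Fin d, Integrable
        (fun η : Euc d => inner ℝ (EuclideanSpace.single i (1:ℝ)) η ^ 2) (gauss d) := fun i => by
      simpa using (IsGaussian.memLp_dual (gauss d)
        (innerSL ℝ (EuclideanSpace.single i (1:ℝ))) 2 (by norm_num)).integrable_sq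
    have e : (fun η : Euc d => ‖η‖ ^ 2)
        = fun η => ∑ i, inner ℝ (EuclideanSpace.single i (1:ℝ)) η ^ 2 := by
      funext η
      simp [EuclideanSpace.real_norm_sq_eq, EuclideanSpace.inner_single_left]
    rw [e, integral_finsetSum _ fun i _ => hi i]
    simp [sq, gauss_integral_inner_mul_inner]
  refine Real.le_sqrt_of_sq_le ?_
  rw [← h2]
  have hv := variance_nonneg (fun η : Euc d => ‖η‖) (gauss d)
  have hm : MemLp (fun η : Euc d => ‖η‖) 2 (gauss d) :=
    (IsGaussian.memLp_id (gauss d) 2 (by simp)).norm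
  rw [variance_eq_sub hm] at hv
  simp only [Pi.pow_apply] at hv
  linarith

lemma dualClose_gN_shift (μ μ' : Euc d) (v : ℝ) : DualClose (gN μ v) (gN μ' v) ‖μ - μ'‖ := by
  intro f hf
  rw [integral_gN μ v hf.continuous, integral_gN μ' v hf.continuous]
  have hi : ∀ m : Euc d, Integrable (fun η => f (m + √v • η)) (gauss d) := fun m => by
    have h := integrable_of_lipschitzWith (gN_integrable_norm m v) hf
    rwa [gN, integrable_map_measure hf.continuous.aestronglyMeasurable (by fun_prop)] at h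
  rw [← integral_sub (hi μ) (hi μ')]
  refine (abs_integral_le_integral_abs).trans ?_
  refine (integral_mono ((hi μ).sub (hi μ')).abs (integrable_const ‖μ - μ'‖) fun η => ?_).trans ?_
  · simpa using lipschitz_abs_sub hf (μ + √v • η) (μ' + √v • η)
  · simp

namespace Expr

variable {G : Euc d → Euc d}

instance isProbabilityMeasure_law {n : ℕ} [hG : Fact (Continuous G)] (e : Expr n)
    (x : Fin n → Euc d) : IsProbabilityMeasure (e.law G x) :=
  Measure.isProbabilityMeasure_map
    ((continuous_eval hG.out e).comp (Continuous.prodMk_right x)).aemeasurable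

lemma continuous_eval_noise (hG : Continuous G) {n : ℕ} (e : Expr n) (x : Fin n → Euc d) :
    Continuous fun ω => e.eval G x ω :=
  (continuous_eval hG e).comp (Continuous.prodMk_right x)

lemma integral_law (hG : Continuous G) {n : ℕ} (e : Expr n) (x : Fin n → Euc d)
    {f : Euc d → ℝ} (hf : Continuous f) :
    ∫ y, f y ∂(e.law G x) = ∫ ω, f (e.eval G x ω) ∂(noiseLaw d) :=
  integral_map (continuous_eval_noise hG e x).aemeasurable hf.aestronglyMeasurable

lemma integrable_norm_eval {L : ℝ} (hL : 0 ≤ L) (hG : Continuous G)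
    (hGL : ∀ a b, ‖G a - G b‖ ≤ L * ‖a - b‖) {n : ℕ} (e : Expr n) (x : Fin n → Euc d) :
    Integrable (fun ω => ‖e.eval G x ω‖) (noiseLaw d) := by
  induction e with
  | inp i => simp only [eval]; exact integrable_const _
  | noise i =>
      simp only [eval]
      have h : (noiseLaw d).map (fun ω => ω i) = gauss d := Measure.infinitePi_map_eval _ i
      have h1 := gauss_integrable_norm (d := d)
      have hm : Measurable fun ω : ℕ → Euc d => ω i := measurable_pi_apply i
      rw [← h] at h1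
      exact (integrable_map_measure continuous_norm.aestronglyMeasurable hm.aemeasurable).1 h1
  | zero => simp only [eval, norm_zero]; exact integrable_const _
  | add a b iha ihb =>
      refine Integrable.mono' (iha.add ihb)
        ((continuous_eval_noise hG _ x).norm.aestronglyMeasurable) (.of_forall fun ω => ?_)
      simpa [eval] using norm_add_le _ _
  | smul c a ih =>
      simp only [eval, norm_smul]
      exact ih.const_mul _
  | grad a ih =>
      refine Integrable.mono' ((integrable_const ‖G 0‖).add (ih.const_mul L))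
        ((continuous_eval_noise hG _ x).norm.aestronglyMeasurable) (.of_forall fun ω => ?_)
      simp only [eval, norm_norm, Pi.add_apply]
      have h1 := hGL (a.eval G x ω) 0
      rw [sub_zero] at h1
      linarith [norm_le_norm_add_norm_sub' (G (a.eval G x ω)) (G 0)]

lemma law_integrable_norm {L : ℝ} (hL : 0 ≤ L) (hG : Continuous G)
    (hGL : ∀ a b, ‖G a - G b‖ ≤ L * ‖a - b‖) {n : ℕ} (e : Expr n) (x : Fin n → Euc d) :
    Integrable (fun y => ‖y‖) (e.law G x) := by
  rw [Expr.law, integrable_map_measure (by fun_prop)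
    (continuous_eval_noise hG e x).aemeasurable]
  exact integrable_norm_eval hL hG hGL e x

lemma dualClose_law_input {L : ℝ} (hL : 0 ≤ L) (hG : Continuous G)
    (hGL : ∀ a b, ‖G a - G b‖ ≤ L * ‖a - b‖) {n : ℕ} (e : Expr n) (x y : Fin n → Euc d) :
    DualClose (e.law G x) (e.law G y) (∑ i, e.lip L i * ‖x i - y i‖) := by
  intro f hf
  rw [integral_law hG e x hf.continuous, integral_law hG e y hf.continuous]
  have hi : ∀ z, Integrable (fun ω => f (e.eval G z ω)) (noiseLaw d) := fun z => by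
    have : IsProbabilityMeasure (e.law G z) :=
      Measure.isProbabilityMeasure_map (continuous_eval_noise hG e z).aemeasurable
    have h := integrable_of_lipschitzWith (ν := e.law G z)
      (law_integrable_norm hL hG hGL e z) hf
    rwa [Expr.law, integrable_map_measure hf.continuous.aestronglyMeasurable
      (continuous_eval_noise hG e z).aemeasurable] at h
  rw [← integral_sub (hi x) (hi y)]
  refine abs_integral_le_integral_abs.trans ?_
  refine (integral_mono ((hi x).sub (hi y)).abs (integrable_const _) fun ω => ?_).trans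
    (le_of_eq (by simp : ∫ _, (∑ i, e.lip L i * ‖x i - y i‖) ∂(noiseLaw d) = _))
  refine (lipschitz_abs_sub hf _ _).trans ?_
  rw [one_mul]
  exact norm_eval_sub_le hL hGL e x y ω

lemma integral_bind (hG : Continuous G) {n k : ℕ} (e : Expr n) (g : Fin n → Expr k)
    (x : Fin k → Euc d) {f : Euc d → ℝ} (hf : Continuous f)
    (hint : Integrable (fun p : (ℕ → Euc d) × (Fin n → Euc d) => f (e.eval G p.2 p.1))
      ((noiseLaw d).prod (Measure.pi fun i => (g i).law G x))) :
    ∫ y, f y ∂((e.bind g).law G x)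
      = ∫ z, ∫ y, f y ∂(e.law G z) ∂(Measure.pi fun i => (g i).law G x) := by
  have : ∀ i, IsProbabilityMeasure ((g i).law G x) := fun i =>
    Measure.isProbabilityMeasure_map (continuous_eval_noise hG (g i) x).aemeasurable
  have hmg : ∀ i, Measurable fun ω : ℕ → Euc d => (g i).eval G x ω := fun i =>
    (continuous_eval_noise hG (g i) x).measurable
  have hpi : (Measure.pi fun _ : Fin n => noiseLaw d).map (fun θ i => (g i).eval G x (θ i))
      = Measure.pi fun i => (g i).law G x :=
    haveI : ∀ i, SigmaFinite ((noiseLaw d).map fun ω => (g i).eval G x ω) := fun i =>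
      inferInstanceAs (SigmaFinite ((g i).law G x))
    Measure.pi_map_pi (μ := fun _ : Fin n => noiseLaw d) (f := fun i ω => (g i).eval G x ω)
      fun i => (hmg i).aemeasurable
  have hblock : Measurable fun ω : ℕ → Euc d => ((fun j => ω (Nat.pair 0 j)),
      fun (i : Fin n) j => ω (Nat.pair ((i : ℕ) + 1) j)) := by fun_prop
  have hm : Measurable fun θ : Fin n → ℕ → Euc d => fun i => (g i).eval G x (θ i) :=
    measurable_pi_lambda _ fun i => (hmg i).comp (measurable_pi_apply i)
  have hfe : Continuous fun p : (ℕ → Euc d) × (Fin n → Euc d) => f (e.eval G p.2 p.1) :=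
    hf.comp ((continuous_eval hG e).comp (continuous_snd.prodMk continuous_fst))
  rw [Expr.integral_law hG _ x hf]
  calc ∫ ω, f ((e.bind g).eval G x ω) ∂(noiseLaw d)
      = ∫ ω, (fun q : (ℕ → Euc d) × (Fin n → ℕ → Euc d) =>
          f (e.eval G (fun i => (g i).eval G x (q.2 i)) q.1))
            ((fun j => ω (Nat.pair 0 j)), fun (i : Fin n) j => ω (Nat.pair ((i : ℕ) + 1) j))
          ∂(noiseLaw d) := by simp only [eval_bind]
    _ = ∫ q, f (e.eval G (fun i => (g i).eval G x (q.2 i)) q.1)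
          ∂((noiseLaw d).prod (Measure.pi fun _ : Fin n => noiseLaw d)) := by
        rw [← noiseLaw_map_blocks d n, integral_map hblock.aemeasurable]
        exact (hfe.measurable.comp (measurable_fst.prodMk (hm.comp measurable_snd))
          ).aestronglyMeasurable
    _ = ∫ p, f (e.eval G p.2 p.1)
          ∂((noiseLaw d).prod (Measure.pi fun i => (g i).law G x)) := by
        rw [← hpi, ← Measure.map_id (μ := noiseLaw d), Measure.map_prod_map _ _ measurable_id hm,
          Measure.map_id, integral_map (measurable_id.prodMap hm).aemeasurable]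
        · rfl
        · exact hfe.aestronglyMeasurable
    _ = _ := by
        rw [integral_prod_symm _ hint]
        exact integral_congr_ae (.of_forall fun z => (Expr.integral_law hG e z hf).symm)

end Expr

lemma sum_mul_norm_cons {n : ℕ} (K : Fin (n + 1) → ℝ) (a b : Euc d) (z w : Fin n → Euc d) :
    ∑ i, K i * ‖(Fin.cons a z : Fin (n + 1) → Euc d) i
        - (Fin.cons b w : Fin (n + 1) → Euc d) i‖
      = K 0 * ‖a - b‖ + ∑ i : Fin n, K i.succ * ‖z i - w i‖ := by
  simp [Fin.sum_univ_succ]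

lemma continuous_of_coord_lipschitz {n : ℕ} {K : Fin n → ℝ} {φ : (Fin n → Euc d) → ℝ}
    (hφ : ∀ z w, |φ z - φ w| ≤ ∑ i, K i * ‖z i - w i‖) : Continuous φ := by
  refine continuous_iff_continuousAt.2 fun z => tendsto_iff_norm_sub_tendsto_zero.2 ?_
  refine squeeze_zero (fun w => norm_nonneg _) (fun w => hφ w z) ?_
  have hc : Continuous fun w : Fin n → Euc d => ∑ i, K i * ‖w i - z i‖ := by fun_prop
  simpa using hc.tendsto z

lemma integrable_pi_coord_lipschitz {n : ℕ} {ν : Fin n → Measure (Euc d)}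
    [∀ i, IsProbabilityMeasure (ν i)] (hν : ∀ i, Integrable (fun y => ‖y‖) (ν i))
    {K : Fin n → ℝ} {φ : (Fin n → Euc d) → ℝ}
    (hφ : ∀ z w, |φ z - φ w| ≤ ∑ i, K i * ‖z i - w i‖) : Integrable φ (Measure.pi ν) := by
  refine Integrable.mono' (g := fun z => |φ 0| + ∑ i, K i * ‖z i‖) ?_
    (continuous_of_coord_lipschitz hφ).aestronglyMeasurable (.of_forall fun z => ?_)
  · refine (integrable_const _).add (integrable_finsetSum _ fun i _ => Integrable.const_mul ?_ _)
    exact ((measurePreserving_eval ν i).integrable_comp (hν i).aestronglyMeasurable).2 (hν i)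
  · have h := hφ z 0
    simp only [Pi.zero_apply, sub_zero] at h
    rw [Real.norm_eq_abs]
    linarith [abs_sub_abs_le_abs_sub (φ z) (φ 0)]

lemma DualClose.pi : ∀ {n : ℕ} {ν ν' : Fin n → Measure (Euc d)}
    [∀ i, IsProbabilityMeasure (ν i)] [∀ i, IsProbabilityMeasure (ν' i)],
    (∀ i, Integrable (fun y => ‖y‖) (ν i)) → (∀ i, Integrable (fun y => ‖y‖) (ν' i)) →
    ∀ {E : Fin n → ℝ}, (∀ i, DualClose (ν i) (ν' i) (E i)) →
    ∀ {K : Fin n → ℝ}, (∀ i, 0 ≤ K i) → ∀ {φ : (Fin n → Euc d) → ℝ},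
    (∀ z w, |φ z - φ w| ≤ ∑ i, K i * ‖z i - w i‖) →
      |∫ z, φ z ∂(Measure.pi ν) - ∫ z, φ z ∂(Measure.pi ν')| ≤ ∑ i, K i * E i := by
  intro n
  induction n with
  | zero =>
      intro ν ν' _ _ _ _ E _ K _ φ _
      obtain rfl : ν = ν' := Subsingleton.elim _ _
      simp
  | succ n ih =>
      intro ν ν' _ _ hν hν' E hE K hK φ hφ
      have key : ∀ (μ : Fin (n + 1) → Measure (Euc d)) [∀ i, IsProbabilityMeasure (μ i)],
          (∀ i, Integrable (fun y => ‖y‖) (μ i)) →
          ∫ z, φ z ∂(Measure.pi μ)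
            = ∫ a, ∫ z, φ (Fin.cons a z) ∂(Measure.pi fun i : Fin n => μ i.succ) ∂(μ 0) := by
        intro μ _ hμ
        have hmp := (measurePreserving_piFinSuccAbove μ 0).symm
        have hi : Integrable φ (Measure.pi μ) := integrable_pi_coord_lipschitz hμ hφ
        rw [← hmp.integral_comp']
        have hi' := (hmp.integrable_comp hi.aestronglyMeasurable).2 hi
        rw [integral_prod _ (by simpa [Function.comp_def] using hi')]
        simp only [MeasurableEquiv.piFinSuccAbove_symm_apply, Fin.insertNthEquiv,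
          Equiv.coe_fn_mk, Fin.zero_succAbove, Fin.insertNth_zero]
        rfl
      rw [key ν hν, key ν' hν']
      set A : Euc d → ℝ := fun a => ∫ z, φ (Fin.cons a z) ∂(Measure.pi fun i : Fin n => ν i.succ)
        with hA
      set B : Euc d → ℝ := fun a => ∫ z, φ (Fin.cons a z) ∂(Measure.pi fun i : Fin n => ν' i.succ)
        with hB
      have hz : ∀ a, ∀ z w : Fin n → Euc d,
          |φ (Fin.cons a z) - φ (Fin.cons a w)| ≤ ∑ i : Fin n, K i.succ * ‖z i - w i‖ := by
        intro a z w
        refine (hφ _ _).trans (le_of_eq ?_)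
        rw [sum_mul_norm_cons]
        simp
      have hlip : ∀ (μ : Fin n → Measure (Euc d)) [∀ i, IsProbabilityMeasure (μ i)],
          (∀ i, Integrable (fun y => ‖y‖) (μ i)) → ∀ a b,
          |∫ z, φ (Fin.cons a z) ∂(Measure.pi μ) - ∫ z, φ (Fin.cons b z) ∂(Measure.pi μ)|
            ≤ K 0 * ‖a - b‖ := by
        intro μ _ hμ a b
        have hia := integrable_pi_coord_lipschitz hμ (hz a)
        have hib := integrable_pi_coord_lipschitz hμ (hz b)
        rw [← integral_sub hia hib]
        refine abs_integral_le_integral_abs.trans ?_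
        refine (integral_mono (hia.sub hib).abs (integrable_const _) fun z => ?_).trans
          (le_of_eq (by simp : ∫ _, K 0 * ‖a - b‖ ∂(Measure.pi μ) = _))
        refine (hφ _ _).trans (le_of_eq ?_)
        rw [sum_mul_norm_cons]
        simp
      have hAl := hlip _ fun i => hν i.succ
      have hBl := hlip _ fun i => hν' i.succ
      have hcont : ∀ f : Euc d → ℝ, (∀ a b, |f a - f b| ≤ K 0 * ‖a - b‖) → Continuous f :=
        fun f hf => (LipschitzWith.of_dist_le_mul (K := ⟨K 0, hK 0⟩) fun a b => by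
          simp only [dist_eq_norm, Real.norm_eq_abs]; exact hf a b).continuous
      have hAc : Integrable A (ν 0) := integrable_lipschitz (hν 0) (hcont A hAl) hAl
      have hBc : Integrable B (ν 0) := integrable_lipschitz (hν 0) (hcont B hBl) hBl
      have h1 : |∫ a, A a ∂(ν 0) - ∫ a, B a ∂(ν 0)| ≤ ∑ i : Fin n, K i.succ * E i.succ := by
        rw [← integral_sub hAc hBc]
        refine abs_integral_le_integral_abs.trans ?_
        refine (integral_mono (hAc.sub hBc).abs (integrable_const _) fun a => ?_).trans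
          (le_of_eq (by simp : ∫ _, (∑ i : Fin n, K i.succ * E i.succ) ∂(ν 0) = _))
        exact ih (fun i => hν i.succ) (fun i => hν' i.succ) (fun i => hE i.succ)
          (fun i => hK i.succ) (hz a)
      have h2 : |∫ a, B a ∂(ν 0) - ∫ a, B a ∂(ν' 0)| ≤ K 0 * E 0 :=
        (hE 0).lipschitz (hK 0) hBl
      rw [Fin.sum_univ_succ]
      calc |∫ a, A a ∂(ν 0) - ∫ a, B a ∂(ν' 0)|
          ≤ |∫ a, A a ∂(ν 0) - ∫ a, B a ∂(ν 0)| + |∫ a, B a ∂(ν 0) - ∫ a, B a ∂(ν' 0)| :=
            abs_sub_le _ _ _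
        _ ≤ _ := by linarith

lemma integral_gauss_combine (a b : ℝ) {f : Euc d → ℝ} (hf : Continuous f) :
    ∫ p, f (a • p.1 + b • p.2) ∂((gauss d).prod (gauss d))
      = ∫ η, f (√(a ^ 2 + b ^ 2) • η) ∂(gauss d) := by
  set c : ℂ := ⟨a, b⟩ with hc
  set r := √(a ^ 2 + b ^ 2) with hr
  have hn : ‖c‖ = r := by
    simp [hr, hc, Complex.norm_def, Complex.normSq_mk, sq]
  have h1 : ∀ p : Euc d × Euc d,
      a • p.1 + b • p.2 = r • (ContinuousLinearMap.rotation c.arg p).1 := by
    intro p
    simp only [ContinuousLinearMap.rotation_apply, smul_add, smul_smul]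
    rw [← hn, Complex.norm_mul_cos_arg, Complex.norm_mul_sin_arg]
  simp only [h1]
  rw [integral_rotation c.arg (G := fun p : Euc d × Euc d => f (r • p.1)) (by fun_prop),
    integral_fun_fst (μ := gauss d) (ν := gauss d) (fun η => f (r • η))]
  simp

namespace Expr

variable {G : Euc d → Euc d} {L : ℝ}

/-- With inputs distributed as independent Gaussians `gN (μ i) (v i)`, the expression is within
`E` of the law `T`. -/
def SlotClose (G : Euc d → Euc d) {n : ℕ} (e : Expr n) (μ : Fin n → Euc d) (v : Fin n → ℝ)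
    (T : Measure (Euc d)) (E : ℝ) : Prop :=
  ∀ f : Euc d → ℝ, LipschitzWith 1 f →
    |∫ z, ∫ y, f y ∂(e.law G z) ∂(Measure.pi fun i => gN (μ i) (v i)) - ∫ y, f y ∂T| ≤ E

lemma mix_lipschitz (hL : 0 ≤ L) (hG : Continuous G)
    (hGL : ∀ a b, ‖G a - G b‖ ≤ L * ‖a - b‖) {n : ℕ} (e : Expr n)
    {f : Euc d → ℝ} (hf : LipschitzWith 1 f) (z w : Fin n → Euc d) :
    |∫ y, f y ∂(e.law G z) - ∫ y, f y ∂(e.law G w)| ≤ ∑ i, e.lip L i * ‖z i - w i‖ :=
  dualClose_law_input hL hG hGL e z w f hf

lemma dualClose_bind (hL : 0 ≤ L) (hG : Continuous G)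
    (hGL : ∀ a b, ‖G a - G b‖ ≤ L * ‖a - b‖) {n k : ℕ} (e : Expr n) (g : Fin n → Expr k)
    (x : Fin k → Euc d) {μ : Fin n → Euc d} {v : Fin n → ℝ} {E : Fin n → ℝ}
    (hg : ∀ i, DualClose ((g i).law G x) (gN (μ i) (v i)) (E i))
    {T : Measure (Euc d)} {E₀ : ℝ} (he : e.SlotClose G μ v T E₀) :
    DualClose ((e.bind g).law G x) T (∑ i, e.lip L i * E i + E₀) := by
  intro f hf
  have : ∀ i, IsProbabilityMeasure ((g i).law G x) := fun i =>
    Measure.isProbabilityMeasure_map (continuous_eval_noise hG (g i) x).aemeasurable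
  have hν : ∀ i, Integrable (fun y => ‖y‖) ((g i).law G x) := fun i =>
    law_integrable_norm hL hG hGL (g i) x
  have hint : Integrable (fun p : (ℕ → Euc d) × (Fin n → Euc d) => f (e.eval G p.2 p.1))
      ((noiseLaw d).prod (Measure.pi fun i => (g i).law G x)) := by
    refine Integrable.mono' (g := fun p => |f 0| + ‖e.eval G 0 p.1‖ + ∑ i, e.lip L i * ‖p.2 i‖)
      ?_ (hf.continuous.comp ((continuous_eval hG e).comp
        (continuous_snd.prodMk continuous_fst))).aestronglyMeasurable (.of_forall fun p => ?_)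
    · refine ((integrable_const _).add ((integrable_norm_eval hL hG hGL e 0).comp_fst _)).add
        (integrable_finsetSum _ fun i _ => Integrable.const_mul ?_ _)
      exact (((measurePreserving_eval _ i).integrable_comp (hν i).aestronglyMeasurable).2
        (hν i)).comp_snd _
    · have h1 := norm_eval_sub_le hL hGL e p.2 0 p.1
      simp only [Pi.zero_apply, sub_zero] at h1
      have h2 := abs_le_of_lipschitz (lipschitz_abs_sub hf) (e.eval G p.2 p.1)
      rw [Real.norm_eq_abs]
      linarith [norm_le_norm_add_norm_sub' (e.eval G p.2 p.1) (e.eval G 0 p.1)]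
  rw [integral_bind hG e g x hf.continuous hint]
  refine (abs_sub_le _ (∫ z, ∫ y, f y ∂(e.law G z) ∂(Measure.pi fun i => gN (μ i) (v i))) _).trans
    (add_le_add ?_ (he f hf))
  exact DualClose.pi hν (fun i => gN_integrable_norm _ _) hg (fun i => lip_nonneg hL e i)
    (mix_lipschitz hL hG hGL e hf)

/-- `a • e₁ + b • e₂` with independent randomness. -/
def lin2 (a b : ℝ) {k : ℕ} (e₁ e₂ : Expr k) : Expr k :=
  (add (smul a (inp (0 : Fin 2))) (smul b (inp 1))).bind ![e₁, e₂]

lemma lip_lin2 (a b L : ℝ) {k : ℕ} (e₁ e₂ : Expr k) (i : Fin k) :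
    (lin2 a b e₁ e₂).lip L i = |a| * e₁.lip L i + |b| * e₂.lip L i := by
  simp [lin2, lip_bind, lip, Fin.sum_univ_two]

lemma queries_lin2 (a b : ℝ) {k : ℕ} (e₁ e₂ : Expr k) :
    (lin2 a b e₁ e₂).queries = e₁.queries + e₂.queries := by
  simp [lin2, queries_bind, queries, occ, Fin.sum_univ_two]

lemma slotClose_lin2 (hG : Continuous G) (a b : ℝ) {μ : Fin 2 → Euc d} {v : Fin 2 → ℝ}
    (h0 : 0 ≤ v 0) (h1 : 0 ≤ v 1) :
    (add (smul a (inp (0 : Fin 2))) (smul b (inp 1))).SlotClose G μ v
      (gN (a • μ 0 + b • μ 1) (a ^ 2 * v 0 + b ^ 2 * v 1)) 0 := by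
  intro f hf
  set e : Expr 2 := add (smul a (inp 0)) (smul b (inp 1))
  have heval : ∀ z, ∫ y, f y ∂(e.law G z) = f (a • z 0 + b • z 1) := fun z => by
    rw [integral_law hG e z hf.continuous]
    simp [e, eval]
  simp only [heval]
  have hpi : (Measure.pi fun i => gN (μ i) (v i))
      = ((gauss d).prod (gauss d)).map
        (fun p => ![μ 0 + √(v 0) • p.1, μ 1 + √(v 1) • p.2]) := by
    have h := (measurePreserving_piFinTwo fun i : Fin 2 => gN (μ i) (v i)).symm.map_eq
    rw [← h]
    simp only [gN]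
    rw [Measure.map_prod_map _ _ (by fun_prop) (by fun_prop),
      Measure.map_map (by fun_prop) (by fun_prop)]
    rfl
  rw [hpi, integral_map (by fun_prop) (by
    exact (hf.continuous.comp (by fun_prop)).aestronglyMeasurable)]
  have h2 : ∀ p : Euc d × Euc d, a • (μ 0 + √(v 0) • p.1) + b • (μ 1 + √(v 1) • p.2)
      = (a • μ 0 + b • μ 1) + ((a * √(v 0)) • p.1 + (b * √(v 1)) • p.2) := fun p => by
    simp only [smul_add, smul_smul]; abel
  simp only [Matrix.cons_val_zero, Matrix.cons_val_one, h2]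
  have hfc := hf.continuous
  rw [integral_gauss_combine _ _ (f := fun y => f ((a • μ 0 + b • μ 1) + y)) (by fun_prop),
    integral_gN _ _ hf.continuous]
  have h3 : (a * √(v 0)) ^ 2 + (b * √(v 1)) ^ 2 = a ^ 2 * v 0 + b ^ 2 * v 1 := by
    rw [mul_pow, mul_pow, Real.sq_sqrt h0, Real.sq_sqrt h1]
  simp [h3]

lemma dualClose_lin2 (hL : 0 ≤ L) (hG : Continuous G)
    (hGL : ∀ a b, ‖G a - G b‖ ≤ L * ‖a - b‖) {k : ℕ} (a b : ℝ) {e₁ e₂ : Expr k}
    {x : Fin k → Euc d} {μ₁ μ₂ : Euc d} {v₁ v₂ E₁ E₂ : ℝ} (hv₁ : 0 ≤ v₁) (hv₂ : 0 ≤ v₂)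
    (h₁ : DualClose (e₁.law G x) (gN μ₁ v₁) E₁) (h₂ : DualClose (e₂.law G x) (gN μ₂ v₂) E₂) :
    DualClose ((lin2 a b e₁ e₂).law G x) (gN (a • μ₁ + b • μ₂) (a ^ 2 * v₁ + b ^ 2 * v₂))
      (|a| * E₁ + |b| * E₂) := by
  have h := dualClose_bind hL hG hGL (add (smul a (inp (0 : Fin 2))) (smul b (inp 1)))
    ![e₁, e₂] x (μ := ![μ₁, μ₂]) (v := ![v₁, v₂]) (E := ![E₁, E₂])
    (Fin.forall_fin_two.2 ⟨h₁, h₂⟩) (slotClose_lin2 hG a b hv₁ hv₂)
  simpa [lin2, lip, Fin.sum_univ_two] using h

end Expr

end Vale.Agent.P347
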