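import Vale.Agent.P347.NodeOps

/-!
Parameters of the recursion and the statements proved by induction.
-/

namespace Vale.Agent.P347

open MeasureTheory

/-- The constant lost at each gain. -/
def lossC (n : ℕ) : ℕ := 40 * (n + 1)

/-- The exponent of the top level of chain index `i`. -/
def topExp (n a i : ℕ) : ℕ := 2 ^ (n - i) * (4 * n * a - 11) + 10

/-- The top level of chain index `i`, before halving. -/
noncomputable def topLevel (n a i : ℕ) (R : ℝ) : ℝ := (R ^ topExp n a i)⁻¹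

/-- The ladder of noise levels. -/
noncomputable def lad (a j : ℕ) (R : ℝ) : ℝ := (R ^ (2 * a * j))⁻¹

/-- The accuracy exponent. -/
def accExp (n a m j : ℕ) : ℕ := (a - lossC n) * min m ((n - j) * n)

/-- The family of scores at level `t`. -/
noncomputable def scoreFam (t : ℝ) : FieldFam := fun _ V => score V t

/-- The family of averaged scores. -/
noncomputable def avgFam (t ρ : ℝ) : FieldFam := fun _ V => scoreAvg V t ρ

/-- The family of levels. -/
noncomputable def levelFam (t : ℝ) : MeasFam := fun _ V => levelLaw V t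

/-- Oracles for the scores exist up to the recursion index `(m, i)`. -/
def HasOracle (n a m i q : ℕ) : Prop :=
  ∀ ε : ℝ, 0 < ε → ∃ C R₀ : ℝ, 0 ≤ C ∧ 1 ≤ R₀ ∧ ∀ R : ℝ, R₀ ≤ R → ∀ (j : ℕ) (τ δ : ℝ), j ≤ n →
    0 < τ → 2 ^ m * τ ≤ topLevel n a i R → lad a j R ≤ R ^ (4 * (n - i) + 4) * δ →
    δ ≤ lad a j R → ∃ (op : Op) (Q : ℕ), (Q : ℝ) ≤ R ^ q ∧
      OpOK op Q ε (scoreFam τ) (levelFam τ) 0 δ (C / R ^ accExp n a m j)

/-- Operators cleaning Gaussian noise exist up to the recursion index `(m, i)`. -/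
def HasClean (n a m i q : ℕ) : Prop :=
  ∀ ε : ℝ, 0 < ε → ∃ C R₀ : ℝ, 0 ≤ C ∧ 1 ≤ R₀ ∧ ∀ R : ℝ, R₀ ≤ R → ∀ (j : ℕ) (τ ν δ : ℝ), j ≤ n →
    0 < ν → ν * R ≤ τ → 2 ^ m * (τ + ν) ≤ topLevel n a i R →
    lad a j R ≤ R ^ (4 * (n - i) + 2) * δ →
    δ ≤ lad a j R → ∃ (op : Op) (Q : ℕ), (Q : ℝ) ≤ R ^ q ∧
      OpOK op Q ε (avgFam τ ν) (levelFam τ) ν δ (C / R ^ accExp n a m j)

/-- Score evaluation from noisy samples, up to the recursion index `(m, i)`. -/
def HasEval (n a m i q : ℕ) : Prop :=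
  ∀ ε : ℝ, 0 < ε → ∃ C R₀ : ℝ, 0 ≤ C ∧ 1 ≤ R₀ ∧ ∀ R : ℝ, R₀ ≤ R → ∀ (j : ℕ) (t v δ : ℝ), j ≤ n →
    0 < t → 0 ≤ v → v * R ^ 2 ≤ t → 2 ^ m * (2 * t) ≤ topLevel n a i R →
    lad a j R ≤ R ^ (4 * (n - i) + 1) * δ →
    δ ≤ lad a j R → ∃ (op : Op) (Q : ℕ), (Q : ℝ) ≤ R ^ q ∧
      OpOK op Q ε (scoreFam t) (levelFam t) v δ (C / R ^ accExp n a m j)

/-- The analytic inputs. -/
structure Inputs : Prop where
  /-- elementary facts -/
  levels : LevelFactsStatement
  /-- posterior kernels -/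
  kernel : KernelStatement
  /-- cleaning curve -/
  cleanCurve : CleanCurveStatement
  /-- extraction curves -/
  extractCurve : ExtractCurveStatement
  /-- gadget paths -/
  gadget : GadgetPathStatement
  /-- cleaning paths -/
  cleanPath : CleanPathStatement
  /-- backward level flow -/
  levelFlow : LevelFlowStatement

/-- The result of the whole recursion. -/
def RecursionStatement : Prop :=
  ∀ n : ℕ, 1 ≤ n → ∃ q a₀ : ℕ, ∀ a : ℕ, a₀ ≤ a → HasEval n a (n ^ 2) n q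

end Vale.Agent.P347
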