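import Vale.Agent.P347.Quad
import Vale.Agent.P347.Rec

/-!
Asymptotic facts about the parameters of the recursion.
-/

namespace Vale.Agent.P347

open Filter MeasureTheory
open scoped Topology

/-- The order of all the quadrature rules. -/
def ordP (n a : ℕ) : ℕ := 10 * topExp n a 0 + 100

lemma topExp_ge_ten (n a i : ℕ) : 10 ≤ topExp n a i := Nat.le_add_left _ _

lemma topExp_antitone (n a : ℕ) {i j : ℕ} (h : i ≤ j) : topExp n a j ≤ topExp n a i := by
  unfold topExp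
  gcongr
  · norm_num

lemma topExp_top (n a : ℕ) (h : 11 ≤ 4 * n * a) : topExp n a n = 4 * n * a - 1 := by
  simp [topExp]; omega

lemma accExp_mono (n a j : ℕ) {m m' : ℕ} (h : m ≤ m') : accExp n a m j ≤ accExp n a m' j := by
  unfold accExp; gcongr

lemma two_mul_accExp_le (n a m j : ℕ) (hn : 1 ≤ n) (ha : 11 ≤ a) :
    2 * accExp n a m j + 2 ≤ topExp n a 0 := by
  have h1 : min m ((n - j) * n) ≤ n * n :=
    (min_le_right _ _).trans (Nat.mul_le_mul_right _ (Nat.sub_le _ _))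
  have h2 : accExp n a m j ≤ a * (n * n) := Nat.mul_le_mul (Nat.sub_le _ _) h1
  have h4 : n * a * 2 ≤ 4 * n * a - 11 := by
    have h7 : 4 * n * a = 4 * (n * a) := by ring
    have h8 : a ≤ n * a := Nat.le_mul_of_pos_left a hn
    omega
  have h5 : 2 * (a * (n * n)) ≤ 2 ^ n * (4 * n * a - 11) := by
    calc 2 * (a * (n * n)) = n * (n * a * 2) := by ring
      _ ≤ _ := Nat.mul_le_mul Nat.lt_two_pow_self.le h4
  simp only [topExp, Nat.sub_zero]
  omega

lemma accExp_le_ordP (n a m j : ℕ) (hn : 1 ≤ n) (ha : 11 ≤ a) : accExp n a m j ≤ ordP n a := by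
  have := two_mul_accExp_le n a m j hn ha
  unfold ordP; omega

lemma topLevel_pos {R : ℝ} (hR : 0 < R) (n a i : ℕ) : 0 < topLevel n a i R := by
  unfold topLevel; positivity

lemma lad_pos {R : ℝ} (hR : 0 < R) (a j : ℕ) : 0 < lad a j R := by
  unfold lad; positivity

lemma lad_le_one {R : ℝ} (hR : 1 ≤ R) (a j : ℕ) : lad a j R ≤ 1 :=
  inv_le_one_of_one_le₀ (one_le_pow₀ hR)

lemma topLevel_le_inv {R : ℝ} (hR : 1 ≤ R) (n a i : ℕ) : topLevel n a i R ≤ R⁻¹ :=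
  inv_anti₀ (by linarith)
    (le_self_pow₀ hR (by have := topExp_ge_ten n a i; omega))

lemma topLevel_mono {R : ℝ} (hR : 1 ≤ R) (n a : ℕ) {i j : ℕ} (h : i ≤ j) :
    topLevel n a i R ≤ topLevel n a j R :=
  inv_anti₀ (by positivity) (pow_le_pow_right₀ hR (topExp_antitone n a h))

/-- The geometric extrapolation nodes. -/
noncomputable def geoNode {P : ℕ} (x : ℝ) (l : Fin P) : ℝ := x ^ (l : ℕ)

lemma geoNode_injective {P : ℕ} {x : ℝ} (hx : 1 < x) :
    Function.Injective (geoNode (P := P) x) := fun _ _ h =>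
  Fin.ext ((pow_right_strictMono₀ hx).injective h)

lemma tendsto_geo_lag {P : ℕ} (i : Fin P) :
    Tendsto (fun x : ℝ => lag (geoNode x) i 0) atTop (𝓝 (if (i : ℕ) = 0 then 1 else 0)) := by
  have key : ∀ j ∈ Finset.univ.erase i,
      Tendsto (fun x : ℝ => (0 - geoNode x j) / (geoNode x i - geoNode x j)) atTop
        (𝓝 (if (i : ℕ) < (j : ℕ) then 1 else 0)) := by
    intro j hj
    have hne : (i : ℕ) ≠ (j : ℕ) := fun h => (Finset.ne_of_mem_erase hj) (Fin.ext h).symm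
    have hlim : ∀ k : ℕ, k ≠ 0 → Tendsto (fun x : ℝ => (x⁻¹) ^ k) atTop (𝓝 0) := fun k hk => by
      simpa [zero_pow hk] using (tendsto_inv_atTop_zero (𝕜 := ℝ)).pow k
    rcases lt_or_gt_of_ne hne with h | h
    · rw [if_pos h]
      obtain ⟨k, hk⟩ := Nat.exists_eq_add_of_lt h
      have h2 : Tendsto (fun x : ℝ => 1 / (1 - (x⁻¹) ^ (k + 1))) atTop (𝓝 1) := by
        simpa [Pi.div_def] using (tendsto_const_nhds (x := (1 : ℝ))).div
          ((tendsto_const_nhds (x := (1 : ℝ))).sub (hlim (k + 1) (by omega))) (by norm_num)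
      refine h2.congr' ?_
      filter_upwards [eventually_gt_atTop (1 : ℝ)] with x hx
      have hx0 : x ≠ 0 := by linarith
      have h3 : 1 < x ^ (k + 1) := one_lt_pow₀ hx (by omega)
      have h4 : x ^ (k + 1) - 1 ≠ 0 := by linarith
      have h5 : x ^ (i : ℕ) ≠ 0 := pow_ne_zero _ hx0
      simp only [geoNode, hk, add_assoc, pow_add _ (i : ℕ), inv_pow]
      rw [show x ^ (i : ℕ) - x ^ (i : ℕ) * x ^ (k + 1) = -(x ^ (i : ℕ) * (x ^ (k + 1) - 1)) by ring,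
        zero_sub, neg_div_neg_eq]
      field_simp
    · rw [if_neg (by omega)]
      obtain ⟨k, hk⟩ := Nat.exists_eq_add_of_lt h
      have h2 : Tendsto (fun x : ℝ => -(x⁻¹) ^ (k + 1) / (1 - (x⁻¹) ^ (k + 1))) atTop (𝓝 0) := by
        simpa [Pi.div_def] using (hlim (k + 1) (by omega)).neg.div
          ((tendsto_const_nhds (x := (1 : ℝ))).sub (hlim (k + 1) (by omega))) (by norm_num)
      refine h2.congr' ?_
      filter_upwards [eventually_gt_atTop (1 : ℝ)] with x hx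
      have hx0 : x ≠ 0 := by linarith
      have h3 : 1 < x ^ (k + 1) := one_lt_pow₀ hx (by omega)
      have h4 : x ^ (k + 1) - 1 ≠ 0 := by linarith
      have h5 : x ^ (j : ℕ) ≠ 0 := pow_ne_zero _ hx0
      simp only [geoNode, hk, add_assoc, pow_add _ (j : ℕ), inv_pow]
      rw [show x ^ (j : ℕ) * x ^ (k + 1) - x ^ (j : ℕ) = x ^ (j : ℕ) * (x ^ (k + 1) - 1) by ring]
      field_simp
      ring
  have h := tendsto_finsetProd (Finset.univ.erase i) key
  unfold lag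
  convert h using 2
  by_cases hi : (i : ℕ) = 0
  · rw [if_pos hi, Finset.prod_eq_one]
    intro j hj
    have hne : (i : ℕ) ≠ (j : ℕ) := fun h => (Finset.ne_of_mem_erase hj) (Fin.ext h).symm
    rw [if_pos (by omega)]
  · rw [if_neg hi]
    have hP : 0 < P := i.pos
    refine (Finset.prod_eq_zero (i := (⟨0, hP⟩ : Fin P)) ?_ ?_).symm
    · refine Finset.mem_erase.2 ⟨fun h => hi ?_, Finset.mem_univ _⟩
      simp [← h]
    · rw [if_neg (by simp)]

lemma exists_geo_lag {P : ℕ} (hP : 0 < P) {ε : ℝ} (hε : 0 < ε) :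
    ∃ R₀ : ℝ, 1 < R₀ ∧ ∀ R : ℝ, R₀ ≤ R →
      ∑ l, |lag (geoNode (P := P) (R ^ ((P : ℝ)⁻¹))) l 0| ≤ 1 + ε := by
  have h1 : Tendsto (fun R : ℝ => R ^ ((P : ℝ)⁻¹)) atTop atTop :=
    tendsto_rpow_atTop (by positivity)
  have h2 : Tendsto (fun R : ℝ => ∑ l, |lag (geoNode (P := P) (R ^ ((P : ℝ)⁻¹))) l 0|) atTop
      (𝓝 (∑ l : Fin P, if (l : ℕ) = 0 then (1 : ℝ) else 0)) := by
    refine tendsto_finsetSum _ fun l _ => ?_
    have h3 := ((tendsto_geo_lag l).comp h1).abs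
    simp only [Function.comp_def] at h3
    convert h3 using 2
    split_ifs <;> simp
  have h4 : (∑ l : Fin P, if (l : ℕ) = 0 then (1 : ℝ) else 0) = 1 := by
    rw [Finset.sum_eq_single (⟨0, hP⟩ : Fin P)]
    · simp
    · intro b _ hb
      rw [if_neg fun h => hb (Fin.ext h)]
    · simp
  rw [h4] at h2
  obtain ⟨R₀, hR₀⟩ := eventually_atTop.1 (h2.eventually (eventually_le_nhds (by linarith : (1 : ℝ) < 1 + ε)))
  exact ⟨max R₀ 2, lt_max_of_lt_right one_lt_two, fun R hR => hR₀ R (le_of_max_le_left hR)⟩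

/-- Restriction of a curve bound to a smaller interval. -/
lemma CurveBound.restrict {d : ℕ} {Ω : Type*} [TopologicalSpace Ω] [MeasurableSpace Ω]
    {μ : Measure Ω} {a b a' b' : ℝ} {G : ℝ → Ω → Euc d} {B : ℕ → ℝ → ℝ}
    (h : CurveBound μ a b G B) (ha : a ≤ a') (hb : b' ≤ b) : CurveBound μ a' b' G B := by
  obtain ⟨D, h0, h1, h2, h3⟩ := h
  have hs : Set.Icc a' b' ⊆ Set.Icc a b := Set.Icc_subset_Icc ha hb
  exact ⟨D, fun t ht => h0 t (hs ht), fun k => (h1 k).mono (Set.prod_mono hs le_rfl),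
    fun k t ht ω => (h2 k t (hs ht) ω).mono hs, fun k t ht => h3 k t (hs ht)⟩

/-- A majorant with some derivative. -/
lemma CurveBound.exists_majorant' {d : ℕ} {Ω : Type*} [TopologicalSpace Ω] [MeasurableSpace Ω]
    [OpensMeasurableSpace Ω] [SecondCountableTopology Ω] {μ : Measure Ω} [SFinite μ] {a b : ℝ}
    (hab : a < b) {G : ℝ → Ω → Euc d} {B : ℕ → ℝ → ℝ} (h : CurveBound μ a b G B)
    {P : ℕ} (hP : 2 ≤ P) {M : ℝ} (hM : ∀ t ∈ Set.Icc a b, B P t ≤ M) :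
    ∃ (G₁ : ℝ → Ω → Euc d) (S : Ω → ℝ), (∀ ω, 0 ≤ S ω) ∧ Integrable S μ ∧
      ∫ ω, S ω ∂μ ≤ (b - a) ^ P * M ∧
      (∀ t ∈ Set.Icc a b, ∀ ω, HasDerivWithinAt (fun u => G u ω) (G₁ t ω) (Set.Icc a b) t) ∧
      Majorant a b G G₁ P S (fun ω => S ω / (b - a)) := by
  obtain ⟨m, rfl⟩ := Nat.exists_eq_add_of_le' hP
  obtain ⟨D, h0, h1, h2, h3⟩ := h
  have hd : ∀ t ∈ Set.Icc a b, ∀ ω,
      HasDerivWithinAt (fun u => G u ω) (D 1 t ω) (Set.Icc a b) t := fun t ht ω =>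
    (h2 0 t ht ω).congr (fun u hu => (h0 u hu ω).symm) (h0 t ht ω).symm
  obtain ⟨S, hS⟩ := CurveBound.exists_majorant hab ⟨D, h0, h1, h2, h3⟩ hd hM
  exact ⟨D 1, S, hS.1, hS.2.1, hS.2.2.1, hd, hS.2.2.2⟩

lemma CurveBound.continuousOn {d : ℕ} {Ω : Type*} [TopologicalSpace Ω] [MeasurableSpace Ω]
    {μ : Measure Ω} {a b : ℝ} {G : ℝ → Ω → Euc d} {B : ℕ → ℝ → ℝ} (h : CurveBound μ a b G B) :
    ContinuousOn (fun p : ℝ × Ω => G p.1 p.2) (Set.Icc a b ×ˢ Set.univ) := by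
  obtain ⟨D, h0, h1, -, -⟩ := h
  exact (h1 0).congr fun p hp => (h0 p.1 hp.1 p.2).symm

end Vale.Agent.P347
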