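import Vale.Agent.P347.Extract

/-!
The extractors of the two phases.
-/

namespace Vale.Agent.P347

open MeasureTheory ProbabilityTheory
open scoped Gradient

/-- The family of Hessians of the averaged scores. -/
noncomputable def hessFam (t ρ : ℝ) : HessFam := fun _ V => hessAvg V t ρ

variable {d : ℕ}

lemma residual_bound {Ω : Type*} [TopologicalSpace Ω] [MeasurableSpace Ω] [OpensMeasurableSpace Ω]
    [SecondCountableTopology Ω] {μ : Measure Ω} [IsProbabilityMeasure μ] {a b : ℝ}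
    {G : ℝ → Ω → Euc d} {B : ℕ → ℝ → ℝ} (h : CurveBound μ a b G B) {P : ℕ} (hP : 2 ≤ P)
    {lam : ℝ} (hlam : 0 < lam) (ha : a ≤ -lam) (hb : lam ≤ b) {M : ℝ}
    (hM : ∀ t ∈ Set.Icc (-lam) lam, B P t ≤ M) {D : Ω → Euc d} (hDc : Continuous D)
    (hD : ∀ ω, HasDerivAt (fun u => G u ω) (D ω) 0) :
    Integrable (fun ω => ‖∑ l : Fin P, diffW l • G (lam * eqNode l) ω - lam • D ω‖) μ ∧
      ∫ ω, ‖∑ l : Fin P, diffW l • G (lam * eqNode l) ω - lam • D ω‖ ∂μ
        ≤ diffSize P * (2 * lam) ^ P * M := by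
  have hr := h.restrict (a' := -lam) (b' := lam) ha hb
  have hab : -lam < lam := by linarith
  have h0 : (0 : ℝ) ∈ Set.Icc (-lam) lam := ⟨by linarith, hlam.le⟩
  obtain ⟨G₁, S, hS0, hSi, hSle, hG₁, hmaj⟩ := hr.exists_majorant' hab hP hM
  have hG10 : ∀ ω, G₁ 0 ω = D ω := fun ω =>
    (uniqueDiffOn_Icc hab 0 h0).eq_deriv _ (hG₁ 0 h0 ω) (hD ω).hasDerivWithinAt
  have hmem : ∀ l : Fin P, lam * eqNode l ∈ Set.Icc (-lam) lam := fun l => by
    have := abs_le.1 (abs_eqNode_le hP l)
    constructor <;> nlinarith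
  have hinj : Function.Injective fun l : Fin P => lam * eqNode l :=
    (mul_right_injective₀ hlam.ne').comp (eqNode_injective hP)
  set F : Ω → ℝ := fun ω => ‖∑ l : Fin P, diffW l • G (lam * eqNode l) ω - lam • D ω‖ with hF
  have hpt : ∀ ω, F ω ≤ diffSize P * S ω := by
    intro ω
    have h1 := hmaj.differentiate hinj hmem h0 ω
    rw [hG10 ω] at h1
    simp only [deriv_lag_scale (eqNode (P := P)) _ hlam.ne'] at h1
    have h2 : F ω = lam * ‖∑ l : Fin P, (diffW l / lam) • G (lam * eqNode l) ω - D ω‖ := by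
      rw [← abs_of_pos hlam, ← Real.norm_eq_abs, ← norm_smul, smul_sub, Finset.smul_sum]
      simp only [hF, Real.norm_eq_abs, abs_of_pos hlam, smul_smul, mul_div_cancel₀ _ hlam.ne']
    rw [h2]
    refine (mul_le_mul_of_nonneg_left h1 hlam.le).trans ?_
    simp only [abs_div, abs_of_pos hlam, ← Finset.sum_div, diffSize, sub_neg_eq_add, mul_add,
      add_mul, one_mul]
    have h3 : lam * (S ω / (lam + lam)) ≤ S ω := by
      rw [mul_div_assoc', div_le_iff₀ (by linarith)]
      nlinarith [hS0 ω]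
    have h4 : lam * ((∑ l : Fin P, |diffW l|) / lam * S ω) = (∑ l : Fin P, |diffW l|) * S ω := by
      field_simp
    simp only [diffW] at h4 ⊢
    linarith
  have hcont : Continuous F := by
    refine Continuous.norm (Continuous.sub (continuous_finsetSum _ fun l _ => ?_)
      (hDc.const_smul lam))
    have hl : Continuous fun ω => G (lam * eqNode l) ω :=
      hr.continuousOn.comp_continuous (f := fun ω => (lam * eqNode l, ω)) (by fun_prop)
        fun ω => ⟨hmem l, Set.mem_univ _⟩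
    exact Continuous.const_smul (M := ℝ) hl (diffW l)
  have hint : Integrable F μ := (hSi.const_mul (diffSize P)).mono' hcont.aestronglyMeasurable
    (.of_forall fun ω => by simp only [hF, norm_norm]; exact hpt ω)
  refine ⟨hint, (integral_mono hint (hSi.const_mul _) hpt).trans ?_⟩
  rw [integral_const_mul, mul_assoc]
  have : 0 ≤ diffSize P := zero_le_one.trans (one_le_diffSize P)
  gcongr
  refine hSle.trans (le_of_eq ?_)
  ring

variable {P : ℕ} {t ρ lam v₀ δ : ℝ} {Q : ℕ} {ε E : ℝ}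

/-- The extractor of the cleaning phase, from cleaning operators at the shifted levels. -/
lemma exists_avgExtractor (hlev : LevelFactsStatement) (hext : ExtractCurveStatement)
    (hP : 2 ≤ P) :
    ∃ c₀ K : ℝ, 0 < c₀ ∧ 0 ≤ K ∧ ∀ (t ρ lam v₀ δ : ℝ) (Q : ℕ) (ε E : ℝ), 0 < t → 0 < ρ → ρ ≤ t →
      2 * t ≤ c₀ → 0 < lam → lam ^ 2 ≤ ρ → 0 ≤ v₀ → v₀ ≤ ρ - lam ^ 2 → 0 ≤ E →
      (∀ l : Fin P, ∃ op, OpOK op Q ε (avgFam (t + (lam * eqNode l) ^ 2)
          (ρ - (lam * eqNode l) ^ 2)) (levelFam (t + (lam * eqNode l) ^ 2))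
          (ρ - (lam * eqNode l) ^ 2) δ E) →
      Extractor P (levelFam t) (hessFam t ρ) lam v₀ δ (Q * 2) ε
        (E + K * (2 * lam / √t) ^ P) := by
  obtain ⟨c₁, C₁, hc₁, -, hlev⟩ := hlev
  obtain ⟨c₂, hc₂, Cc, hext⟩ := hext
  refine ⟨min c₁ c₂, diffSize P * |Cc P|, lt_min hc₁ hc₂,
    mul_nonneg (zero_le_one.trans (one_le_diffSize P)) (abs_nonneg _), ?_⟩
  intro t ρ lam v₀ δ Q ε E ht hρ hρt htc hlam hlamρ hv₀ hv hE hops
  have htc₁ : 2 * t ≤ c₁ := htc.trans (min_le_left _ _)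
  have htc₂ : 2 * t ≤ c₂ := htc.trans (min_le_right _ _)
  set node : Fin P → ℝ := fun l => lam * eqNode l with hnode
  have hnode2 : ∀ l, node l ^ 2 ≤ lam ^ 2 := fun l => by
    rw [hnode]; dsimp only
    rw [mul_pow]
    exact mul_le_of_le_one_right (sq_nonneg _) ((sq_le_one_iff_abs_le_one _).2 (abs_eqNode_le hP l))
  have hops' : ∀ l, ∃ op, OpOK op (Q * 2) ε (avgFam (t + node l ^ 2) (ρ - node l ^ 2))
      (levelFam (t + node l ^ 2)) v₀ δ (E + diffSize P * |Cc P| * (2 * lam / √t) ^ P) := by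
    intro l
    obtain ⟨op, hop⟩ := hops l
    obtain ⟨op', hop'⟩ := hop.padIn hv₀ (hv.trans (by linarith [hnode2 l]))
    exact ⟨op', hop'.mono le_rfl le_rfl (le_add_of_nonneg_right (by
      have := one_le_diffSize P; positivity))⟩
  choose ops hops'' using hops'
  refine ⟨ops, _, _, hops'', fun d V hV => ?_⟩
  obtain ⟨hl1, -, hl3, -⟩ := hlev d V hV.pot hV.grad_zero
  obtain ⟨hp, -, -, hconv⟩ := hl1 t ht.le (by linarith)
  obtain ⟨hcurve, hder⟩ := (hext d V hV.pot hV.grad_zero).2 t ρ ht hρ hρt (by linarith)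
  have hH : Continuous (hessAvg V t ρ) := (hl3 t ρ ht hρ.le (by linarith)).2.1
  have hsqrt : lam ≤ √ρ := Real.le_sqrt_of_sq_le hlamρ
  obtain ⟨hri, hrle⟩ := residual_bound (D := fun p : Euc d × Euc d => hessAvg V t ρ p.1 p.2)
    (M := |Cc P| * ((d : ℝ) + 1) ^ 2 / √t ^ P) hcurve hP hlam (by linarith) hsqrt
    (fun s _ => by gcongr; exact le_abs_self _) (by fun_prop) hder
  refine ⟨fun l => ?_, hH, fun l => ?_, hri, ?_⟩
  · have h1 : ((levelLaw V t).prod (gauss d)).map (fun p => p.1 + node l • p.2)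
        = ((levelLaw V t).prod (gauss d)).map (fun p => p.1 + √(node l ^ 2) • p.2) := by
      rw [Real.sqrt_sq_eq_abs]
      rcases le_total 0 (node l) with h | h
      · rw [abs_of_nonneg h]
      · rw [abs_of_nonpos h]
        have hneg : (gauss d).map (fun η => -η) = gauss d := by
          have := stdGaussian_map (LinearIsometryEquiv.neg ℝ (E := Euc d))
          exact this
        conv_lhs => rw [← Measure.map_id (μ := levelLaw V t), ← hneg,
          Measure.map_prod_map _ _ measurable_id (by fun_prop),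
          Measure.map_map (by fun_prop) (by fun_prop)]
        congr 1
        funext p
        simp
    exact h1.trans (hconv (node l ^ 2) (sq_nonneg _) (by nlinarith [hnode2 l]))
  · exact ((hl3 (t + node l ^ 2) (ρ - node l ^ 2) (by positivity)
      (by nlinarith [hnode2 l]) (by linarith)).1).continuous
  · refine hrle.trans ?_
    rw [add_mul, div_pow]
    refine le_add_of_nonneg_of_le (mul_nonneg hE (dimFac_nonneg d)) ?_
    have hd : ((d : ℝ) + 1) ^ 2 ≤ dimFac d := pow_le_pow_right₀ (by simp) (by norm_num)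
    have := one_le_diffSize P
    calc diffSize P * (2 * lam) ^ P * (|Cc P| * ((d : ℝ) + 1) ^ 2 / √t ^ P)
        ≤ diffSize P * (2 * lam) ^ P * (|Cc P| * dimFac d / √t ^ P) := by gcongr
      _ = _ := by ring

end Vale.Agent.P347
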