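import Vale.Agent.P347.LevelBase

/-!
The posterior kernel of a Gaussian step and the disintegration of the two-point path law.
-/

namespace Vale.Agent.P347

open MeasureTheory ProbabilityTheory Filter Set
open scoped Gradient RealInnerProductSpace ContDiff Topology ENNReal

variable {d : ℕ} {U : Euc d → ℝ} {t : ℝ}

/-- The posterior law as a tilted Gaussian, shifted and scaled. -/
lemma gibbs_postPot_eq (hU : Weight U) (ht : 0 < t) (x : Euc d) :
    gibbs (postPot U t x)
      = ((gauss d).tilted fun η => -U (x + √t • η)).map fun η => x + √t • η := by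
  have := (hU.postPot ht x).isProbabilityMeasure
  have hp : IsProbabilityMeasure ((gauss d).tilted fun η => -U (x + √t • η)) :=
    isProbabilityMeasure_tilted (hU.exp_neg_pos_integrable t x)
  have := Measure.isProbabilityMeasure_map (μ := (gauss d).tilted fun η => -U (x + √t • η))
    (f := fun η => x + √t • η) (by fun_prop)
  refine Measure.ext fun S hS => ?_
  rw [← measureReal_eq_measureReal_iff, map_measureReal_apply (by fun_prop) hS,
    ← integral_indicator_one (μ := gibbs (postPot U t x)) hS, ← postMean_eq_gibbs U _ ht x,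
    ← integral_indicator_one ((by fun_prop : Measurable fun η : Euc d => x + √t • η) hS),
    integral_tilted, postMean, heat, ← integral_smul]
  refine integral_congr_ae (.of_forall fun η => ?_)
  by_cases hmem : x + √t • η ∈ S <;>
    simp [smoothDensity, heat, hmem, div_eq_inv_mul]

lemma integral_post (hU : Weight U) (ht : 0 < t) (x : Euc d) {F : Type*} [NormedAddCommGroup F]
    [NormedSpace ℝ F] {f : Euc d → F} (hf : Continuous f) :
    ∫ y, f y ∂(gibbs (postPot U t x))
      = ∫ η, f (x + √t • η) ∂((gauss d).tilted fun η => -U (x + √t • η)) := by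
  rw [gibbs_postPot_eq hU ht x]
  exact integral_map (by fun_prop) hf.aestronglyMeasurable

lemma lintegral_post (hU : Weight U) (ht : 0 < t) (x : Euc d) {g : Euc d → ℝ≥0∞}
    (hg : Measurable g) :
    ∫⁻ y, g y ∂(gibbs (postPot U t x)) = (ENNReal.ofReal (smoothDensity U t x))⁻¹
      * ∫⁻ η, ENNReal.ofReal (Real.exp (-U (x + √t • η))) * g (x + √t • η) ∂(gauss d) := by
  have hUm := hU.continuous.measurable
  rw [gibbs_postPot_eq hU ht x, lintegral_map hg (by fun_prop), lintegral_tilted,
    ← lintegral_const_mul _ (by fun_prop)]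
  refine lintegral_congr fun η => ?_
  rw [show (∫ η, Real.exp (-U (x + √t • η)) ∂(gauss d)) = smoothDensity U t x from rfl,
    ENNReal.ofReal_div_of_pos (smoothDensity_pos hU t x), ENNReal.div_eq_inv_mul, mul_assoc]

/-- The posterior laws as a kernel. -/
noncomputable def postK (hU : Weight U) (ht : 0 < t) : Kernel (Euc d) (Euc d) where
  toFun x := gibbs (postPot U t x)
  measurable' := by
    have hUm := hU.continuous.measurable
    have hq : Measurable fun x => smoothDensity U t x :=
      ((smoothDensity_continuous hU).comp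
        ((continuous_const (y := t)).prodMk continuous_id)).measurable
    refine Measure.measurable_of_measurable_coe _ fun S hS => ?_
    simp only [fun x => (lintegral_indicator_one (μ := gibbs (postPot U t x)) hS).symm,
      fun x => lintegral_post hU ht x (g := S.indicator 1) (measurable_one.indicator hS)]
    refine hq.ennreal_ofReal.inv.mul (Measurable.lintegral_prod_right'
      (f := fun p : Euc d × Euc d =>
        ENNReal.ofReal (Real.exp (-U (p.1 + √t • p.2))) * S.indicator 1 (p.1 + √t • p.2)) ?_)
    exact (by fun_prop : Measurable fun p : Euc d × Euc d =>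
      ENNReal.ofReal (Real.exp (-U (p.1 + √t • p.2)))).mul
        ((measurable_one.indicator hS).comp (by fun_prop))

lemma postK_apply (hU : Weight U) (ht : 0 < t) (x : Euc d) :
    postK hU ht x = gibbs (postPot U t x) := rfl

instance isMarkovKernel_postK (hU : Weight U) (ht : 0 < t) : IsMarkovKernel (postK hU ht) :=
  ⟨fun x => (hU.postPot ht x).isProbabilityMeasure⟩

/-- The endpoint and the posterior give back the law of the path. -/
lemma compProd_post (hU : Weight U) (ht : 0 < t) :
    gibbs (smoothPot U t) ⊗ₘ (postK hU ht ×ₖ Kernel.const (Euc d) (gauss d))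
      = ((gibbs U).prod ((gauss d).prod (gauss d))).map
          fun p => (p.1 + √t • p.2.1, p.1, p.2.2) := by
  have := hU.isProbabilityMeasure
  have := (hU.smoothPot ht.le).isProbabilityMeasure
  refine Measure.ext_of_lintegral _ fun F hF => ?_
  set G : Euc d × Euc d → ℝ≥0∞ := fun p => ∫⁻ ξ, F (p.1, p.2, ξ) ∂(gauss d) with hG
  have hGm : Measurable G := Measurable.lintegral_prod_right'
    (f := fun p : (Euc d × Euc d) × Euc d => F (p.1.1, p.1.2, p.2)) (by fun_prop)
  have hUm := hU.continuous.measurable
  rw [Measure.lintegral_compProd hF, lintegral_map hF (by fun_prop),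
    lintegral_prod _ (by fun_prop)]
  have e1 : ∀ x, ∫⁻ q, F (x, q) ∂((postK hU ht ×ₖ Kernel.const (Euc d) (gauss d)) x)
      = (ENNReal.ofReal (smoothDensity U t x))⁻¹
        * ∫⁻ η, ENNReal.ofReal (Real.exp (-U (x + √t • η))) * G (x, x + √t • η) ∂(gauss d) := by
    intro x
    rw [Kernel.prod_apply, Kernel.const_apply, postK_apply, lintegral_prod _ (by fun_prop),
      ← lintegral_post hU ht x (g := fun y => G (x, y)) (by fun_prop)]
  have e2 : ∀ z, ∫⁻ p : Euc d × Euc d, F (z + √t • p.1, z, p.2) ∂((gauss d).prod (gauss d))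
      = ∫⁻ η, G (z + √t • η, z) ∂(gauss d) := fun z => lintegral_prod _ (by fun_prop)
  simp only [e1, e2]
  rw [lintegral_gibbs, lintegral_gibbs, integral_exp_smoothPot hU ht.le]
  simp only [ENNReal.ofReal_div_of_pos hU.integral_exp_pos, ENNReal.div_eq_inv_mul, mul_assoc]
  rw [lintegral_const_mul' _ _ (by simp [hU.integral_exp_pos]),
    lintegral_const_mul' _ _ (by simp [hU.integral_exp_pos]),
    ← lintegral_path hU (√t) hGm]
  congr 1
  refine lintegral_congr fun x => ?_
  rw [exp_neg_smoothPot hU, ← mul_assoc, ENNReal.mul_inv_cancel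
    (by simp [smoothDensity_pos hU t x]) ENNReal.ofReal_ne_top, one_mul]

/-- Disintegration of functions of the path. -/
lemma disintegrate (hU : Weight U) (ht : 0 < t) {F : Euc d × Euc d × Euc d → ℝ}
    (hF : Integrable F (((gibbs U).prod ((gauss d).prod (gauss d))).map
      fun p => (p.1 + √t • p.2.1, p.1, p.2.2))) :
    (∀ᵐ x ∂(gibbs (smoothPot U t)),
        Integrable (fun p => F (x, p.1, p.2)) ((gibbs (postPot U t x)).prod (gauss d))) ∧
      Integrable (fun x => ∫ p, F (x, p.1, p.2) ∂((gibbs (postPot U t x)).prod (gauss d)))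
        (gibbs (smoothPot U t)) ∧
      ∫ x, ∫ p, F (x, p.1, p.2) ∂((gibbs (postPot U t x)).prod (gauss d))
          ∂(gibbs (smoothPot U t))
        = ∫ q, F q ∂(((gibbs U).prod ((gauss d).prod (gauss d))).map
            fun p => (p.1 + √t • p.2.1, p.1, p.2.2)) := by
  have := (hU.smoothPot ht.le).isProbabilityMeasure
  rw [← compProd_post hU ht] at hF ⊢
  have h1 := ((Measure.integrable_compProd_iff hF.1).1 hF).1
  have h2 := (show Integrable F ((Kernel.const Unit (gibbs (smoothPot U t)) ⊗ₖ
    Kernel.prodMkLeft Unit (postK hU ht ×ₖ Kernel.const (Euc d) (gauss d))) ()) from hF).integral_compProd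
  simp only [Kernel.const_apply, Kernel.prodMkLeft_apply] at h2
  have h3 := Measure.integral_compProd hF
  simp only [Kernel.prod_apply, Kernel.const_apply, postK_apply] at h1 h2 h3
  exact ⟨h1, h2, h3.symm⟩

/-- Posterior averages of a continuous function of both ends of a step. -/
lemma integral_post_step (hU : Weight U) (ht : 0 < t) {G : Euc d × Euc d → ℝ}
    (hG : Continuous G)
    (hi : Integrable (fun p => G (p.1 + √t • p.2, p.1)) ((gibbs U).prod (gauss d))) :
    Integrable (fun x => ∫ y, G (x, y) ∂(gibbs (postPot U t x))) (gibbs (smoothPot U t)) ∧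
      ∫ x, ∫ y, G (x, y) ∂(gibbs (postPot U t x)) ∂(gibbs (smoothPot U t))
        = ∫ p, G (p.1 + √t • p.2, p.1) ∂((gibbs U).prod (gauss d)) := by
  have := hU.isProbabilityMeasure
  have hmap : ((gibbs U).prod ((gauss d).prod (gauss d))).map (fun p => (p.1, p.2.1))
      = (gibbs U).prod (gauss d) := by
    have h := Measure.map_prod_map (gibbs U) ((gauss d).prod (gauss d)) measurable_id
      (measurable_fst (α := Euc d) (β := Euc d))
    rw [Measure.map_id, Measure.map_fst_prod, measure_univ, one_smul] at h
    exact h.symm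
  have hF : Integrable (fun q : Euc d × Euc d × Euc d => G (q.1, q.2.1))
      (((gibbs U).prod ((gauss d).prod (gauss d))).map
        fun p => (p.1 + √t • p.2.1, p.1, p.2.2)) := by
    rw [← hmap, integrable_map_measure (Continuous.aestronglyMeasurable (by fun_prop))
      (by fun_prop)] at hi
    exact (integrable_map_measure (Continuous.aestronglyMeasurable (by fun_prop))
      (by fun_prop)).2 hi
  obtain ⟨-, h2, h3⟩ := disintegrate hU ht hF
  have e : ∀ x, ∫ p : Euc d × Euc d, G (x, p.1) ∂((gibbs (postPot U t x)).prod (gauss d))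
      = ∫ y, G (x, y) ∂(gibbs (postPot U t x)) := fun x => by
    have := (hU.postPot ht x).isProbabilityMeasure
    rw [integral_fun_fst (μ := gibbs (postPot U t x)) (ν := gauss d) fun y => G (x, y)]
    simp
  simp only [e] at h2 h3
  refine ⟨h2, h3.trans ?_⟩
  rw [← hmap, integral_map (by fun_prop) (Continuous.aestronglyMeasurable (by fun_prop)),
    integral_map (by fun_prop) (Continuous.aestronglyMeasurable (by fun_prop))]

end Vale.Agent.P347
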