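import Vale.Agent.P347.GadgetDefs
import Vale.Agent.P347.LevelPath

/-!
The random setting of the oracle step and the laws of its ideal paths.
-/

namespace Vale.Agent.P347

open MeasureTheory ProbabilityTheory
open scoped Gradient RealInnerProductSpace ENNReal

variable {d : ℕ} {V : Euc d → ℝ} {τ s s₁ : ℝ}

lemma continuous_backPt (s₁ : ℝ) : Continuous (backPt (d := d) s₁) := by
  unfold backPt; fun_prop

lemma postKernel_eq (V : Euc d → ℝ) (τ s : ℝ) (x : Euc d) :
    postKernel V τ s x = gibbs (postPot (smoothPot V s) (τ - s) x) := by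
  unfold postKernel postPot
  simp only [norm_sub_rev x]

lemma smoothPot_step (hV : NicePot d V 1 2) (hs : 0 ≤ s) (hsτ : s ≤ τ) :
    smoothPot (smoothPot V s) (τ - s) = smoothPot V τ := by
  rw [smoothPot_semigroup hV.weight hs (sub_nonneg.2 hsτ), add_sub_cancel]

lemma isProbabilityMeasure_levelLaw (hV : NicePot d V 1 2) (hs : 0 ≤ s) :
    IsProbabilityMeasure (levelLaw V s) :=
  (hV.weight.smoothPot hs).isProbabilityMeasure

lemma isProbabilityMeasure_postKernel (hV : NicePot d V 1 2) (hs : 0 ≤ s) (hsτ : s < τ)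
    (x : Euc d) : IsProbabilityMeasure (postKernel V τ s x) := by
  rw [postKernel_eq]
  exact ((hV.weight.smoothPot hs).postPot (sub_pos.2 hsτ) x).isProbabilityMeasure

lemma isProbabilityMeasure_topKernel (hV : NicePot d V 1 2) (h0 : 0 < s₁) (h1 : s₁ ≤ τ)
    (x : Euc d) : IsProbabilityMeasure (topKernel V τ s₁ x) := by
  have := isProbabilityMeasure_postKernel hV (sub_nonneg.2 h1) (sub_lt_self τ h0) x
  exact Measure.isProbabilityMeasure_map (by fun_prop)

lemma integrable_norm_topKernel (hV : NicePot d V 1 2) (h0 : 0 < s₁) (h1 : s₁ ≤ τ) (x : Euc d) :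
    Integrable (fun w => ‖w‖) (topKernel V τ s₁ x) := by
  have := isProbabilityMeasure_postKernel hV (sub_nonneg.2 h1) (sub_lt_self τ h0) x
  have hi : Integrable (fun y => ‖y‖) (postKernel V τ (τ - s₁) x) := by
    rw [postKernel_eq]
    exact ((hV.weight.smoothPot (sub_nonneg.2 h1)).postPot
      (sub_pos.2 (sub_lt_self τ h0)) x).integrable_norm
  rw [topKernel, integrable_map_measure (by fun_prop) (by fun_prop)]
  refine ((hi.add (integrable_const ‖x‖)).const_mul (√s₁)⁻¹).mono' (by fun_prop)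
    (.of_forall fun y => ?_)
  simp only [Function.comp_apply, Pi.add_apply]
  rw [norm_norm, norm_smul, Real.norm_eq_abs, abs_of_nonneg (inv_nonneg.2 (Real.sqrt_nonneg s₁))]
  exact mul_le_mul_of_nonneg_left (norm_sub_le y x) (by positivity)

/-- Closeness of slot `0` to the Gaussian. -/
lemma exists_topKernel_close (hker : KernelStatement) :
    ∃ c₀ C : ℝ, 0 < c₀ ∧ 0 < C ∧ ∀ (d : ℕ) (V : Euc d → ℝ), NicePot d V 1 2 → ∇ V 0 = 0 →
      ∀ τ s₁ : ℝ, 0 < s₁ → 2 * s₁ ≤ τ → τ ≤ c₀ →
        ∃ e : Euc d → ℝ, (∀ x, 0 ≤ e x) ∧ Integrable e (levelLaw V τ) ∧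
          ∫ x, e x ∂(levelLaw V τ) ≤ C * √s₁ * dimFac d ∧
          ∀ x, DualClose (gauss d) (topKernel V τ s₁ x) (e x) := by
  obtain ⟨c₀, C, hc₀, hC, h⟩ := hker
  refine ⟨c₀, C, hc₀, hC, fun d V hV h0 τ s₁ hs h2 hτ => ?_⟩
  obtain ⟨-, -, -, -, h5⟩ :=
    h d V hV h0 τ (τ - s₁) (by linarith) (sub_lt_self τ hs) hτ
  obtain ⟨e, hei, hee, hed⟩ := h5 (by linarith)
  have he : τ - (τ - s₁) = s₁ := sub_sub_cancel τ s₁
  rw [he] at hee
  simp only [he] at hed
  refine ⟨e, fun x => (hed x).nonneg, hei, hee.trans_eq ?_, fun x => (hed x).symm⟩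
  unfold dimFac
  ring

/-- The path law as a composition of the level law and the posterior kernel. -/
lemma pathLaw_lintegral (hV : NicePot d V 1 2) (hs : 0 ≤ s) (hsτ : s < τ)
    {G : Euc d × Euc d × Euc d → ℝ≥0∞} (hG : Measurable G) :
    ∫⁻ q, G q ∂(pathLaw V τ s) = ∫⁻ x, ∫⁻ p, G (x, p)
      ∂((postKernel V τ s x).prod (gauss d)) ∂(levelLaw V τ) := by
  have := isProbabilityMeasure_levelLaw hV (hs.trans hsτ.le)
  have hW := hV.weight.smoothPot hs
  have hd := sub_pos.2 hsτ
  have e : pathLaw V τ s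
      = levelLaw V τ ⊗ₘ (postK hW hd ×ₖ Kernel.const (Euc d) (gauss d)) := by
    rw [levelLaw, ← smoothPot_step hV hs hsτ.le, compProd_post hW hd]
    rfl
  rw [e, Measure.lintegral_compProd hG]
  simp only [Kernel.prod_apply, Kernel.const_apply, postK_apply, postKernel_eq]

/-- A step of the kernels moves the path law. -/
lemma pathLaw_map_step (hV : NicePot d V 1 2) {b : ℝ} (hb : 0 ≤ b) (hbτ : b < τ) (hs : 0 ≤ s)
    (hsτ : s < τ) {Ψ : Euc d × Euc d × Euc d → Euc d × Euc d} (hΨ : Measurable Ψ)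
    (hlaw : ∀ x, ((postKernel V τ b x).prod (gauss d)).map (fun q => Ψ (x, q.1, q.2))
      = (postKernel V τ s x).prod (gauss d)) :
    (pathLaw V τ b).map (fun p => (p.1, Ψ p)) = pathLaw V τ s := by
  refine Measure.ext_of_lintegral _ fun G hG => ?_
  rw [lintegral_map hG (by fun_prop), pathLaw_lintegral hV hb hbτ (by fun_prop),
    pathLaw_lintegral hV hs hsτ hG]
  refine lintegral_congr fun x => ?_
  rw [← hlaw x, lintegral_map (by fun_prop) (by fun_prop)]

/-- Composition of two kernel steps. -/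
lemma postKernel_map_comp {a b : ℝ} {Ψ₁ Ψ₂ : Euc d × Euc d × Euc d → Euc d × Euc d}
    (h₁ : Measurable Ψ₁) (h₂ : Measurable Ψ₂)
    (hlaw₁ : ∀ x, ((postKernel V τ b x).prod (gauss d)).map (fun q => Ψ₁ (x, q.1, q.2))
      = (postKernel V τ a x).prod (gauss d))
    (hlaw₂ : ∀ x, ((postKernel V τ a x).prod (gauss d)).map (fun q => Ψ₂ (x, q.1, q.2))
      = (postKernel V τ s x).prod (gauss d)) (x : Euc d) :
    ((postKernel V τ b x).prod (gauss d)).map (fun q => Ψ₂ (x, Ψ₁ (x, q.1, q.2)))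
      = (postKernel V τ s x).prod (gauss d) := by
  rw [← hlaw₂ x, ← hlaw₁ x, Measure.map_map (by fun_prop) (by fun_prop)]
  rfl

lemma pathLaw_map_fst (hV : NicePot d V 1 2) (hs : 0 ≤ s) (hsτ : s < τ) :
    (pathLaw V τ s).map Prod.fst = levelLaw V τ := by
  refine Measure.ext_of_lintegral _ fun G hG => ?_
  rw [lintegral_map hG measurable_fst, pathLaw_lintegral hV hs hsτ (G := fun q => G q.1) (by fun_prop)]
  refine lintegral_congr fun x => ?_
  have := isProbabilityMeasure_postKernel hV hs hsτ x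
  simp

lemma pathLaw_map_snd (hV : NicePot d V 1 2) (hs : 0 ≤ s) :
    (pathLaw V τ s).map Prod.snd = (levelLaw V s).prod (gauss d) := by
  have := isProbabilityMeasure_levelLaw hV hs
  have h := Measure.map_prod_map (levelLaw V s) ((gauss d).prod (gauss d)) measurable_id
    (measurable_snd (α := Euc d) (β := Euc d))
  rw [Measure.map_id, Measure.map_snd_prod, measure_univ, one_smul] at h
  rw [pathLaw, Measure.map_map measurable_snd (by fun_prop), h]
  rfl

lemma isProbabilityMeasure_pathLaw (hV : NicePot d V 1 2) (hs : 0 ≤ s) :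
    IsProbabilityMeasure (pathLaw V τ s) := by
  have := isProbabilityMeasure_levelLaw hV hs
  exact Measure.isProbabilityMeasure_map (by fun_prop)

lemma measurable_gadgetMap (r : ℝ) :
    Measurable fun p : Euc d × (Fin 3 → Euc d) =>
      ((p.1 + r • p.2 0, ![-p.2 0, p.2 1, p.2 2]) : Rand d) := by
  refine (by fun_prop : Measurable fun p : Euc d × (Fin 3 → Euc d) =>
    p.1 + r • p.2 0).prodMk (measurable_pi_lambda _ fun i => ?_)
  fin_cases i <;> simp <;> fun_prop

lemma isProbabilityMeasure_gadgetLaw (hV : NicePot d V 1 2) (h1 : s₁ ≤ τ) :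
    IsProbabilityMeasure (gadgetLaw τ s₁ d V) := by
  have := isProbabilityMeasure_levelLaw hV (sub_nonneg.2 h1)
  exact Measure.isProbabilityMeasure_map (measurable_gadgetMap _).aemeasurable

lemma pi_fin_three_map (γ : Measure (Euc d)) [IsProbabilityMeasure γ] :
    (Measure.pi fun _ : Fin 3 => γ).map (fun s => ((s 0, s 1), s 2)) = (γ.prod γ).prod γ := by
  have h1 := (measurePreserving_piFinSuccAbove (fun _ : Fin 3 => γ) 2).map_eq
  have h2 := (measurePreserving_piFinTwo fun _ : Fin 2 => γ).map_eq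
  have e : (fun s : Fin 3 → Euc d => ((s 0, s 1), s 2))
      = Prod.swap ∘ (Prod.map id (MeasurableEquiv.piFinTwo fun _ => Euc d)) ∘
        (MeasurableEquiv.piFinSuccAbove (fun _ : Fin 3 => Euc d) 2) := by
    funext s; rfl
  rw [e, ← Function.comp_assoc, ← Measure.map_map (by fun_prop) (MeasurableEquiv.measurable _),
    h1, ← Measure.map_map (g := Prod.swap) (by fun_prop) (by fun_prop),
    ← Measure.map_prod_map _ _ measurable_id (MeasurableEquiv.measurable _), h2, Measure.map_id,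
    Measure.prod_swap]

/-- The path coordinates and the spare vector. -/
lemma gadgetLaw_map_pt (hV : NicePot d V 1 2) (h1 : s₁ ≤ τ) :
    (gadgetLaw τ s₁ d V).map (fun ω => (backPt s₁ ω, ω.2 2))
      = (pathLaw V τ (τ - s₁)).prod (gauss d) := by
  have := isProbabilityMeasure_levelLaw hV (sub_nonneg.2 h1)
  set L := levelLaw V (τ - s₁)
  set γ := gauss d
  set r := √s₁
  set g : Euc d × (Fin 3 → Euc d) → (Euc d × Euc d × Euc d) × Euc d :=
    fun p => ((p.1, p.2 0, p.2 1), p.2 2) with hg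
  have hga : (L.prod (Measure.pi fun _ : Fin 3 => γ)).map g = (L.prod (γ.prod γ)).prod γ := by
    have e : g = MeasurableEquiv.prodAssoc.symm ∘ Prod.map id fun s => ((s 0, s 1), s 2) := by
      funext p; rfl
    rw [e, ← Measure.map_map (by fun_prop) (by fun_prop),
      ← Measure.map_prod_map _ _ measurable_id (by fun_prop), pi_fin_three_map, Measure.map_id]
    exact ((measurePreserving_prodAssoc L (γ.prod γ) γ).symm _).map_eq
  set m : Euc d × Euc d × Euc d → Euc d × Euc d × Euc d :=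
    fun p => (p.1 + r • p.2.1, p.1, p.2.2) with hm
  have hpath : pathLaw V τ (τ - s₁) = (L.prod (γ.prod γ)).map m := by
    rw [pathLaw, sub_sub_cancel]
  have hcomp : (fun ω : Rand d => (backPt s₁ ω, ω.2 2)) ∘
      (fun p : Euc d × (Fin 3 → Euc d) =>
        ((p.1 + r • p.2 0, ![-p.2 0, p.2 1, p.2 2]) : Rand d)) = Prod.map m id ∘ g := by
    funext p
    simp [backPt, hm, hg, r]
  have hmm : Measurable m := by fun_prop
  rw [gadgetLaw, Measure.map_map ((continuous_backPt s₁).measurable.prodMk (by fun_prop))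
      (measurable_gadgetMap r), hcomp, ← Measure.map_map (by fun_prop) (by fun_prop), hga,
    ← Measure.map_prod_map _ _ hmm measurable_id, Measure.map_id, hpath]

lemma gadgetLaw_map_backPt (hV : NicePot d V 1 2) (h1 : s₁ ≤ τ) :
    (gadgetLaw τ s₁ d V).map (backPt s₁) = pathLaw V τ (τ - s₁) := by
  have := isProbabilityMeasure_pathLaw (τ := τ) hV (sub_nonneg.2 h1)
  have h := congrArg (Measure.map Prod.fst) (gadgetLaw_map_pt hV h1)
  rw [Measure.map_map measurable_fst
    ((continuous_backPt s₁).measurable.prodMk (by fun_prop)), Measure.map_fst_prod,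
    measure_univ, one_smul] at h
  exact h

/-- The law of the anchor. -/
lemma gadgetLaw_map_anchor (hV : NicePot d V 1 2) (h0 : 0 < s₁) (h1 : s₁ ≤ τ) :
    (gadgetLaw τ s₁ d V).map Prod.fst = levelLaw V τ := by
  rw [← pathLaw_map_fst hV (sub_nonneg.2 h1) (sub_lt_self τ h0), ← gadgetLaw_map_backPt hV h1,
    Measure.map_map measurable_fst (continuous_backPt s₁).measurable]
  rfl

/-- The law of anchor, position and state along a kernel step. -/
lemma gadgetLaw_map_state (hV : NicePot d V 1 2) (h0 : 0 < s₁) (h1 : s₁ ≤ τ) (hs : 0 ≤ s)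
    (hsτ : s < τ) {Ψ : Euc d × Euc d × Euc d → Euc d × Euc d} (hΨ : Measurable Ψ)
    (hlaw : ∀ x, ((postKernel V τ (τ - s₁) x).prod (gauss d)).map (fun q => Ψ (x, q.1, q.2))
      = (postKernel V τ s x).prod (gauss d)) :
    Measurable (fun ω : Rand d => (ω.1, Ψ (backPt s₁ ω))) ∧
      (gadgetLaw τ s₁ d V).map (fun ω => (ω.1, Ψ (backPt s₁ ω))) = pathLaw V τ s := by
  have hpt := (continuous_backPt (d := d) s₁).measurable
  refine ⟨measurable_fst.prodMk (hΨ.comp hpt), ?_⟩
  rw [← pathLaw_map_step hV (sub_nonneg.2 h1) (sub_lt_self τ h0) hs hsτ hΨ hlaw,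
    ← gadgetLaw_map_backPt hV h1, Measure.map_map (by fun_prop) hpt]
  rfl

/-- The law of position, spare vector and state along a kernel step. -/
lemma gadgetLaw_map_path (hV : NicePot d V 1 2) (h0 : 0 < s₁) (h1 : s₁ ≤ τ) (hs : 0 ≤ s)
    (hsτ : s < τ) {Ψ : Euc d × Euc d × Euc d → Euc d × Euc d} (hΨ : Measurable Ψ)
    (hlaw : ∀ x, ((postKernel V τ (τ - s₁) x).prod (gauss d)).map (fun q => Ψ (x, q.1, q.2))
      = (postKernel V τ s x).prod (gauss d)) :
    Measurable (fun ω : Rand d => ((Ψ (backPt s₁ ω)).1, ω.2 2, (Ψ (backPt s₁ ω)).2)) ∧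
      (gadgetLaw τ s₁ d V).map
          (fun ω => ((Ψ (backPt s₁ ω)).1, ω.2 2, (Ψ (backPt s₁ ω)).2))
        = (levelLaw V s).prod ((gauss d).prod (gauss d)) := by
  have := isProbabilityMeasure_levelLaw hV hs
  have := isProbabilityMeasure_pathLaw (τ := τ) hV (sub_nonneg.2 h1)
  have hpt := (continuous_backPt (d := d) s₁).measurable
  have hΨ' := hΨ.comp hpt
  refine ⟨hΨ'.fst.prodMk ((by fun_prop : Measurable fun ω : Rand d => ω.2 2).prodMk hΨ'.snd), ?_⟩
  set γ := gauss d
  have hstep : (pathLaw V τ (τ - s₁)).map Ψ = (levelLaw V s).prod γ := by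
    rw [← pathLaw_map_snd (τ := τ) hV hs,
      ← pathLaw_map_step hV (sub_nonneg.2 h1) (sub_lt_self τ h0) hs hsτ hΨ hlaw,
      Measure.map_map measurable_snd (measurable_fst.prodMk hΨ)]
    rfl
  set R : (Euc d × Euc d) × Euc d → Euc d × Euc d × Euc d := fun q => (q.1.1, q.2, q.1.2) with hR
  have hRm : Measurable R := by fun_prop
  have hR' : (((levelLaw V s).prod γ).prod γ).map R = (levelLaw V s).prod (γ.prod γ) := by
    have e : R = Prod.map id Prod.swap ∘ MeasurableEquiv.prodAssoc := by funext q; rfl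
    rw [e, ← Measure.map_map (by fun_prop) (by fun_prop),
      (measurePreserving_prodAssoc (levelLaw V s) γ γ).map_eq,
      ← Measure.map_prod_map _ _ measurable_id measurable_swap, Measure.map_id, Measure.prod_swap]
  have hcomp : (fun ω : Rand d => ((Ψ (backPt s₁ ω)).1, ω.2 2, (Ψ (backPt s₁ ω)).2))
      = R ∘ Prod.map Ψ id ∘ fun ω => (backPt s₁ ω, ω.2 2) := by
    funext ω; rfl
  rw [hcomp, ← Measure.map_map hRm ((hΨ.prodMap measurable_id).comp (hpt.prodMk (by fun_prop))),
    ← Measure.map_map (hΨ.prodMap measurable_id) (hpt.prodMk (by fun_prop)),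
    gadgetLaw_map_pt hV h1, ← Measure.map_prod_map _ _ hΨ measurable_id, Measure.map_id, hstep,
    hR']

/-- Pull a curve bound back along a continuous map that pushes one law to the other. -/
lemma CurveBound.pullback {Ω Ω' : Type*} [TopologicalSpace Ω] [MeasurableSpace Ω]
    [OpensMeasurableSpace Ω] [TopologicalSpace Ω'] [MeasurableSpace Ω'] [BorelSpace Ω']
    {μ : Measure Ω} {μ' : Measure Ω'} {g : Ω' → Ω} (hg : Continuous g) (hgm : Measurable g)
    (hμ : μ'.map g = μ) {a b : ℝ} {G : ℝ → Ω → Euc d} {B : ℕ → ℝ → ℝ}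
    (h : CurveBound μ a b G B) : CurveBound μ' a b (fun u ω => G u (g ω)) B := by
  obtain ⟨D, h0, hc, hd, hb⟩ := h
  refine ⟨fun k u ω => D k u (g ω), fun t ht ω => h0 t ht (g ω), fun k => ?_,
    fun k t ht ω => hd k t ht (g ω), fun k t ht => ?_⟩
  · exact (hc k).comp (f := fun p : ℝ × Ω' => (p.1, g p.2)) (by fun_prop)
      fun p hp => ⟨hp.1, trivial⟩
  · have hDc : Continuous fun ω : Ω => D k t ω :=
      (hc k).comp_continuous (continuous_const.prodMk continuous_id) fun ω => ⟨ht, trivial⟩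
    obtain ⟨h1, h2⟩ := hb k t ht
    rw [← hμ] at h1 h2
    refine ⟨(integrable_map_measure hDc.norm.measurable.aestronglyMeasurable hgm.aemeasurable).1 h1,
      ?_⟩
    rwa [integral_map hgm.aemeasurable hDc.norm.measurable.aestronglyMeasurable] at h2

/-- Disintegration at the anchor. -/
lemma disint_gadgetLaw (hV : NicePot d V 1 2) (h0 : 0 < s₁) (h1 : s₁ ≤ τ) :
    Disint (gadgetLaw τ s₁ d V) (levelLaw V τ)
      fun x => Measure.pi ![topKernel V τ s₁ x, gauss d, gauss d] := by
  intro F hF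
  have hb : 0 ≤ τ - s₁ := sub_nonneg.2 h1
  have hbτ : τ - s₁ < τ := sub_lt_self τ h0
  have := isProbabilityMeasure_levelLaw hV (hb.trans hbτ.le)
  have := isProbabilityMeasure_pathLaw (τ := τ) hV hb
  set r := √s₁ with hr
  have hr0 : r ≠ 0 := (Real.sqrt_pos.2 h0).ne'
  set γ := gauss d
  set g : Euc d → (Euc d × Euc d) × Euc d → Fin 3 → Euc d :=
    fun x p => ![r⁻¹ • (p.1.1 - x), p.1.2, p.2] with hg
  have hgc : ∀ x, Continuous (g x) := fun x => continuous_pi fun i => by
    fin_cases i <;> simp [hg] <;> fun_prop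
  have hgm : ∀ x, MeasurableEmbedding (g x) := fun x =>
    (hgc x).measurableEmbedding fun p q h => by
      have e0 := congrFun h 0
      have e1 := congrFun h 1
      have e2 := congrFun h 2
      simp [hg, hr0] at e0 e1 e2
      exact Prod.ext (Prod.ext e0 e1) e2
  set G : Euc d × ((Euc d × Euc d) × Euc d) → Rand d := fun q => (q.1, g q.1 q.2) with hG
  have hGm : MeasurableEmbedding G := by
    refine Continuous.measurableEmbedding
      (continuous_fst.prodMk (continuous_pi fun i => ?_)) fun q q' h => ?_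
    · fin_cases i <;> simp [hg] <;> fun_prop
    · obtain ⟨e1, e2⟩ := Prod.ext_iff.1 h
      simp only [hG] at e1 e2
      rw [e1] at e2
      exact Prod.ext e1 ((hgm q'.1).injective e2)
  set κ : Kernel (Euc d) ((Euc d × Euc d) × Euc d) :=
    (postK (hV.weight.smoothPot hb) (sub_pos.2 hbτ) ×ₖ Kernel.const (Euc d) γ)
      ×ₖ Kernel.const (Euc d) γ
  have hκ : ∀ x, κ x = ((postKernel V τ (τ - s₁) x).prod γ).prod γ := fun x => by
    simp only [κ, Kernel.prod_apply, Kernel.const_apply, postK_apply, postKernel_eq]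
  have hP : gadgetLaw τ s₁ d V = (levelLaw V τ ⊗ₘ κ).map G := by
    have e : levelLaw V τ ⊗ₘ κ
        = ((pathLaw V τ (τ - s₁)).prod γ).map fun q => (q.1.1, (q.1.2, q.2)) := by
      refine Measure.ext_of_lintegral _ fun H hH => ?_
      rw [Measure.lintegral_compProd hH, lintegral_map hH (by fun_prop),
        lintegral_prod _ (by fun_prop),
        pathLaw_lintegral hV hb hbτ (Measurable.lintegral_prod_right'
          (f := fun q : (Euc d × Euc d × Euc d) × Euc d => H (q.1.1, (q.1.2, q.2))) (by fun_prop))]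
      refine lintegral_congr fun x => ?_
      have := isProbabilityMeasure_postKernel hV hb hbτ x
      rw [hκ, lintegral_prod _ (by fun_prop)]
    rw [e, ← gadgetLaw_map_pt hV h1, Measure.map_map hGm.measurable (by fun_prop),
      Measure.map_map (hGm.measurable.comp (by fun_prop))
        ((continuous_backPt s₁).measurable.prodMk (by fun_prop))]
    refine Measure.map_id.symm.trans (congrArg (fun f => Measure.map f _) ?_)
    funext ω
    refine Prod.ext rfl ?_
    funext i
    fin_cases i <;> simp [hG, hg, backPt, r, (Real.sqrt_pos.2 h0).ne']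
  have hpi : ∀ x, (κ x).map (g x) = Measure.pi ![topKernel V τ s₁ x, γ, γ] := by
    intro x
    have := isProbabilityMeasure_postKernel hV hb hbτ x
    have hprob : ∀ i, IsProbabilityMeasure (![topKernel V τ s₁ x, γ, γ] i) := by
      intro i
      fin_cases i <;> simp <;>
        first | exact isProbabilityMeasure_topKernel hV h0 h1 x | infer_instance
    refine (Measure.pi_eq fun S hS => ?_).symm
    rw [hκ, Measure.map_apply (hgm x).measurable (MeasurableSet.univ_pi hS)]
    have hpre : g x ⁻¹' Set.univ.pi S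
        = (((fun y => r⁻¹ • (y - x)) ⁻¹' S 0) ×ˢ S 1) ×ˢ S 2 := by
      ext p
      simp [hg, Fin.forall_fin_succ, and_assoc]
    rw [hpre, Measure.prod_prod, Measure.prod_prod, Fin.prod_univ_three]
    simp [topKernel, Measure.map_apply (by fun_prop : Measurable fun y : Euc d => r⁻¹ • (y - x))
      (hS 0), ← hr]
  rw [hP, hGm.integrable_map_iff] at hF
  simp only [← hpi, fun x => (hgm x).integral_map (μ := κ x) fun w => F (x, w)]
  refine ⟨((Measure.integrable_compProd_iff hF.1).1 hF).1.mono fun x hx =>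
    ((hgm x).integrable_map_iff).2 hx, ?_, ?_⟩
  · have h2 := (show Integrable (F ∘ G) ((Kernel.const Unit (levelLaw V τ) ⊗ₖ
      Kernel.prodMkLeft Unit κ) ()) from hF).integral_compProd
    simpa [Kernel.const_apply, Kernel.prodMkLeft_apply] using h2
  · rw [hP, hGm.integral_map]
    exact (Measure.integral_compProd hF).symm

/-! ### The two passes -/

variable {a b κ : ℝ} {Φb Φf : PathFam} {Cb Cf : ℕ → ℝ}

lemma BackPath.measurable (h : BackPath τ a b Φb Cb) (hV : Nice d V) (hs : s ∈ Set.Icc a b) :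
    Measurable (Φb d V s) :=
  ((h.continuousOn d V hV).comp_continuous (f := fun p : Euc d × Euc d × Euc d => (s, p))
    (continuous_const.prodMk continuous_id) fun _ => ⟨hs, trivial⟩).measurable

lemma FwdPath.measurable (h : FwdPath τ a b κ Φf Cf) (hV : Nice d V) (hs : s ∈ Set.Icc a b) :
    Measurable (Φf d V s) :=
  ((h.continuousOn d V hV).comp_continuous (f := fun p : Euc d × Euc d × Euc d => (s, p))
    (continuous_const.prodMk continuous_id) fun _ => ⟨hs, trivial⟩).measurable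

/-- The start of the forward path read off an outcome. -/
noncomputable def fwdPt (a s₁ : ℝ) (Φb : PathFam) (V : Euc d → ℝ) (ω : Rand d) :
    Euc d × Euc d × Euc d :=
  (ω.1, (Φb d V a (backPt s₁ ω)).1, ω.2 1)

lemma fwdPt_eq (h : BackPath τ a b Φb Cb) (hV : Nice d V) (hab : a ≤ b) (ω : Rand d) :
    fwdPt a s₁ Φb V ω = (ω.1, Φb d V a (backPt s₁ ω)) := by
  have e := h.snd_eq d V hV (backPt s₁ ω) a (Set.left_mem_Icc.2 hab)
  exact Prod.ext rfl (Prod.ext rfl e.symm)

/-- Along the backward pass: position, spare vector and state. -/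
lemma BackPath.gadgetLaw_pass (h : BackPath τ a (τ - s₁) Φb Cb) (hV : Nice d V) (ha : 0 ≤ a)
    (h0 : 0 < s₁) (h1 : s₁ ≤ τ) (hs : s ∈ Set.Icc a (τ - s₁)) :
    Measurable (fun ω : Rand d => ((Φb d V s (backPt s₁ ω)).1, ω.2 2, ω.2 1)) ∧
      (gadgetLaw τ s₁ d V).map (fun ω => ((Φb d V s (backPt s₁ ω)).1, ω.2 2, ω.2 1))
        = (levelLaw V s).prod ((gauss d).prod (gauss d)) := by
  have e : ∀ ω : Rand d, (Φb d V s (backPt s₁ ω)).2 = ω.2 1 := fun ω =>
    h.snd_eq d V hV (backPt s₁ ω) s hs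
  have := gadgetLaw_map_path hV.pot h0 h1 (ha.trans hs.1)
    (hs.2.trans_lt (sub_lt_self τ h0)) (h.measurable hV hs) fun x => h.law d V hV x s hs
  simp only [e] at this
  exact this

/-- Along the backward pass: anchor, position and state. -/
lemma BackPath.gadgetLaw_state (h : BackPath τ a (τ - s₁) Φb Cb) (hV : Nice d V) (ha : 0 ≤ a)
    (h0 : 0 < s₁) (h1 : s₁ ≤ τ) (hs : s ∈ Set.Icc a (τ - s₁)) :
    Measurable (fun ω : Rand d => (ω.1, (Φb d V s (backPt s₁ ω)).1, ω.2 1)) ∧
      (gadgetLaw τ s₁ d V).map (fun ω => (ω.1, (Φb d V s (backPt s₁ ω)).1, ω.2 1))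
        = pathLaw V τ s := by
  have e : (fun ω : Rand d => (ω.1, (Φb d V s (backPt s₁ ω)).1, ω.2 1))
      = fun ω => (ω.1, Φb d V s (backPt s₁ ω)) := by
    funext ω
    exact Prod.ext rfl (Prod.ext rfl (h.snd_eq d V hV (backPt s₁ ω) s hs).symm)
  rw [e]
  exact gadgetLaw_map_state hV.pot h0 h1 (ha.trans hs.1) (hs.2.trans_lt (sub_lt_self τ h0))
    (h.measurable hV hs) fun x => h.law d V hV x s hs

/-- The law of the start of the forward pass. -/
lemma BackPath.gadgetLaw_fwdPt (h : BackPath τ a (τ - s₁) Φb Cb) (hV : Nice d V) (ha : 0 ≤ a)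
    (hab : a ≤ τ - s₁) (h0 : 0 < s₁) (h1 : s₁ ≤ τ) :
    Measurable (fwdPt a s₁ Φb V) ∧
      (gadgetLaw τ s₁ d V).map (fwdPt a s₁ Φb V) = pathLaw V τ a :=
  h.gadgetLaw_state hV ha h0 h1 (Set.left_mem_Icc.2 hab)

/-- Along the forward pass: position, spare vector and state. -/
lemma FwdPath.gadgetLaw_pass (hf : FwdPath τ a (τ - s₁) κ Φf Cf)
    (hb : BackPath τ a (τ - s₁) Φb Cb) (hV : Nice d V) (ha : 0 ≤ a) (hab : a ≤ τ - s₁)
    (h0 : 0 < s₁) (h1 : s₁ ≤ τ) (hs : s ∈ Set.Icc a (τ - s₁)) :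
    Measurable (fun ω : Rand d =>
        ((Φf d V s (fwdPt a s₁ Φb V ω)).1, ω.2 2, (Φf d V s (fwdPt a s₁ Φb V ω)).2)) ∧
      (gadgetLaw τ s₁ d V).map (fun ω =>
        ((Φf d V s (fwdPt a s₁ Φb V ω)).1, ω.2 2, (Φf d V s (fwdPt a s₁ Φb V ω)).2))
        = (levelLaw V s).prod ((gauss d).prod (gauss d)) := by
  simp only [fwdPt_eq hb hV hab]
  have hma := hb.measurable hV (Set.left_mem_Icc.2 hab)
  have hms := hf.measurable hV hs
  exact gadgetLaw_map_path hV.pot h0 h1 (ha.trans hs.1) (hs.2.trans_lt (sub_lt_self τ h0))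
    (Ψ := fun p => Φf d V s (p.1, Φb d V a p)) (hms.comp (measurable_fst.prodMk hma))
    fun x => postKernel_map_comp hma hms
      (fun x => hb.law d V hV x a (Set.left_mem_Icc.2 hab)) (fun x => hf.law d V hV x s hs) x

/-- Along the forward pass: anchor, position and state. -/
lemma FwdPath.gadgetLaw_state (hf : FwdPath τ a (τ - s₁) κ Φf Cf)
    (hb : BackPath τ a (τ - s₁) Φb Cb) (hV : Nice d V) (ha : 0 ≤ a) (hab : a ≤ τ - s₁)
    (h0 : 0 < s₁) (h1 : s₁ ≤ τ) (hs : s ∈ Set.Icc a (τ - s₁)) :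
    Measurable (fun ω : Rand d => (ω.1, Φf d V s (fwdPt a s₁ Φb V ω))) ∧
      (gadgetLaw τ s₁ d V).map (fun ω => (ω.1, Φf d V s (fwdPt a s₁ Φb V ω)))
        = pathLaw V τ s := by
  simp only [fwdPt_eq hb hV hab]
  have hma := hb.measurable hV (Set.left_mem_Icc.2 hab)
  have hms := hf.measurable hV hs
  exact gadgetLaw_map_state hV.pot h0 h1 (ha.trans hs.1) (hs.2.trans_lt (sub_lt_self τ h0))
    (Ψ := fun p => Φf d V s (p.1, Φb d V a p)) (hms.comp (measurable_fst.prodMk hma))
    fun x => postKernel_map_comp hma hms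
      (fun x => hb.law d V hV x a (Set.left_mem_Icc.2 hab)) (fun x => hf.law d V hV x s hs) x

end Vale.Agent.P347
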