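import Vale.Agent.P347.Node

/-!
Weighted sums of bodies over a finite index type, and combinations of few bodies.
-/

namespace Vale.Agent.P347

open MeasureTheory ProbabilityTheory

namespace Node

variable {P : RandFam} {ν : ℝ}

/-- A weighted sum of centred bodies with uniform bounds. -/
lemma wsum {ι : Type*} [Fintype ι] (w : ι → ℝ) {Ts : ι → Body} {Q : ℕ} {Ss Ss₀ vs Es : ι → ℝ}
    {Xs : ι → VarFam} (h : ∀ i, Node P ν (Ts i) Q 0 0 (Ss i) (Ss₀ i) (Xs i) (vs i) (Es i))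
    {S S₀ v E : ℝ} (hS : ∑ i, |w i| * Ss i ≤ S) (hS₀ : ∑ i, |w i| * Ss₀ i ≤ S₀)
    (hv : ∑ i, w i ^ 2 * vs i ≤ v) (hE : ∑ i, |w i| * Es i ≤ E) :
    ∃ T, Node P ν T (Fintype.card ι * Q) 0 0 S S₀ (fun d V ω => ∑ i, w i • Xs i d V ω) v E := by
  set e := (Fintype.equivFin ι).symm
  have hsum : ∀ f : ι → ℝ, ∑ k, f (e k) = ∑ i, f i := fun f => e.sum_comp f
  have h2 := Node.comb0 (a := fun k => w (e k)) (Ts := fun k => Ts (e k))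
    (fun k => h (e k)) (X' := fun d V ω => ∑ i, w i • Xs i d V ω)
    (fun d V _ ω => e.sum_comp fun i => w i • Xs i d V ω) (v' := v)
    (by rw [hsum fun i => w i ^ 2 * vs i]; exact hv)
  refine ⟨_, h2.mono (by simp) ?_ ?_ ?_⟩
  · rw [hsum fun i => |w i| * Ss i]; exact hS
  · rw [hsum fun i => |w i| * Ss₀ i]; exact hS₀
  · rw [hsum fun i => |w i| * Es i]; exact hE

/-- Combination of three bodies, the last centred. -/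
lemma comb3 {T₁ T₂ T₃ : Body} {Q₁ Q₂ Q₃ : ℕ} {c₁ d₁ c₂ d₂ S₁ R₁ S₂ R₂ S₃ R₃ v₁ v₂ v₃ E₁ E₂ E₃ : ℝ}
    {X₁ X₂ X₃ X : VarFam} (h₁ : Node P ν T₁ Q₁ c₁ d₁ S₁ R₁ X₁ v₁ E₁)
    (h₂ : Node P ν T₂ Q₂ c₂ d₂ S₂ R₂ X₂ v₂ E₂) (h₃ : Node P ν T₃ Q₃ 0 0 S₃ R₃ X₃ v₃ E₃)
    (a₁ a₂ a₃ : ℝ)
    (hX : ∀ d V, Nice d V → ∀ ω,
      a₁ • X₁ d V ω + a₂ • X₂ d V ω + a₃ • X₃ d V ω = X d V ω)
    {c c₀ v : ℝ} (hc : a₁ * c₁ + a₂ * c₂ = c) (hc₀ : a₁ * d₁ + a₂ * d₂ = c₀)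
    (habs : |a₁| * |c₁| + |a₂| * |c₂| ≤ |c|)
    (hv : a₁ ^ 2 * v₁ + a₂ ^ 2 * v₂ + a₃ ^ 2 * v₃ ≤ v) :
    ∃ T, Node P ν T (Q₁ + Q₂ + Q₃) c c₀ (|a₁| * S₁ + |a₂| * S₂ + |a₃| * S₃)
      (|a₁| * R₁ + |a₂| * R₂ + |a₃| * R₃) X v (|a₁| * E₁ + |a₂| * E₂ + |a₃| * E₃) := by
  have h := Node.comb (n := 3) (a := ![a₁, a₂, a₃]) (Ts := ![T₁, T₂, T₃]) (Qs := ![Q₁, Q₂, Q₃])
    (cs := ![c₁, c₂, 0]) (cs₀ := ![d₁, d₂, 0]) (Ss := ![S₁, S₂, S₃]) (Ss₀ := ![R₁, R₂, R₃])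
    (Xs := ![X₁, X₂, X₃]) (vs := ![v₁, v₂, v₃]) (Es := ![E₁, E₂, E₃])
    (Fin.forall_fin_succ.2 ⟨h₁, Fin.forall_fin_two.2 ⟨h₂, h₃⟩⟩) (X' := X)
    (fun d V hV ω => (Fin.sum_univ_three _).trans (hX d V hV ω))
    (c' := c) (c₀' := c₀) (x := 0) (v' := v)
    (by rw [Fin.sum_univ_three]; exact (show a₁ * c₁ + a₂ * c₂ + a₃ * 0 = c by rw [mul_zero, add_zero]; exact hc))
    (by rw [Fin.sum_univ_three]; exact (show a₁ * d₁ + a₂ * d₂ + a₃ * 0 = c₀ by rw [mul_zero, add_zero]; exact hc₀))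
    le_rfl
    (by
      rw [Fin.sum_univ_three]
      exact (show |a₁| * |c₁| + |a₂| * |c₂| + |a₃| * |(0 : ℝ)| ≤ |c| + 0 by
        rw [abs_zero, mul_zero, add_zero, add_zero]; exact habs))
    (le_of_eq_of_le (Fin.sum_univ_three _) hv)
  refine ⟨_, h.mono (le_of_eq (Fin.sum_univ_three _)) ?_ ?_ ?_⟩
  · rw [add_zero]; exact le_of_eq (Fin.sum_univ_three _)
  · exact le_of_eq (Fin.sum_univ_three _)
  · exact le_of_eq (Fin.sum_univ_three _)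

end Node

end Vale.Agent.P347
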