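import Vale.Agent.P347.Grid
import Vale.Agent.P347.GadgetLaws
import Vale.Agent.P347.NodeSum

/-!
The backward pass of the oracle step: iterated product integration of score evaluations.
-/

namespace Vale.Agent.P347

open MeasureTheory ProbabilityTheory
open scoped Gradient

/-- The position at level `s` along a backward path, read off an outcome. -/
noncomputable def backVar (Φ : PathFam) (s₁ s : ℝ) : VarFam :=
  fun d V ω => (Φ d V s (backPt s₁ ω)).1

variable {τ a s₁ R : ℝ} {Φ : PathFam} {Cb : ℕ → ℝ}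

/-- The position equation in the coordinates of the gadget. -/
lemma BackPath.backVar_eq (h : BackPath τ a (τ - s₁) Φ Cb) (h0 : 0 < s₁) {d : ℕ}
    {V : Euc d → ℝ} (hV : Nice d V) {s : ℝ} (hs : s ∈ Set.Icc a (τ - s₁)) (ω : Rand d) :
    backVar Φ s₁ s d V ω = ω.1 + √(τ - s) • ω.2 0 + (1 / 2 : ℝ) •
      ∫ u in (τ - s₁)..s, √((τ - s) / (τ - u)) • score V u (Φ d V u (backPt s₁ ω)).1 := by
  have h1 := h.pos_eq d V hV (backPt s₁ ω) s hs
  have hsq : √((τ - s) / s₁) * √s₁ = √(τ - s) := by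
    rw [← Real.sqrt_mul' _ h0.le, div_mul_cancel₀ _ h0.ne']
  simp only [smul_comm _ (1 / 2 : ℝ) (score V _ _), intervalIntegral.integral_smul] at h1
  unfold backVar
  rw [h1, show τ - (τ - s₁) = s₁ by ring]
  simp only [backPt, add_sub_cancel_left, smul_smul, hsq]

/-- The residual of a rule along the backward path, pulled back to the outcomes. -/
lemma BackPath.residual (h : BackPath τ a (τ - s₁) Φ Cb) (h0 : 0 < s₁) (h1 : s₁ ≤ τ) {d : ℕ}
    {V : Euc d → ℝ} (hV : Nice d V) {ι : Type} [Fintype ι] {w nd : ι → ℝ}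
    (hnd : ∀ i, nd i ∈ Set.Icc a (τ - s₁)) {s : ℝ} (hs : s ∈ Set.Icc a (τ - s₁)) {E : ℝ}
    (herr : Integrable (fun p => ‖∑ i, w i • score V (nd i) (Φ d V (nd i) p).1
        - ∫ u in (τ - s₁)..s, √((τ - s) / (τ - u)) • score V u (Φ d V u p).1‖)
          (pathLaw V τ (τ - s₁)) ∧
      ∫ p, ‖∑ i, w i • score V (nd i) (Φ d V (nd i) p).1
        - ∫ u in (τ - s₁)..s, √((τ - s) / (τ - u)) • score V u (Φ d V u p).1‖
          ∂(pathLaw V τ (τ - s₁)) ≤ E) :
    (Integrable (fun ω => ‖ω.1 + √(τ - s) • ω.2 0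
        + (1 / 2 : ℝ) • ∑ i, w i • score V (nd i) (backVar Φ s₁ (nd i) d V ω)
        - backVar Φ s₁ s d V ω‖) (gadgetLaw τ s₁ d V) ∧
      ∫ ω, ‖ω.1 + √(τ - s) • ω.2 0
        + (1 / 2 : ℝ) • ∑ i, w i • score V (nd i) (backVar Φ s₁ (nd i) d V ω)
        - backVar Φ s₁ s d V ω‖ ∂(gadgetLaw τ s₁ d V) ≤ 1 / 2 * E) ∧
    ∀ C : ℝ, (∀ u ∈ Set.Icc a (τ - s₁), Cb 0 * ((d : ℝ) + 1) ^ 2 / min u (τ - u) ^ 0 ≤ C) →
      Integrable (fun ω => ‖ω.1 + √(τ - s) • ω.2 0 - backVar Φ s₁ s d V ω‖)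
          (gadgetLaw τ s₁ d V) ∧
        ∫ ω, ‖ω.1 + √(τ - s) • ω.2 0 - backVar Φ s₁ s d V ω‖ ∂(gadgetLaw τ s₁ d V)
          ≤ 1 / 2 * (E + (∑ i, |w i|) * C) := by
  set b := τ - s₁ with hb
  set γ := gadgetLaw τ s₁ d V
  set φ : ℝ → ℝ := fun u => √((τ - s) / (τ - u)) with hφ
  set G : ℝ → Euc d × Euc d × Euc d → Euc d := fun u p => score V u (Φ d V u p).1 with hG
  set F : Euc d × Euc d × Euc d → ℝ :=
    fun p => ‖∑ i, w i • G (nd i) p - ∫ u in b..s, φ u • G u p‖ with hF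
  obtain ⟨hFi, hFle⟩ : Integrable F (pathLaw V τ b) ∧ ∫ p, F p ∂(pathLaw V τ b) ≤ E := herr
  have hpt : Measurable (backPt (d := d) s₁) := (continuous_backPt s₁).measurable
  have hmap : γ.map (backPt s₁) = pathLaw V τ b := gadgetLaw_map_backPt hV.pot h1
  have pull : ∀ (H : Euc d × Euc d × Euc d → ℝ), Integrable H (pathLaw V τ b) →
      Integrable (fun ω => H (backPt s₁ ω)) γ ∧
        ∫ ω, H (backPt s₁ ω) ∂γ = ∫ p, H p ∂(pathLaw V τ b) := fun H hH => by
    rw [← hmap] at hH ⊢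
    exact ⟨(integrable_map_measure hH.aestronglyMeasurable hpt.aemeasurable).1 hH,
      (integral_map hpt.aemeasurable hH.aestronglyMeasurable).symm⟩
  have hX : ∀ ω : Rand d, backVar Φ s₁ s d V ω = ω.1 + √(τ - s) • ω.2 0
      + (1 / 2 : ℝ) • ∫ u in b..s, φ u • G u (backPt s₁ ω) := h.backVar_eq h0 hV hs
  constructor
  · have e : ∀ ω : Rand d, ‖ω.1 + √(τ - s) • ω.2 0
        + (1 / 2 : ℝ) • ∑ i, w i • score V (nd i) (backVar Φ s₁ (nd i) d V ω)
        - backVar Φ s₁ s d V ω‖ = 1 / 2 * F (backPt s₁ ω) := fun ω => by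
      rw [hX ω, add_sub_add_left_eq_sub, ← smul_sub, norm_smul,
        Real.norm_of_nonneg (by norm_num : (0 : ℝ) ≤ 1 / 2)]
      rfl
    simp only [e]
    obtain ⟨i1, e1⟩ := pull F hFi
    refine ⟨i1.const_mul _, ?_⟩
    rw [integral_const_mul, e1]
    linarith
  intro C hC
  obtain ⟨D, hD0, -, -, hD⟩ := h.score_bound d V hV
  have hGi : ∀ i, Integrable (fun p => ‖G (nd i) p‖) (pathLaw V τ b) ∧
      ∫ p, ‖G (nd i) p‖ ∂(pathLaw V τ b) ≤ C := fun i => by
    obtain ⟨h2, h3⟩ := hD 0 (nd i) (hnd i)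
    simp only [hD0 _ (hnd i)] at h2 h3
    exact ⟨h2, h3.trans (hC _ (hnd i))⟩
  set H : Euc d × Euc d × Euc d → ℝ := fun p => ‖∫ u in b..s, φ u • G u p‖ with hH
  have hHle : ∀ p, H p ≤ F p + ∑ i, |w i| * ‖G (nd i) p‖ := fun p => by
    have h2 := norm_le_norm_add_norm_sub' (∫ u in b..s, φ u • G u p) (∑ i, w i • G (nd i) p)
    rw [norm_sub_rev] at h2
    have h3 : ‖∑ i, w i • G (nd i) p‖ ≤ ∑ i, |w i| * ‖G (nd i) p‖ :=
      (norm_sum_le _ _).trans (Finset.sum_le_sum fun i _ =>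
        le_of_eq (by rw [norm_smul, Real.norm_eq_abs]))
    simp only [hH, hF]
    linarith
  have hφc : ContinuousOn φ (Set.Icc a b) :=
    (continuousOn_const.div (by fun_prop) fun u hu =>
      (sub_pos.2 (hu.2.trans_lt (sub_lt_self τ h0))).ne').sqrt
  have hHc : Continuous H :=
    (continuous_integral_curve (hs.1.trans hs.2) hφc (h.score_bound d V hV).continuousOn
      ⟨hs.1.trans hs.2, le_rfl⟩ hs).norm
  have hsum : Integrable (fun p => ∑ i, |w i| * ‖G (nd i) p‖) (pathLaw V τ b) :=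
    integrable_finsetSum _ fun i _ => (hGi i).1.const_mul _
  have hHi : Integrable H (pathLaw V τ b) := (hFi.add hsum).mono' hHc.aestronglyMeasurable
    (.of_forall fun p => by
      simp only [hH, norm_norm, Pi.add_apply]
      exact hHle p)
  have e : ∀ ω : Rand d, ‖ω.1 + √(τ - s) • ω.2 0 - backVar Φ s₁ s d V ω‖
      = 1 / 2 * H (backPt s₁ ω) := fun ω => by
    rw [hX ω, ← sub_sub, sub_self, zero_sub, norm_neg, norm_smul,
      Real.norm_of_nonneg (by norm_num : (0 : ℝ) ≤ 1 / 2)]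
  simp only [e]
  obtain ⟨i1, e1⟩ := pull H hHi
  refine ⟨i1.const_mul _, ?_⟩
  rw [integral_const_mul, e1]
  refine mul_le_mul_of_nonneg_left ((integral_mono hHi (hFi.add hsum) hHle).trans ?_) (by norm_num)
  simp only [Pi.add_apply]
  rw [integral_add hFi hsum, integral_finsetSum _ fun i _ => (hGi i).1.const_mul _, Finset.sum_mul]
  refine add_le_add hFle (Finset.sum_le_sum fun i _ => ?_)
  rw [integral_const_mul]
  exact mul_le_mul_of_nonneg_left (hGi i).2 (abs_nonneg _)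

/-- The start of the iteration: the straight line. -/
lemma BackPath.node_zero (h : BackPath τ a (τ - s₁) Φ Cb) (h0 : 0 < s₁) (h1 : s₁ ≤ τ)
    (hR : 0 < R) {ι : Type} [Fintype ι] {w nd : ι → ℝ} (hnd : ∀ i, nd i ∈ Set.Icc a (τ - s₁))
    {s : ℝ} (hs : s ∈ Set.Icc a (τ - s₁)) (ha : 0 ≤ a) {E e : ℝ}
    (herr : ∀ d V, Nice d V →
      Integrable (fun p => ‖∑ i, w i • score V (nd i) (Φ d V (nd i) p).1
        - ∫ u in (τ - s₁)..s, √((τ - s) / (τ - u)) • score V u (Φ d V u p).1‖)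
          (pathLaw V τ (τ - s₁)) ∧
      ∫ p, ‖∑ i, w i • score V (nd i) (Φ d V (nd i) p).1
        - ∫ u in (τ - s₁)..s, √((τ - s) / (τ - u)) • score V u (Φ d V u p).1‖
          ∂(pathLaw V τ (τ - s₁)) ≤ E * dimFac d)
    (he : 1 / 2 * (E + (∑ i, |w i|) * |Cb 0|) ≤ e) :
    ∃ T, Node (gadgetLaw τ s₁) 0 T 2 1 √(τ - s) R⁻¹ 1 (backVar Φ s₁ s) (s / R ^ 4) e := by
  have hs0 : 0 ≤ s := ha.trans hs.1
  obtain ⟨T, hT⟩ := Node.comb3 (Node.anchor (P := gadgetLaw τ s₁) (le_refl (0 : ℝ))) Node.slot0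
    (Node.noise (s := s / R ^ 4) (by positivity)) 1 √(τ - s) 1
    (X := fun d V ω => ω.1 + √(τ - s) • ω.2 0) (fun d V _ ω => by simp)
    (c := 1) (c₀ := √(τ - s)) (v := s / R ^ 4) (by simp) (by simp) (by simp) (by simp)
  have h2 := hT.shift (X' := backVar Φ s₁ s) (E' := e) fun d V hV => by
    obtain ⟨hi, hle⟩ := (h.residual h0 h1 hV hnd hs (herr d V hV)).2 (|Cb 0| * dimFac d)
      fun u _ => by
        rw [pow_zero, div_one]
        exact mul_le_mul (le_abs_self _) (pow_le_pow_right₀ (by simp) (by norm_num)) (by positivity)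
          (abs_nonneg _)
    refine ⟨hi, hle.trans ?_⟩
    have hd := mul_le_mul_of_nonneg_right he (dimFac_nonneg d)
    linarith
  refine ⟨T, h2.mono le_rfl ?_ ?_ ?_⟩ <;> simp [hR.le]

/-- One iteration. -/
lemma BackPath.node_succ (h : BackPath τ a (τ - s₁) Φ Cb) (h0 : 0 < s₁) (h1 : s₁ ≤ τ)
    (hτ : τ ≤ 1) (hR : 2 ≤ R) {ι : Type} [Fintype ι] {w nd : ι → ℝ}
    (hnd : ∀ i, nd i ∈ Set.Icc a (τ - s₁)) {s : ℝ} (hs : s ∈ Set.Icc a (τ - s₁)) (ha : 0 ≤ a)
    {QE Q : ℕ} {δ EE e E e' : ℝ} (hδ : 0 ≤ δ) (he0 : 0 ≤ e)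
    (hops : ∀ i, ∃ op, OpOK op QE (1 / 4) (scoreFam (nd i)) (levelFam (nd i)) (nd i / R ^ 4) δ EE)
    (ih : ∀ i, ∃ T, Node (gadgetLaw τ s₁) 0 T Q 1 √(τ - nd i) R⁻¹ 1 (backVar Φ s₁ (nd i))
      (nd i / R ^ 4) e)
    (herr : ∀ d V, Nice d V →
      Integrable (fun p => ‖∑ i, w i • score V (nd i) (Φ d V (nd i) p).1
        - ∫ u in (τ - s₁)..s, √((τ - s) / (τ - u)) • score V u (Φ d V u p).1‖)
          (pathLaw V τ (τ - s₁)) ∧
      ∫ p, ‖∑ i, w i • score V (nd i) (Φ d V (nd i) p).1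
        - ∫ u in (τ - s₁)..s, √((τ - s) / (τ - u)) • score V u (Φ d V u p).1‖
          ∂(pathLaw V τ (τ - s₁)) ≤ E * dimFac d)
    (hW : (∑ i, |w i|) * (5 / 2) ≤ R⁻¹)
    (hv : 1 / 4 * ((∑ i, w i ^ 2) * δ) ≤ s / R ^ 4)
    (he : 1 / 2 * ((∑ i, |w i|) * (3 * e + EE)) + 1 / 2 * E ≤ e') :
    ∃ T, Node (gadgetLaw τ s₁) 0 T (2 + Fintype.card ι * (QE * (1 + Q))) 1 √(τ - s) R⁻¹ 1
      (backVar Φ s₁ s) (s / R ^ 4) e' := by
  have hstep : ∀ i, ∃ T, Node (gadgetLaw τ s₁) 0 T (QE * (1 + Q)) 0 0 5 5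
      (fun d V ω => score V (nd i) (backVar Φ s₁ (nd i) d V ω)) δ (3 * e + EE) := by
    intro i
    obtain ⟨op, hop⟩ := hops i
    obtain ⟨T, hT⟩ := ih i
    have hlaw : ∀ d V, Nice d V → AEMeasurable (backVar Φ s₁ (nd i) d V) (gadgetLaw τ s₁ d V) ∧
        (gadgetLaw τ s₁ d V).map (backVar Φ s₁ (nd i) d V) = levelFam (nd i) d V := by
      intro d V hV
      obtain ⟨hm, hmap⟩ := h.gadgetLaw_pass hV ha h0 h1 (hnd i)
      refine ⟨(measurable_fst.comp hm).aemeasurable, ?_⟩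
      have := isProbabilityMeasure_levelLaw hV.pot (ha.trans (hnd i).1)
      have e1 := congrArg (Measure.map Prod.fst) hmap
      rw [Measure.map_map measurable_fst hm, Measure.map_fst_prod, measure_univ, one_smul] at e1
      exact e1
    have h2 := (hT.app (by norm_num) hop hδ hlaw).recentre0
    refine ⟨_, h2.mono le_rfl ?_ ?_ (by linarith)⟩
    · have : R⁻¹ ≤ 1 := inv_le_one_of_one_le₀ (by linarith)
      norm_num
      linarith
    · have hc : |√(τ - nd i)| ≤ 1 := by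
        rw [abs_of_nonneg (Real.sqrt_nonneg _), Real.sqrt_le_one]
        linarith [(hnd i).1]
      rw [abs_mul, abs_of_pos (by norm_num : (0 : ℝ) < 3 / 2)]
      linarith
  choose Ts hTs using hstep
  obtain ⟨T₃, hT₃⟩ := Node.wsum w hTs (S := (∑ i, |w i|) * 5) (S₀ := (∑ i, |w i|) * 5)
    (v := (∑ i, w i ^ 2) * δ) (E := (∑ i, |w i|) * (3 * e + EE))
    (by rw [Finset.sum_mul]) (by rw [Finset.sum_mul]) (by rw [Finset.sum_mul])
    (by rw [Finset.sum_mul])
  obtain ⟨T, hT⟩ := Node.comb3 (Node.anchor (P := gadgetLaw τ s₁) (le_refl (0 : ℝ))) Node.slot0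
    hT₃ 1 √(τ - s) (1 / 2)
    (X := fun d V ω => ω.1 + √(τ - s) • ω.2 0
      + (1 / 2 : ℝ) • ∑ i, w i • score V (nd i) (backVar Φ s₁ (nd i) d V ω))
    (fun d V _ ω => by simp) (c := 1) (c₀ := √(τ - s)) (v := s / R ^ 4) (by simp) (by simp)
    (by simp) (by
      refine le_trans (le_of_eq ?_) hv
      ring)
  have h2 := hT.shift (X' := backVar Φ s₁ s) (E' := 1 / 2 * E) fun d V hV => by
    obtain ⟨hi, hle⟩ := (h.residual h0 h1 hV hnd hs (herr d V hV)).1
    exact ⟨hi, hle.trans_eq (by ring)⟩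
  have hW0 : 0 ≤ ∑ i, |w i| := Finset.sum_nonneg fun i _ => abs_nonneg _
  have hR1 : R⁻¹ ≤ 1 := inv_le_one_of_one_le₀ (by linarith)
  refine ⟨T, h2.mono le_rfl ?_ ?_ ?_⟩ <;>
    simp only [abs_one, abs_of_pos (by norm_num : (0 : ℝ) < 1 / 2), mul_zero, add_zero,
      zero_add] <;>
    linarith

/-- The backward pass of the oracle step. -/
theorem backPass : BackPassStatement := by
  intro _ n qE' hn
  refine ⟨(qE' + 5) * (n + 1), 11, fun a ha m hev Cb ε hε => ?_⟩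
  obtain ⟨CE, RE, hCE, hRE, hop⟩ := hev (1 / 4) (by norm_num)
  set P := ordP n a with hP
  have hP100 : 100 ≤ P := Nat.le_add_left _ _
  obtain ⟨KP, R₁, hKP, hR₁, hgrid⟩ := grid P (by omega)
  set Tn := topExp n a 0 with hTn
  set c₀ := |Cb 0| + KP * |Cb P| with hc₀
  set c₁ := CE + KP * |Cb P| with hc₁
  refine ⟨2 * (c₀ + n * c₁), max (max RE R₁) (max (4 * (3 * (Tn : ℝ) + 1) ^ 2)
    (max ((P : ℝ) * KP ^ 2) (max (2 + 2 * (P : ℝ)) 4))), by positivity,
    le_max_of_le_left (le_max_of_le_left hRE), ?_⟩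
  intro R hR j τ hj hτlo htop Φ hΦ
  simp only [max_le_iff] at hR
  obtain ⟨⟨hRE', hR₁'⟩, hRT, hRK, hRP, hR4⟩ := hR
  have hR0 : 0 < R := by linarith
  have hR1 : 1 ≤ R := by linarith
  have hτ : 0 < τ := lt_of_lt_of_le (by positivity) hτlo
  have hna : 11 ≤ n * a := ha.trans (Nat.le_mul_of_pos_left a hn)
  have h4na : 4 * n * a = 4 * (n * a) := by ring
  have hτtop : τ ≤ (R ^ (4 * n * a - 1))⁻¹ :=
    le_topLevel hR1 le_rfl (by omega) hτ.le htop
  have hτk : ∀ k : ℕ, k ≤ 4 * n * a - 1 → τ * R ^ k ≤ 1 := fun k hk => by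
    calc τ * R ^ k ≤ (R ^ (4 * n * a - 1))⁻¹ * R ^ (4 * n * a - 1) :=
          mul_le_mul hτtop (pow_le_pow_right₀ hR1 hk) (by positivity) (by positivity)
      _ = 1 := inv_mul_cancel₀ (by positivity)
  have hτ1 : τ ≤ 1 := by simpa using hτk 0 (Nat.zero_le _)
  set s₁ := gadgetGap n a τ R with hs₁
  set lo := gadgetLow τ R with hlo
  have hs₁0 : 0 < s₁ := by simp only [hs₁, gadgetGap]; positivity
  have hlo0 : 0 < lo := by simp only [hlo, gadgetLow]; positivity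
  have hT10 : 10 ≤ Tn := topExp_ge_ten n a 0
  have hs₁4 : s₁ * 4 ≤ τ := by
    simp only [hs₁, gadgetGap]
    rw [div_mul_eq_mul_div, div_le_iff₀ (by positivity)]
    exact mul_le_mul_of_nonneg_left (hR4.trans (le_self_pow₀ hR1 (by omega))) hτ.le
  have hlo4 : lo * 4 ≤ τ := by
    have h9 := hτk 9 (by omega)
    calc lo * 4 = τ * (τ * R ^ 8 * 4) := by simp only [hlo, gadgetLow]; ring
      _ ≤ τ * (τ * R ^ 8 * R) := by gcongr
      _ = τ * (τ * R ^ 9) := by ring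
      _ ≤ τ := mul_le_of_le_one_right hτ.le h9
  have hs₁τ : s₁ ≤ τ := by linarith
  have hlob : lo < τ - s₁ := by linarith
  obtain ⟨hex, hrules⟩ := hgrid R hR₁' τ lo (τ - s₁) hlo0 hlob (sub_lt_self τ hs₁0)
  have hlog : Real.log ((τ - s₁) / (τ - (τ - s₁)) * ((τ - lo) / lo)) ≤ R := by
    rw [sub_sub_cancel]
    have h1 : (τ - s₁) / s₁ ≤ R ^ (2 * Tn) := by
      rw [div_le_iff₀ hs₁0]
      have : R ^ (2 * Tn) * s₁ = τ := by
        simp only [hs₁, gadgetGap]; exact mul_div_cancel₀ _ (by positivity)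
      linarith
    have h2 : (τ - lo) / lo ≤ R ^ (Tn + 1) := by
      rw [div_le_iff₀ hlo0]
      have h3 : 1 ≤ R ^ (Tn + 1) * τ := by
        rw [← inv_le_iff_one_le_mul₀' (by positivity)]; exact hτlo
      calc τ - lo ≤ 1 * τ * 1 := by linarith
        _ ≤ (R ^ (Tn + 1) * τ) * τ * R ^ 8 := by
            gcongr
            exact one_le_pow₀ hR1
        _ = _ := by simp only [hlo, gadgetLow]; ring
    have h4 : 0 < (τ - s₁) / s₁ * ((τ - lo) / lo) :=
      mul_pos (div_pos (by linarith) hs₁0) (div_pos (by linarith) hlo0)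
    refine (Real.log_le_log h4 (mul_le_mul h1 h2 (div_nonneg (by linarith) hlo0.le)
      (by positivity))).trans ?_
    rw [← pow_add, Real.log_pow]
    set x := √R with hx
    have hx0 : 0 < x := Real.sqrt_pos.2 hR0
    have hxx : x * x = R := Real.mul_self_sqrt hR0.le
    have h5 : Real.log R ≤ 2 * x := by
      rw [← hxx, Real.log_mul hx0.ne' hx0.ne']
      linarith [Real.log_le_sub_one_of_pos hx0]
    have h6 : 2 * (3 * (Tn : ℝ) + 1) ≤ x := by
      refine Real.le_sqrt_of_sq_le ?_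
      linarith
    have h7 : ((2 * Tn + (Tn + 1) : ℕ) : ℝ) = 3 * (Tn : ℝ) + 1 := by push_cast; ring
    rw [h7]
    calc (3 * (Tn : ℝ) + 1) * Real.log R ≤ (3 * (Tn : ℝ) + 1) * (2 * x) := by gcongr
      _ = 2 * (3 * (Tn : ℝ) + 1) * x := by ring
      _ ≤ x * x := mul_le_mul_of_nonneg_right h6 hx0.le
      _ = R := hxx
  obtain ⟨g⟩ := hex hlog
  set nd : Fin g.K × Fin P → ℝ := g.node with hnd
  have hndm : ∀ p, nd p ∈ Set.Icc lo (τ - s₁) := g.node_mem (by omega)
  -- the exponents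
  set X := accExp n a (m + 1) j with hX
  set Y := accExp n a m (j + 1) with hY
  set G := gainExp n a with hG
  have hXY : X ≤ Y + G := accExp_succ_le' n a m hn hj
  have hGna : G ≤ n * a := Nat.mul_le_mul_left n (Nat.sub_le _ _)
  have hXP : X ≤ P - 3 := by
    have h1 : 2 * X + 2 ≤ Tn := two_mul_accExp_le n a (m + 1) j hn ha
    have h2 : P = 10 * Tn + 100 := rfl
    omega
  -- the rules
  have hW : ∀ s ∈ Set.Icc lo (τ - s₁), ∃ w : Fin g.K × Fin P → ℝ,
      (∑ p, |w p|) ≤ R ^ 3 * τ ∧ (∑ p, w p ^ 2) ≤ R ^ 2 * τ ^ 2 ∧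
      ∀ d V, Nice d V →
      Integrable (fun q => ‖∑ p, w p • score V (nd p) (Φ d V (nd p) q).1
        - ∫ u in (τ - s₁)..s, √((τ - s) / (τ - u)) • score V u (Φ d V u q).1‖)
          (pathLaw V τ (τ - s₁)) ∧
      ∫ q, ‖∑ p, w p • score V (nd p) (Φ d V (nd p) q).1
        - ∫ u in (τ - s₁)..s, √((τ - s) / (τ - u)) • score V u (Φ d V u q).1‖
          ∂(pathLaw V τ (τ - s₁)) ≤ KP * |Cb P| / R ^ X * dimFac d := by
    intro s hs
    obtain ⟨W, W₁, w, hwb, -, hwe⟩ := hrules g s hs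
    have hb : ∀ p, |w p| ≤ KP * τ / R := fun p => (hwb p).2.2
    have hcard := g.card_le P
    refine ⟨w, ?_, ?_, fun d V hV => ?_⟩
    · refine (Finset.sum_le_card_nsmul _ _ _ fun p _ => hb p).trans ?_
      rw [nsmul_eq_mul, Finset.card_univ]
      refine (mul_le_mul_of_nonneg_right hcard (by positivity)).trans ?_
      have h2 : (P : ℝ) * KP ≤ R := le_trans (by gcongr; exact le_self_pow₀ hKP two_ne_zero) hRK
      calc (P : ℝ) * R ^ 3 * (KP * τ / R) = (P : ℝ) * KP * (R ^ 2 * τ) := by field_simp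
        _ ≤ R * (R ^ 2 * τ) := mul_le_mul_of_nonneg_right h2 (by positivity)
        _ = _ := by ring
    · refine (Finset.sum_le_card_nsmul _ _ ((KP * τ / R) ^ 2) fun p _ => ?_).trans ?_
      · rw [← sq_abs]; exact pow_le_pow_left₀ (abs_nonneg _) (hb p) 2
      rw [nsmul_eq_mul, Finset.card_univ]
      refine (mul_le_mul_of_nonneg_right hcard (sq_nonneg _)).trans ?_
      calc (P : ℝ) * R ^ 3 * (KP * τ / R) ^ 2 = (P : ℝ) * KP ^ 2 * (R * τ ^ 2) := by field_simp
        _ ≤ R * (R * τ ^ 2) := mul_le_mul_of_nonneg_right hRK (by positivity)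
        _ = _ := by ring
    · obtain ⟨-, -, he⟩ := hwe d _ _ _ (|Cb P| * ((d : ℝ) + 1) ^ 2)
        (isProbabilityMeasure_pathLaw hV.pot (by linarith)) (hΦ.score_bound d V hV)
        (fun u hu => by
          have : 0 < min u (τ - u) :=
            lt_min (hlo0.trans_le hu.1) (sub_pos.2 (hu.2.trans_lt (sub_lt_self τ hs₁0)))
          gcongr
          exact le_abs_self _) (by positivity)
      refine ⟨he.1, he.2.trans ?_⟩
      have hd : ((d : ℝ) + 1) ^ 2 ≤ dimFac d := pow_le_pow_right₀ (by simp) (by norm_num)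
      calc KP * τ * (|Cb P| * ((d : ℝ) + 1) ^ 2) / R ^ (P - 3)
          ≤ KP * 1 * (|Cb P| * dimFac d) / R ^ X := by
            have := dimFac_nonneg d
            gcongr
        _ = _ := by ring
  choose! w hw1 hw2 hwe using hW
  -- the evaluation operators
  set QE := ⌊R ^ qE'⌋₊ with hQE
  set δ := lad a (j + 1) R with hδ
  have hops : ∀ p, ∃ op, OpOK op QE (1 / 4) (scoreFam (nd p)) (levelFam (nd p)) (nd p / R ^ 4) δ
      (CE / R ^ Y) := by
    intro p
    have ht0 : 0 < nd p := hlo0.trans_le (hndm p).1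
    obtain ⟨op, Q, hQ, hok⟩ := hop R hRE' (j + 1) (nd p) (nd p / R ^ 4) δ hj ht0
      (by positivity) (by
        rw [div_mul_eq_mul_div, div_le_iff₀ (by positivity)]
        exact mul_le_mul_of_nonneg_left (pow_le_pow_right₀ hR1 (by norm_num)) ht0.le)
      (by
        refine le_trans ?_ htop
        rw [pow_succ, mul_assoc]
        refine mul_le_mul_of_nonneg_left (mul_le_mul_of_nonneg_left ?_ two_pos.le) (by positivity)
        linarith [(hndm p).2])
      (le_mul_of_one_le_left (lad_pos hR0 a (j + 1)).le (one_le_pow₀ hR1)) le_rfl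
    exact ⟨op, hok.mono (Nat.le_floor hQ) le_rfl le_rfl⟩
  have hδ1 : δ ≤ 1 := lad_le_one hR1 _ _
  have hδ0 : 0 ≤ δ := (lad_pos hR0 _ _).le
  -- the gain
  set gn := (R ^ G)⁻¹ with hgn
  have hgn0 : 0 < gn := by positivity
  have hgn1 : gn ≤ 1 := inv_le_one_of_one_le₀ (one_le_pow₀ hR1)
  have hgain : R ^ 3 * τ * (3 / 2) ≤ gn := by
    rw [hgn, inv_eq_one_div, le_div_iff₀' (by positivity)]
    calc R ^ G * (R ^ 3 * τ * (3 / 2)) ≤ R ^ G * (R ^ 3 * τ * R) := by gcongr; linarith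
      _ = τ * R ^ (G + 4) := by ring
      _ ≤ 1 := hτk _ (by omega)
  have hgY : gn * (CE / R ^ Y) ≤ CE / R ^ X := div_pow_le_of_gain hR1 hXY hCE
  set e : ℕ → ℝ := fun k => (c₀ + k * c₁) * (gn ^ (k + 1) + (R ^ X)⁻¹) with he
  set B := 2 + g.K * P * (2 * QE) with hB
  have key : ∀ k : ℕ, ∀ s ∈ Set.Icc lo (τ - s₁),
      ∃ T, Node (gadgetLaw τ s₁) 0 T (B ^ (k + 1)) 1 √(τ - s) R⁻¹ 1 (backVar Φ s₁ s) (s / R ^ 4)
        (e k) := by
    intro k
    induction k with
    | zero =>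
      intro s hs
      obtain ⟨T, hT⟩ := hΦ.node_zero hs₁0 hs₁τ hR0 (R := R) hndm hs hlo0.le (e := e 0)
        (hwe s hs) (by
          simp only [he, Nat.cast_zero, zero_mul, add_zero, zero_add, pow_one, hc₀]
          have h1 : (∑ p, |w s p|) * |Cb 0| ≤ R ^ 3 * τ * |Cb 0| :=
            mul_le_mul_of_nonneg_right (hw1 s hs) (abs_nonneg _)
          have h2 : R ^ 3 * τ * |Cb 0| ≤ gn * |Cb 0| :=
            mul_le_mul_of_nonneg_right
              (le_trans (le_mul_of_one_le_right (by positivity) (by norm_num)) hgain) (abs_nonneg _)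
          rw [div_eq_mul_inv (KP * |Cb P|)]
          have h3 : 0 ≤ KP * |Cb P| * gn := by positivity
          have h4 : 0 ≤ |Cb 0| * (R ^ X)⁻¹ := by positivity
          have h5 : 0 ≤ KP * |Cb P| * (R ^ X)⁻¹ := by positivity
          have h6 : 0 ≤ |Cb 0| * gn := by positivity
          simp only [mul_add, add_mul]
          linarith)
      exact ⟨T, hT.mono (by rw [zero_add, pow_one]; exact Nat.le_add_right _ _) le_rfl le_rfl le_rfl⟩
    | succ k ih =>
      intro s hs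
      have hek : 0 ≤ e k := by simp only [he]; positivity
      have hW0 : 0 ≤ ∑ p, |w s p| := Finset.sum_nonneg fun p _ => abs_nonneg _
      obtain ⟨T, hT⟩ := hΦ.node_succ hs₁0 hs₁τ hτ1 (by linarith : 2 ≤ R) hndm hs hlo0.le
        (EE := CE / R ^ Y) (e := e k) (e' := e (k + 1)) hδ0 hek hops (fun p => ih (nd p) (hndm p))
        (hwe s hs)
        (by
          refine le_trans (mul_le_mul (hw1 s hs) (by linarith : (5 / 2 : ℝ) ≤ R) (by norm_num)
            (by positivity)) ?_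
          rw [inv_eq_one_div, le_div_iff₀' hR0]
          calc R * (R ^ 3 * τ * R) = τ * R ^ 5 := by ring
            _ ≤ 1 := hτk 5 (by omega))
        (by
          rw [le_div_iff₀ (by positivity)]
          calc 1 / 4 * ((∑ p, w s p ^ 2) * δ) * R ^ 4 ≤ 1 * (R ^ 2 * τ ^ 2 * 1) * R ^ 4 := by
                gcongr
                · norm_num
                · exact hw2 s hs
            _ = τ ^ 2 * R ^ 6 := by ring
            _ ≤ τ ^ 2 * R ^ 8 :=
                mul_le_mul_of_nonneg_left (pow_le_pow_right₀ hR1 (by norm_num)) (sq_nonneg τ)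
            _ ≤ s := hs.1)
        (by
          have h1 : (∑ p, |w s p|) * (3 * e k + CE / R ^ Y) * (1 / 2)
              ≤ gn * e k + gn * (CE / R ^ Y) := by
            have h2 : R ^ 3 * τ ≤ gn :=
              le_trans (le_mul_of_one_le_right (by positivity) (by norm_num)) hgain
            have h3 : 0 ≤ CE / R ^ Y := by positivity
            calc (∑ p, |w s p|) * (3 * e k + CE / R ^ Y) * (1 / 2)
                ≤ R ^ 3 * τ * (3 * e k + CE / R ^ Y) * (1 / 2) := by gcongr; exact hw1 s hs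
              _ = (R ^ 3 * τ * (3 / 2)) * e k + (R ^ 3 * τ) * (CE / R ^ Y) * (1 / 2) := by ring
              _ ≤ gn * e k + gn * (CE / R ^ Y) := by
                  refine add_le_add (mul_le_mul_of_nonneg_right hgain hek) ?_
                  exact (mul_le_of_le_one_right (by positivity) (by norm_num)).trans
                    (mul_le_mul_of_nonneg_right h2 h3)
          have h4 : gn * e k ≤ (c₀ + k * c₁) * gn ^ (k + 1 + 1) + (c₀ + k * c₁) * (R ^ X)⁻¹ := by
            simp only [he]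
            rw [mul_left_comm, mul_add gn, ← pow_succ', mul_add]
            exact add_le_add le_rfl (mul_le_mul_of_nonneg_left
              (mul_le_of_le_one_left (by positivity) hgn1) (by positivity))
          have h5 : e (k + 1) = (c₀ + k * c₁) * gn ^ (k + 1 + 1) + (c₀ + k * c₁) * (R ^ X)⁻¹
              + c₁ * gn ^ (k + 1 + 1) + c₁ * (R ^ X)⁻¹ := by
            simp only [he, Nat.cast_add, Nat.cast_one]; ring
          have h6 : gn * (CE / R ^ Y) + 1 / 2 * (KP * |Cb P| / R ^ X) ≤ c₁ * (R ^ X)⁻¹ := by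
            have h7 : 0 ≤ KP * |Cb P| / R ^ X := by positivity
            rw [hc₁, add_mul, ← div_eq_mul_inv, ← div_eq_mul_inv]
            linarith
          have h8 : 0 ≤ c₁ * gn ^ (k + 1 + 1) := by positivity
          rw [h5]
          linarith)
      refine ⟨T, hT.mono ?_ le_rfl le_rfl le_rfl⟩
      have hBk : 1 ≤ B ^ (k + 1) := Nat.one_le_pow _ _ (by omega)
      simp only [Fintype.card_prod, Fintype.card_fin]
      calc 2 + g.K * P * (QE * (1 + B ^ (k + 1)))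
          ≤ 2 * B ^ (k + 1) + g.K * P * (QE * (2 * B ^ (k + 1))) := by gcongr <;> omega
        _ = B ^ (k + 1 + 1) := by rw [pow_succ' B (k + 1), hB]; ring
  obtain ⟨T, hT⟩ := key n lo ⟨le_rfl, hlob.le⟩
  refine ⟨T, B ^ (n + 1), ?_, hT.mono le_rfl le_rfl le_rfl ?_⟩
  · have hQE' : (QE : ℝ) ≤ R ^ qE' := Nat.floor_le (by positivity)
    have hBR : (B : ℝ) ≤ R ^ (qE' + 5) := by
      have h1 : (1 : ℝ) ≤ R ^ (qE' + 3) := one_le_pow₀ hR1
      have h2 : (B : ℝ) ≤ (2 + 2 * P) * R ^ (qE' + 3) := by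
        simp only [hB, Nat.cast_add, Nat.cast_mul, Nat.cast_ofNat, add_mul]
        refine add_le_add (le_mul_of_one_le_right two_pos.le h1) ?_
        calc (g.K : ℝ) * P * (2 * QE) ≤ R ^ 3 * P * (2 * R ^ qE') := by
              gcongr
              exact g.K_le
          _ = _ := by rw [pow_add]; ring
      refine h2.trans ((mul_le_mul_of_nonneg_right hRP (by positivity)).trans ?_)
      rw [← pow_succ']
      exact pow_le_pow_right₀ hR1 (by omega)
    push_cast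
    rw [pow_mul]
    exact pow_le_pow_left₀ (Nat.cast_nonneg _) hBR _
  · simp only [he]
    have h1 : gn ^ (n + 1) ≤ (R ^ X)⁻¹ := by
      rw [hgn, inv_pow, ← pow_mul]
      refine inv_anti₀ (by positivity) (pow_le_pow_right₀ hR1 ?_)
      calc X ≤ n * G := accExp_le_gain n a (m + 1) j
        _ ≤ G * (n + 1) := by rw [mul_comm]; exact Nat.mul_le_mul_left _ n.le_succ
    rw [div_eq_mul_inv]
    calc (c₀ + n * c₁) * (gn ^ (n + 1) + (R ^ X)⁻¹)
        ≤ (c₀ + n * c₁) * ((R ^ X)⁻¹ + (R ^ X)⁻¹) := by gcongr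
      _ = _ := by ring

end Vale.Agent.P347
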