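import Vale.Agent.P347.Defs

/-!
Gaussian facts: second moments, integration by parts, the rotation variance inequality.
-/

namespace Vale.Agent.P347

open MeasureTheory ProbabilityTheory Filter
open scoped Gradient RealInnerProductSpace Topology

variable {d : ℕ}

/-- The standard Gaussian measure on `Euc d`. -/
noncomputable abbrev gauss (d : ℕ) : Measure (Euc d) := stdGaussian (Euc d)

lemma gauss_rotation (θ : ℝ) :
    ((gauss d).prod (gauss d)).map (ContinuousLinearMap.rotation θ)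
      = (gauss d).prod (gauss d) :=
  IsGaussian.map_rotation_eq_self (by simp) θ

lemma integral_rotation {F : Type*} [NormedAddCommGroup F] [NormedSpace ℝ F]
    (θ : ℝ) {G : Euc d × Euc d → F} (hG : Continuous G) :
    ∫ p, G (ContinuousLinearMap.rotation θ p) ∂((gauss d).prod (gauss d))
      = ∫ p, G p ∂((gauss d).prod (gauss d)) := by
  conv_rhs => rw [← gauss_rotation θ]
  exact (integral_map (by fun_prop) hG.aestronglyMeasurable).symm

lemma gauss_integral_dual_sq (L : StrongDual ℝ (Euc d)) :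
    ∫ x, (L x) ^ 2 ∂(gauss d) = ‖L‖ ^ 2 := by
  have h := variance_dual_stdGaussian (E := Euc d) L
  rw [variance_eq_sub] at h
  · simpa using h
  · exact IsGaussian.memLp_dual _ L 2 (by norm_num)

lemma gauss_integral_inner_mul_inner (u v : Euc d) :
    ∫ x, ⟪u, x⟫ * ⟪v, x⟫ ∂(gauss d) = ⟪u, v⟫ := by
  have h : ∀ w : Euc d, ∫ x, ⟪w, x⟫ ^ 2 ∂(gauss d) = ‖w‖ ^ 2 := fun w => by
    simpa using gauss_integral_dual_sq (innerSL ℝ w)
  have hi : ∀ w : Euc d, Integrable (fun x => ⟪w, x⟫ ^ 2) (gauss d) := fun w => by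
    simpa using (IsGaussian.memLp_dual (gauss d) (innerSL ℝ w) 2 (by norm_num)).integrable_sq
  have key : ∀ x : Euc d, ⟪u, x⟫ * ⟪v, x⟫
      = (⟪u + v, x⟫ ^ 2 - ⟪u, x⟫ ^ 2 - ⟪v, x⟫ ^ 2) / 2 := fun x => by
    rw [inner_add_left]; ring
  simp only [key]
  have hab : Integrable (fun x => ⟪u + v, x⟫ ^ 2 - ⟪u, x⟫ ^ 2) (gauss d) := (hi _).sub (hi _)
  rw [integral_div, integral_sub hab (hi _), integral_sub (hi _) (hi _),
    h, h, h, norm_add_sq_real]
  ring

lemma gauss_integrable_norm_pow (n : ℕ) :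
    Integrable (fun x : Euc d => ‖x‖ ^ n) (gauss d) :=
  (IsGaussian.memLp_id (gauss d) (n : ENNReal) (by simp)).integrable_norm_pow'

lemma gauss_integrable_of_growth {F : Type*} [NormedAddCommGroup F] {f : Euc d → F}
    (hf : AEStronglyMeasurable f (gauss d)) {C : ℝ} {n : ℕ}
    (h : ∀ x, ‖f x‖ ≤ C * (1 + ‖x‖ ^ n)) : Integrable f (gauss d) :=
  Integrable.mono' (((integrable_const (1 : ℝ)).add (gauss_integrable_norm_pow n)).const_mul C)
    hf (.of_forall h)

lemma gauss_prod_integrable_of_growth {F : Type*} [NormedAddCommGroup F] {f : Euc d × Euc d → F}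
    (hf : Continuous f) {C : ℝ} {n : ℕ}
    (h : ∀ p, ‖f p‖ ≤ C * (1 + ‖p.1‖ ^ n + ‖p.2‖ ^ n)) :
    Integrable f ((gauss d).prod (gauss d)) := by
  refine Integrable.mono' ?_ hf.aestronglyMeasurable (.of_forall h)
  have hn := gauss_integrable_norm_pow (d := d) n
  exact ((((integrable_const (1 : ℝ)).add (hn.comp_fst _))).add (hn.comp_snd _)).const_mul C

lemma lipschitz_growth {f : Euc d → ℝ} {M : ℝ} (hf : Differentiable ℝ f)
    (hM : ∀ x, ‖fderiv ℝ f x‖ ≤ M) (x : Euc d) : |f x| ≤ |f 0| + M * ‖x‖ := by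
  have h := Convex.norm_image_sub_le_of_norm_fderiv_le (fun y _ => hf y) (fun y _ => hM y)
    convex_univ (Set.mem_univ (0 : Euc d)) (Set.mem_univ x)
  rw [Real.norm_eq_abs, sub_zero] at h
  linarith [abs_sub_abs_le_abs_sub (f x) (f 0)]

lemma hasDerivAt_rotation_fst (θ : ℝ) (p : Euc d × Euc d) :
    HasDerivAt (fun t => (ContinuousLinearMap.rotation t p).1)
      ((ContinuousLinearMap.rotation θ p).2) θ := by
  simp only [ContinuousLinearMap.rotation_apply]
  exact ((Real.hasDerivAt_cos θ).smul_const p.1).add ((Real.hasDerivAt_sin θ).smul_const p.2)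

lemma hasDerivAt_rotation_snd (θ : ℝ) (p : Euc d × Euc d) :
    HasDerivAt (fun t => (ContinuousLinearMap.rotation t p).2)
      (-(ContinuousLinearMap.rotation θ p).1) θ := by
  simp only [ContinuousLinearMap.rotation_apply]
  have h := ((Real.hasDerivAt_sin θ).fun_neg.smul_const p.1).fun_add
    ((Real.hasDerivAt_cos θ).smul_const p.2)
  have e : -(Real.cos θ • p.1 + Real.sin θ • p.2)
      = (-Real.cos θ) • p.1 + (-Real.sin θ) • p.2 := by rw [neg_add, neg_smul, neg_smul]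
  rw [e]
  exact h

lemma norm_rotation_fst_le (θ : ℝ) (p : Euc d × Euc d) :
    ‖(ContinuousLinearMap.rotation θ p).1‖ ≤ ‖p.1‖ + ‖p.2‖ := by
  simp only [ContinuousLinearMap.rotation_apply]
  refine (norm_add_le _ _).trans ?_
  simp only [norm_smul, Real.norm_eq_abs]
  gcongr
  · exact mul_le_of_le_one_left (norm_nonneg _) (Real.abs_cos_le_one θ)
  · exact mul_le_of_le_one_left (norm_nonneg _) (Real.abs_sin_le_one θ)

lemma norm_rotation_snd_le (θ : ℝ) (p : Euc d × Euc d) :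
    ‖(ContinuousLinearMap.rotation θ p).2‖ ≤ ‖p.1‖ + ‖p.2‖ := by
  simp only [ContinuousLinearMap.rotation_apply]
  refine (norm_add_le _ _).trans ?_
  simp only [norm_smul, Real.norm_eq_abs, abs_neg]
  gcongr
  · exact mul_le_of_le_one_left (norm_nonneg _) (Real.abs_sin_le_one θ)
  · exact mul_le_of_le_one_left (norm_nonneg _) (Real.abs_cos_le_one θ)

lemma sq_intervalIntegral_le {g : ℝ → ℝ} (hg : Continuous g) {T : ℝ} (hT : 0 < T) :
    (∫ t in (0:ℝ)..T, g t) ^ 2 ≤ T * ∫ t in (0:ℝ)..T, g t ^ 2 := by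
  have hi1 : IntervalIntegrable g volume 0 T := hg.intervalIntegrable _ _
  have hi2 : IntervalIntegrable (fun t => g t ^ 2) volume 0 T := (hg.pow 2).intervalIntegrable _ _
  generalize hc : ∫ t in (0:ℝ)..T, g t = c
  have hnn : 0 ≤ ∫ t in (0:ℝ)..T, (g t - c / T) ^ 2 :=
    intervalIntegral.integral_nonneg hT.le fun t _ => sq_nonneg _
  have hexp : (fun t => (g t - c / T) ^ 2)
      = fun t => g t ^ 2 - 2 * (c / T) * g t + (c / T) ^ 2 := by funext t; ring
  rw [hexp, intervalIntegral.integral_add (hi2.sub (hi1.const_mul _)) intervalIntegrable_const,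
    intervalIntegral.integral_sub hi2 (hi1.const_mul _), intervalIntegral.integral_const_mul,
    intervalIntegral.integral_const, hc, smul_eq_mul, sub_zero] at hnn
  have h2 : 0 ≤ (∫ t in (0:ℝ)..T, g t ^ 2) - c ^ 2 / T := by
    have e : (∫ t in (0:ℝ)..T, g t ^ 2) - 2 * (c / T) * c + T * (c / T) ^ 2
        = (∫ t in (0:ℝ)..T, g t ^ 2) - c ^ 2 / T := by field_simp; ring
    linarith
  have h3 : c ^ 2 / T ≤ ∫ t in (0:ℝ)..T, g t ^ 2 := by linarith
  rwa [div_le_iff₀ hT, mul_comm] at h3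

/-- Gaussian integration by parts for a `C¹` function with bounded derivative. -/
lemma gauss_ibp {f : Euc d → ℝ} (hf : ContDiff ℝ 1 f) {M : ℝ}
    (hM : ∀ x, ‖fderiv ℝ f x‖ ≤ M) (v : Euc d) :
    ∫ x, f x * ⟪v, x⟫ ∂(gauss d) = ∫ x, fderiv ℝ f x v ∂(gauss d) := by
  have hM0 : 0 ≤ M := (norm_nonneg _).trans (hM 0)
  have hdf : Differentiable ℝ f := hf.differentiable (by norm_num)
  have hfd : Continuous (fderiv ℝ f) := hf.continuous_fderiv (by norm_num)
  have hfc : Continuous f := hf.continuous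
  set μ := (gauss d).prod (gauss d) with hμ
  set R : ℝ → Euc d × Euc d → Euc d × Euc d := fun t p => ContinuousLinearMap.rotation t p
    with hR
  set G : ℝ → Euc d × Euc d → ℝ := fun t p => f (R t p).1 * ⟪v, (R t p).2⟫ with hG
  set G' : ℝ → Euc d × Euc d → ℝ := fun t p =>
    fderiv ℝ f (R t p).1 (R t p).2 * ⟪v, (R t p).2⟫ + f (R t p).1 * ⟪v, -(R t p).1⟫ with hG'
  have hbound : ∀ t p, |G' t p| ≤ (4 * M + |f 0| + 1) * ‖v‖ * (‖p.1‖ + ‖p.2‖ + 1) ^ 2 := by
    intro t p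
    have h1 := norm_rotation_fst_le t p
    have h2 := norm_rotation_snd_le t p
    set a := (R t p).1
    set b := (R t p).2
    set S := ‖p.1‖ + ‖p.2‖ + 1
    have ha : ‖a‖ ≤ S := by linarith
    have hb : ‖b‖ ≤ S := by linarith
    have hS : 1 ≤ S := by linarith [norm_nonneg p.1, norm_nonneg p.2]
    have e1 : |fderiv ℝ f a b| ≤ M * S := by
      rw [← Real.norm_eq_abs]
      exact ((fderiv ℝ f a).le_opNorm b).trans (mul_le_mul (hM a) hb (norm_nonneg _) hM0)
    have e2 : |⟪v, b⟫| ≤ ‖v‖ * S :=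
      (abs_real_inner_le_norm v b).trans (by gcongr)
    have e3 : |f a| ≤ (|f 0| + M) * S := by
      refine (lipschitz_growth hdf hM a).trans ?_
      nlinarith [abs_nonneg (f 0)]
    have e4 : |⟪v, -a⟫| ≤ ‖v‖ * S :=
      (abs_real_inner_le_norm v (-a)).trans (by rw [norm_neg]; gcongr)
    have hv := norm_nonneg v
    calc |G' t p| ≤ |fderiv ℝ f a b| * |⟪v, b⟫| + |f a| * |⟪v, -a⟫| := by
          simp only [hG']
          exact (abs_add_le _ _).trans (by rw [abs_mul, abs_mul])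
      _ ≤ M * S * (‖v‖ * S) + (|f 0| + M) * S * (‖v‖ * S) := by gcongr
      _ = (2 * M + |f 0|) * ‖v‖ * S ^ 2 := by ring
      _ ≤ (4 * M + |f 0| + 1) * ‖v‖ * S ^ 2 :=
        mul_le_mul_of_nonneg_right (mul_le_mul_of_nonneg_right
          (by linarith [abs_nonneg (f 0)]) hv) (sq_nonneg S)
  have hint2 : Integrable (fun p : Euc d × Euc d =>
      (4 * M + |f 0| + 1) * ‖v‖ * (‖p.1‖ + ‖p.2‖ + 1) ^ 2) μ := by
    refine gauss_prod_integrable_of_growth (by fun_prop) (C := 4 * (4 * M + |f 0| + 1) * ‖v‖)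
      (n := 2) fun p => ?_
    rw [Real.norm_eq_abs, abs_of_nonneg (by positivity), mul_assoc (4 * _), mul_assoc, mul_assoc]
    have : (‖p.1‖ + ‖p.2‖ + 1) ^ 2 ≤ 4 * (1 + ‖p.1‖ ^ 2 + ‖p.2‖ ^ 2) := by
      nlinarith [sq_nonneg (‖p.1‖ - ‖p.2‖), sq_nonneg (‖p.1‖ - 1), sq_nonneg (‖p.2‖ - 1)]
    have h4 : 0 ≤ 4 * M + |f 0| + 1 := by positivity
    nlinarith [mul_le_mul_of_nonneg_left this (mul_nonneg h4 (norm_nonneg v))]
  have hGc : ∀ t, Continuous (G t) := fun t => by simp only [hG, hR]; fun_prop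
  have hG0 : Integrable (G 0) μ := by
    refine gauss_prod_integrable_of_growth (hGc 0) (C := (|f 0| + 2 * M + 1) * (‖v‖ + 1))
      (n := 2) fun p => ?_
    have h1 := lipschitz_growth hdf hM p.1
    have h2 := abs_real_inner_le_norm v p.2
    have hx := norm_nonneg p.1
    have hy := norm_nonneg p.2
    have hv := norm_nonneg v
    have : G 0 p = f p.1 * ⟪v, p.2⟫ := by
      simp [hG, hR, ContinuousLinearMap.rotation_apply]
    rw [this, Real.norm_eq_abs, abs_mul]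
    calc |f p.1| * |⟪v, p.2⟫| ≤ (|f 0| + M * ‖p.1‖) * (‖v‖ * ‖p.2‖) := by gcongr
      _ = ‖v‖ * (|f 0| * ‖p.2‖ + M * (‖p.1‖ * ‖p.2‖)) := by ring
      _ ≤ (‖v‖ + 1) * ((|f 0| + 2 * M + 1) * (1 + ‖p.1‖ ^ 2 + ‖p.2‖ ^ 2)) := by
          gcongr
          · linarith
          · have i1 : ‖p.2‖ ≤ 1 + ‖p.1‖ ^ 2 + ‖p.2‖ ^ 2 := by
              nlinarith [sq_nonneg (‖p.2‖ - 1)]
            have i2 : ‖p.1‖ * ‖p.2‖ ≤ 1 + ‖p.1‖ ^ 2 + ‖p.2‖ ^ 2 := by
              nlinarith [sq_nonneg (‖p.1‖ - ‖p.2‖)]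
            nlinarith [mul_le_mul_of_nonneg_left i1 (abs_nonneg (f 0)),
              mul_le_mul_of_nonneg_left i2 hM0]
      _ = _ := by ring
  have key := hasDerivAt_integral_of_dominated_loc_of_deriv_le (μ := μ) (x₀ := (0 : ℝ))
    (F := G) (F' := G') (bound := fun p => (4 * M + |f 0| + 1) * ‖v‖ * (‖p.1‖ + ‖p.2‖ + 1) ^ 2)
    (Filter.univ_mem) (.of_forall fun t => (hGc t).aestronglyMeasurable) hG0
    (by apply Continuous.aestronglyMeasurable; simp only [hG', hR]; fun_prop)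
    (.of_forall fun p t _ => by simpa using hbound t p) hint2
    (.of_forall fun p t _ => by
      have h1 := (hdf _).hasFDerivAt.comp_hasDerivAt t (hasDerivAt_rotation_fst t p)
      have h2 := (innerSL ℝ v).hasFDerivAt.comp_hasDerivAt t (hasDerivAt_rotation_snd t p)
      exact h1.mul h2)
  have hconst : ∀ t, ∫ p, G t p ∂μ = ∫ p, G 0 p ∂μ := fun t => by
    have h := integral_rotation t (d := d) (G := fun p => f p.1 * ⟪v, p.2⟫) (by fun_prop)
    have h0 := integral_rotation 0 (d := d) (G := fun p => f p.1 * ⟪v, p.2⟫) (by fun_prop)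
    simp only [hG, hR]
    rw [h, h0]
  have hzero : ∫ p, G' 0 p ∂μ = 0 := by
    have h2 : HasDerivAt (fun t => ∫ p, G t p ∂μ) 0 0 := by
      simpa [funext hconst] using hasDerivAt_const (0 : ℝ) (∫ p, G 0 p ∂μ)
    exact key.2.unique h2
  have hA : Integrable (fun x => f x * ⟪v, x⟫) (gauss d) := by
    refine gauss_integrable_of_growth (by fun_prop) (C := (|f 0| + 2 * M) * ‖v‖) (n := 2)
      fun x => ?_
    rw [Real.norm_eq_abs, abs_mul]
    have h1 := lipschitz_growth hdf hM x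
    have h2 := abs_real_inner_le_norm v x
    calc |f x| * |⟪v, x⟫| ≤ (|f 0| + M * ‖x‖) * (‖v‖ * ‖x‖) := by gcongr
      _ = (|f 0| * ‖x‖ + M * ‖x‖ ^ 2) * ‖v‖ := by ring
      _ ≤ ((|f 0| + 2 * M) * (1 + ‖x‖ ^ 2)) * ‖v‖ := by
          gcongr
          have i1 : ‖x‖ ≤ 1 + ‖x‖ ^ 2 := by nlinarith [sq_nonneg (‖x‖ - 1)]
          nlinarith [mul_le_mul_of_nonneg_left i1 (abs_nonneg (f 0)), sq_nonneg ‖x‖]
      _ = _ := by ring
  have hB : Integrable (fun p : Euc d × Euc d => fderiv ℝ f p.1 p.2 * ⟪v, p.2⟫) μ := by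
    refine gauss_prod_integrable_of_growth (by fun_prop) (C := M * ‖v‖) (n := 2) fun p => ?_
    rw [Real.norm_eq_abs, abs_mul]
    have e1 : |fderiv ℝ f p.1 p.2| ≤ M * ‖p.2‖ :=
      ((fderiv ℝ f p.1).le_opNorm p.2).trans (by gcongr; exact hM _)
    calc |fderiv ℝ f p.1 p.2| * |⟪v, p.2⟫| ≤ M * ‖p.2‖ * (‖v‖ * ‖p.2‖) :=
          mul_le_mul e1 (abs_real_inner_le_norm v p.2) (abs_nonneg _) (by positivity)
      _ = M * ‖v‖ * ‖p.2‖ ^ 2 := by ring
      _ ≤ M * ‖v‖ * (1 + ‖p.1‖ ^ 2 + ‖p.2‖ ^ 2) := by gcongr; nlinarith [sq_nonneg ‖p.1‖]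
  have hsplit : ∀ p, G' 0 p = fderiv ℝ f p.1 p.2 * ⟪v, p.2⟫ - f p.1 * ⟪v, p.1⟫ := fun p => by
    simp [hG', hR, ContinuousLinearMap.rotation_apply, inner_neg_right, sub_eq_add_neg]
  simp only [hsplit] at hzero
  rw [integral_sub hB (hA.comp_fst _), hμ, integral_prod _ hB] at hzero
  have hinner : ∀ x : Euc d, ∫ y, fderiv ℝ f x y * ⟪v, y⟫ ∂(gauss d) = fderiv ℝ f x v := by
    intro x
    set u := (InnerProductSpace.toDual ℝ (Euc d)).symm (fderiv ℝ f x) with hu
    have hu' : ∀ y, fderiv ℝ f x y = ⟪u, y⟫ := fun y => by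
      rw [hu, InnerProductSpace.toDual_symm_apply]
    simp only [hu']
    exact gauss_integral_inner_mul_inner u v
  simp only [hinner] at hzero
  rw [integral_fun_fst (μ := gauss d) (ν := gauss d) (fun x => f x * ⟪v, x⟫)] at hzero
  simp only [probReal_univ, one_smul] at hzero
  linarith

lemma sq_increment_le {f : Euc d → ℝ} (hf : ContDiff ℝ 1 f) (p : Euc d × Euc d) :
    (f p.2 - f p.1) ^ 2 ≤ (Real.pi / 2) * ∫ t in (0:ℝ)..(Real.pi / 2),
      fderiv ℝ f (ContinuousLinearMap.rotation t p).1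
        (ContinuousLinearMap.rotation t p).2 ^ 2 := by
  have hfd : Continuous (fderiv ℝ f) := hf.continuous_fderiv (by norm_num)
  set g : ℝ → ℝ := fun t => fderiv ℝ f (ContinuousLinearMap.rotation t p).1
    (ContinuousLinearMap.rotation t p).2 with hg
  have hgc : Continuous g := by
    simp only [hg, ContinuousLinearMap.rotation_apply]
    fun_prop
  set G : ℝ → ℝ := fun t => f (ContinuousLinearMap.rotation t p).1 with hG
  have hd : ∀ t, HasDerivAt G (g t) t := fun t =>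
    ((hf.differentiable (by norm_num)) _).hasFDerivAt.comp_hasDerivAt t
      (hasDerivAt_rotation_fst t p)
  have hftc : ∫ t in (0:ℝ)..(Real.pi / 2), g t = G (Real.pi / 2) - G 0 :=
    intervalIntegral.integral_eq_sub_of_hasDerivAt (fun t _ => hd t) (hgc.intervalIntegrable _ _)
  have e1 : G (Real.pi / 2) = f p.2 := by simp [hG, ContinuousLinearMap.rotation_apply]
  have e2 : G 0 = f p.1 := by simp [hG, ContinuousLinearMap.rotation_apply]
  rw [← e1, ← e2, ← hftc]
  exact sq_intervalIntegral_le hgc (by positivity)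

/-- Rotation proof of a dimension-free Gaussian variance inequality. -/
lemma gauss_variance_le {f : Euc d → ℝ} (hf : ContDiff ℝ 1 f) {M : ℝ}
    (hM : ∀ x, ‖fderiv ℝ f x‖ ≤ M) :
    ∫ x, f x ^ 2 ∂(gauss d) - (∫ x, f x ∂(gauss d)) ^ 2
      ≤ 2 * ∫ x, ‖fderiv ℝ f x‖ ^ 2 ∂(gauss d) := by
  have hM0 : 0 ≤ M := (norm_nonneg _).trans (hM 0)
  have hdf : Differentiable ℝ f := hf.differentiable (by norm_num)
  have hfd : Continuous (fderiv ℝ f) := hf.continuous_fderiv (by norm_num)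
  have hfc : Continuous f := hf.continuous
  set μ := (gauss d).prod (gauss d) with hμ
  have hf1 : Integrable f (gauss d) := by
    refine gauss_integrable_of_growth (by fun_prop) (C := |f 0| + M) (n := 1) fun x => ?_
    rw [Real.norm_eq_abs, pow_one]
    nlinarith [lipschitz_growth hdf hM x, norm_nonneg x, abs_nonneg (f 0)]
  have hf2 : Integrable (fun x => f x ^ 2) (gauss d) := by
    refine gauss_integrable_of_growth (by fun_prop) (C := 2 * f 0 ^ 2 + 2 * M ^ 2) (n := 2)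
      fun x => ?_
    have h1 := lipschitz_growth hdf hM x
    have h2 : f x ^ 2 ≤ (|f 0| + M * ‖x‖) ^ 2 := by
      rw [← sq_abs (f x)]; gcongr
    rw [Real.norm_eq_abs, abs_of_nonneg (sq_nonneg _)]
    nlinarith [sq_nonneg (|f 0| - M * ‖x‖), sq_abs (f 0), sq_nonneg (‖x‖), sq_nonneg M]
  have hD : Integrable (fun p : Euc d × Euc d => (fderiv ℝ f p.1 p.2) ^ 2) μ := by
    refine gauss_prod_integrable_of_growth (by fun_prop) (C := M ^ 2) (n := 2) fun p => ?_
    rw [Real.norm_eq_abs, abs_of_nonneg (sq_nonneg _), ← sq_abs (fderiv ℝ f p.1 p.2)]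
    calc |fderiv ℝ f p.1 p.2| ^ 2 ≤ (M * ‖p.2‖) ^ 2 := by
          gcongr; exact ((fderiv ℝ f p.1).le_opNorm p.2).trans (by gcongr; exact hM _)
      _ = M ^ 2 * ‖p.2‖ ^ 2 := by ring
      _ ≤ M ^ 2 * (1 + ‖p.1‖ ^ 2 + ‖p.2‖ ^ 2) := by gcongr; nlinarith [sq_nonneg ‖p.1‖]
  have hDval : ∫ p, (fderiv ℝ f p.1 p.2) ^ 2 ∂μ = ∫ x, ‖fderiv ℝ f x‖ ^ 2 ∂(gauss d) := by
    rw [hμ, integral_prod _ hD]
    simp only [gauss_integral_dual_sq]
  -- the squared increment as a time integral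
  set A : Euc d × Euc d → ℝ → ℝ := fun p t =>
    fderiv ℝ f (ContinuousLinearMap.rotation t p).1 (ContinuousLinearMap.rotation t p).2 with hA
  have hAc : Continuous (Function.uncurry A) := by
    simp only [hA, Function.uncurry_def, ContinuousLinearMap.rotation_apply]; fun_prop
  have hpt : ∀ p : Euc d × Euc d,
      (f p.2 - f p.1) ^ 2 ≤ (Real.pi / 2) * ∫ t in (0:ℝ)..(Real.pi / 2), A p t ^ 2 :=
    fun p => sq_increment_le hf p
  haveI hfin : IsFiniteMeasure (volume.restrict (Set.uIoc (0:ℝ) (Real.pi / 2))) :=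
    ⟨by simp [Real.volume_uIoc]⟩
  have hAint : Integrable (Function.uncurry A · ^ 2)
      (μ.prod (volume.restrict (Set.uIoc (0:ℝ) (Real.pi / 2)))) := by
    have hdom : ∀ q : (Euc d × Euc d) × ℝ,
        ‖Function.uncurry A q ^ 2‖ ≤ 2 * M ^ 2 * (‖q.1.1‖ ^ 2 + ‖q.1.2‖ ^ 2) := by
      intro q
      rw [Real.norm_eq_abs, abs_of_nonneg (sq_nonneg _), ← sq_abs]
      have e : |Function.uncurry A q| ≤ M * (‖q.1.1‖ + ‖q.1.2‖) :=
        ((fderiv ℝ f _).le_opNorm _).trans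
          (mul_le_mul (hM _) (norm_rotation_snd_le q.2 q.1) (norm_nonneg _) hM0)
      calc |Function.uncurry A q| ^ 2 ≤ (M * (‖q.1.1‖ + ‖q.1.2‖)) ^ 2 := by gcongr
        _ ≤ _ := by nlinarith [sq_nonneg (‖q.1.1‖ - ‖q.1.2‖), sq_nonneg M]
    have hn := gauss_integrable_norm_pow (d := d) 2
    refine Integrable.mono' ?_ ((hAc.pow 2).aestronglyMeasurable) (.of_forall hdom)
    exact ((((hn.comp_fst _).add (hn.comp_snd _)).const_mul _).comp_fst _)
  have hI1 : Integrable (fun p : Euc d × Euc d => (f p.2 - f p.1) ^ 2) μ := by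
    have h := ((hf2.comp_snd (gauss d)).add (hf2.comp_fst (gauss d))).sub
      ((hf1.mul_prod hf1).const_mul 2)
    refine h.congr (.of_forall fun p => ?_)
    simp only [Pi.add_apply, Pi.sub_apply]
    ring
  have hmain : ∫ p, (f p.2 - f p.1) ^ 2 ∂μ
      ≤ (Real.pi / 2) * ((Real.pi / 2) * ∫ x, ‖fderiv ℝ f x‖ ^ 2 ∂(gauss d)) := by
    have hI2 : Integrable (fun p => ∫ t in (0:ℝ)..(Real.pi / 2), A p t ^ 2) μ := by
      simp only [intervalIntegral.intervalIntegral_eq_integral_uIoc]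
      exact Integrable.smul (if 0 ≤ Real.pi / 2 then (1:ℝ) else -1) hAint.integral_prod_left
    refine (integral_mono hI1 (hI2.const_mul _) hpt).trans (le_of_eq ?_)
    rw [integral_const_mul, ← intervalIntegral_integral_swap]
    · have hconst : ∀ t, ∫ p, A p t ^ 2 ∂μ = ∫ x, ‖fderiv ℝ f x‖ ^ 2 ∂(gauss d) := fun t => by
        rw [← hDval]
        exact integral_rotation t (G := fun p => (fderiv ℝ f p.1 p.2) ^ 2) (by fun_prop)
      simp [hconst]
    · refine hAint.swap.congr (.of_forall fun q => ?_)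
      rfl
  have hvar : ∫ p, (f p.2 - f p.1) ^ 2 ∂μ
      = 2 * (∫ x, f x ^ 2 ∂(gauss d) - (∫ x, f x ∂(gauss d)) ^ 2) := by
    have e : (fun p : Euc d × Euc d => (f p.2 - f p.1) ^ 2)
        = fun p => f p.2 ^ 2 + f p.1 ^ 2 - 2 * (f p.1 * f p.2) := by funext p; ring
    have hs : Integrable (fun p : Euc d × Euc d => f p.2 ^ 2 + f p.1 ^ 2) μ :=
      (hf2.comp_snd _).add (hf2.comp_fst _)
    rw [e, integral_sub hs ((hf1.mul_prod hf1).const_mul _),
      integral_add (hf2.comp_snd _) (hf2.comp_fst _), hμ, integral_const_mul, integral_prod_mul,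
      integral_fun_snd (μ := gauss d) (ν := gauss d) (fun x => f x ^ 2),
      integral_fun_fst (μ := gauss d) (ν := gauss d) (fun x => f x ^ 2)]
    simp only [probReal_univ, one_smul]
    ring
  have hpi : Real.pi / 2 * (Real.pi / 2) ≤ 4 := by nlinarith [Real.pi_le_four, Real.pi_pos]
  have hnn : 0 ≤ ∫ x, ‖fderiv ℝ f x‖ ^ 2 ∂(gauss d) := integral_nonneg fun x => sq_nonneg _
  nlinarith [mul_le_mul_of_nonneg_right hpi hnn]

end Vale.Agent.P347
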