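import Vale.Agent.P347.Tensor
import Vale.Agent.P347.Gauss

/-!
Smooth potentials, the heat semigroup, smoothed potentials and posterior measures.
-/

namespace Vale.Agent.P347

open MeasureTheory ProbabilityTheory
open scoped Gradient RealInnerProductSpace ContDiff

variable {d : ℕ}

/-- A smooth potential with Hessian between `l` and `L` and bounded higher derivatives. -/
structure NicePot (d : ℕ) (V : Euc d → ℝ) (l L : ℝ) : Prop where
  pos : 0 < l
  smooth : ContDiff ℝ ∞ V
  hessian_lower : ∀ x v : Euc d, l * ‖v‖ ^ 2 ≤ fderiv ℝ (fderiv ℝ V) x v v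
  hessian_upper : ∀ x v : Euc d, fderiv ℝ (fderiv ℝ V) x v v ≤ L * ‖v‖ ^ 2
  higher : ∀ n : ℕ, 3 ≤ n → ∃ C : ℝ, ∀ x, ‖iteratedFDeriv ℝ n V x‖ ≤ C

/-- The heat semigroup `P_t f (y) = E f (y + √t η)`. -/
noncomputable def heat {F : Type*} [NormedAddCommGroup F] [NormedSpace ℝ F]
    (t : ℝ) (f : Euc d → F) (y : Euc d) : F :=
  ∫ η, f (y + √t • η) ∂(gauss d)

/-- The smoothed unnormalised density `q_t = P_t e^{-V}`. -/
noncomputable def smoothDensity (V : Euc d → ℝ) (t : ℝ) (y : Euc d) : ℝ :=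
  heat t (fun z => Real.exp (-V z)) y

/-- The smoothed potential `U_t = -log q_t`. -/
noncomputable def smoothPot (V : Euc d → ℝ) (t : ℝ) (y : Euc d) : ℝ :=
  -Real.log (smoothDensity V t y)

/-- The smoothed score `g_t = ∇ U_t`. -/
noncomputable def score (V : Euc d → ℝ) (t : ℝ) (y : Euc d) : Euc d :=
  ∇ (smoothPot V t) y

/-- The posterior expectation `E[φ(z) | y]` at noise level `t`. -/
noncomputable def postMean {F : Type*} [NormedAddCommGroup F] [NormedSpace ℝ F]
    (V : Euc d → ℝ) (t : ℝ) (φ : Euc d → F) (y : Euc d) : F :=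
  (smoothDensity V t y)⁻¹ • heat t (fun z => Real.exp (-V z) • φ z) y

/-- The law with density proportional to `q_t`. -/
noncomputable def levelLaw (V : Euc d → ℝ) (t : ℝ) : Measure (Euc d) :=
  gibbs (smoothPot V t)

end Vale.Agent.P347
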