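import Vale.Agent.P347.CalcIdent

/-!
Elementary properties of `Family.Good` and `Family.Reg`.
-/

namespace Vale.Agent.P347

open MeasureTheory
open scoped RealInnerProductSpace ContDiff

variable {ι : Type} [Fintype ι] [DecidableEq ι]
variable {I : Set ℝ} {k l n : ℕ}

omit [DecidableEq ι] in
theorem AllSplit.mono {C C' : ℝ} {T : Ten ι n} (h : AllSplit C T) (hC : C ≤ C') :
    AllSplit C' T := fun a b e ha hb A B =>
  (h a b e ha hb A B).trans (by gcongr)

omit [DecidableEq ι] in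
theorem allSplit_zero {C : ℝ} (hC : 0 ≤ C) : AllSplit C (0 : Ten ι n) := by
  intro a b e _ _ A B
  simp only [PiLp.zero_apply, zero_mul, Finset.sum_const_zero, abs_zero]
  positivity

theorem Tame.nablaIter {f : ℝ → Sp ι → Ten ι k} (hf : Tame I f) (hI : IsOpen I) (i : ℕ) :
    Tame I fun t => nablaIter (f t) i := by
  induction i with
  | zero => exact hf
  | succ i ih => exact ih.nabla hI

theorem nabla_add {f g : ℝ → Sp ι → Ten ι k} (hf : Tame I f) (hg : Tame I g) {t : ℝ} (ht : t ∈ I)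
    (x : Sp ι) : nabla (fun y => f t y + g t y) x = nabla (f t) x + nabla (g t) x := by
  ext α
  change fderiv ℝ (fun y => f t y + g t y) x _ _ = fderiv ℝ (f t) x _ _ + fderiv ℝ (g t) x _ _
  rw [fderiv_fun_add (hf.differentiableAt_space ht x) (hg.differentiableAt_space ht x)]
  rfl

omit [Fintype ι] in
theorem nabla_const (c : Ten ι k) (x : Sp ι) : nabla (fun _ => c) x = 0 := by
  ext α
  change fderiv ℝ (fun _ : Sp ι => c) x _ _ = 0
  simp

theorem nablaIter_add {f g : ℝ → Sp ι → Ten ι k} (hf : Tame I f) (hg : Tame I g) (hI : IsOpen I)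
    {t : ℝ} (ht : t ∈ I) (i : ℕ) :
    nablaIter (fun y => f t y + g t y) i = fun x => nablaIter (f t) i x + nablaIter (g t) i x := by
  induction i with
  | zero => rfl
  | succ i ih =>
    change nabla (nablaIter (fun y => f t y + g t y) i) = _
    rw [ih]
    funext x
    exact nabla_add (hf.nablaIter hI i) (hg.nablaIter hI i) ht x

/-- The reindexing induced on the slots of the gradient. -/
def succEquiv (σ : Fin k ≃ Fin l) : Fin (k + 1) ≃ Fin (l + 1) :=
  (finSuccEquiv k).trans ((Equiv.optionCongr σ).trans (finSuccEquiv l).symm)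

theorem nabla_perm {f : ℝ → Sp ι → Ten ι k} (hf : Tame I f) (hI : IsOpen I) (σ : Fin k ≃ Fin l)
    {t : ℝ} (ht : t ∈ I) (x : Sp ι) :
    nabla (fun y => permTen σ (f t y)) x = permTen (succEquiv σ) (nabla (f t) x) := by
  ext α
  rw [nabla_apply (hf.perm hI σ) ht x, permTen_apply, nabla_apply hf ht x]
  have h0 : (α ∘ succEquiv σ) 0 = α 0 := by simp [succEquiv]
  have h1 : Fin.tail (α ∘ succEquiv σ) = Fin.tail α ∘ σ := by
    funext s; simp [succEquiv, Fin.tail]
  rw [h0, h1]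
  rfl

theorem nablaIter_perm {f : ℝ → Sp ι → Ten ι k} (hf : Tame I f) (hI : IsOpen I)
    (σ : Fin k ≃ Fin l) {t : ℝ} (ht : t ∈ I) (i : ℕ) :
    ∃ τ : Fin (k + i) ≃ Fin (l + i), nablaIter (fun y => permTen σ (f t y)) i
      = fun x => permTen τ (nablaIter (f t) i x) := by
  induction i with
  | zero => exact ⟨σ, rfl⟩
  | succ i ih =>
    obtain ⟨τ, hτ⟩ := ih
    refine ⟨succEquiv τ, ?_⟩
    change nabla (nablaIter (fun y => permTen σ (f t y)) i) = _
    rw [hτ]
    funext x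
    exact nabla_perm (hf.nablaIter hI i) hI τ ht x

theorem nablaIter_nabla {f : ℝ → Sp ι → Ten ι k} (hf : Tame I f) (hI : IsOpen I) {t : ℝ}
    (ht : t ∈ I) (i : ℕ) :
    ∃ τ : Fin (k + (i + 1)) ≃ Fin (k + 1 + i), nablaIter (nabla (f t)) i
      = fun x => permTen τ (nablaIter (f t) (i + 1) x) := by
  induction i with
  | zero => exact ⟨Equiv.refl _, rfl⟩
  | succ i ih =>
    obtain ⟨τ, hτ⟩ := ih
    refine ⟨succEquiv τ, ?_⟩
    change nabla (nablaIter (nabla (f t)) i) = _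
    rw [hτ]
    funext x
    exact nabla_perm (hf.nablaIter hI (i + 1)) hI τ ht x

theorem norm_nablaIter_nabla {f : ℝ → Sp ι → Ten ι k} (hf : Tame I f) (hI : IsOpen I) {t : ℝ}
    (ht : t ∈ I) (i : ℕ) (x : Sp ι) :
    ‖nablaIter (nabla (f t)) i x‖ = ‖nablaIter (f t) (i + 1) x‖ := by
  obtain ⟨τ, hτ⟩ := nablaIter_nabla hf hI ht i
  rw [hτ]
  exact norm_permTen τ _

theorem nablaIter_const_zero (i : ℕ) (x : Sp ι) :
    nablaIter (fun _ : Sp ι => (0 : Ten ι k)) i x = 0 := by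
  induction i generalizing x with
  | zero => rfl
  | succ i ih =>
    change nabla (nablaIter (fun _ : Sp ι => (0 : Ten ι k)) i) x = 0
    rw [funext ih]
    exact nabla_const 0 x

theorem nablaIter_const_succ (c : Ten ι k) (i : ℕ) (x : Sp ι) :
    nablaIter (fun _ : Sp ι => c) (i + 1) x = 0 := by
  induction i generalizing x with
  | zero => exact nabla_const c x
  | succ i ih =>
    change nabla (nablaIter (fun _ : Sp ι => c) (i + 1)) x = 0
    rw [funext ih]
    exact nabla_const 0 x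

namespace Family

variable {F : Family ι} {J : Set ℝ} {j : ℕ} {C C' M M' M₁ M₂ : ℝ}

theorem Good.tame {N : ℕ} {K : ℝ → Sp ι → Ten ι n} (h : F.Good J C N K) : Tame F.dom K := by
  cases N with
  | zero => exact h.1
  | succ N => exact h.1.1

theorem Good.allSplit {N : ℕ} {K : ℝ → Sp ι → Ten ι n} (h : F.Good J C N K) :
    ∀ t ∈ J, ∀ x, AllSplit C (K t x) := by
  cases N with
  | zero => exact h.2
  | succ N => exact h.1.2

theorem Good.pred {N : ℕ} {K : ℝ → Sp ι → Ten ι n} (h : F.Good J C (N + 1) K) :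
    F.Good J C N K := by
  induction N generalizing n K with
  | zero => exact h.1
  | succ N ih =>
    obtain ⟨h1, h2, K1, K0, hK1, hK0, hD⟩ := h
    exact ⟨h1, ih h2, K1, K0, ih hK1, ih hK0, hD⟩

theorem Good.of_le {N N' : ℕ} {K : ℝ → Sp ι → Ten ι n} (h : F.Good J C N K) (hN : N' ≤ N) :
    F.Good J C N' K := by
  induction hN with
  | refl => exact h
  | step _ ih => exact ih h.pred

theorem Good.mono {N : ℕ} {K : ℝ → Sp ι → Ten ι n} (h : F.Good J C N K) (hC : C ≤ C') :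
    F.Good J C' N K := by
  induction N generalizing n K with
  | zero => exact ⟨h.1, fun t ht x => (h.2 t ht x).mono hC⟩
  | succ N ih =>
    obtain ⟨h1, h2, K1, K0, hK1, hK0, hD⟩ := h
    exact ⟨⟨h1.1, fun t ht x => (h1.2 t ht x).mono hC⟩, ih h2, K1, K0, ih hK1, ih hK0, hD⟩

theorem D_const (c : Ten ι k) (t : ℝ) (x : Sp ι) : F.D (fun _ _ => c) t x = 0 := by
  change fderiv ℝ (fun _ : ℝ × Sp ι => c) (t, x) _ = 0
  simp

theorem delta_const_zero (t : ℝ) (x : Sp ι) :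
    F.delta (fun _ _ => (0 : Ten ι (k + 1))) t x = 0 := by
  ext α
  simp [delta, nabla_const]

theorem good_const (N : ℕ) {c : Ten ι n} (hc : AllSplit C c) (hC : 0 ≤ C) :
    F.Good J C N fun _ _ => c := by
  induction N generalizing n c with
  | zero => exact ⟨Tame.const c, fun _ _ _ => hc⟩
  | succ N ih =>
    refine ⟨⟨Tame.const c, fun _ _ _ => hc⟩, ?_, fun _ _ => 0, fun _ _ => 0,
      ih (allSplit_zero hC), ih (allSplit_zero hC), fun t _ x => ?_⟩
    · have h : (fun (_ : ℝ) => nabla fun _ : Sp ι => c) = fun _ _ => (0 : Ten ι (n + 1)) := by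
        funext t x
        exact nabla_const c x
      rw [h]
      exact ih (allSplit_zero hC)
    · rw [D_const, delta_const_zero, add_zero]

theorem D_congr {f g : ℝ → Sp ι → Ten ι k} (h : ∀ t ∈ F.dom, ∀ x, g t x = f t x) {t : ℝ}
    (ht : t ∈ F.dom) (x : Sp ι) : F.D g t x = F.D f t x := by
  have he : (fun q : ℝ × Sp ι => g q.1 q.2) =ᶠ[nhds (t, x)] fun q => f q.1 q.2 := by
    filter_upwards [(F.isOpen_dom.prod isOpen_univ).mem_nhds
      (show (t, x) ∈ F.dom ×ˢ (Set.univ : Set (Sp ι)) from ⟨ht, Set.mem_univ _⟩)] with q hq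
    exact h q.1 hq.1 q.2
  simp only [D, he.fderiv_eq]

theorem iterD_congr {f g : ℝ → Sp ι → Ten ι k} (h : ∀ t ∈ F.dom, ∀ x, g t x = f t x) (i : ℕ) :
    ∀ t ∈ F.dom, ∀ x, (F.D^[i]) g t x = (F.D^[i]) f t x := by
  induction i generalizing f g with
  | zero => exact h
  | succ i ih =>
    simp only [Function.iterate_succ_apply]
    exact ih fun t ht x => D_congr h ht x

theorem tame_iterD {f : ℝ → Sp ι → Ten ι k} (hf : Tame F.dom f) (i : ℕ) :
    Tame F.dom ((F.D^[i]) f) := by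
  induction i with
  | zero => exact hf
  | succ i ih =>
    rw [Function.iterate_succ_apply']
    exact F.tame_D ih

theorem D_clm {f : ℝ → Sp ι → Ten ι k} (hf : Tame F.dom f) (L : Ten ι k →L[ℝ] Ten ι l) {t : ℝ}
    (ht : t ∈ F.dom) (x : Sp ι) : F.D (fun s y => L (f s y)) t x = L (F.D f t x) := by
  have h : HasFDerivAt (fun q : ℝ × Sp ι => L (f q.1 q.2))
      (L.comp (fderiv ℝ (fun q : ℝ × Sp ι => f q.1 q.2) (t, x))) (t, x) :=
    L.hasFDerivAt.comp (t, x) (hf.differentiableAt F.isOpen_dom ht x).hasFDerivAt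
  simp only [D, h.fderiv]
  rfl

theorem iterD_clm {f : ℝ → Sp ι → Ten ι k} (hf : Tame F.dom f) (L : Ten ι k →L[ℝ] Ten ι l)
    (i : ℕ) : ∀ t ∈ F.dom, ∀ x, (F.D^[i]) (fun s y => L (f s y)) t x = L ((F.D^[i]) f t x) := by
  induction i generalizing f with
  | zero => exact fun _ _ _ => rfl
  | succ i ih =>
    intro t ht x
    simp only [Function.iterate_succ_apply]
    rw [iterD_congr (fun s hs y => D_clm hf L hs y) i t ht x]
    exact ih (F.tame_D hf) t ht x

theorem D_add {f g : ℝ → Sp ι → Ten ι k} (hf : Tame F.dom f) (hg : Tame F.dom g) {t : ℝ}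
    (ht : t ∈ F.dom) (x : Sp ι) :
    F.D (fun s y => f s y + g s y) t x = F.D f t x + F.D g t x := by
  simp only [D]
  rw [fderiv_fun_add (hf.differentiableAt F.isOpen_dom ht x)
    (hg.differentiableAt F.isOpen_dom ht x)]
  rfl

theorem iterD_add {f g : ℝ → Sp ι → Ten ι k} (hf : Tame F.dom f) (hg : Tame F.dom g) (i : ℕ) :
    ∀ t ∈ F.dom, ∀ x,
      (F.D^[i]) (fun s y => f s y + g s y) t x = (F.D^[i]) f t x + (F.D^[i]) g t x := by
  induction i generalizing f g with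
  | zero => exact fun _ _ _ => rfl
  | succ i ih =>
    intro t ht x
    simp only [Function.iterate_succ_apply]
    rw [iterD_congr (fun s hs y => D_add hf hg hs y) i t ht x]
    exact ih (F.tame_D hf) (F.tame_D hg) t ht x

theorem iterD_const_zero (i : ℕ) :
    (F.D^[i]) (fun (_ : ℝ) (_ : Sp ι) => (0 : Ten ι k)) = fun _ _ => 0 := by
  induction i with
  | zero => rfl
  | succ i ih =>
    rw [Function.iterate_succ_apply', ih]
    funext t x
    exact D_const 0 t x

theorem integrable_sq {f : ℝ → Sp ι → Ten ι k} (hf : Tame F.dom f) {t : ℝ} (ht : t ∈ F.dom) :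
    Integrable (fun x => ‖f t x‖ ^ 2) (F.μ t) :=
  have := F.prob t ht
  hf.integrable_norm_sq F.isOpen_dom ht _ (F.integrable_poly t ht)

theorem Reg.tame {f : ℝ → Sp ι → Ten ι k} (h : F.Reg J j n M f) : Tame F.dom f := h.1

theorem Reg.mono {j' n' : ℕ} {f : ℝ → Sp ι → Ten ι k} (h : F.Reg J j' n' M f) (hj : j ≤ j')
    (hn : n ≤ n') (hM0 : 0 ≤ M) (hM : M ≤ M') : F.Reg J j n M' f :=
  ⟨h.1, fun a ha i hi t ht => (h.2 a (ha.trans hj) i (hi.trans hn) t ht).trans
    (pow_le_pow_left₀ hM0 hM 2)⟩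

theorem Reg.of_le {j' n' : ℕ} {f : ℝ → Sp ι → Ten ι k} (h : F.Reg J j' n' M f) (hj : j ≤ j')
    (hn : n ≤ n') : F.Reg J j n M f :=
  ⟨h.1, fun a ha i hi t ht => h.2 a (ha.trans hj) i (hi.trans hn) t ht⟩

theorem Reg.congr {f g : ℝ → Sp ι → Ten ι k} (h : F.Reg J j n M f) (hJ : J ⊆ F.dom)
    (he : ∀ t ∈ F.dom, ∀ x, g t x = f t x) : F.Reg J j n M g := by
  refine ⟨h.1.of_eq F.isOpen_dom he, fun a ha i hi t ht => ?_⟩
  have e : (F.D^[a]) g t = (F.D^[a]) f t := funext (iterD_congr he a t (hJ ht))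
  rw [e]
  exact h.2 a ha i hi t ht

theorem Reg.perm {f : ℝ → Sp ι → Ten ι k} (h : F.Reg J j n M f) (hJ : J ⊆ F.dom)
    (σ : Fin k ≃ Fin l) : F.Reg J j n M fun t x => permTen σ (f t x) := by
  refine ⟨h.1.perm F.isOpen_dom σ, fun a ha i hi t ht => ?_⟩
  have e : (F.D^[a]) (fun t x => permTen σ (f t x)) t
      = fun x => permTen σ ((F.D^[a]) f t x) :=
    funext (iterD_clm h.1 (permL σ) a t (hJ ht))
  obtain ⟨τ, hτ⟩ := nablaIter_perm (tame_iterD h.1 a) F.isOpen_dom σ (hJ ht) i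
  rw [e, hτ]
  simp only [norm_permTen]
  exact h.2 a ha i hi t ht

theorem sq_integral_add_le {f g : ℝ → Sp ι → Ten ι k} (hf : Tame F.dom f) (hg : Tame F.dom g)
    {t : ℝ} (ht : t ∈ F.dom) (h1 : ∫ x, ‖f t x‖ ^ 2 ∂(F.μ t) ≤ M₁ ^ 2)
    (h2 : ∫ x, ‖g t x‖ ^ 2 ∂(F.μ t) ≤ M₂ ^ 2) (hM1 : 0 ≤ M₁) (hM2 : 0 ≤ M₂) :
    ∫ x, ‖f t x + g t x‖ ^ 2 ∂(F.μ t) ≤ (M₁ + M₂) ^ 2 := by
  have key : ∀ A B : ℝ, 0 < A → 0 < B → ∫ x, ‖f t x‖ ^ 2 ∂(F.μ t) ≤ A ^ 2 →
      ∫ x, ‖g t x‖ ^ 2 ∂(F.μ t) ≤ B ^ 2 →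
      ∫ x, ‖f t x + g t x‖ ^ 2 ∂(F.μ t) ≤ (A + B) ^ 2 := by
    intro A B hA hB hfA hgB
    have hp : ∀ x, ‖f t x + g t x‖ ^ 2
        ≤ (A + B) / A * ‖f t x‖ ^ 2 + (A + B) / B * ‖g t x‖ ^ 2 := by
      intro x
      refine (pow_le_pow_left₀ (norm_nonneg _) (norm_add_le (f t x) (g t x)) 2).trans ?_
      rw [div_mul_eq_mul_div, div_mul_eq_mul_div, div_add_div _ _ hA.ne' hB.ne',
        le_div_iff₀ (by positivity)]
      nlinarith [sq_nonneg (B * ‖f t x‖ - A * ‖g t x‖), hA, hB]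
    have i1 := (integrable_sq hf ht).const_mul ((A + B) / A)
    have i2 := (integrable_sq hg ht).const_mul ((A + B) / B)
    refine (integral_mono (integrable_sq (hf.add hg F.isOpen_dom) ht) (i1.add i2) hp).trans ?_
    simp only [Pi.add_apply]
    rw [integral_add i1 i2, integral_const_mul, integral_const_mul]
    calc _ ≤ (A + B) / A * A ^ 2 + (A + B) / B * B ^ 2 := by gcongr
      _ = (A + B) ^ 2 := by field_simp
  have hlim : Filter.Tendsto (fun ε : ℝ => (M₁ + ε + (M₂ + ε)) ^ 2)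
      (nhdsWithin 0 (Set.Ioi 0)) (nhds ((M₁ + M₂) ^ 2)) := by
    refine Filter.Tendsto.mono_left ?_ nhdsWithin_le_nhds
    exact Continuous.tendsto' (by fun_prop) _ _ (by simp)
  refine ge_of_tendsto hlim (eventually_nhdsWithin_of_forall fun ε hε => ?_)
  have hε : 0 < ε := hε
  refine key _ _ (by positivity) (by positivity) (h1.trans ?_) (h2.trans ?_) <;>
    nlinarith

theorem Reg.add {f g : ℝ → Sp ι → Ten ι k} (hf : F.Reg J j n M₁ f) (hg : F.Reg J j n M₂ g)
    (hJ : J ⊆ F.dom) (hM1 : 0 ≤ M₁) (hM2 : 0 ≤ M₂) :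
    F.Reg J j n (M₁ + M₂) fun t x => f t x + g t x := by
  refine ⟨hf.1.add hg.1 F.isOpen_dom, fun a ha i hi t ht => ?_⟩
  have e : (F.D^[a]) (fun t x => f t x + g t x) t
      = fun x => (F.D^[a]) f t x + (F.D^[a]) g t x :=
    funext (iterD_add hf.1 hg.1 a t (hJ ht))
  rw [e, nablaIter_add (tame_iterD hf.1 a) (tame_iterD hg.1 a) F.isOpen_dom (hJ ht) i]
  exact sq_integral_add_le ((tame_iterD hf.1 a).nablaIter F.isOpen_dom i)
    ((tame_iterD hg.1 a).nablaIter F.isOpen_dom i) (hJ ht) (hf.2 a ha i hi t ht)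
    (hg.2 a ha i hi t ht) hM1 hM2

theorem Reg.smul {f : ℝ → Sp ι → Ten ι k} (h : F.Reg J j n M f) (hJ : J ⊆ F.dom) (r : ℝ) :
    F.Reg J j n (|r| * M) fun t x => r • f t x := by
  refine ⟨h.1.const_smul F.isOpen_dom r, fun a ha i hi t ht => ?_⟩
  have hf := tame_iterD h.1 a
  have e : (F.D^[a]) (fun t x => r • f t x) t = fun x => r • (F.D^[a]) f t x :=
    funext (iterD_clm h.1 (r • ContinuousLinearMap.id ℝ (Ten ι k)) a t (hJ ht))
  have e' : ∀ i, nablaIter (fun x => r • (F.D^[a]) f t x) i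
      = fun x => r • nablaIter ((F.D^[a]) f t) i x := by
    intro i
    induction i with
    | zero => rfl
    | succ i ih =>
      change nabla (nablaIter (fun x => r • (F.D^[a]) f t x) i) = _
      rw [ih]
      funext x
      ext α
      change fderiv ℝ (fun y => r • nablaIter ((F.D^[a]) f t) i y) x _ _ = _
      rw [fderiv_fun_const_smul ((hf.nablaIter F.isOpen_dom i).differentiableAt_space (hJ ht) x)]
      rfl
  rw [e, e']
  simp only [norm_smul, mul_pow, Real.norm_eq_abs, integral_const_mul]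
  exact mul_le_mul_of_nonneg_left (h.2 a ha i hi t ht) (sq_nonneg _)

theorem Reg.neg {f : ℝ → Sp ι → Ten ι k} (h : F.Reg J j n M f) (hJ : J ⊆ F.dom) :
    F.Reg J j n M fun t x => -(f t x) := by
  simpa using h.smul hJ (-1)

theorem Reg.sub {f g : ℝ → Sp ι → Ten ι k} (hf : F.Reg J j n M₁ f) (hg : F.Reg J j n M₂ g)
    (hJ : J ⊆ F.dom) (hM1 : 0 ≤ M₁) (hM2 : 0 ≤ M₂) :
    F.Reg J j n (M₁ + M₂) fun t x => f t x - g t x := by
  simpa only [sub_eq_add_neg] using hf.add (hg.neg hJ) hJ hM1 hM2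

theorem Reg.D {f : ℝ → Sp ι → Ten ι k} (h : F.Reg J (j + 1) n M f) :
    F.Reg J j n M (F.D f) := by
  refine ⟨F.tame_D h.1, fun a ha i hi t ht => ?_⟩
  have := h.2 (a + 1) (by omega) i hi t ht
  rwa [Function.iterate_succ_apply] at this

theorem Reg.of_D {f : ℝ → Sp ι → Ten ι k} (h0 : F.Reg J 0 n M f)
    (h : F.Reg J j n M (F.D f)) : F.Reg J (j + 1) n M f := by
  refine ⟨h0.1, fun a ha i hi t ht => ?_⟩
  rcases a with - | a
  · exact h0.2 0 le_rfl i hi t ht
  · rw [Function.iterate_succ_apply]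
    exact h.2 a (by omega) i hi t ht

theorem Reg.nabla_zero {f : ℝ → Sp ι → Ten ι k} (h : F.Reg J 0 (n + 1) M f) (hJ : J ⊆ F.dom) :
    F.Reg J 0 n M fun t => nabla (f t) := by
  refine ⟨h.1.nabla F.isOpen_dom, fun a ha i hi t ht => ?_⟩
  obtain rfl : a = 0 := by omega
  simp only [Function.iterate_zero, id_eq, norm_nablaIter_nabla h.1 F.isOpen_dom (hJ ht)]
  exact h.2 0 le_rfl (i + 1) (by omega) t ht

theorem Reg.of_nabla {f : ℝ → Sp ι → Ten ι k} (h0 : F.Reg J 0 0 M f)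
    (h : F.Reg J 0 n M fun t => nabla (f t)) (hJ : J ⊆ F.dom) : F.Reg J 0 (n + 1) M f := by
  refine ⟨h0.1, fun a ha i hi t ht => ?_⟩
  obtain rfl : a = 0 := by omega
  rcases i with - | i
  · exact h0.2 0 le_rfl 0 le_rfl t ht
  · have := h.2 0 le_rfl i (by omega) t ht
    simp only [Function.iterate_zero, id_eq, norm_nablaIter_nabla h0.1 F.isOpen_dom (hJ ht)] at this
    exact this

theorem reg_zero_zero {f : ℝ → Sp ι → Ten ι k} (hf : Tame F.dom f)
    (h : ∀ t ∈ J, ∫ x, ‖f t x‖ ^ 2 ∂(F.μ t) ≤ M ^ 2) : F.Reg J 0 0 M f := by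
  refine ⟨hf, fun a ha i hi t ht => ?_⟩
  obtain rfl : a = 0 := by omega
  obtain rfl : i = 0 := by omega
  exact h t ht

theorem reg_const {c : Ten ι k} (hJ : J ⊆ F.dom) (hc : ‖c‖ ≤ M) :
    F.Reg J j n M fun _ _ => c := by
  refine ⟨Tame.const c, fun a _ i _ t ht => ?_⟩
  have := F.prob t (hJ ht)
  rcases a with - | a
  · rcases i with - | i
    · simp only [Function.iterate_zero, id_eq, nablaIter, integral_const, probReal_univ, one_smul]
      exact pow_le_pow_left₀ (norm_nonneg _) hc 2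
    · simp only [Function.iterate_zero, id_eq, nablaIter_const_succ]
      simpa using sq_nonneg M
  · have h : (F.D^[a + 1]) (fun (_ : ℝ) (_ : Sp ι) => c) = fun _ _ => 0 := by
      rw [Function.iterate_succ_apply, show F.D (fun _ _ => c) = fun _ _ => 0 from
        funext fun t => funext fun x => D_const c t x, iterD_const_zero]
    simp only [h, nablaIter_const_zero]
    simpa using sq_nonneg M

end Family

end Vale.Agent.P347
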