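import Vale.Agent.P347.Specs
import Vale.Agent.P347.CalcReg

/-!
Dimension-free closure of `Family.Reg` under gradient, divergence and contraction.
-/

namespace Vale.Agent.P347

open MeasureTheory
open scoped RealInnerProductSpace ContDiff

variable {ι : Type} [Fintype ι] [DecidableEq ι]

omit [DecidableEq ι] in
theorem AllSplit.norm_act_le {C : ℝ} {K : Ten ι 2} (hK : AllSplit C K) (hC : 0 ≤ C)
    (e : Fin 1 ⊕ Fin 1 ≃ Fin 2) {k : ℕ} (f : Ten ι (k + 1)) : ‖act e K f‖ ≤ C * ‖f‖ := by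
  rw [act, norm_permTen]
  refine (hK.norm_contractTen_le hC e one_pos one_pos _).trans_eq ?_
  rw [norm_permTen]

namespace Family

variable {F : Family ι} {J : Set ℝ} {k : ℕ}

theorem integral_scalar_ibp {h : ℝ → Sp ι → ℝ} (hh : Tame F.dom h) {t : ℝ} (ht : t ∈ F.dom)
    (i : ι) : ∫ x, (pd i h t x - h t x * pd i F.Ψ t x) ∂(F.μ t) = 0 := by
  have := F.prob t ht
  have hI := F.isOpen_dom
  rw [integral_sub ((hh.pd hI i).integrable ht _ (F.integrable_poly t ht))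
    ((hh.mul (F.tame_Ψ.pd hI i) hI).integrable ht _ (F.integrable_poly t ht))]
  exact sub_eq_zero.2 (F.ibp t ht h hh i)

/-- `delta` is the adjoint of the gradient. -/
theorem adjoint_delta {f : ℝ → Sp ι → Ten ι k} {u : ℝ → Sp ι → Ten ι (k + 1)}
    (hf : Tame F.dom f) (hu : Tame F.dom u) {t : ℝ} (ht : t ∈ F.dom) :
    ∫ x, ⟪nabla (f t) x, u t x⟫ ∂(F.μ t) = ∫ x, ⟪f t x, F.delta u t x⟫ ∂(F.μ t) := by
  have := F.prob t ht
  have hI := F.isOpen_dom
  have hf' : ∀ γ : Fin k → ι, Tame F.dom fun s y => f s y γ := fun γ => hf.component hI γ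
  have hu' : ∀ β : Fin (k + 1) → ι, Tame F.dom fun s y => u s y β := fun β => hu.component hI β
  have hint := F.integrable_poly t ht
  rw [← sub_eq_zero, ← integral_sub
    ((hf.nabla hI).integrable_inner hu hI ht _ hint)
    (hf.integrable_inner (F.tame_delta hu) hI ht _ hint)]
  have key : ∀ x, ⟪nabla (f t) x, u t x⟫ - ⟪f t x, F.delta u t x⟫
      = ∑ i : ι, ∑ γ : Fin k → ι,
        (pd i (fun s y => f s y γ * u s y (Fin.cons i γ)) t x
          - f t x γ * u t x (Fin.cons i γ) * pd i F.Ψ t x) := by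
    intro x
    simp only [PiLp.inner_apply, Real.inner_apply, sum_pi_succ, nabla_apply hf ht x,
      Fin.cons_zero, Fin.tail_cons, F.delta_apply hu ht x, Finset.mul_sum]
    conv_lhs => arg 2; rw [Finset.sum_comm]
    rw [← Finset.sum_sub_distrib]
    refine Finset.sum_congr rfl fun i _ => ?_
    rw [← Finset.sum_sub_distrib]
    refine Finset.sum_congr rfl fun γ _ => ?_
    rw [pd_mul (hf' γ) (hu' _) ht x]
    ring
  simp only [key]
  have hterm : ∀ i γ, Integrable (fun x => pd i (fun s y => f s y γ * u s y (Fin.cons i γ)) t x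
      - f t x γ * u t x (Fin.cons i γ) * pd i F.Ψ t x) (F.μ t) := fun i γ =>
    Tame.integrable ((((hf' γ).mul (hu' _) hI).pd hI i).sub
      (((hf' γ).mul (hu' _) hI).mul (F.tame_Ψ.pd hI i) hI) hI) ht _ hint
  rw [integral_finsetSum _ fun i _ => integrable_finsetSum _ fun γ _ => hterm i γ]
  refine Finset.sum_eq_zero fun i _ => ?_
  rw [integral_finsetSum _ fun γ _ => hterm i γ]
  exact Finset.sum_eq_zero fun γ _ => integral_scalar_ibp ((hf' γ).mul (hu' _) hI) ht i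

/-- The `L²` bound of the divergence. -/
theorem integral_sq_delta_le {C : ℝ} (hC : 0 ≤ C) {w : ℝ → Sp ι → Ten ι (k + 1)}
    (hw : Tame F.dom w) {t : ℝ} (ht : t ∈ F.dom)
    (hH : ∀ x, AllSplit C (derivTen (F.Ψ t) 2 x)) :
    ∫ x, ‖F.delta w t x‖ ^ 2 ∂(F.μ t)
      ≤ C * ∫ x, ‖w t x‖ ^ 2 ∂(F.μ t) + ∫ x, ‖nabla (w t) x‖ ^ 2 ∂(F.μ t) := by
  have := F.prob t ht
  have hI := F.isOpen_dom
  have hint := F.integrable_poly t ht
  have hT := F.tame_delta hw
  have hA : Tame F.dom fun t x => act splitId (derivTen (F.Ψ t) 2 x) (w t x) :=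
    F.tame_hess.act hw hI splitId
  have hB : Tame F.dom fun t x => permTen (swap01 k) (nabla (w t) x) :=
    (hw.nabla hI).perm hI _
  have e1 : ∫ x, ⟪nabla (F.delta w t) x, w t x⟫ ∂(F.μ t)
      = ∫ x, ‖F.delta w t x‖ ^ 2 ∂(F.μ t) := by
    rw [adjoint_delta hT hw ht]
    simp only [real_inner_self_eq_norm_sq]
  have e2 : ∫ x, ⟪nabla (F.delta w t) x, w t x⟫ ∂(F.μ t)
      = ∫ x, ⟪act splitId (derivTen (F.Ψ t) 2 x) (w t x), w t x⟫ ∂(F.μ t)
        + ∫ x, ⟪nabla (w t) x, permTen (swap01 k) (nabla (w t) x)⟫ ∂(F.μ t) := by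
    rw [adjoint_delta hw hB ht, ← integral_add (hA.integrable_inner hw hI ht _ hint)
      (hw.integrable_inner (F.tame_delta hB) hI ht _ hint)]
    refine integral_congr_ae (ae_of_all _ fun x => ?_)
    simp only [F.nabla_delta hw ht x, inner_add_left]
    rw [real_inner_comm (w t x) (F.delta (fun t x => permTen (swap01 k) (nabla (w t) x)) t x)]
  rw [← e1, e2]
  refine add_le_add ?_ ?_
  · rw [← integral_const_mul]
    refine integral_mono (hA.integrable_inner hw hI ht _ hint)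
      ((integrable_sq hw ht).const_mul C) fun x => ?_
    refine (real_inner_le_norm _ _).trans ?_
    calc _ ≤ C * ‖w t x‖ * ‖w t x‖ :=
          mul_le_mul_of_nonneg_right ((hH x).norm_act_le hC _ _) (norm_nonneg _)
      _ = C * ‖w t x‖ ^ 2 := by ring
  · refine integral_mono ((hw.nabla hI).integrable_inner hB hI ht _ hint)
      (integrable_sq (hw.nabla hI) ht) fun x => ?_
    refine (real_inner_le_norm _ _).trans ?_
    rw [norm_permTen, sq]

theorem reg_contract_zero_zero {a b c m : ℕ} {C₀ M : ℝ} {K : ℝ → Sp ι → Ten ι m}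
    {f : ℝ → Sp ι → Ten ι (b + c)} (hJ : J ⊆ F.dom) (hK : Tame F.dom K) (hC : 0 ≤ C₀)
    (hb : ∀ t ∈ J, ∀ x, AllSplit C₀ (K t x)) (e : Fin a ⊕ Fin b ≃ Fin m) (ha0 : 0 < a)
    (hb0 : 0 < b) (hf : F.Reg J 0 0 M f) :
    F.Reg J 0 0 (C₀ * M) fun t x => contractTen e (K t x) (f t x) := by
  refine reg_zero_zero (hK.contract hf.tame F.isOpen_dom e) fun t ht => ?_
  have h := hf.2 0 le_rfl 0 le_rfl t ht
  simp only [Function.iterate_zero, id_eq] at h
  calc ∫ x, ‖contractTen e (K t x) (f t x)‖ ^ 2 ∂(F.μ t)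
      ≤ ∫ x, C₀ ^ 2 * ‖f t x‖ ^ 2 ∂(F.μ t) := by
        refine integral_mono (integrable_sq (hK.contract hf.tame F.isOpen_dom e) (hJ ht))
          ((integrable_sq hf.tame (hJ ht)).const_mul _) fun x => ?_
        rw [← mul_pow]
        exact pow_le_pow_left₀ (norm_nonneg _) ((hb t ht x).norm_contractTen_le hC e ha0 hb0 _) 2
    _ = C₀ ^ 2 * ∫ x, ‖f t x‖ ^ 2 ∂(F.μ t) := integral_const_mul _ _
    _ ≤ (C₀ * M) ^ 2 := by
        rw [mul_pow]
        exact mul_le_mul_of_nonneg_left h (sq_nonneg _)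

/-- Contractions at the base level. -/
theorem reg_contract_zero (n : ℕ) :
    ∀ {a b c m : ℕ} {C₀ M : ℝ} {K : ℝ → Sp ι → Ten ι m} {f : ℝ → Sp ι → Ten ι (b + c)}
      (e : Fin a ⊕ Fin b ≃ Fin m), J ⊆ F.dom → 0 < a → 0 < b → 0 ≤ C₀ → 0 ≤ M →
      F.Good J C₀ n K → F.Reg J 0 n M f →
      F.Reg J 0 n (2 ^ n * C₀ * M) fun t x => contractTen e (K t x) (f t x) := by
  induction n with
  | zero =>
    intro a b c m C₀ M K f e hJ ha hb hC _ hK hf
    simpa using reg_contract_zero_zero hJ hK.tame hC hK.allSplit e ha hb hf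
  | succ n ih =>
    intro a b c m C₀ M K f e hJ ha hb hC hM hK hf
    have h2 : 0 ≤ (2 : ℝ) ^ n * C₀ * M := by positivity
    have h0 := reg_contract_zero_zero hJ hK.tame hC hK.allSplit e ha hb
      (hf.of_le le_rfl (Nat.zero_le _))
    have hle : C₀ * M ≤ 2 ^ (n + 1) * C₀ * M := by
      calc C₀ * M = 1 * C₀ * M := by ring
        _ ≤ 2 ^ (n + 1) * C₀ * M := by gcongr; exact one_le_pow₀ one_le_two
    have hA := (ih (splitL e) hJ (Nat.succ_pos a) hb hC hM hK.2.1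
      (hf.of_le le_rfl n.le_succ)).perm hJ (castL a c)
    have hB := (ih e hJ ha hb hC hM hK.pred ((hf.nabla_zero hJ).perm hJ (pull b c))).perm hJ
      (pull a c).symm
    refine Reg.of_nabla (h0.mono le_rfl le_rfl (by positivity) hle) ?_ hJ
    refine ((hA.add hB hJ h2 h2).congr hJ fun t ht x => ?_).mono le_rfl le_rfl (by positivity)
      (le_of_eq (by ring))
    exact F.nabla_contract hK.tame hf.tame e ht x

/-- The divergence at the base level. -/
theorem reg_delta_zero {C : ℝ} (hC : 0 ≤ C) (n : ℕ) :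
    ∀ {k : ℕ} {M : ℝ} {w : ℝ → Sp ι → Ten ι (k + 1)}, J ⊆ F.dom → 0 ≤ M →
      F.Good J C n (fun t => derivTen (F.Ψ t) 2) → F.Reg J 0 (n + 1) M w →
      F.Reg J 0 n ((n + 1) * (2 ^ n * C + 1) * M) (F.delta w) := by
  induction n with
  | zero =>
    intro k M w hJ hM hH hw
    refine reg_zero_zero (F.tame_delta hw.tame) fun t ht => ?_
    have h0 := hw.2 0 le_rfl 0 (Nat.zero_le _) t ht
    have h1 := hw.2 0 le_rfl 1 le_rfl t ht
    simp only [Function.iterate_zero, id_eq, nablaIter] at h0 h1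
    refine (integral_sq_delta_le hC hw.tame (hJ ht) (hH.allSplit t ht)).trans ?_
    calc _ ≤ C * M ^ 2 + M ^ 2 := add_le_add (mul_le_mul_of_nonneg_left h0 hC) h1
      _ ≤ (((0 : ℕ) + 1 : ℝ) * (2 ^ 0 * C + 1) * M) ^ 2 := by
        push_cast
        nlinarith [mul_nonneg hC (sq_nonneg M), mul_nonneg (sq_nonneg C) (sq_nonneg M)]
  | succ n ih =>
    intro k M w hJ hM hH hw
    have h1 : 0 ≤ (2 : ℝ) ^ n * C * M := by positivity
    have h2 : 0 ≤ ((n : ℝ) + 1) * (2 ^ n * C + 1) * M := by positivity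
    have h3 : 0 ≤ ((n : ℝ) + 1) * (2 ^ n * C + 1) * M + 2 ^ n * C * M := add_nonneg h2 h1
    have h4 : 0 ≤ (2 : ℝ) ^ n * M * C * ((n : ℝ) + 1) := by positivity
    have hlow := ih hJ hM hH.pred (hw.of_le le_rfl (n + 1).le_succ)
    have hA : F.Reg J 0 n (2 ^ n * C * M)
        fun t x => act splitId (derivTen (F.Ψ t) 2 x) (w t x) :=
      (reg_contract_zero n splitId hJ one_pos one_pos hC hM hH.pred
        ((hw.of_le le_rfl (by omega)).perm hJ (finCongr (Nat.add_comm k 1)))).perm hJ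
          (finCongr (Nat.add_comm 1 k))
    have hB := ih hJ hM hH.pred ((hw.nabla_zero hJ).perm hJ (swap01 k))
    push_cast
    refine Reg.of_nabla ((hlow.of_le le_rfl (Nat.zero_le n)).mono le_rfl le_rfl h2 ?_) ?_ hJ
    · rw [pow_succ]; nlinarith
    · refine ((hA.add hB hJ h1 h2).congr hJ fun t ht x => ?_).mono le_rfl le_rfl
        (add_nonneg h1 h2) (by rw [pow_succ]; nlinarith)
      exact F.nabla_delta hw.tame ht x

end Family

/-- The three closure properties at the level `j`, with explicit parameters. -/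
def CloseAt (C : ℕ → ℝ) (j n n' N : ℕ) (C' : ℝ) : Prop :=
  ∀ (ι : Type) [Fintype ι] [DecidableEq ι] (F : Family ι) (J : Set ℝ), F.Controlled J C →
    ∀ (M : ℝ), 0 ≤ M →
      (∀ (k : ℕ) (f : ℝ → Sp ι → Ten ι k), F.Reg J j n' M f →
        F.Reg J j n (C' * M) (fun t => nabla (f t))) ∧
      (∀ (k : ℕ) (f : ℝ → Sp ι → Ten ι (k + 1)), F.Reg J j n' M f →
        F.Reg J j n (C' * M) (F.delta f)) ∧
      (∀ (a b c m : ℕ) (e : Fin a ⊕ Fin b ≃ Fin m) (K : ℝ → Sp ι → Ten ι m) (C₀ : ℝ),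
        0 < a → 0 < b → 0 ≤ C₀ → F.Good J C₀ N K → ∀ f : ℝ → Sp ι → Ten ι (b + c),
          F.Reg J j n' M f →
            F.Reg J j n (C' * C₀ * M) (fun t x => contractTen e (K t x) (f t x)))

/-- Contraction with a coefficient that is a divergence plus a controlled field. -/
def CoefAt (C : ℕ → ℝ) (j n n' N : ℕ) (C' : ℝ) : Prop :=
  ∀ (ι : Type) [Fintype ι] [DecidableEq ι] (F : Family ι) (J : Set ℝ), F.Controlled J C →
    ∀ (M : ℝ), 0 ≤ M →
    ∀ (a b c m : ℕ) (e : Fin a ⊕ Fin b ≃ Fin m) (K : ℝ → Sp ι → Ten ι m)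
      (K1 : ℝ → Sp ι → Ten ι (m + 1)) (K0 : ℝ → Sp ι → Ten ι m) (C₀ : ℝ),
      0 < a → 0 < b → 0 ≤ C₀ → F.Good J C₀ N K1 → F.Good J C₀ N K0 →
      (∀ t ∈ F.dom, ∀ x, K t x = F.delta K1 t x + K0 t x) →
      ∀ f : ℝ → Sp ι → Ten ι (b + c), F.Reg J j n' M f →
        F.Reg J j n (C' * C₀ * M) (fun t x => contractTen e (K t x) (f t x))

variable {C : ℕ → ℝ} {j : ℕ}

theorem closeAt_base (C : ℕ → ℝ) (n : ℕ) :
    ∃ (n' N : ℕ) (C' : ℝ), 0 ≤ C' ∧ CloseAt C 0 n n' N C' := by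
  set c : ℝ := max (C n) 0 with hc
  have hc0 : 0 ≤ c := le_max_right _ _
  refine ⟨n + 1, n, 1 + 2 ^ n + (n + 1) * (2 ^ n * c + 1), by positivity, ?_⟩
  intro ι _ _ F J hF M hM
  refine ⟨fun k f hf => ?_, fun k f hf => ?_, fun a b d m e K C₀ ha hb hC₀ hK f hf => ?_⟩
  · refine (hf.nabla_zero hF.1).mono le_rfl le_rfl hM (le_mul_of_one_le_left hM ?_)
    have : 0 ≤ (2 : ℝ) ^ n + (n + 1) * (2 ^ n * c + 1) := by positivity
    linarith
  · refine (Family.reg_delta_zero hc0 n hF.1 hM ((hF.2 n).1.mono (le_max_left _ _)) hf).mono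
      le_rfl le_rfl (by positivity) (mul_le_mul_of_nonneg_right ?_ hM)
    have : 0 ≤ (2 : ℝ) ^ n := by positivity
    linarith
  · refine (Family.reg_contract_zero n e hF.1 ha hb hC₀ hM hK (hf.of_le le_rfl n.le_succ)).mono
      le_rfl le_rfl (by positivity) (mul_le_mul_of_nonneg_right ?_ hM)
    refine mul_le_mul_of_nonneg_right ?_ hC₀
    have : 0 ≤ ((n : ℝ) + 1) * (2 ^ n * c + 1) := by positivity
    linarith

theorem coefAt_of_closeAt (IH : ∀ n, ∃ (n' N : ℕ) (C' : ℝ), 0 ≤ C' ∧ CloseAt C j n n' N C')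
    (n : ℕ) : ∃ (n' N : ℕ) (C' : ℝ), 0 ≤ C' ∧ CoefAt C j n n' N C' := by
  obtain ⟨n₁, N₁, c₁, hc₁, h₁⟩ := IH n
  obtain ⟨n₂, N₂, c₂, hc₂, h₂⟩ := IH n₁
  refine ⟨max n₁ n₂, max N₁ N₂, c₁ * c₂ + c₁ * c₂ + c₁, by positivity, ?_⟩
  intro ι _ _ F J hF M hM a b c m e K K1 K0 C₀ ha hb hC₀ hK1 hK0 hdec f hf
  obtain ⟨hnab₂, -, hcon₂⟩ := h₂ ι F J hF M hM
  have hf₂ := hf.of_le le_rfl (le_max_right n₁ n₂)
  -- the divergence part
  have hG := (hcon₂ (a + 1) b c (m + 1) (splitL e) K1 C₀ (Nat.succ_pos a) hb hC₀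
    (hK1.of_le (le_max_right _ _)) f hf₂).perm hF.1 (castL a c)
  have hdG := (h₁ ι F J hF (c₂ * C₀ * M) (by positivity)).2.1 _ _ hG
  -- the gradient part
  have hN := (h₁ ι F J hF (c₂ * M) (by positivity)).2.2 a (b + 1) c (m + 1) (splitR e) K1 C₀ ha
    (Nat.succ_pos b) hC₀ (hK1.of_le (le_max_left _ _)) _
    ((hnab₂ _ f hf₂).perm hF.1 (castL b c).symm)
  have h0 := (h₁ ι F J hF M hM).2.2 a b c m e K0 C₀ ha hb hC₀ (hK0.of_le (le_max_left _ _)) f
    (hf.of_le le_rfl (le_max_left n₁ n₂))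
  refine (((hdG.add hN hF.1 (by positivity) (by positivity)).add h0 hF.1 (by positivity)
    (by positivity)).congr hF.1 fun t ht x => ?_).mono le_rfl le_rfl (by positivity)
    (le_of_eq (by ring))
  rw [hdec t ht x, contractTen_add_left, F.contract_delta hK1.tame hf.tame e ht x]

theorem act_gradB_reg {n n' N : ℕ} {c' : ℝ} (h : CoefAt C j n n' N c') {ι : Type} [Fintype ι]
    [DecidableEq ι] {F : Family ι} {J : Set ℝ} (hF : F.Controlled J C) {M : ℝ} (hM : 0 ≤ M)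
    (e : Fin 1 ⊕ Fin 1 ≃ Fin 2) {k : ℕ} {w : ℝ → Sp ι → Ten ι (k + 1)} (hw : F.Reg J j n' M w) :
    F.Reg J j n (c' * max (C N) 0 * M) fun t x => act e (F.gradB t x) (w t x) := by
  obtain ⟨-, B1, B0, hB1, hB0, hdec⟩ := hF.2 N
  exact (h ι F J hF M hM 1 1 k 2 e F.gradB B1 B0 (max (C N) 0) one_pos one_pos (le_max_right _ _)
    (hB1.mono (le_max_left _ _)) (hB0.mono (le_max_left _ _)) hdec _
    (hw.perm hF.1 (finCongr (Nat.add_comm k 1)))).perm hF.1 (finCongr (Nat.add_comm 1 k))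

theorem closeAt_succ (IH : ∀ n, ∃ (n' N : ℕ) (C' : ℝ), 0 ≤ C' ∧ CloseAt C j n n' N C')
    (n : ℕ) : ∃ (n' N : ℕ) (C' : ℝ), 0 ≤ C' ∧ CloseAt C (j + 1) n n' N C' := by
  obtain ⟨n₀, N₀, c₀, hc₀, h₀⟩ := closeAt_base C n
  obtain ⟨n₁, N₁, c₁, hc₁, h₁⟩ := IH n
  obtain ⟨p, P, q, hq, hp⟩ := coefAt_of_closeAt IH n
  obtain ⟨p₁, P₁, q₁, hq₁, hp₁⟩ := coefAt_of_closeAt IH n₁
  obtain ⟨n₂, N₂, c₂, hc₂, h₂⟩ := IH p
  set B : ℝ := max (C P) 0 with hB
  set B₁ : ℝ := max (C P₁) 0 with hB₁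
  have hB0 : 0 ≤ B := le_max_right _ _
  have hB10 : 0 ≤ B₁ := le_max_right _ _
  refine ⟨n₀ + n₁ + p + p₁ + n₂, N₀ + N₁ + P + 1,
    c₀ + c₁ + q * B * c₂ + c₁ * q₁ * B₁ + q, by positivity, ?_⟩
  intro ι _ _ F J hF M hM
  have hqB : 0 ≤ q * B * c₂ := by positivity
  have hcB : 0 ≤ c₁ * q₁ * B₁ := by positivity
  refine ⟨fun k f hf => ?_, fun k f hf => ?_, fun a b d m e K C₀ ha hb hC₀ hK f hf => ?_⟩
  · have hb0 := (h₀ ι F J hF M hM).1 _ f (hf.of_le (Nat.zero_le _) (by omega))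
    have h1 := (h₁ ι F J hF M hM).1 _ _ (hf.D.of_le le_rfl (show n₁ ≤ _ by omega))
    have h2 := (h₂ ι F J hF M hM).1 _ f
      (hf.of_le (show j ≤ j + 1 by omega) (show n₂ ≤ _ by omega))
    have h3 := act_gradB_reg hp hF (show 0 ≤ c₂ * M by positivity) splitId h2
    refine Family.Reg.of_D (hb0.mono le_rfl le_rfl (by positivity)
      (mul_le_mul_of_nonneg_right (by linarith) hM)) ?_
    refine ((h1.sub h3 hF.1 (by positivity) (by positivity)).congr hF.1 fun t ht x => ?_).mono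
      le_rfl le_rfl (by positivity) ?_
    · exact F.D_nabla hf.tame ht x
    · calc c₁ * M + q * max (C P) 0 * (c₂ * M) = (c₁ + q * B * c₂) * M := by rw [hB]; ring
        _ ≤ _ := mul_le_mul_of_nonneg_right (by linarith) hM
  · have hb0 := (h₀ ι F J hF M hM).2.1 _ f (hf.of_le (Nat.zero_le _) (by omega))
    have h1 := (h₁ ι F J hF M hM).2.1 _ _ (hf.D.of_le le_rfl (show n₁ ≤ _ by omega))
    have h2 := act_gradB_reg hp₁ hF hM splitSwap
      (hf.of_le (show j ≤ j + 1 by omega) (show p₁ ≤ _ by omega))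
    have h3 := (h₁ ι F J hF _ (show 0 ≤ q₁ * B₁ * M by positivity)).2.1 _ _ h2
    refine Family.Reg.of_D (hb0.mono le_rfl le_rfl (by positivity)
      (mul_le_mul_of_nonneg_right (by linarith) hM)) ?_
    refine ((h1.sub h3 hF.1 (by positivity) (by positivity)).congr hF.1 fun t ht x => ?_).mono
      le_rfl le_rfl (by positivity) ?_
    · exact F.D_delta hf.tame ht x
    · calc c₁ * M + c₁ * (q₁ * B₁ * M) = (c₁ + c₁ * q₁ * B₁) * M := by ring
        _ ≤ _ := mul_le_mul_of_nonneg_right (by linarith) hM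
  · have hb0 := (h₀ ι F J hF M hM).2.2 a b d m e K C₀ ha hb hC₀ (hK.of_le (by omega)) f
      (hf.of_le (Nat.zero_le _) (by omega))
    have hKt : Tame F.dom K := hK.tame
    have hK' : F.Good J C₀ N₁ K := hK.of_le (by omega)
    obtain ⟨-, -, K1, K0, hK1, hK0, hdec⟩ := hK
    have h1 := (h₁ ι F J hF M hM).2.2 a b d m e K C₀ ha hb hC₀ hK' _
      (hf.D.of_le le_rfl (show n₁ ≤ _ by omega))
    have h2 := hp ι F J hF M hM a b d m e (F.D K) K1 K0 C₀ ha hb hC₀ (hK1.of_le (by omega))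
      (hK0.of_le (by omega)) hdec f (hf.of_le (show j ≤ j + 1 by omega) (show p ≤ _ by omega))
    refine Family.Reg.of_D (hb0.mono le_rfl le_rfl (by positivity)
      (mul_le_mul_of_nonneg_right (mul_le_mul_of_nonneg_right (by linarith) hC₀) hM)) ?_
    refine ((h2.add h1 hF.1 (by positivity) (by positivity)).congr hF.1 fun t ht x => ?_).mono
      le_rfl le_rfl (by positivity) ?_
    · exact F.D_contract hKt hf.tame e ht x
    · calc q * C₀ * M + c₁ * C₀ * M = (q + c₁) * C₀ * M := by ring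
        _ ≤ _ := mul_le_mul_of_nonneg_right
          (mul_le_mul_of_nonneg_right (by linarith) hC₀) hM

/-- Closure of `Family.Reg` under the operations of the calculus, uniformly in the dimension. -/
theorem calc_closure : CalcStatement := by
  have h : ∀ (C : ℕ → ℝ) (j n : ℕ), ∃ (n' N : ℕ) (C' : ℝ), 0 ≤ C' ∧ CloseAt C j n n' N C' := by
    intro C j
    induction j with
    | zero => exact closeAt_base C
    | succ j ih => exact closeAt_succ ih
  intro C j n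
  obtain ⟨n', N, C', -, hC⟩ := h C j n
  exact ⟨n', N, C', hC⟩

end Vale.Agent.P347
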