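import Vale.Agent.P347.Tensor

/-!
Abstract first-order calculus along a measure-preserving vector field.
-/

namespace Vale.Agent.P347

open MeasureTheory
open scoped RealInnerProductSpace ContDiff

variable {ι : Type} [Fintype ι] [DecidableEq ι]

/-- Smooth on `I × Sp ι` with polynomially bounded derivatives, locally uniformly in time. -/
def Tame {F : Type*} [NormedAddCommGroup F] [NormedSpace ℝ F] (I : Set ℝ)
    (f : ℝ → Sp ι → F) : Prop :=
  ContDiffOn ℝ ∞ (fun p : ℝ × Sp ι => f p.1 p.2) (I ×ˢ Set.univ) ∧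
    ∀ (n : ℕ) (J : Set ℝ), IsCompact J → J ⊆ I → ∃ (C : ℝ) (p : ℕ), ∀ t ∈ J, ∀ x : Sp ι,
      ‖iteratedFDeriv ℝ n (fun q : ℝ × Sp ι => f q.1 q.2) (t, x)‖ ≤ C * (1 + ‖x‖) ^ p

/-- A family of measures `μ_t` with potential `Ψ_t`, preserved by the vector field `b`. -/
structure Family (ι : Type) [Fintype ι] [DecidableEq ι] where
  /-- the open set of times -/
  dom : Set ℝ
  isOpen_dom : IsOpen dom
  /-- the measures -/
  μ : ℝ → Measure (Sp ι)
  prob : ∀ t ∈ dom, IsProbabilityMeasure (μ t)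
  /-- the potential -/
  Ψ : ℝ → Sp ι → ℝ
  /-- the vector field -/
  b : ℝ → Sp ι → Sp ι
  tame_Ψ : Tame dom Ψ
  tame_b : Tame dom b
  integrable_poly : ∀ t ∈ dom, ∀ p : ℕ, Integrable (fun x => ‖x‖ ^ p) (μ t)
  ibp : ∀ t ∈ dom, ∀ f : ℝ → Sp ι → ℝ, Tame dom f → ∀ i : ι,
    ∫ x, fderiv ℝ (f t) x (EuclideanSpace.single i 1) ∂(μ t)
      = ∫ x, f t x * fderiv ℝ (Ψ t) x (EuclideanSpace.single i 1) ∂(μ t)
  /-- gradient of the continuity equation `∂_t Ψ + b · ∇Ψ = div b + const` -/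
  continuity : ∀ t ∈ dom, ∀ x y : Sp ι,
    (fderiv ℝ (fun q : ℝ × Sp ι => Ψ q.1 q.2) (t, x) (1, b t x)
      - ∑ i, fderiv ℝ (b t) x (EuclideanSpace.single i 1) i)
    = (fderiv ℝ (fun q : ℝ × Sp ι => Ψ q.1 q.2) (t, y) (1, b t y)
      - ∑ i, fderiv ℝ (b t) y (EuclideanSpace.single i 1) i)

namespace Family

variable (F : Family ι)

/-- The derivative along the flow of `b`. -/
noncomputable def D {k : ℕ} (f : ℝ → Sp ι → Ten ι k) (t : ℝ) (x : Sp ι) : Ten ι k :=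
  fderiv ℝ (fun q : ℝ × Sp ι => f q.1 q.2) (t, x) (1, F.b t x)

/-- The adjoint of the gradient in `L²(μ_t)`, acting on the first index. -/
noncomputable def delta {k : ℕ} (f : ℝ → Sp ι → Ten ι (k + 1)) (t : ℝ) (x : Sp ι) : Ten ι k :=
  WithLp.toLp 2 fun α => ∑ i : ι,
    (fderiv ℝ (F.Ψ t) x (EuclideanSpace.single i 1) * f t x (Fin.cons i α)
      - nabla (f t) x (Fin.cons i (Fin.cons i α)))

/-- The field `∂_i b_j` as a rank two tensor `(i, j)`. -/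
noncomputable def gradB (t : ℝ) (x : Sp ι) : Ten ι 2 :=
  WithLp.toLp 2 fun α => fderiv ℝ (F.b t) x (EuclideanSpace.single (α 0) 1) (α 1)

/-- A coefficient field with `N` controlled levels of derivatives on the times `J`. -/
def Good (J : Set ℝ) (C : ℝ) : (N : ℕ) → {n : ℕ} → (ℝ → Sp ι → Ten ι n) → Prop
  | 0, _, K => Tame F.dom K ∧ ∀ t ∈ J, ∀ x, AllSplit C (K t x)
  | N + 1, n, K => (Tame F.dom K ∧ ∀ t ∈ J, ∀ x, AllSplit C (K t x)) ∧
      Good J C N (fun t => nabla (K t)) ∧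
      ∃ (K1 : ℝ → Sp ι → Ten ι (n + 1)) (K0 : ℝ → Sp ι → Ten ι n),
        Good J C N K1 ∧ Good J C N K0 ∧
          ∀ t ∈ F.dom, ∀ x, F.D K t x = F.delta K1 t x + K0 t x

/-- The structural hypotheses on the family: the Hessian of the potential and the gradient of the
field are controlled coefficient fields. -/
def Controlled (J : Set ℝ) (C : ℕ → ℝ) : Prop :=
  J ⊆ F.dom ∧ ∀ N : ℕ,
    F.Good J (C N) N (fun t => derivTen (F.Ψ t) 2) ∧
    ∃ (B1 : ℝ → Sp ι → Ten ι 3) (B0 : ℝ → Sp ι → Ten ι 2),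
      F.Good J (C N) N B1 ∧ F.Good J (C N) N B0 ∧
        ∀ t ∈ F.dom, ∀ x, F.gradB t x = F.delta B1 t x + B0 t x

/-- `L²(μ_t)` bounds on `∇^i D^a f` for `a ≤ j`, `i ≤ n` on the times `J`. -/
def Reg (J : Set ℝ) (j n : ℕ) (M : ℝ) {k : ℕ} (f : ℝ → Sp ι → Ten ι k) : Prop :=
  Tame F.dom f ∧ ∀ a ≤ j, ∀ i ≤ n, ∀ t ∈ J,
    ∫ x, ‖nablaIter ((F.D^[a]) f t) i x‖ ^ 2 ∂(F.μ t) ≤ M ^ 2

end Family

end Vale.Agent.P347
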