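import Vale.Agent.P347.Tensor

/-!
Index slot bookkeeping and elementary algebra of the contraction `contractTen`.
-/

namespace Vale.Agent.P347

open scoped RealInnerProductSpace

variable {ι : Type} [Fintype ι] [DecidableEq ι]
variable {a b c n k l : ℕ}

omit [DecidableEq ι] in
theorem contractTen_apply (e : Fin a ⊕ Fin b ≃ Fin n) (K : Ten ι n) (f : Ten ι (b + c))
    (α : Fin (a + c) → ι) :
    contractTen e K f α = ∑ β : Fin b → ι, K (joinIdx e (fun i => α (Fin.castAdd c i)) β)
      * f (Fin.append β fun i => α (Fin.natAdd a i)) := rfl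

omit [Fintype ι] [DecidableEq ι] in
theorem permTen_apply (σ : Fin k ≃ Fin l) (f : Ten ι k) (α : Fin l → ι) :
    permTen σ f α = f (α ∘ σ) := rfl

omit [Fintype ι] [DecidableEq ι] in
theorem scalarTen_apply (r : ℝ) (α : Fin 0 → ι) : scalarTen r α = r := rfl

omit [DecidableEq ι] in
theorem norm_permTen (σ : Fin k ≃ Fin l) (f : Ten ι k) : ‖permTen σ f‖ = ‖f‖ := by
  rw [EuclideanSpace.norm_eq, EuclideanSpace.norm_eq]
  congr 1
  exact Equiv.sum_comp (Equiv.arrowCongr σ.symm (Equiv.refl ι)) fun α => ‖f α‖ ^ 2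

omit [Fintype ι] [DecidableEq ι] in
theorem permTen_add (σ : Fin k ≃ Fin l) (f g : Ten ι k) :
    permTen σ (f + g) = permTen σ f + permTen σ g := rfl

omit [Fintype ι] [DecidableEq ι] in
theorem permTen_smul (σ : Fin k ≃ Fin l) (r : ℝ) (f : Ten ι k) :
    permTen σ (r • f) = r • permTen σ f := rfl

omit [DecidableEq ι] in
/-- Reindexing slots as a continuous linear map. -/
noncomputable def permL (σ : Fin k ≃ Fin l) : Ten ι k →L[ℝ] Ten ι l :=
  LinearMap.mkContinuous
    { toFun := permTen σ, map_add' := permTen_add σ, map_smul' := permTen_smul σ } 1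
    fun f => le_of_eq ((norm_permTen σ f).trans (one_mul _).symm)

omit [DecidableEq ι] in
theorem permL_apply (σ : Fin k ≃ Fin l) (f : Ten ι k) : permL σ f = permTen σ f := rfl

omit [DecidableEq ι] in
theorem contractTen_add_left (e : Fin a ⊕ Fin b ≃ Fin n) (K K' : Ten ι n) (f : Ten ι (b + c)) :
    contractTen e (K + K') f = contractTen e K f + contractTen e K' f := by
  ext α
  simp only [contractTen_apply, PiLp.add_apply, add_mul, Finset.sum_add_distrib]

omit [DecidableEq ι] in
theorem contractTen_add_right (e : Fin a ⊕ Fin b ≃ Fin n) (K : Ten ι n) (f g : Ten ι (b + c)) :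
    contractTen e K (f + g) = contractTen e K f + contractTen e K g := by
  ext α
  simp only [contractTen_apply, PiLp.add_apply, mul_add, Finset.sum_add_distrib]

omit [Fintype ι] [DecidableEq ι] in
theorem joinIdx_eq (e : Fin a ⊕ Fin b ≃ Fin n) (α : Fin a → ι) (β : Fin b → ι) (u : Fin n → ι)
    (hl : ∀ i, u (e (Sum.inl i)) = α i) (hr : ∀ i, u (e (Sum.inr i)) = β i) :
    joinIdx e α β = u := by
  funext s
  obtain ⟨y, rfl⟩ := e.surjective s
  cases y with
  | inl i => simp [joinIdx, hl]
  | inr i => simp [joinIdx, hr]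

omit [Fintype ι] [DecidableEq ι] in
theorem joinIdx_inl (e : Fin a ⊕ Fin b ≃ Fin n) (α : Fin a → ι) (β : Fin b → ι) (i : Fin a) :
    joinIdx e α β (e (Sum.inl i)) = α i := by
  simp [joinIdx]

omit [Fintype ι] [DecidableEq ι] in
theorem joinIdx_inr (e : Fin a ⊕ Fin b ≃ Fin n) (α : Fin a → ι) (β : Fin b → ι) (i : Fin b) :
    joinIdx e α β (e (Sum.inr i)) = β i := by
  simp [joinIdx]

/-- A new first slot, added to the free group. -/
def splitL (e : Fin a ⊕ Fin b ≃ Fin n) : Fin (a + 1) ⊕ Fin b ≃ Fin (n + 1) where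
  toFun := Sum.elim (Fin.cases 0 fun i => (e (Sum.inl i)).succ) fun i => (e (Sum.inr i)).succ
  invFun := Fin.cases (Sum.inl 0) fun s => Sum.map Fin.succ id (e.symm s)
  left_inv := by
    rintro (i | i)
    · refine Fin.cases ?_ ?_ i <;> simp
    · simp
  right_inv := by
    intro s
    refine Fin.cases ?_ ?_ s
    · simp
    · intro s
      obtain ⟨y, rfl⟩ := e.surjective s
      cases y <;> simp

/-- A new first slot, added to the contracted group. -/
def splitR (e : Fin a ⊕ Fin b ≃ Fin n) : Fin a ⊕ Fin (b + 1) ≃ Fin (n + 1) where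
  toFun := Sum.elim (fun i => (e (Sum.inl i)).succ) (Fin.cases 0 fun i => (e (Sum.inr i)).succ)
  invFun := Fin.cases (Sum.inr 0) fun s => Sum.map id Fin.succ (e.symm s)
  left_inv := by
    rintro (i | i)
    · simp
    · refine Fin.cases ?_ ?_ i <;> simp
  right_inv := by
    intro s
    refine Fin.cases ?_ ?_ s
    · simp
    · intro s
      obtain ⟨y, rfl⟩ := e.surjective s
      cases y <;> simp

omit [Fintype ι] [DecidableEq ι] in
theorem joinIdx_splitL (e : Fin a ⊕ Fin b ≃ Fin n) (i : ι) (α : Fin a → ι) (β : Fin b → ι) :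
    joinIdx (splitL e) (Fin.cons i α : Fin (a + 1) → ι) β = Fin.cons i (joinIdx e α β) := by
  refine joinIdx_eq _ _ _ _ (fun s => ?_) (fun s => ?_)
  · refine Fin.cases ?_ ?_ s
    · simp [splitL]
    · intro s; simp [splitL, joinIdx_inl]
  · simp [splitL, joinIdx_inr]

omit [Fintype ι] [DecidableEq ι] in
theorem joinIdx_splitR (e : Fin a ⊕ Fin b ≃ Fin n) (i : ι) (α : Fin a → ι) (β : Fin b → ι) :
    joinIdx (splitR e) α (Fin.cons i β : Fin (b + 1) → ι) = Fin.cons i (joinIdx e α β) := by
  refine joinIdx_eq _ _ _ _ (fun s => ?_) (fun s => ?_)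
  · simp [splitR, joinIdx_inl]
  · refine Fin.cases ?_ ?_ s
    · simp [splitR]
    · intro s; simp [splitR, joinIdx_inr]

/-- Reassociation of the slot groups after adding a slot to the first group. -/
def castL (a c : ℕ) : Fin (a + 1 + c) ≃ Fin (a + c + 1) := finCongr (Nat.add_right_comm a 1 c)

/-- Moving the first slot to the start of the second group. -/
def pull (b c : ℕ) : Fin (b + c + 1) ≃ Fin (b + (c + 1)) where
  toFun := Fin.cases (Fin.natAdd b (0 : Fin (c + 1)))
    (Fin.addCases (fun i => Fin.castAdd (c + 1) i) fun i => Fin.natAdd b i.succ)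
  invFun := Fin.addCases (fun i => (Fin.castAdd c i).succ)
    (Fin.cases 0 fun i => (Fin.natAdd b i).succ)
  left_inv := by
    intro s
    refine Fin.cases ?_ ?_ s
    · simp
    · intro s
      refine Fin.addCases (fun i => ?_) (fun i => ?_) s <;> simp
  right_inv := by
    intro s
    refine Fin.addCases (fun i => ?_) (fun i => ?_) s
    · simp
    · refine Fin.cases ?_ ?_ i
      · simp
      · intro i; simp

theorem castL_zero : castL a c (Fin.castAdd c 0) = 0 := by
  ext; simp [castL]

theorem castL_castAdd_succ (i : Fin a) :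
    castL a c (Fin.castAdd c i.succ) = (Fin.castAdd c i).succ := by
  ext; simp [castL]

theorem castL_natAdd (i : Fin c) :
    castL a c (Fin.natAdd (a + 1) i) = (Fin.natAdd a i).succ := by
  ext; simp [castL]; omega

omit [Fintype ι] [DecidableEq ι] in
theorem castL_free (α : Fin (a + c + 1) → ι) :
    (fun i => (α ∘ castL a c) (Fin.castAdd c i))
      = (Fin.cons (α 0) fun i => Fin.tail α (Fin.castAdd c i) : Fin (a + 1) → ι) := by
  funext i
  refine Fin.cases ?_ ?_ i
  · simp [castL_zero]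
  · intro i; simp [castL_castAdd_succ, Fin.tail]

omit [Fintype ι] [DecidableEq ι] in
theorem castL_rest (α : Fin (a + c + 1) → ι) :
    (fun i => (α ∘ castL a c) (Fin.natAdd (a + 1) i)) = fun i => Fin.tail α (Fin.natAdd a i) := by
  funext i
  simp [castL_natAdd, Fin.tail]

omit [Fintype ι] [DecidableEq ι] in
theorem castL_symm_append (i : ι) (β : Fin b → ι) (γ : Fin c → ι) :
    Fin.append (Fin.cons i β : Fin (b + 1) → ι) γ ∘ (castL b c).symm
      = Fin.cons i (Fin.append β γ) := by
  funext s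
  obtain ⟨s, rfl⟩ := (castL b c).surjective s
  simp only [Function.comp_apply, Equiv.symm_apply_apply]
  refine Fin.addCases (fun j => ?_) (fun j => ?_) s
  · refine Fin.cases ?_ ?_ j
    · simp [castL_zero]
    · intro j; simp [castL_castAdd_succ]
  · simp [castL_natAdd]

omit [Fintype ι] [DecidableEq ι] in
theorem pull_append (i : ι) (β : Fin b → ι) (γ : Fin c → ι) :
    Fin.append β (Fin.cons i γ : Fin (c + 1) → ι) ∘ pull b c = Fin.cons i (Fin.append β γ) := by
  funext s
  refine Fin.cases ?_ ?_ s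
  · simp [pull]
  · intro s
    refine Fin.addCases (fun j => ?_) (fun j => ?_) s <;> simp [pull]

omit [Fintype ι] [DecidableEq ι] in
theorem pull_symm_free (α : Fin (a + c + 1) → ι) :
    (fun i => (α ∘ (pull a c).symm) (Fin.castAdd (c + 1) i))
      = fun i => Fin.tail α (Fin.castAdd c i) := by
  funext i
  simp [pull, Fin.tail]

omit [Fintype ι] [DecidableEq ι] in
theorem pull_symm_rest (α : Fin (a + c + 1) → ι) :
    (fun i => (α ∘ (pull a c).symm) (Fin.natAdd a i))
      = (Fin.cons (α 0) fun i => Fin.tail α (Fin.natAdd a i) : Fin (c + 1) → ι) := by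
  funext i
  refine Fin.cases ?_ ?_ i
  · simp [pull]
  · intro i; simp [pull, Fin.tail]

omit [DecidableEq ι] in
theorem sum_pi_succ (f : (Fin (b + 1) → ι) → ℝ) :
    ∑ β, f β = ∑ i : ι, ∑ β : Fin b → ι, f (Fin.cons i β) := by
  rw [← Equiv.sum_comp (Fin.consEquiv fun _ : Fin (b + 1) => ι) f, Fintype.sum_prod_type]
  rfl

omit [DecidableEq ι] in
theorem sum_pi_one (f : (Fin 1 → ι) → ℝ) : ∑ β, f β = ∑ i : ι, f fun _ => i := by
  rw [← Equiv.sum_comp (Equiv.funUnique (Fin 1) ι).symm f]
  rfl

/-- The multi-index of two slots. -/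
def pairIdx (i j : ι) : Fin 2 → ι := ![i, j]

/-- The splitting with the free slot first. -/
def splitId : Fin 1 ⊕ Fin 1 ≃ Fin 2 := finSumFinEquiv

/-- The splitting with the free slot second. -/
def splitSwap : Fin 1 ⊕ Fin 1 ≃ Fin 2 := (Equiv.sumComm (Fin 1) (Fin 1)).trans finSumFinEquiv

omit [Fintype ι] [DecidableEq ι] in
theorem joinIdx_splitId (i j : ι) :
    joinIdx splitId (fun _ => i) (fun _ => j) = pairIdx i j := by
  refine joinIdx_eq _ _ _ _ (fun s => ?_) (fun s => ?_) <;>
    · obtain rfl : s = 0 := Subsingleton.elim _ _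
      rfl

omit [Fintype ι] [DecidableEq ι] in
theorem joinIdx_splitSwap (i j : ι) :
    joinIdx splitSwap (fun _ => i) (fun _ => j) = pairIdx j i := by
  refine joinIdx_eq _ _ _ _ (fun s => ?_) (fun s => ?_) <;>
    · obtain rfl : s = 0 := Subsingleton.elim _ _
      rfl

/-- A rank two tensor acting on the first slot. -/
noncomputable def act (e : Fin 1 ⊕ Fin 1 ≃ Fin 2) (K : Ten ι 2) (f : Ten ι (k + 1)) :
    Ten ι (k + 1) :=
  permTen (finCongr (Nat.add_comm 1 k))
    (contractTen e K (permTen (finCongr (Nat.add_comm k 1)) f))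

omit [DecidableEq ι] in
theorem act_apply (e : Fin 1 ⊕ Fin 1 ≃ Fin 2) (K : Ten ι 2) (f : Ten ι (k + 1))
    (α : Fin (k + 1) → ι) :
    act e K f α = ∑ j : ι, K (joinIdx e (fun _ => α 0) fun _ => j)
      * f (Fin.cons j (Fin.tail α)) := by
  simp only [act, permTen_apply, contractTen_apply, sum_pi_one]
  refine Finset.sum_congr rfl fun j _ => ?_
  have h1 : (fun i => (α ∘ finCongr (Nat.add_comm 1 k)) (Fin.castAdd k i))
      = fun _ : Fin 1 => α 0 := by
    funext i
    simp only [Function.comp_apply]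
    congr 1
    ext
    simp
  have h2 : (Fin.append (fun _ : Fin 1 => j)
      fun i => (α ∘ finCongr (Nat.add_comm 1 k)) (Fin.natAdd 1 i)) ∘ finCongr (Nat.add_comm k 1)
      = (Fin.cons j (Fin.tail α) : Fin (k + 1) → ι) := by
    funext s
    refine Fin.cases ?_ ?_ s
    · have h : (finCongr (Nat.add_comm k 1)) (0 : Fin (k + 1)) = Fin.castAdd k (0 : Fin 1) := by
        ext; simp
      simp only [Function.comp_apply, h, Fin.append_left, Fin.cons_zero]
    · intro s
      have h : (finCongr (Nat.add_comm k 1)) s.succ = Fin.natAdd 1 s := by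
        ext; simp; omega
      simp only [Function.comp_apply, h, Fin.append_right, Fin.cons_succ, Fin.tail]
      congr 1
      ext
      simp
  rw [h1, h2]

omit [DecidableEq ι] in
theorem act_add (e : Fin 1 ⊕ Fin 1 ≃ Fin 2) (K K' : Ten ι 2) (f : Ten ι (k + 1)) :
    act e (K + K') f = act e K f + act e K' f := by
  rw [act, contractTen_add_left, permTen_add]
  rfl

/-- Exchange of the first two slots. -/
def swap01 (k : ℕ) : Fin (k + 1 + 1) ≃ Fin (k + 1 + 1) := Equiv.swap 0 (Fin.succ 0)

omit [Fintype ι] [DecidableEq ι] in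
theorem swap01_cons (i j : ι) (α : Fin k → ι) :
    (Fin.cons i (Fin.cons j α : Fin (k + 1) → ι) : Fin (k + 1 + 1) → ι) ∘ swap01 k
      = Fin.cons j (Fin.cons i α) := by
  funext s
  refine Fin.cases ?_ ?_ s
  · simp [swap01]
  · intro s
    refine Fin.cases ?_ ?_ s
    · simp [swap01]
    · intro s
      have h : Equiv.swap (0 : Fin (k + 1 + 1)) (Fin.succ 0) s.succ.succ = s.succ.succ :=
        Equiv.swap_apply_of_ne_of_ne (Fin.succ_ne_zero _)
          fun h => Fin.succ_ne_zero _ (Fin.succ_injective _ h)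
      simp only [swap01, Function.comp_apply, h, Fin.cons_succ]

omit [DecidableEq ι] in
/-- Contraction against a controlled coefficient is bounded for the Frobenius norms. -/
theorem AllSplit.norm_contractTen_le {C : ℝ} {K : Ten ι n} (hK : AllSplit C K) (hC : 0 ≤ C)
    (e : Fin a ⊕ Fin b ≃ Fin n) (ha : 0 < a) (hb : 0 < b) (f : Ten ι (b + c)) :
    ‖contractTen e K f‖ ≤ C * ‖f‖ := by
  set g : (Fin c → ι) → Ten ι a :=
    fun γ => WithLp.toLp 2 fun α => contractTen e K f (Fin.append α γ) with hg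
  set h : (Fin c → ι) → Ten ι b :=
    fun γ => WithLp.toLp 2 fun β => f (Fin.append β γ) with hh
  have hrec : ∀ (m : ℕ) (u : Ten ι (m + c)),
      ‖u‖ ^ 2 = ∑ γ : Fin c → ι, ∑ α : Fin m → ι, u (Fin.append α γ) ^ 2 := by
    intro m u
    rw [EuclideanSpace.real_norm_sq_eq, Finset.sum_comm,
      ← Equiv.sum_comp (Fin.appendEquiv m c) (fun α => u α ^ 2), Fintype.sum_prod_type]
    rfl
  have hgh : ∀ γ, ‖g γ‖ ^ 2 ≤ C * ‖g γ‖ * ‖h γ‖ := by
    intro γ
    have hb' := hK a b e ha hb (g γ) (h γ)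
    have he : ∑ α : Fin a → ι, ∑ β : Fin b → ι, K (joinIdx e α β) * g γ α * h γ β = ‖g γ‖ ^ 2 := by
      rw [EuclideanSpace.real_norm_sq_eq]
      refine Finset.sum_congr rfl fun α _ => ?_
      have hα : g γ α = ∑ β : Fin b → ι, K (joinIdx e α β) * h γ β := by
        simp [hg, hh, contractTen_apply]
      calc ∑ β : Fin b → ι, K (joinIdx e α β) * g γ α * h γ β
          = g γ α * ∑ β : Fin b → ι, K (joinIdx e α β) * h γ β := by
            rw [Finset.mul_sum]
            exact Finset.sum_congr rfl fun β _ => by ring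
        _ = g γ α ^ 2 := by rw [← hα]; ring
    rw [he] at hb'
    exact (le_abs_self _).trans hb'
  have hle : ∀ γ, ‖g γ‖ ^ 2 ≤ C ^ 2 * ‖h γ‖ ^ 2 := by
    intro γ
    nlinarith [hgh γ, norm_nonneg (g γ), norm_nonneg (h γ), sq_nonneg (‖g γ‖ - C * ‖h γ‖)]
  have hsq : ‖contractTen e K f‖ ^ 2 ≤ (C * ‖f‖) ^ 2 := by
    rw [mul_pow, hrec a, hrec b, Finset.mul_sum]
    refine Finset.sum_le_sum fun γ _ => ?_
    have h' := hle γ
    rw [EuclideanSpace.real_norm_sq_eq, EuclideanSpace.real_norm_sq_eq] at h'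
    exact h'
  exact le_of_pow_le_pow_left₀ two_ne_zero (by positivity) hsq

end Vale.Agent.P347
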