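import Vale.Agent.P347.Tame
import Vale.Agent.P347.CalcSlots

/-!
Pointwise identities of the calculus: commutation of `D`, `nabla`, `delta` and contractions.
-/

namespace Vale.Agent.P347

open MeasureTheory
open scoped RealInnerProductSpace ContDiff

variable {ι : Type} [Fintype ι] [DecidableEq ι]
variable {I : Set ℝ} {k l a b c m : ℕ}

/-- Coordinate derivative of a scalar field in space. -/
noncomputable def pd (i : ι) (g : ℝ → Sp ι → ℝ) (t : ℝ) (x : Sp ι) : ℝ :=
  fderiv ℝ (g t) x (EuclideanSpace.single i 1)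

theorem Tame.pd {g : ℝ → Sp ι → ℝ} (hg : Tame I g) (hI : IsOpen I) (i : ι) :
    Tame I (pd i g) :=
  hg.fderiv_space_apply hI _

theorem Tame.nabla {f : ℝ → Sp ι → Ten ι k} (hf : Tame I f) (hI : IsOpen I) :
    Tame I fun t => nabla (f t) :=
  Tame.euclidean hI fun α =>
    ((hf.fderiv_space_apply hI (EuclideanSpace.single (α 0) 1)).component hI (Fin.tail α))

omit [DecidableEq ι] in
theorem Tame.perm {f : ℝ → Sp ι → Ten ι k} (hf : Tame I f) (hI : IsOpen I) (σ : Fin k ≃ Fin l) :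
    Tame I fun t x => permTen σ (f t x) :=
  hf.clm hI (permL σ)

omit [DecidableEq ι] in
theorem Tame.contract {K : ℝ → Sp ι → Ten ι m} {f : ℝ → Sp ι → Ten ι (b + c)} (hK : Tame I K)
    (hf : Tame I f) (hI : IsOpen I) (e : Fin a ⊕ Fin b ≃ Fin m) :
    Tame I fun t x => contractTen e (K t x) (f t x) :=
  Tame.euclidean hI fun _ => Tame.sum Finset.univ hI fun _ _ =>
    (hK.component hI _).mul (hf.component hI _) hI

omit [DecidableEq ι] in
theorem Tame.act {K : ℝ → Sp ι → Ten ι 2} {f : ℝ → Sp ι → Ten ι (k + 1)} (hK : Tame I K)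
    (hf : Tame I f) (hI : IsOpen I) (e : Fin 1 ⊕ Fin 1 ≃ Fin 2) :
    Tame I fun t x => act e (K t x) (f t x) :=
  (hK.contract (hf.perm hI (finCongr (Nat.add_comm k 1))) hI e).perm hI
    (finCongr (Nat.add_comm 1 k))

theorem Tame.derivTen {U : ℝ → Sp ι → ℝ} (hU : Tame I U) (hI : IsOpen I) (n : ℕ) :
    Tame I fun t => derivTen (U t) n := by
  induction n with
  | zero => exact Tame.euclidean hI fun _ => hU
  | succ n ih => exact ih.nabla hI

theorem nabla_apply {f : ℝ → Sp ι → Ten ι k} (hf : Tame I f) {t : ℝ} (ht : t ∈ I) (x : Sp ι)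
    (α : Fin (k + 1) → ι) :
    nabla (f t) x α = pd (α 0) (fun s y => f s y (Fin.tail α)) t x := by
  have h : HasFDerivAt (fun y => f t y (Fin.tail α))
      ((EuclideanSpace.proj (Fin.tail α)).comp (fderiv ℝ (f t) x)) x :=
    (EuclideanSpace.proj (𝕜 := ℝ) (Fin.tail α)).hasFDerivAt.comp x
      (hf.differentiableAt_space ht x).hasFDerivAt
  rw [pd, h.fderiv]
  rfl

theorem pd_add {g h : ℝ → Sp ι → ℝ} (hg : Tame I g) (hh : Tame I h) {t : ℝ} (ht : t ∈ I)
    (x : Sp ι) (i : ι) :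
    pd i (fun s y => g s y + h s y) t x = pd i g t x + pd i h t x := by
  simp only [pd]
  rw [fderiv_fun_add (hg.differentiableAt_space ht x) (hh.differentiableAt_space ht x)]
  rfl

theorem pd_sub {g h : ℝ → Sp ι → ℝ} (hg : Tame I g) (hh : Tame I h) {t : ℝ} (ht : t ∈ I)
    (x : Sp ι) (i : ι) :
    pd i (fun s y => g s y - h s y) t x = pd i g t x - pd i h t x := by
  simp only [pd]
  rw [fderiv_fun_sub (hg.differentiableAt_space ht x) (hh.differentiableAt_space ht x)]
  rfl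

theorem pd_mul {g h : ℝ → Sp ι → ℝ} (hg : Tame I g) (hh : Tame I h) {t : ℝ} (ht : t ∈ I)
    (x : Sp ι) (i : ι) :
    pd i (fun s y => g s y * h s y) t x = pd i g t x * h t x + g t x * pd i h t x := by
  simp only [pd]
  rw [fderiv_fun_mul (hg.differentiableAt_space ht x) (hh.differentiableAt_space ht x)]
  simp only [add_apply, smul_apply, smul_eq_mul]
  ring

theorem pd_sum {κ : Type*} (s : Finset κ) {g : κ → ℝ → Sp ι → ℝ} (hg : ∀ j, Tame I (g j))
    {t : ℝ} (ht : t ∈ I) (x : Sp ι) (i : ι) :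
    pd i (fun r y => ∑ j ∈ s, g j r y) t x = ∑ j ∈ s, pd i (g j) t x := by
  simp only [pd]
  rw [fderiv_fun_sum fun j _ => (hg j).differentiableAt_space ht x, sum_apply]

theorem pd_comm {g : ℝ → Sp ι → ℝ} (hg : Tame I g) {t : ℝ} (ht : t ∈ I) (x : Sp ι) (i j : ι) :
    pd i (pd j g) t x = pd j (pd i g) t x := by
  have hg2 : ContDiffAt ℝ ∞ (g t) x := (hg.contDiff_space ht).contDiffAt
  have hsymm : IsSymmSndFDerivAt ℝ (g t) x :=
    (hg2.of_le (show ((2 : ℕ∞) : WithTop ℕ∞) ≤ ∞ from WithTop.coe_le_coe.2 le_top)).isSymmSndFDerivAt (by simp)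
  have hd : DifferentiableAt ℝ (fderiv ℝ (g t)) x :=
    ((hg.contDiff_space ht).fderiv_right (m := ∞) le_rfl).differentiable (by simp) x
  have hv : ∀ v w : Sp ι, fderiv ℝ (fun y => fderiv ℝ (g t) y v) x w
      = fderiv ℝ (fderiv ℝ (g t)) x w v := by
    intro v w
    rw [fderiv_clm_apply hd (differentiableAt_const v)]
    simp
  have e : ∀ j, pd j g t = fun y => fderiv ℝ (g t) y (EuclideanSpace.single j 1) := fun j => rfl
  rw [pd, pd, e, e, hv, hv, hsymm.eq]

namespace Family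

variable (F : Family ι)

/-- The derivative of a scalar field along the flow of `b`. -/
noncomputable def Ds (g : ℝ → Sp ι → ℝ) (t : ℝ) (x : Sp ι) : ℝ :=
  fderiv ℝ (fun q : ℝ × Sp ι => g q.1 q.2) (t, x) (1, F.b t x)

/-- The entry `∂_i b_j`. -/
noncomputable def Bc (i j : ι) : ℝ → Sp ι → ℝ := pd i fun t x => F.b t x j

theorem tame_bcomp (j : ι) : Tame F.dom fun t x => F.b t x j :=
  F.tame_b.component F.isOpen_dom j

theorem tame_Bc (i j : ι) : Tame F.dom (F.Bc i j) := (F.tame_bcomp j).pd F.isOpen_dom i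

theorem tame_Ds {g : ℝ → Sp ι → ℝ} (hg : Tame F.dom g) : Tame F.dom (F.Ds g) :=
  hg.fderiv_apply ((Tame.const (1 : ℝ)).prodMk F.tame_b F.isOpen_dom) F.isOpen_dom

theorem tame_D {f : ℝ → Sp ι → Ten ι k} (hf : Tame F.dom f) : Tame F.dom (F.D f) :=
  hf.fderiv_apply ((Tame.const (1 : ℝ)).prodMk F.tame_b F.isOpen_dom) F.isOpen_dom

theorem tame_delta {f : ℝ → Sp ι → Ten ι (k + 1)} (hf : Tame F.dom f) :
    Tame F.dom (F.delta f) :=
  Tame.euclidean F.isOpen_dom fun _ => Tame.sum Finset.univ F.isOpen_dom fun i _ =>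
    ((F.tame_Ψ.pd F.isOpen_dom i).mul (hf.component F.isOpen_dom _) F.isOpen_dom).sub
      ((hf.nabla F.isOpen_dom).component F.isOpen_dom _) F.isOpen_dom

theorem tame_hess : Tame F.dom fun t => derivTen (F.Ψ t) 2 := F.tame_Ψ.derivTen F.isOpen_dom 2

theorem tame_gradB : Tame F.dom F.gradB :=
  Tame.euclidean F.isOpen_dom fun α =>
    (F.tame_b.fderiv_space_apply F.isOpen_dom (EuclideanSpace.single (α 0) 1)).component
      F.isOpen_dom (α 1)

theorem D_apply {f : ℝ → Sp ι → Ten ι k} (hf : Tame F.dom f) {t : ℝ} (ht : t ∈ F.dom)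
    (x : Sp ι) (α : Fin k → ι) : F.D f t x α = F.Ds (fun s y => f s y α) t x := by
  have h : HasFDerivAt (fun q : ℝ × Sp ι => f q.1 q.2 α)
      ((EuclideanSpace.proj α).comp (fderiv ℝ (fun q : ℝ × Sp ι => f q.1 q.2) (t, x))) (t, x) :=
    (EuclideanSpace.proj (𝕜 := ℝ) α).hasFDerivAt.comp (t, x)
      (hf.differentiableAt F.isOpen_dom ht x).hasFDerivAt
  rw [Ds, h.fderiv]
  rfl

theorem gradB_apply {t : ℝ} (ht : t ∈ F.dom) (x : Sp ι) (α : Fin 2 → ι) :
    F.gradB t x α = F.Bc (α 0) (α 1) t x := by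
  have h : HasFDerivAt (fun y => F.b t y (α 1))
      ((EuclideanSpace.proj (α 1)).comp (fderiv ℝ (F.b t) x)) x :=
    (EuclideanSpace.proj (𝕜 := ℝ) (α 1)).hasFDerivAt.comp x
      (F.tame_b.differentiableAt_space ht x).hasFDerivAt
  rw [Bc, pd, h.fderiv]
  rfl

theorem hess_apply {t : ℝ} (ht : t ∈ F.dom) (x : Sp ι) (i j : ι) :
    derivTen (F.Ψ t) 2 x (pairIdx i j) = pd i (pd j F.Ψ) t x := by
  have h1 := nabla_apply (F.tame_Ψ.derivTen F.isOpen_dom 1) ht x (pairIdx i j)
  refine h1.trans ?_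
  have h2 : (fun y => derivTen (F.Ψ t) 1 y (Fin.tail (pairIdx i j)))
      = fun y => pd j F.Ψ t y := by
    funext y
    exact nabla_apply (F.tame_Ψ.derivTen F.isOpen_dom 0) ht y _
  rw [pd, h2]
  rfl

theorem delta_apply {f : ℝ → Sp ι → Ten ι (k + 1)} (hf : Tame F.dom f) {t : ℝ} (ht : t ∈ F.dom)
    (x : Sp ι) (α : Fin k → ι) :
    F.delta f t x α = ∑ i : ι, (pd i F.Ψ t x * f t x (Fin.cons i α)
      - pd i (fun s y => f s y (Fin.cons i α)) t x) := by
  have h : ∀ i : ι, nabla (f t) x (Fin.cons i (Fin.cons i α) : Fin (k + 1 + 1) → ι)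
      = pd i (fun s y => f s y (Fin.cons i α)) t x := by
    intro i
    simp [nabla_apply hf ht x]
  simp only [← h]
  rfl

theorem Ds_sub {g h : ℝ → Sp ι → ℝ} (hg : Tame F.dom g) (hh : Tame F.dom h) {t : ℝ}
    (ht : t ∈ F.dom) (x : Sp ι) :
    F.Ds (fun s y => g s y - h s y) t x = F.Ds g t x - F.Ds h t x := by
  simp only [Ds]
  rw [fderiv_fun_sub (hg.differentiableAt F.isOpen_dom ht x)
    (hh.differentiableAt F.isOpen_dom ht x)]
  rfl

theorem Ds_mul {g h : ℝ → Sp ι → ℝ} (hg : Tame F.dom g) (hh : Tame F.dom h) {t : ℝ}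
    (ht : t ∈ F.dom) (x : Sp ι) :
    F.Ds (fun s y => g s y * h s y) t x = F.Ds g t x * h t x + g t x * F.Ds h t x := by
  simp only [Ds]
  rw [fderiv_fun_mul (hg.differentiableAt F.isOpen_dom ht x)
    (hh.differentiableAt F.isOpen_dom ht x)]
  simp only [add_apply, smul_apply, smul_eq_mul]
  ring

theorem Ds_sum {κ : Type*} (s : Finset κ) {g : κ → ℝ → Sp ι → ℝ}
    (hg : ∀ j, Tame F.dom (g j)) {t : ℝ} (ht : t ∈ F.dom) (x : Sp ι) :
    F.Ds (fun r y => ∑ j ∈ s, g j r y) t x = ∑ j ∈ s, F.Ds (g j) t x := by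
  simp only [Ds]
  rw [fderiv_fun_sum fun j _ => (hg j).differentiableAt F.isOpen_dom ht x, sum_apply]

/-- The flow derivative commutes with a coordinate derivative up to `∇ b`. -/
theorem Ds_pd {g : ℝ → Sp ι → ℝ} (hg : Tame F.dom g) {t : ℝ} (ht : t ∈ F.dom) (x : Sp ι)
    (i : ι) :
    F.Ds (pd i g) t x = pd i (F.Ds g) t x - ∑ j, F.Bc i j t x * pd j g t x := by
  set u : ℝ × Sp ι → ℝ := fun q => g q.1 q.2 with hu
  set ei : Sp ι := EuclideanSpace.single i 1 with hei
  have hu2 : ContDiffAt ℝ ∞ u (t, x) := hg.contDiffAt F.isOpen_dom ht x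
  have hsymm : IsSymmSndFDerivAt ℝ u (t, x) :=
    (hu2.of_le (show ((2 : ℕ∞) : WithTop ℕ∞) ≤ ∞ from WithTop.coe_le_coe.2 le_top)).isSymmSndFDerivAt (by simp)
  have hd : DifferentiableAt ℝ (fderiv ℝ u) (t, x) :=
    (hu2.fderiv_right (m := ∞) le_rfl).differentiableAt (by simp)
  have h1 : F.Ds (pd i g) t x = fderiv ℝ (fderiv ℝ u) (t, x) (1, F.b t x) (0, ei) := by
    have he : (fun q : ℝ × Sp ι => pd i g q.1 q.2)
        =ᶠ[nhds (t, x)] fun q => fderiv ℝ u q (0, ei) := by
      filter_upwards [(F.isOpen_dom.prod isOpen_univ).mem_nhds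
        (show (t, x) ∈ F.dom ×ˢ (Set.univ : Set (Sp ι)) from ⟨ht, Set.mem_univ _⟩)] with q hq
      exact hg.fderiv_space F.isOpen_dom hq.1 q.2 ei
    rw [Ds, he.fderiv_eq, fderiv_clm_apply hd (differentiableAt_const _)]
    simp
  have hb : HasFDerivAt (fun y => ((1 : ℝ), F.b t y))
      ((0 : Sp ι →L[ℝ] ℝ).prod (fderiv ℝ (F.b t) x)) x :=
    (hasFDerivAt_const (1 : ℝ) x).prodMk (F.tame_b.differentiableAt_space ht x).hasFDerivAt
  have hc : HasFDerivAt (fun y => fderiv ℝ u (t, y))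
      ((fderiv ℝ (fderiv ℝ u) (t, x)).comp (ContinuousLinearMap.inr ℝ ℝ (Sp ι))) x :=
    hd.hasFDerivAt.comp x (hasFDerivAt_prodMk_right (𝕜 := ℝ) t x)
  have hcb := hc.clm_apply hb
  have h2 : pd i (F.Ds g) t x = fderiv ℝ (fderiv ℝ u) (t, x) (0, ei) (1, F.b t x)
      + fderiv ℝ u (t, x) (0, fderiv ℝ (F.b t) x ei) := by
    rw [pd, show F.Ds g t = fun y => fderiv ℝ u (t, y) (1, F.b t y) from rfl, hcb.fderiv]
    simp [add_comm, hei]
  have h3 : fderiv ℝ u (t, x) (0, fderiv ℝ (F.b t) x ei) = ∑ j, F.Bc i j t x * pd j g t x := by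
    have hv : ∀ v : Sp ι, fderiv ℝ u (t, x) (0, v) = ∑ j, v j * pd j g t x := by
      intro v
      rw [hu, ← hg.fderiv_space F.isOpen_dom ht x v]
      conv_lhs => rw [← (EuclideanSpace.basisFun ι ℝ).sum_repr v]
      simp [pd]
    rw [hv]
    refine Finset.sum_congr rfl fun j _ => ?_
    congr 1
    exact F.gradB_apply ht x (pairIdx i j)
  rw [h1, h2, h3, hsymm.eq]
  ring

/-- The gradient of the continuity equation. -/
theorem pd_Ds_potential {t : ℝ} (ht : t ∈ F.dom) (x : Sp ι) (i : ι) :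
    pd i (F.Ds F.Ψ) t x = ∑ j, pd i (F.Bc j j) t x := by
  rw [← pd_sum Finset.univ (fun j => F.tame_Bc j j) ht x i]
  have hB : ∀ y j, F.Bc j j t y = fderiv ℝ (F.b t) y (EuclideanSpace.single j 1) j := fun y j =>
    (F.gradB_apply ht y (pairIdx j j)).symm
  have he : F.Ds F.Ψ t = fun y => (∑ j, F.Bc j j t y) + (F.Ds F.Ψ t x - ∑ j, F.Bc j j t x) := by
    funext y
    have h := F.continuity t ht y x
    simp only [← hB] at h
    change F.Ds F.Ψ t y - _ = F.Ds F.Ψ t x - _ at h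
    linarith
  simp only [pd]
  rw [he, fderiv_add_const]

/-- `D (∇ f) = ∇ (D f) - B ∇ f`. -/
theorem D_nabla {f : ℝ → Sp ι → Ten ι k} (hf : Tame F.dom f) {t : ℝ} (ht : t ∈ F.dom)
    (x : Sp ι) :
    F.D (fun t => nabla (f t)) t x
      = nabla (F.D f t) x - act splitId (F.gradB t x) (nabla (f t) x) := by
  ext α
  set g : ℝ → Sp ι → ℝ := fun s y => f s y (Fin.tail α) with hgdef
  have hg : Tame F.dom g := hf.component F.isOpen_dom _
  have h1 : F.Ds (fun s y => nabla (f s) y α) t x = F.Ds (pd (α 0) g) t x := by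
    have he : (fun q : ℝ × Sp ι => nabla (f q.1) q.2 α)
        =ᶠ[nhds (t, x)] fun q => pd (α 0) g q.1 q.2 := by
      filter_upwards [(F.isOpen_dom.prod isOpen_univ).mem_nhds
        (show (t, x) ∈ F.dom ×ˢ (Set.univ : Set (Sp ι)) from ⟨ht, Set.mem_univ _⟩)] with q hq
      exact nabla_apply hf hq.1 q.2 α
    rw [Ds, he.fderiv_eq]
    rfl
  have h2 : (fun y => F.D f t y (Fin.tail α)) = fun y => F.Ds g t y := by
    funext y
    exact F.D_apply hf ht y _
  rw [F.D_apply (hf.nabla F.isOpen_dom) ht x, h1, F.Ds_pd hg ht x, PiLp.sub_apply,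
    nabla_apply (F.tame_D hf) ht x, act_apply]
  congr 1
  · simp only [pd]
    rw [h2]
  · refine Finset.sum_congr rfl fun j _ => ?_
    rw [joinIdx_splitId, F.gradB_apply ht x, nabla_apply hf ht x]
    simp [pairIdx, hgdef]

/-- `D` obeys the product rule on contractions. -/
theorem D_contract {K : ℝ → Sp ι → Ten ι m} {f : ℝ → Sp ι → Ten ι (b + c)}
    (hK : Tame F.dom K) (hf : Tame F.dom f) (e : Fin a ⊕ Fin b ≃ Fin m) {t : ℝ}
    (ht : t ∈ F.dom) (x : Sp ι) :
    F.D (fun t x => contractTen e (K t x) (f t x)) t x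
      = contractTen e (F.D K t x) (f t x) + contractTen e (K t x) (F.D f t x) := by
  have hI := F.isOpen_dom
  ext α
  rw [F.D_apply (hK.contract hf hI e) ht x]
  simp only [PiLp.add_apply, contractTen_apply, F.D_apply hK ht x, F.D_apply hf ht x]
  rw [F.Ds_sum Finset.univ (fun β => (hK.component hI _).mul (hf.component hI _) hI) ht x,
    ← Finset.sum_add_distrib]
  exact Finset.sum_congr rfl fun β _ => F.Ds_mul (hK.component hI _) (hf.component hI _) ht x

/-- The Leibniz rule for the gradient of a contraction. -/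
theorem nabla_contract {K : ℝ → Sp ι → Ten ι m} {f : ℝ → Sp ι → Ten ι (b + c)}
    (hK : Tame F.dom K) (hf : Tame F.dom f) (e : Fin a ⊕ Fin b ≃ Fin m) {t : ℝ}
    (ht : t ∈ F.dom) (x : Sp ι) :
    nabla (fun y => contractTen e (K t y) (f t y)) x
      = permTen (castL a c) (contractTen (splitL e) (nabla (K t) x) (f t x))
        + permTen (pull a c).symm
            (contractTen e (K t x) (permTen (pull b c) (nabla (f t) x))) := by
  have hI := F.isOpen_dom
  ext α
  rw [nabla_apply (hK.contract hf hI e) ht x]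
  simp only [PiLp.add_apply, contractTen_apply, permTen_apply, castL_free, castL_rest,
    joinIdx_splitL, pull_symm_free, pull_symm_rest, pull_append, nabla_apply hK ht x,
    nabla_apply hf ht x, Fin.cons_zero, Fin.tail_cons]
  rw [pd_sum Finset.univ (fun β => (hK.component hI _).mul (hf.component hI _) hI) ht x,
    ← Finset.sum_add_distrib]
  exact Finset.sum_congr rfl fun β _ => pd_mul (hK.component hI _) (hf.component hI _) ht x _

/-- A contraction against a divergence is a divergence plus a contraction of the gradient. -/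
theorem contract_delta {K : ℝ → Sp ι → Ten ι (m + 1)} {f : ℝ → Sp ι → Ten ι (b + c)}
    (hK : Tame F.dom K) (hf : Tame F.dom f) (e : Fin a ⊕ Fin b ≃ Fin m) {t : ℝ}
    (ht : t ∈ F.dom) (x : Sp ι) :
    contractTen e (F.delta K t x) (f t x)
      = F.delta (fun t x => permTen (castL a c) (contractTen (splitL e) (K t x) (f t x))) t x
        + contractTen (splitR e) (K t x) (permTen (castL b c).symm (nabla (f t) x)) := by
  have hI := F.isOpen_dom
  ext α
  simp only [PiLp.add_apply, F.delta_apply ((hK.contract hf hI (splitL e)).perm hI (castL a c)) ht x,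
    contractTen_apply, permTen_apply, castL_free, castL_rest, Fin.cons_zero, Fin.tail_cons,
    joinIdx_splitL, F.delta_apply hK ht x]
  simp only [sum_pi_succ (b := b), joinIdx_splitR, castL_symm_append, nabla_apply hf ht x,
    Fin.cons_zero, Fin.tail_cons]
  simp only [pd_sum Finset.univ (fun β => (hK.component hI _).mul (hf.component hI _) hI) ht x,
    pd_mul (hK.component hI _) (hf.component hI _) ht x, Finset.sum_mul, Finset.mul_sum]
  rw [Finset.sum_comm, ← Finset.sum_add_distrib]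
  refine Finset.sum_congr rfl fun i _ => ?_
  rw [← Finset.sum_sub_distrib, ← Finset.sum_add_distrib]
  exact Finset.sum_congr rfl fun β _ => by ring

/-- `∇ (δ w) = (Hess Ψ) w + δ (∇ w)` with the first two slots exchanged. -/
theorem nabla_delta {w : ℝ → Sp ι → Ten ι (k + 1)} (hw : Tame F.dom w) {t : ℝ} (ht : t ∈ F.dom)
    (x : Sp ι) :
    nabla (F.delta w t) x = act splitId (derivTen (F.Ψ t) 2 x) (w t x)
      + F.delta (fun t x => permTen (swap01 k) (nabla (w t) x)) t x := by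
  have hI := F.isOpen_dom
  ext α
  set γ : Fin k → ι := Fin.tail α with hγ
  set p : ι := α 0 with hp
  have hα : (Fin.cons p γ : Fin (k + 1) → ι) = α := Fin.cons_self_tail α
  have hΨ : ∀ i, Tame F.dom (pd i F.Ψ) := fun i => F.tame_Ψ.pd hI i
  have hwc : ∀ β, Tame F.dom fun s y => w s y β := fun β => hw.component hI β
  have h2 : (fun y => F.delta w t y γ) = fun y => ∑ i, (pd i F.Ψ t y * w t y (Fin.cons i γ)
      - pd i (fun s y => w s y (Fin.cons i γ)) t y) := by
    funext y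
    exact F.delta_apply hw ht y γ
  have h3 : ∀ i, pd i (fun s y => permTen (swap01 k) (nabla (w s) y) (Fin.cons i α)) t x
      = pd i (pd p fun s y => w s y (Fin.cons i γ)) t x := by
    intro i
    simp only [pd]
    congr 2
    funext y
    rw [permTen_apply, ← hα, swap01_cons, nabla_apply hw ht y]
    simp [pd]
  rw [nabla_apply (F.tame_delta hw) ht x, PiLp.add_apply, act_apply,
    F.delta_apply ((hw.nabla hI).perm hI (swap01 k)) ht x]
  rw [pd, h2]
  change pd p (fun s y => ∑ i, (pd i F.Ψ s y * w s y (Fin.cons i γ)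
    - pd i (fun s y => w s y (Fin.cons i γ)) s y)) t x = _
  rw [pd_sum Finset.univ (fun i => ((hΨ i).mul (hwc _) hI).sub ((hwc _).pd hI i) hI) ht x,
    ← Finset.sum_add_distrib]
  refine Finset.sum_congr rfl fun i _ => ?_
  rw [pd_sub ((hΨ i).mul (hwc _) hI) ((hwc _).pd hI i) ht x, pd_mul (hΨ i) (hwc _) ht x, h3 i,
    pd_comm (hwc _) ht x i p, joinIdx_splitId, F.hess_apply ht x, permTen_apply, ← hα,
    swap01_cons, nabla_apply hw ht x]
  simp only [Fin.cons_zero, Fin.tail_cons]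
  ring

/-- `D (δ w) = δ (D w) - δ (Bᵀ w)`. -/
theorem D_delta {w : ℝ → Sp ι → Ten ι (k + 1)} (hw : Tame F.dom w) {t : ℝ} (ht : t ∈ F.dom)
    (x : Sp ι) :
    F.D (F.delta w) t x
      = F.delta (F.D w) t x
        - F.delta (fun t x => act splitSwap (F.gradB t x) (w t x)) t x := by
  have hI := F.isOpen_dom
  ext α
  set u : ι → ℝ → Sp ι → ℝ := fun i s y => w s y (Fin.cons i α) with hudef
  have hu : ∀ i, Tame F.dom (u i) := fun i => hw.component hI _
  have hΨ : ∀ i, Tame F.dom (pd i F.Ψ) := fun i => F.tame_Ψ.pd hI i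
  have h1 : F.Ds (fun s y => F.delta w s y α) t x
      = F.Ds (fun s y => ∑ i, (pd i F.Ψ s y * u i s y - pd i (u i) s y)) t x := by
    have he : (fun q : ℝ × Sp ι => F.delta w q.1 q.2 α) =ᶠ[nhds (t, x)]
        fun q => ∑ i, (pd i F.Ψ q.1 q.2 * u i q.1 q.2 - pd i (u i) q.1 q.2) := by
      filter_upwards [(hI.prod isOpen_univ).mem_nhds
        (show (t, x) ∈ F.dom ×ˢ (Set.univ : Set (Sp ι)) from ⟨ht, Set.mem_univ _⟩)] with q hq
      exact F.delta_apply hw hq.1 q.2 α
    rw [Ds, he.fderiv_eq]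
    rfl
  have h2 : ∀ i, pd i (fun s y => F.D w s y (Fin.cons i α)) t x = pd i (F.Ds (u i)) t x := by
    intro i
    simp only [pd]
    congr 2
    funext y
    exact F.D_apply hw ht y _
  have hact : ∀ j, ∀ y, act splitSwap (F.gradB t y) (w t y) (Fin.cons j α)
      = ∑ i, F.Bc i j t y * u i t y := by
    intro j y
    rw [act_apply]
    refine Finset.sum_congr rfl fun i _ => ?_
    rw [joinIdx_splitSwap, F.gradB_apply ht y]
    simp [pairIdx, hudef]
  have h3 : ∀ j, pd j (fun s y => act splitSwap (F.gradB s y) (w s y) (Fin.cons j α)) t x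
      = ∑ i, (pd i (F.Bc j j) t x * u i t x + F.Bc i j t x * pd j (u i) t x) := by
    intro j
    have he : pd j (fun s y => act splitSwap (F.gradB s y) (w s y) (Fin.cons j α)) t x
        = pd j (fun s y => ∑ i, F.Bc i j s y * u i s y) t x := by
      simp only [pd]
      congr 2
      funext y
      exact hact j y
    rw [he, pd_sum Finset.univ (fun i => (F.tame_Bc i j).mul (hu i) hI) ht x]
    refine Finset.sum_congr rfl fun i _ => ?_
    rw [pd_mul (F.tame_Bc i j) (hu i) ht x]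
    simp only [Bc]
    rw [pd_comm (F.tame_bcomp j) ht x j i]
  rw [F.D_apply (F.tame_delta hw) ht x, h1, PiLp.sub_apply, F.delta_apply (F.tame_D hw) ht x,
    F.delta_apply (F.tame_gradB.act hw hI splitSwap) ht x]
  simp only [h2, h3, hact, F.D_apply hw ht x]
  rw [F.Ds_sum Finset.univ (fun i => ((hΨ i).mul (hu i) hI).sub ((hu i).pd hI i) hI) ht x]
  simp only [F.Ds_sub ((hΨ _).mul (hu _) hI) ((hu _).pd hI _) ht x,
    F.Ds_mul (hΨ _) (hu _) ht x, F.Ds_pd F.tame_Ψ ht x, F.Ds_pd (hu _) ht x,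
    F.pd_Ds_potential ht x, Finset.mul_sum, Finset.sum_mul, sub_mul]
  simp only [Finset.sum_sub_distrib, Finset.sum_add_distrib]
  have c1 : ∑ i, ∑ j, pd j (F.Bc i i) t x * u j t x
      = ∑ i, ∑ j, pd i (F.Bc j j) t x * u i t x := Finset.sum_comm
  have c2 : ∑ i, ∑ j, F.Bc j i t x * pd i (u j) t x
      = ∑ i, ∑ j, F.Bc i j t x * pd j (u i) t x := Finset.sum_comm
  have c3 : ∑ i, ∑ j, pd i F.Ψ t x * (F.Bc j i t x * u j t x)
      = ∑ i, ∑ j, F.Bc i j t x * pd j F.Ψ t x * u i t x := by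
    rw [Finset.sum_comm]
    exact Finset.sum_congr rfl fun i _ => Finset.sum_congr rfl fun j _ => by ring
  simp only [hudef] at c1 c2 c3 ⊢
  linarith

end Family

end Vale.Agent.P347
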