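import Vale.Agent.P347.HeatWeight

/-!
Smoothing an admissible potential by convolution with a bump function.
-/

namespace Vale.Agent.P347

open MeasureTheory Filter
open scoped Gradient RealInnerProductSpace ContDiff Topology Convolution

variable {d : ℕ} {E : Type*} [NormedAddCommGroup E] [NormedSpace ℝ E]

/-- Average of `f` against a normalised bump function. -/
noncomputable def moll (φ : ContDiffBump (0 : Euc d)) (f : Euc d → E) (x : Euc d) : E :=
  ∫ t, φ.normed volume t • f (x - t)

lemma moll_eq_convolution (φ : ContDiffBump (0 : Euc d)) (f : Euc d → E) :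
    moll φ f = φ.normed volume ⋆[ContinuousLinearMap.lsmul ℝ ℝ, volume] f := by
  funext x
  simp [moll, convolution_def]

lemma integrable_moll_integrand (φ : ContDiffBump (0 : Euc d)) {f : Euc d → E}
    (hf : Continuous f) (x : Euc d) :
    Integrable (fun t => φ.normed volume t • f (x - t)) :=
  (φ.continuous_normed.smul (hf.comp (by fun_prop))).integrable_of_hasCompactSupport
    φ.hasCompactSupport_normed.smul_right

lemma hasFDerivAt_moll [CompleteSpace E] (φ : ContDiffBump (0 : Euc d)) {f : Euc d → E}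
    (hf : ContDiff ℝ 1 f) (x : Euc d) :
    HasFDerivAt (moll φ f) (moll φ (fderiv ℝ f) x) x := by
  have hf' : Continuous (fderiv ℝ f) := hf.continuous_fderiv (by simp)
  obtain ⟨M, hM⟩ : ∃ M, ∀ z ∈ Metric.closedBall x (1 + φ.rOut), ‖fderiv ℝ f z‖ ≤ M :=
    (isCompact_closedBall x (1 + φ.rOut)).exists_bound_of_continuousOn hf'.continuousOn
  have hbi : Integrable fun t => φ.normed volume t * M :=
    φ.integrable_normed.mul_const M
  refine hasFDerivAt_integral_of_dominated_of_fderiv_le (Metric.ball_mem_nhds x one_pos)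
    (.of_forall fun z => (integrable_moll_integrand φ hf.continuous z).aestronglyMeasurable)
    (integrable_moll_integrand φ hf.continuous x)
    (F' := fun z t => φ.normed volume t • fderiv ℝ f (z - t))
    (integrable_moll_integrand φ hf' x).aestronglyMeasurable ?_ hbi ?_
  · refine .of_forall fun t z hz => ?_
    rw [norm_smul, Real.norm_eq_abs, abs_of_nonneg (φ.nonneg_normed t)]
    rcases eq_or_ne (φ.normed volume t) 0 with h0 | h0
    · simp [h0]
    · refine mul_le_mul_of_nonneg_left (hM _ ?_) (φ.nonneg_normed t)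
      have ht : t ∈ Metric.ball (0 : Euc d) φ.rOut :=
        φ.support_normed_eq.subset (Function.mem_support.2 h0)
      rw [Metric.mem_ball, dist_zero_right] at ht
      rw [Metric.mem_ball, dist_eq_norm] at hz
      rw [Metric.mem_closedBall, dist_eq_norm]
      calc ‖z - t - x‖ ≤ ‖z - x‖ + ‖t‖ := by
            rw [show z - t - x = (z - x) - t by abel]; exact norm_sub_le _ _
        _ ≤ _ := by linarith
  · refine .of_forall fun t z _ => ?_
    have h1 := ((hf.differentiable (by simp)) (z - t)).hasFDerivAt.comp z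
      ((hasFDerivAt_id z).sub_const t)
    exact (h1.congr_fderiv (ContinuousLinearMap.comp_id _)).const_smul (φ.normed volume t)

lemma fderiv_moll [CompleteSpace E] (φ : ContDiffBump (0 : Euc d)) {f : Euc d → E}
    (hf : ContDiff ℝ 1 f) : fderiv ℝ (moll φ f) = moll φ (fderiv ℝ f) :=
  funext fun x => (hasFDerivAt_moll φ hf x).fderiv

/-- All derivatives of a smooth compactly supported function convolved with a bounded one
are bounded. -/
lemma bdd_iteratedFDeriv_convolution {H : Type} [NormedAddCommGroup H] [NormedSpace ℝ H]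
    {h : Euc d → H} (hc : Continuous h) {Bh : ℝ} (hb : ∀ x, ‖h x‖ ≤ Bh) (m : ℕ) :
    ∀ (P Q : Type) [NormedAddCommGroup P] [NormedSpace ℝ P] [NormedAddCommGroup Q]
      [NormedSpace ℝ Q] [CompleteSpace Q] (L : P →L[ℝ] H →L[ℝ] Q) (ψ : Euc d → P),
      ContDiff ℝ ∞ ψ → HasCompactSupport ψ →
      ∃ C : ℝ, ∀ x, ‖iteratedFDeriv ℝ m (ψ ⋆[L, volume] h) x‖ ≤ C := by
  induction m with
  | zero =>
      intro P Q _ _ _ _ _ L ψ hψ hs
      refine ⟨∫ t, ‖L‖ * ‖ψ t‖ * Bh, fun x => ?_⟩
      rw [norm_iteratedFDeriv_zero, convolution_def]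
      have hi : Integrable fun t => ‖L‖ * ‖ψ t‖ * Bh :=
        ((hψ.continuous.norm.integrable_of_hasCompactSupport hs.norm).const_mul _).mul_const _
      refine norm_integral_le_of_norm_le hi (.of_forall fun t => ?_)
      exact (L.le_opNorm₂ _ _).trans (by gcongr; exact hb _)
  | succ m ih =>
      intro P Q _ _ _ _ _ L ψ hψ hs
      obtain ⟨C, hC⟩ := ih (Euc d →L[ℝ] P) (Euc d →L[ℝ] Q) (L.precompL (Euc d)) (fderiv ℝ ψ)
        (hψ.fderiv_right le_rfl) (hs.fderiv ℝ)
      refine ⟨C, fun x => ?_⟩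
      rw [← norm_iteratedFDeriv_fderiv]
      have he : fderiv ℝ (ψ ⋆[L, volume] h) = fderiv ℝ ψ ⋆[L.precompL (Euc d), volume] h :=
        funext fun y => (hs.hasFDerivAt_convolution_left L (hψ.of_le (by simp))
          hc.locallyIntegrable y).fderiv
      rw [he]
      exact hC x

lemma bdd_iteratedFDeriv_moll {H : Type} [NormedAddCommGroup H] [NormedSpace ℝ H]
    [CompleteSpace H] (φ : ContDiffBump (0 : Euc d)) {h : Euc d → H} (hc : Continuous h) {Bh : ℝ}
    (hb : ∀ x, ‖h x‖ ≤ Bh) (m : ℕ) :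
    ∃ C : ℝ, ∀ x, ‖iteratedFDeriv ℝ m (moll φ h) x‖ ≤ C := by
  rw [moll_eq_convolution]
  exact bdd_iteratedFDeriv_convolution hc hb m ℝ H (ContinuousLinearMap.lsmul ℝ ℝ) _
    φ.contDiff_normed φ.hasCompactSupport_normed

section Smoothing

variable {V : Euc d → ℝ}

lemma Admissible.fderiv2 (hV : Admissible d V) (x v : Euc d) :
    ‖v‖ ^ 2 ≤ fderiv ℝ (fderiv ℝ V) x v v ∧ fderiv ℝ (fderiv ℝ V) x v v ≤ 2 * ‖v‖ ^ 2 := by
  have h1 := hV.hessian_lower x v
  have h2 := hV.hessian_upper x v
  rw [iteratedFDeriv_two_apply] at h1 h2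
  exact ⟨h1, h2⟩

lemma Admissible.contDiff_fderiv (hV : Admissible d V) : ContDiff ℝ 1 (fderiv ℝ V) :=
  hV.smooth.fderiv_right (by norm_num)

lemma Admissible.hessian_norm_le (hV : Admissible d V) (x : Euc d) :
    ‖fderiv ℝ (fderiv ℝ V) x‖ ≤ 2 := by
  refine ContinuousLinearMap.opNorm_le_bound₂ _ zero_le_two fun u v => ?_
  rw [Real.norm_eq_abs]
  refine bilin_le_of_quad (fun a b => ?_)
    (fun w => (sq_nonneg ‖w‖).trans (hV.fderiv2 x w).1) (fun w => (hV.fderiv2 x w).2) u v
  exact (hV.smooth.contDiffAt.isSymmSndFDerivAt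
    (by simp only [minSmoothness_of_isRCLikeNormedField]; exact le_rfl)) a b

lemma Admissible.fderiv_zero (hV : Admissible d V) : fderiv ℝ V 0 = 0 :=
  (LinearIsometryEquiv.map_eq_zero_iff _).1 hV.grad_zero

/-- The smoothed potential, re-centred to be critical at the origin. -/
noncomputable def mollPot (φ : ContDiffBump (0 : Euc d)) (V : Euc d → ℝ) (x : Euc d) : ℝ :=
  moll φ V x - fderiv ℝ (moll φ V) 0 x

lemma contDiff_moll (φ : ContDiffBump (0 : Euc d)) (hV : Continuous V) :
    ContDiff ℝ ∞ (moll φ V) := by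
  rw [moll_eq_convolution]
  exact φ.hasCompactSupport_normed.contDiff_convolution_left _ φ.contDiff_normed
    hV.locallyIntegrable

lemma fderiv_mollPot (φ : ContDiffBump (0 : Euc d)) (hV : Admissible d V) (x : Euc d) :
    fderiv ℝ (mollPot φ V) x = moll φ (fderiv ℝ V) x - moll φ (fderiv ℝ V) 0 := by
  have hW := fderiv_moll φ (hV.smooth.of_le one_le_two)
  refine HasFDerivAt.fderiv ?_
  rw [← hW]
  exact (((contDiff_moll φ hV.smooth.continuous).differentiable (by simp)) x).hasFDerivAt.sub
    (ContinuousLinearMap.hasFDerivAt _)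

lemma fderiv2_mollPot (φ : ContDiffBump (0 : Euc d)) (hV : Admissible d V) :
    fderiv ℝ (fderiv ℝ (mollPot φ V)) = moll φ (fderiv ℝ (fderiv ℝ V)) := by
  funext x
  rw [funext (fderiv_mollPot φ hV), fderiv_sub_const, fderiv_moll φ hV.contDiff_fderiv]

lemma mollPot_grad_zero (φ : ContDiffBump (0 : Euc d)) (hV : Admissible d V) :
    ∇ (mollPot φ V) 0 = 0 := by
  simp [gradient, fderiv_mollPot φ hV]

lemma mollPot_nicePot (φ : ContDiffBump (0 : Euc d)) (hV : Admissible d V) :
    NicePot d (mollPot φ V) 1 2 := by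
  have hc2 : Continuous (fderiv ℝ (fderiv ℝ V)) := hV.contDiff_fderiv.continuous_fderiv (by simp)
  have hq : ∀ x v, fderiv ℝ (fderiv ℝ (mollPot φ V)) x v v
      = ∫ t, φ.normed volume t * fderiv ℝ (fderiv ℝ V) (x - t) v v := by
    intro x v
    rw [fderiv2_mollPot φ hV, moll, ContinuousLinearMap.integral_apply
      (integrable_moll_integrand φ hc2 x), ContinuousLinearMap.integral_apply
      ((integrable_moll_integrand φ hc2 x).apply_continuousLinearMap v)]
    rfl
  have hint : ∀ x v, Integrable fun t => φ.normed volume t * fderiv ℝ (fderiv ℝ V) (x - t) v v :=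
    fun x v => integrable_moll_integrand φ (E := ℝ)
      ((hc2.clm_apply continuous_const).clm_apply continuous_const) x
  refine ⟨one_pos, ?_, fun x v => ?_, fun x v => ?_, fun n hn => ?_⟩
  · exact (contDiff_moll φ hV.smooth.continuous).sub (ContinuousLinearMap.contDiff _)
  · rw [hq, one_mul]
    calc ‖v‖ ^ 2 = ∫ t, φ.normed volume t * ‖v‖ ^ 2 := by
          rw [integral_mul_const, φ.integral_normed, one_mul]
      _ ≤ _ := integral_mono (φ.integrable_normed.mul_const _) (hint x v) fun t =>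
          mul_le_mul_of_nonneg_left (hV.fderiv2 (x - t) v).1 (φ.nonneg_normed t)
  · rw [hq]
    calc _ ≤ ∫ t, φ.normed volume t * (2 * ‖v‖ ^ 2) :=
          integral_mono (hint x v) (φ.integrable_normed.mul_const _) fun t =>
            mul_le_mul_of_nonneg_left (hV.fderiv2 (x - t) v).2 (φ.nonneg_normed t)
      _ = _ := by rw [integral_mul_const, φ.integral_normed, one_mul]
  · obtain ⟨m, rfl⟩ : ∃ m, n = m + 2 := ⟨n - 2, by omega⟩
    obtain ⟨C, hC⟩ := bdd_iteratedFDeriv_moll (H := Euc d →L[ℝ] Euc d →L[ℝ] ℝ) φ hc2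
      (fun y => hV.hessian_norm_le y) m
    refine ⟨C, fun x => ?_⟩
    rw [← norm_iteratedFDeriv_fderiv, ← norm_iteratedFDeriv_fderiv, fderiv2_mollPot φ hV]
    exact hC x

end Smoothing

end Vale.Agent.P347
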