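import Vale.Agent.P347.SpecsAlg
import Vale.Agent.P347.Mollify

/-!
An expression which samples all smooth potentials samples all admissible potentials.
-/

namespace Vale.Agent.P347

open MeasureTheory Filter
open scoped Gradient RealInnerProductSpace ContDiff Topology BoundedContinuousFunction

variable {d : ℕ}

lemma abs_integral_sub_le_of_real_sub_le {ν μ : Measure (Euc d)} [IsProbabilityMeasure ν]
    [IsProbabilityMeasure μ] {δ : ℝ}
    (h : ∀ B : Set (Euc d), MeasurableSet B → |ν.real B - μ.real B| ≤ δ) {f : Euc d → ℝ}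
    (hf : Continuous f) (h0 : ∀ x, 0 ≤ f x) (h1 : ∀ x, f x ≤ 1) :
    |∫ x, f x ∂ν - ∫ x, f x ∂μ| ≤ δ := by
  have key : ∀ m : Measure (Euc d), IsProbabilityMeasure m →
      ∫ x, f x ∂m = ∫ t in Set.Ioc (0 : ℝ) 1, m.real {a | t < f a} := by
    intro m hm
    have hi : Integrable f m :=
      Integrable.of_bound hf.aestronglyMeasurable 1 (.of_forall fun x => by
        rw [Real.norm_eq_abs, abs_of_nonneg (h0 x)]; exact h1 x)
    rw [hi.integral_eq_integral_meas_lt (.of_forall h0)]
    refine setIntegral_eq_of_subset_of_forall_sdiff_eq_zero measurableSet_Ioi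
      Set.Ioc_subset_Ioi_self fun t ht => ?_
    have ht1 : 1 < t := by
      by_contra hle
      exact ht.2 ⟨ht.1, not_lt.1 hle⟩
    have : {a | t < f a} = ∅ := Set.eq_empty_of_forall_notMem fun a ha => by
      have ha' : t < f a := ha
      linarith [h1 a]
    simp [this]
  have hint : ∀ m : Measure (Euc d), IsProbabilityMeasure m →
      IntegrableOn (fun t => m.real {a | t < f a}) (Set.Ioc (0 : ℝ) 1) := by
    intro m hm
    have hanti : Antitone fun t => m.real {a | t < f a} := fun s t hst =>
      measureReal_mono fun a (ha : t < f a) => lt_of_le_of_lt hst ha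
    refine IntegrableOn.of_bound measure_Ioc_lt_top hanti.measurable.aestronglyMeasurable 1
      (.of_forall fun t => ?_)
    rw [Real.norm_eq_abs, abs_of_nonneg measureReal_nonneg]
    exact measureReal_le_one
  rw [key ν inferInstance, key μ inferInstance,
    ← integral_sub (hint ν inferInstance) (hint μ inferInstance)]
  have hb := norm_setIntegral_le_of_norm_le_const (μ := volume) (s := Set.Ioc (0 : ℝ) 1) (C := δ)
    (f := fun t => ν.real {a | t < f a} - μ.real {a | t < f a}) measure_Ioc_lt_top fun t _ => by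
      rw [Real.norm_eq_abs]
      exact h _ (measurableSet_lt measurable_const hf.measurable)
  simpa [Real.norm_eq_abs, measureReal_def] using hb

lemma real_sub_le_of_integral_sub_le {ν μ : Measure (Euc d)} [IsProbabilityMeasure ν]
    [IsProbabilityMeasure μ] {δ : ℝ}
    (h : ∀ f : Euc d → ℝ, Continuous f → (∀ x, 0 ≤ f x) → (∀ x, f x ≤ 1) →
      |∫ x, f x ∂ν - ∫ x, f x ∂μ| ≤ δ) {B : Set (Euc d)} (hB : MeasurableSet B) :
    |ν.real B - μ.real B| ≤ δ := by
  refine le_of_forall_pos_le_add fun ε hε => ?_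
  set g : Euc d → ℝ := B.indicator fun _ => 1 with hg
  have hgm : AEStronglyMeasurable g (ν + μ) :=
    (measurable_const.indicator hB).aestronglyMeasurable
  have hg01 : ∀ x, 0 ≤ g x ∧ g x ≤ 1 := fun x => by
    classical
    rw [hg, Set.indicator_apply]
    split_ifs <;> norm_num
  have hgL : MemLp g (ENNReal.ofReal (1 : ℝ)) (ν + μ) :=
    MemLp.of_bound hgm 1 (.of_forall fun x => by
      rw [Real.norm_eq_abs, abs_of_nonneg (hg01 x).1]; exact (hg01 x).2)
  obtain ⟨u, hu, -⟩ := hgL.exists_boundedContinuous_integral_rpow_sub_le one_pos hε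
  set f : Euc d → ℝ := fun x => max 0 (min 1 (u x)) with hf
  have hfc : Continuous f := continuous_const.max (continuous_const.min u.continuous)
  have hf0 : ∀ x, 0 ≤ f x := fun x => le_max_left _ _
  have hf1 : ∀ x, f x ≤ 1 := fun x => max_le zero_le_one (min_le_left _ _)
  have hif : ∀ m : Measure (Euc d), IsFiniteMeasure m → Integrable f m := fun m _ =>
    Integrable.of_bound hfc.aestronglyMeasurable 1 (.of_forall fun x => by
      rw [Real.norm_eq_abs, abs_of_nonneg (hf0 x)]; exact hf1 x)
  have hig : ∀ m : Measure (Euc d), IsFiniteMeasure m → Integrable g m := fun m _ =>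
    (integrable_const 1).indicator hB
  have hclose : ∫ x, |g x - f x| ∂(ν + μ) ≤ ε := by
    refine le_trans (integral_mono ((hig _ inferInstance).sub (hif _ inferInstance)).abs ?_
      fun x => ?_) hu
    · simpa using ((hig _ inferInstance).sub (u.integrable (ν + μ))).norm
    · simp only [Real.rpow_one, Real.norm_eq_abs, hf]
      rcases le_total (u x) 0 with hc | hc <;> rcases le_total (u x) 1 with hd | hd <;>
        simp [hc, hd] <;>
        rcases abs_cases (g x - u x) with ⟨e1, _⟩ | ⟨e1, _⟩ <;>
        rw [e1, abs_le] <;> constructor <;> linarith [(hg01 x).1, (hg01 x).2]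
  rw [integral_add_measure (f := fun x => |g x - f x|) ((hig ν inferInstance).sub (hif ν inferInstance)).abs
    ((hig μ inferInstance).sub (hif μ inferInstance)).abs] at hclose
  have hdiff : ∀ m : Measure (Euc d), IsProbabilityMeasure m →
      |m.real B - ∫ x, f x ∂m| ≤ ∫ x, |g x - f x| ∂m := by
    intro m _
    rw [← integral_indicator_one hB,
      show (∫ x, B.indicator (1 : Euc d → ℝ) x ∂m) = ∫ x, g x ∂m from rfl,
      ← integral_sub (hig m inferInstance) (hif m inferInstance)]
    exact abs_integral_le_integral_abs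
  calc |ν.real B - μ.real B|
      ≤ |ν.real B - ∫ x, f x ∂ν| + |∫ x, f x ∂ν - ∫ x, f x ∂μ| + |∫ x, f x ∂μ - μ.real B| :=
        (abs_sub_le _ (∫ x, f x ∂μ) _).trans (add_le_add_left (abs_sub_le _ _ _) _)
    _ ≤ _ := by
        rw [abs_sub_comm (∫ x, f x ∂μ) (μ.real B)]
        linarith [hdiff ν inferInstance, hdiff μ inferInstance, h f hfc hf0 hf1]

namespace Expr

lemma tendsto_eval {n : ℕ} {G : ℕ → Euc d → Euc d} {G₀ : Euc d → Euc d} {L : ℝ}
    (hlip : ∀ k a b, ‖G k a - G k b‖ ≤ L * ‖a - b‖)
    (hlim : ∀ a, Tendsto (fun k => G k a) atTop (𝓝 (G₀ a))) (e : Expr n) (x : Fin n → Euc d)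
    (ξ : ℕ → Euc d) :
    Tendsto (fun k => e.eval (G k) x ξ) atTop (𝓝 (e.eval G₀ x ξ)) := by
  induction e with
  | inp i => exact tendsto_const_nhds
  | noise i => exact tendsto_const_nhds
  | zero => exact tendsto_const_nhds
  | add a b iha ihb => exact iha.add ihb
  | smul c a ih => exact ih.const_smul c
  | grad a ih =>
      simp only [eval]
      have h1 : Tendsto
          (fun k => G k (a.eval (G k) x ξ) - G k (a.eval G₀ x ξ)) atTop (𝓝 0) := by
        refine squeeze_zero_norm (fun k => hlip k _ _) ?_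
        simpa using (tendsto_iff_norm_sub_tendsto_zero.1 ih).const_mul L
      simpa using h1.add (hlim (a.eval G₀ x ξ))

end Expr

lemma integral_gibbs (W : Euc d → ℝ) (f : Euc d → ℝ) :
    ∫ x, f x ∂(gibbs W) = (∫ x, Real.exp (-W x) * f x) / ∫ x, Real.exp (-W x) := by
  rw [gibbs, integral_tilted, ← integral_div]
  refine integral_congr_ae (.of_forall fun x => ?_)
  simp only [smul_eq_mul]
  rw [div_mul_eq_mul_div]

lemma integrable_exp_neg_half_sq : Integrable (fun x : Euc d => Real.exp (-(1 / 2) * ‖x‖ ^ 2)) := by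
  have := GaussianFourier.integrable_cexp_neg_mul_sq_norm_add
    (V := Euc d) (b := ((1 / 2 : ℝ) : ℂ)) (by norm_num) 0 0
  refine this.norm.congr (.of_forall fun x => ?_)
  simp [Complex.norm_exp, ← Complex.ofReal_pow, Complex.mul_re]

/-- The bump functions of radius tending to zero. -/
noncomputable def bumpSeq (d : ℕ) (k : ℕ) : ContDiffBump (0 : Euc d) where
  rIn := 1 / ((k : ℝ) + 2)
  rOut := 1 / ((k : ℝ) + 1)
  rIn_pos := by positivity
  rIn_lt_rOut := by
    apply one_div_lt_one_div_of_lt (by positivity)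
    linarith

lemma tendsto_moll {E : Type*} [NormedAddCommGroup E] [NormedSpace ℝ E] [CompleteSpace E]
    {g : Euc d → E} (hg : Continuous g) (x : Euc d) :
    Tendsto (fun k => moll (bumpSeq d k) g x) atTop (𝓝 (g x)) := by
  have h0 : Tendsto (fun k => (bumpSeq d k).rOut) atTop (𝓝 0) := by
    simpa [bumpSeq] using tendsto_one_div_add_atTop_nhds_zero_nat (𝕜 := ℝ)
  simp only [moll_eq_convolution]
  exact ContDiffBump.convolution_tendsto_right_of_continuous h0 hg x

/-- An expression sampling all smooth potentials samples all admissible potentials. -/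
theorem reduction : ReductionStatement := by
  intro d e h V hV B hB
  set W : ℕ → Euc d → ℝ := fun k => mollPot (bumpSeq d k) V with hW
  have hnice : ∀ k, NicePot d (W k) 1 2 := fun k => mollPot_nicePot _ hV
  have hgrad0 : ∀ k, ∇ (W k) 0 = 0 := fun k => mollPot_grad_zero _ hV
  have hfd0 : ∀ k, fderiv ℝ (W k) 0 = 0 := fun k =>
    (LinearIsometryEquiv.map_eq_zero_iff _).1 (hgrad0 k)
  have hf1c : Continuous (fderiv ℝ V) := hV.contDiff_fderiv.continuous
  have hdlim : ∀ x, Tendsto (fun k => fderiv ℝ (W k) x) atTop (𝓝 (fderiv ℝ V x)) := by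
    intro x
    simp only [hW, fderiv_mollPot _ hV]
    simpa [hV.fderiv_zero] using (tendsto_moll hf1c x).sub (tendsto_moll hf1c 0)
  have hglim : ∀ x, Tendsto (fun k => ∇ (W k) x) atTop (𝓝 (∇ V x)) := fun x =>
    ((LinearIsometryEquiv.continuous _).tendsto _).comp (hdlim x)
  have hVlim : ∀ x, Tendsto (fun k => W k x) atTop (𝓝 (V x)) := by
    intro x
    simp only [hW, mollPot, fderiv_moll _ (hV.smooth.of_le one_le_two)]
    have h0 : Tendsto (fun k => moll (bumpSeq d k) (fderiv ℝ V) 0 x) atTop (𝓝 0) := by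
      simpa [hV.fderiv_zero, Function.comp_def] using
        ((ContinuousLinearMap.apply ℝ ℝ x).continuous.tendsto _).comp (tendsto_moll hf1c 0)
    simpa using (tendsto_moll hV.smooth.continuous x).sub h0
  have hlip : ∀ k a b, ‖∇ (W k) a - ∇ (W k) b‖ ≤ 2 * ‖a - b‖ := by
    intro k a b
    rw [gradient, gradient, ← map_sub, LinearIsometryEquiv.norm_map]
    refine Convex.norm_image_sub_le_of_norm_fderiv_le
      (fun y _ => (hnice k).contDiff_fderiv.differentiable (by simp) y)
      (fun y _ => ?_) convex_univ (Set.mem_univ b) (Set.mem_univ a)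
    simpa using (hnice k).hessian_norm_le y
  have hGk : ∀ k, Continuous (∇ (W k)) := fun k =>
    (LinearIsometryEquiv.continuous _).comp (hnice k).contDiff_fderiv.continuous
  have hG : Continuous (∇ V) := (LinearIsometryEquiv.continuous _).comp hf1c
  -- the Gibbs weights
  obtain ⟨c, hc⟩ : ∃ c : ℝ, ∀ k, c ≤ W k 0 := by
    obtain ⟨c, hc⟩ := (hVlim 0).bddBelow_range
    exact ⟨c, fun k => hc (Set.mem_range_self k)⟩
  have hbound : ∀ k x, Real.exp (-W k x) ≤ Real.exp (-c) * Real.exp (-(1 / 2) * ‖x‖ ^ 2) := by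
    intro k x
    rw [← Real.exp_add]
    refine Real.exp_le_exp.2 ?_
    have := (hnice k).quadratic_lower x
    rw [hfd0 k] at this
    simp only [zero_apply] at this
    linarith [hc k]
  have hboundV : ∀ x, Real.exp (-V x) ≤ Real.exp (-c) * Real.exp (-(1 / 2) * ‖x‖ ^ 2) := fun x =>
    le_of_tendsto' ((Real.continuous_exp.tendsto _).comp (hVlim x).neg) fun k => hbound k x
  have hI := (integrable_exp_neg_half_sq (d := d)).const_mul (Real.exp (-c))
  have hintW : ∀ k, Integrable fun x => Real.exp (-W k x) := fun k =>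
    hI.mono' (hnice k).smooth.continuous.neg.rexp.aestronglyMeasurable
      (.of_forall fun x => by rw [Real.norm_eq_abs, Real.abs_exp]; exact hbound k x)
  have hintV : Integrable fun x => Real.exp (-V x) :=
    hI.mono' hV.smooth.continuous.neg.rexp.aestronglyMeasurable
      (.of_forall fun x => by rw [Real.norm_eq_abs, Real.abs_exp]; exact hboundV x)
  have hpV : IsProbabilityMeasure (gibbs V) := isProbabilityMeasure_tilted hintV
  have hpW : ∀ k, IsProbabilityMeasure (gibbs (W k)) := fun k =>
    isProbabilityMeasure_tilted (hintW k)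
  have hce : ∀ G : Euc d → Euc d, Continuous G →
      Continuous fun ξ : ℕ → Euc d => e.eval G Fin.elim0 ξ := fun G hGc =>
    (Expr.continuous_eval hGc e).comp (continuous_const.prodMk continuous_id)
  have hpL : ∀ G : Euc d → Euc d, Continuous G →
      IsProbabilityMeasure (e.law G Fin.elim0) := fun G hGc =>
    Measure.isProbabilityMeasure_map (hce G hGc).measurable.aemeasurable
  have := hpL (∇ V) hG
  refine real_sub_le_of_integral_sub_le (fun f hf hf0 hf1 => ?_) hB
  have hfb : ∀ x, ‖f x‖ ≤ 1 := fun x => by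
    rw [Real.norm_eq_abs, abs_of_nonneg (hf0 x)]; exact hf1 x
  have hlaw : Tendsto (fun k => ∫ y, f y ∂(e.law (∇ (W k)) Fin.elim0)) atTop
      (𝓝 (∫ y, f y ∂(e.law (∇ V) Fin.elim0))) := by
    simp only [Expr.law]
    rw [integral_map (hce _ hG).measurable.aemeasurable hf.aestronglyMeasurable]
    refine Tendsto.congr (fun k => (integral_map (hce _ (hGk k)).measurable.aemeasurable
      hf.aestronglyMeasurable).symm) ?_
    exact tendsto_integral_of_dominated_convergence (fun _ => 1)
      (fun k => (hf.comp (hce _ (hGk k))).aestronglyMeasurable) (integrable_const _)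
      (fun k => .of_forall fun ξ => hfb _)
      (.of_forall fun ξ => (hf.tendsto _).comp (Expr.tendsto_eval hlip hglim e _ ξ))
  have hnum : ∀ g : Euc d → ℝ, Continuous g → (∀ x, ‖g x‖ ≤ 1) →
      Tendsto (fun k => ∫ x, Real.exp (-W k x) * g x) atTop
        (𝓝 (∫ x, Real.exp (-V x) * g x)) := by
    intro g hg hgb
    refine tendsto_integral_of_dominated_convergence
      (fun x => Real.exp (-c) * Real.exp (-(1 / 2) * ‖x‖ ^ 2))
      (fun k => ((hnice k).smooth.continuous.neg.rexp.mul hg).aestronglyMeasurable) hI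
      (fun k => .of_forall fun x => ?_)
      (.of_forall fun x => ((Real.continuous_exp.tendsto _).comp (hVlim x).neg).mul_const _)
    rw [norm_mul, Real.norm_eq_abs, Real.abs_exp]
    calc Real.exp (-W k x) * ‖g x‖ ≤ Real.exp (-W k x) * 1 :=
          mul_le_mul_of_nonneg_left (hgb x) (Real.exp_pos _).le
      _ ≤ _ := by rw [mul_one]; exact hbound k x
  have hgib : Tendsto (fun k => ∫ y, f y ∂(gibbs (W k))) atTop (𝓝 (∫ y, f y ∂(gibbs V))) := by
    simp only [integral_gibbs]
    refine (hnum f hf hfb).div ?_ (integral_exp_pos hintV).ne'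
    simpa using hnum (fun _ => 1) continuous_const (fun _ => by simp)
  refine le_of_tendsto' (hlaw.sub hgib).abs fun k => ?_
  have := hpL (∇ (W k)) (hGk k)
  have := hpW k
  exact abs_integral_sub_le_of_real_sub_le (h (W k) (hnice k) (hgrad0 k)) hf hf0 hf1

end Vale.Agent.P347
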