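import Vale.Agent.P347.SpecsChain
import Vale.Agent.P347.Reduction

/-!
A chain as one closed expression: its law, the mixture formula, and the reduction.
-/

namespace Vale.Agent.P347

open MeasureTheory ProbabilityTheory
open scoped Gradient

variable {d : ℕ}

/-- The closed expression with the same value as a chain. -/
def chainExpr : List (Expr 1) → Expr 0
  | [] => .zero
  | e :: es => e.bind fun _ => chainExpr es

lemma eval_chainExpr (G : Euc d → Euc d) : ∀ (es : List (Expr 1)) (ω : ℕ → Euc d),
    (chainExpr es).eval G Fin.elim0 ω = chainEval G es ω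
  | [], _ => rfl
  | e :: es, ω => by
    rw [chainExpr, chainEval, Expr.eval_bind]
    congr 1
    funext i
    have hi : (i : ℕ) = 0 := by omega
    simp [hi, eval_chainExpr G es]

lemma chainLaw_eq (G : Euc d → Euc d) (es : List (Expr 1)) :
    chainLaw G es = (chainExpr es).law G Fin.elim0 := by
  simp only [chainLaw, Expr.law, eval_chainExpr]

/-- A chain which samples all smooth potentials samples all admissible potentials. -/
theorem reductionChain : ReductionChainStatement := by
  intro d es h V hV B hB
  rw [chainLaw_eq]
  refine reduction d (chainExpr es) (fun W hW hW0 S hS => ?_) V hV B hB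
  rw [← chainLaw_eq]
  exact h W hW hW0 S hS

/-- The law of a chain is a mixture over the previous steps. -/
theorem chainStep : ChainStepStatement := by
  intro d G e es hG
  have hGL : ∀ a b, ‖G a - G b‖ ≤ 2 * ‖a - b‖ := hG.lip
  have hGc := hG.continuous
  simp only [chainLaw_eq]
  set p := chainExpr es
  haveI hp : IsProbabilityMeasure (p.law G Fin.elim0) :=
    Measure.isProbabilityMeasure_map (Expr.continuous_eval_noise hGc p _).aemeasurable
  have hmom := Expr.law_integrable_norm zero_le_two hGc hGL p Fin.elim0
  refine ⟨hp, hmom, fun f hf => ?_⟩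
  set μ := Measure.pi fun _ : Fin 1 => p.law G Fin.elim0
  have hint : Integrable (fun q : (ℕ → Euc d) × (Fin 1 → Euc d) => f (e.eval G q.2 q.1))
      ((noiseLaw d).prod μ) := by
    refine Integrable.mono'
      (g := fun q => (|f 0| + ‖e.eval G 0 q.1‖) + e.lip 2 0 * ‖q.2 0‖) ?_ ?_
      (.of_forall fun q => ?_)
    · refine Integrable.add ?_ ?_
      · exact ((integrable_const _).add
          (Expr.integrable_norm_eval zero_le_two hGc hGL e 0)).comp_fst μ
      · exact ((((measurePreserving_eval (fun _ : Fin 1 => p.law G Fin.elim0) 0).integrable_comp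
          hmom.aestronglyMeasurable).2 hmom).const_mul (e.lip 2 0)).comp_snd (noiseLaw d)
    · exact (hf.continuous.comp ((Expr.continuous_eval hGc e).comp
        (continuous_snd.prodMk continuous_fst))).aestronglyMeasurable
    · have h1 := abs_le_of_lipschitz (lipschitz_abs_sub hf) (e.eval G q.2 q.1)
      have h2 := Expr.norm_eval_sub_le zero_le_two hGL e q.2 0 q.1
      have h3 := norm_le_norm_add_norm_sub' (e.eval G q.2 q.1) (e.eval G 0 q.1)
      simp only [Fin.sum_univ_one, Pi.zero_apply, sub_zero] at h2
      rw [Real.norm_eq_abs]
      linarith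
  rw [show chainExpr (e :: es) = e.bind (fun _ => p) from rfl,
    Expr.integral_bind hGc e _ Fin.elim0 hf.continuous hint]
  rw [← (measurePreserving_funUnique (p.law G Fin.elim0) (Fin 1)).integral_comp'
    (fun z => ∫ y, f y ∂(e.law G fun _ => z))]
  refine integral_congr_ae (.of_forall fun z => ?_)
  have hz : z = fun _ => z 0 := funext fun i => by rw [Subsingleton.elim i 0]
  simp only [MeasurableEquiv.funUnique_apply, Fin.default_eq_zero]
  conv_lhs => rw [hz]

end Vale.Agent.P347
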