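import Vale.Agent.P347.SpecsAlg

/-!
A closed expression is realised by an algorithm with the same law and the same query budget.
-/

namespace Vale.Agent.P347

open MeasureTheory ProbabilityTheory
open scoped Gradient RealInnerProductSpace

variable {d q : ℕ}

/-- The seed read as a sequence of Gaussian vectors. -/
noncomputable def splitSeed (d : ℕ) (w : Seed) (i : ℕ) : Euc d :=
  WithLp.toLp 2 fun j : Fin d => w (Nat.pair i j)

lemma measurable_splitSeed (d : ℕ) : Measurable (splitSeed d) :=
  measurable_pi_lambda _ fun _ => (WithLp.measurable_toLp 2 (Fin d → ℝ)).comp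
    (measurable_pi_lambda _ fun _ => measurable_pi_apply _)

lemma seedLaw_map_splitSeed (d : ℕ) : seedLaw.map (splitSeed d) = noiseLaw d := by
  have hg : Function.Injective fun p : ℕ × Fin d => Nat.pair p.1 (p.2 : ℕ) := by
    intro p r h
    obtain ⟨h1, h2⟩ := Nat.pair_eq_pair.1 h
    exact Prod.ext h1 (Fin.ext h2)
  have h1 := infinitePi_map_comp (gaussianReal 0 1) hg
  have h2 : (Measure.infinitePi fun _ : ℕ × Fin d => gaussianReal 0 1).map
      (MeasurableEquiv.curry ℕ (Fin d) ℝ)
      = Measure.infinitePi fun _ : ℕ => Measure.pi fun _ : Fin d => gaussianReal 0 1 := by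
    rw [Measure.infinitePi_map_curry (fun (_ : ℕ) (_ : Fin d) => gaussianReal 0 1)]
    simp only [Measure.infinitePi_eq_pi]
  have h3 : (Measure.infinitePi fun _ : ℕ => Measure.pi fun _ : Fin d => gaussianReal 0 1).map
      (fun (x : ℕ → Fin d → ℝ) i => WithLp.toLp 2 (x i)) = noiseLaw d := by
    rw [Measure.infinitePi_map_pi (fun _ : ℕ => Measure.pi fun _ : Fin d => gaussianReal 0 1)
      (f := fun _ : ℕ => WithLp.toLp 2) (fun _ => WithLp.measurable_toLp 2 _)]
    simp only [map_pi_eq_stdGaussian]
    rfl
  rw [← h3, ← h2, ← h1, Measure.map_map (by fun_prop) (by fun_prop),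
    Measure.map_map (by fun_prop) (by fun_prop)]
  rfl

namespace Expr

/-- The value of an expression, given the answers to its queries numbered from `off`. -/
noncomputable def evA : Expr 0 → (ℕ → Euc d) → (ℕ → Euc d) → ℕ → Euc d
  | inp i, _, _, _ => i.elim0
  | noise i, ω, _, _ => ω i
  | zero, _, _, _ => 0
  | add a b, ω, g, off => a.evA ω g off + b.evA ω g (off + a.queries)
  | smul c a, ω, g, off => c • a.evA ω g off
  | grad a, _, g, off => g (off + a.queries)

/-- The point of query `k` of an expression whose queries are numbered from `off`. -/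
noncomputable def evQ : Expr 0 → (ℕ → Euc d) → (ℕ → Euc d) → ℕ → ℕ → Euc d
  | inp _, _, _, _, _ => 0
  | noise _, _, _, _, _ => 0
  | zero, _, _, _, _ => 0
  | add a b, ω, g, off, k =>
      if k < off + a.queries then a.evQ ω g off k else b.evQ ω g (off + a.queries) k
  | smul _ a, ω, g, off, k => a.evQ ω g off k
  | grad a, ω, g, off, k =>
      if k < off + a.queries then a.evQ ω g off k else a.evA ω g off

lemma evA_eq_eval (e : Expr 0) (G : Euc d → Euc d) (ω g : ℕ → Euc d) (off : ℕ)
    (h : ∀ k, off ≤ k → k < off + e.queries → g k = G (e.evQ ω g off k)) :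
    e.evA ω g off = e.eval G Fin.elim0 ω := by
  induction e generalizing off with
  | inp i => exact i.elim0
  | noise i => rfl
  | zero => rfl
  | add a b iha ihb =>
      simp only [evA, eval]
      rw [iha off fun k h1 h2 => ?_, ihb (off + a.queries) fun k h1 h2 => ?_]
      · have h3 := h k (by omega) (by simp only [queries]; omega)
        rwa [evQ, if_neg (by omega)] at h3
      · have h3 := h k h1 (by simp only [queries]; omega)
        rwa [evQ, if_pos h2] at h3
  | smul c a ih =>
      simp only [evA, eval]
      rw [ih off fun k h1 h2 => h k h1 h2]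
  | grad a ih =>
      simp only [evA, eval]
      rw [h (off + a.queries) (by omega) (by simp only [queries]; omega), evQ,
        if_neg (lt_irrefl _), ih off fun k h1 h2 => ?_]
      have h3 := h k h1 (by simp only [queries]; omega)
      rwa [evQ, if_pos h2] at h3

lemma evA_congr (e : Expr 0) (ω g g' : ℕ → Euc d) (off : ℕ)
    (h : ∀ k, off ≤ k → k < off + e.queries → g k = g' k) :
    e.evA ω g off = e.evA ω g' off := by
  induction e generalizing off with
  | inp i => exact i.elim0
  | noise i => rfl
  | zero => rfl
  | add a b iha ihb =>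
      simp only [evA]
      rw [iha off fun k h1 h2 => h k h1 (by simp only [queries]; omega),
        ihb (off + a.queries) fun k h1 h2 => h k (by omega) (by simp only [queries]; omega)]
  | smul c a ih => simp only [evA]; rw [ih off h]
  | grad a _ => exact h _ (by omega) (by simp only [queries]; omega)

lemma evQ_congr (e : Expr 0) (ω g g' : ℕ → Euc d) (off k : ℕ)
    (h : ∀ i, i < k → g i = g' i) : e.evQ ω g off k = e.evQ ω g' off k := by
  induction e generalizing off with
  | inp i => rfl
  | noise i => rfl
  | zero => rfl
  | add a b iha ihb =>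
      simp only [evQ]
      split_ifs
      exacts [iha off, ihb _]
  | smul c a ih => simp only [evQ]; exact ih off
  | grad a ih =>
      simp only [evQ]
      split_ifs with hk
      exacts [ih off, evA_congr a ω g g' off fun i _ h2 => h i (by omega)]

lemma measurable_evA (e : Expr 0) (off : ℕ) :
    Measurable fun p : (ℕ → Euc d) × (ℕ → Euc d) => e.evA p.1 p.2 off := by
  induction e generalizing off with
  | inp i => exact i.elim0
  | noise i => simp only [evA]; fun_prop
  | zero => simp only [evA]; fun_prop
  | add a b iha ihb => simp only [evA]; exact (iha off).add (ihb _)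
  | smul c a ih => simp only [evA]; exact (ih off).const_smul c
  | grad a _ => simp only [evA]; fun_prop

lemma measurable_evQ (e : Expr 0) (off k : ℕ) :
    Measurable fun p : (ℕ → Euc d) × (ℕ → Euc d) => e.evQ p.1 p.2 off k := by
  induction e generalizing off with
  | inp i => exact i.elim0
  | noise i => simp only [evQ]; fun_prop
  | zero => simp only [evQ]; fun_prop
  | add a b iha ihb =>
      simp only [evQ]
      split_ifs
      exacts [iha off, ihb _]
  | smul c a ih => simp only [evQ]; exact ih off
  | grad a ih =>
      simp only [evQ]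
      split_ifs
      exacts [ih off, measurable_evA a off]

end Expr

/-- The gradient answers seen so far, extended by zero. -/
noncomputable def pastGrad {d : ℕ} (k : ℕ) (p : Fin k → ℝ × Euc d) (i : ℕ) : Euc d :=
  if h : i < k then (p ⟨i, h⟩).2 else 0

lemma measurable_pastGrad {d : ℕ} (k : ℕ) :
    Measurable (pastGrad (d := d) k) := by
  refine measurable_pi_lambda _ fun i => ?_
  unfold pastGrad
  split_ifs
  · exact (measurable_pi_apply (⟨i, _⟩ : Fin k)).snd
  · exact measurable_const

/-- The algorithm which runs the expression `e`. -/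
noncomputable def exprAlg (d q : ℕ) (e : Expr 0) : Algorithm d q where
  query k p := e.evQ (splitSeed d p.1) (pastGrad (k : ℕ) p.2) 0 k
  measurable_query k := (Expr.measurable_evQ e 0 k).comp
    (((measurable_splitSeed d).comp measurable_fst).prodMk
      ((measurable_pastGrad (k : ℕ)).comp measurable_snd))
  output p := e.evA (splitSeed d p.1) (pastGrad q p.2) 0
  measurable_output := (Expr.measurable_evA e 0).comp
    (((measurable_splitSeed d).comp measurable_fst).prodMk
      ((measurable_pastGrad q).comp measurable_snd))

lemma exprAlg_answers (e : Expr 0) (V : Euc d → ℝ) (w : Seed) (k : ℕ) :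
    ∀ (hk : k ≤ q) (i : ℕ), i < k →
      pastGrad k ((exprAlg d q e).answers V w k hk) i
        = ∇ V (e.evQ (splitSeed d w) (pastGrad k ((exprAlg d q e).answers V w k hk)) 0 i) := by
  induction k with
  | zero => intro _ i hi; omega
  | succ k ih =>
      intro hk i hi
      set prev := (exprAlg d q e).answers V w k (Nat.le_of_succ_le hk) with hprev
      set x := (exprAlg d q e).query ⟨k, hk⟩ (w, prev) with hx
      have he : (exprAlg d q e).answers V w (k + 1) hk = Fin.snoc prev (V x, ∇ V x) := rfl
      rw [he]
      have hlow : ∀ j, j < k → pastGrad (k + 1) (Fin.snoc prev (V x, ∇ V x)) j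
          = pastGrad k prev j := by
        intro j hj
        simp only [pastGrad, dif_pos hj, dif_pos (Nat.lt_succ_of_lt hj)]
        have : (⟨j, Nat.lt_succ_of_lt hj⟩ : Fin (k + 1)) = Fin.castSucc ⟨j, hj⟩ := rfl
        rw [this, Fin.snoc_castSucc]
      rcases Nat.lt_succ_iff_lt_or_eq.1 hi with h | h
      · rw [hlow i h, ih (Nat.le_of_succ_le hk) i h, ← hprev,
          Expr.evQ_congr e _ _ _ 0 i fun j hj => (hlow j (by omega)).symm]
      · subst h
        rw [Expr.evQ_congr e _ _ (pastGrad i prev) 0 i fun j hj => hlow j hj]
        simp only [pastGrad, dif_pos (Nat.lt_succ_self i)]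
        have : (⟨i, Nat.lt_succ_self i⟩ : Fin (i + 1)) = Fin.last i := rfl
        rw [this, Fin.snoc_last]
        rfl

lemma exprAlg_run (e : Expr 0) (he : e.queries ≤ q) (V : Euc d → ℝ) (w : Seed) :
    (exprAlg d q e).run V w = e.eval (∇ V) Fin.elim0 (splitSeed d w) := by
  refine Expr.evA_eq_eval e (∇ V) _ _ 0 fun k _ hk => ?_
  exact exprAlg_answers e V w q le_rfl k (by omega)

/-- Every closed expression is realised by an algorithm with the same law and query budget. -/
theorem realise : RealiseStatement := by
  intro d q e he
  refine ⟨exprAlg d q e, fun V hV => ?_⟩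
  have h : (exprAlg d q e).run V = (fun ω => e.eval (∇ V) Fin.elim0 ω) ∘ splitSeed d :=
    funext (exprAlg_run e he V)
  have hm : Measurable fun ω : ℕ → Euc d => e.eval (∇ V) Fin.elim0 ω :=
    ((Expr.continuous_eval hV e).comp
      (continuous_const.prodMk continuous_id)).measurable
  rw [h, ← Measure.map_map hm (measurable_splitSeed d), seedLaw_map_splitSeed]
  rfl

end Vale.Agent.P347
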