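import Vale.Agent.P347.SpecsChain
import Vale.Agent.P347.Realise

/-!
A chain is realised by an algorithm which shares the output of every step.
-/

namespace Vale.Agent.P347

open MeasureTheory ProbabilityTheory
open scoped Gradient

variable {d q : ℕ}

/-- A step as a closed expression; the previous output is read as noise `0`. -/
def stepExpr (e : Expr 1) : Expr 0 :=
  (e.rename fun i => i + 1).subst fun _ => .noise 0

/-- Prepend a vector to a sequence. -/
def consNoise {α : Type*} (a : α) (ω : ℕ → α) : ℕ → α
  | 0 => a
  | i + 1 => ω i

lemma measurable_consNoise {α : Type*} [MeasurableSpace α] :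
    Measurable fun p : α × (ℕ → α) => consNoise p.1 p.2 := by
  refine measurable_pi_lambda _ fun i => ?_
  cases i with
  | zero => exact measurable_fst
  | succ i => exact (measurable_pi_apply i).comp measurable_snd

lemma eval_stepExpr (G : Euc d → Euc d) (e : Expr 1) (a : Euc d) (ω : ℕ → Euc d) :
    (stepExpr e).eval G Fin.elim0 (consNoise a ω) = e.eval G (fun _ => a) ω := by
  rw [stepExpr, Expr.eval_subst, Expr.eval_rename]
  rfl

lemma queries_stepExpr (e : Expr 1) : (stepExpr e).queries = e.queries := by
  simp [stepExpr, Expr.queries_subst, Expr.queries_rename, Expr.queries]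

lemma chainQueries_cons (e : Expr 1) (es : List (Expr 1)) :
    chainQueries (e :: es) = e.queries + chainQueries es := by
  simp [chainQueries]

/-- The output of a chain, given the answers to its queries. -/
noncomputable def chA : List (Expr 1) → (ℕ → Euc d) → (ℕ → Euc d) → Euc d
  | [], _, _ => 0
  | e :: es, ω, g =>
      (stepExpr e).evA
        (consNoise (chA es (fun j => ω (Nat.pair 1 j)) g) fun j => ω (Nat.pair 0 j))
        g (chainQueries es)

/-- The point of query `k` of a chain. -/
noncomputable def chQ : List (Expr 1) → (ℕ → Euc d) → (ℕ → Euc d) → ℕ → Euc d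
  | [], _, _, _ => 0
  | e :: es, ω, g, k =>
      if k < chainQueries es then chQ es (fun j => ω (Nat.pair 1 j)) g k
      else (stepExpr e).evQ
        (consNoise (chA es (fun j => ω (Nat.pair 1 j)) g) fun j => ω (Nat.pair 0 j))
        g (chainQueries es) k

lemma chA_congr : ∀ (es : List (Expr 1)) (ω g g' : ℕ → Euc d),
    (∀ k, k < chainQueries es → g k = g' k) → chA es ω g = chA es ω g'
  | [], _, _, _, _ => rfl
  | e :: es, ω, g, g', h => by
    have hq := chainQueries_cons e es
    simp only [chA]
    rw [chA_congr es _ g g' fun k hk => h k (by omega)]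
    exact Expr.evA_congr _ _ _ _ _ fun k _ hk => h k (by rw [queries_stepExpr] at hk; omega)

lemma chQ_congr : ∀ (es : List (Expr 1)) (ω g g' : ℕ → Euc d) (k : ℕ),
    (∀ i, i < k → g i = g' i) → chQ es ω g k = chQ es ω g' k
  | [], _, _, _, _, _ => rfl
  | e :: es, ω, g, g', k, h => by
    simp only [chQ]
    split_ifs with hk
    · exact chQ_congr es _ g g' k h
    · rw [chA_congr es _ g g' fun i hi => h i (by omega)]
      exact Expr.evQ_congr _ _ _ _ _ _ h

lemma chA_eq_eval : ∀ (es : List (Expr 1)) (G : Euc d → Euc d) (ω g : ℕ → Euc d),
    (∀ k, k < chainQueries es → g k = G (chQ es ω g k)) → chA es ω g = chainEval G es ω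
  | [], _, _, _, _ => rfl
  | e :: es, G, ω, g, h => by
    have hq := chainQueries_cons e es
    simp only [chA, chainEval]
    have h1 := chA_eq_eval es G (fun j => ω (Nat.pair 1 j)) g fun k hk => by
      have h' := h k (by omega)
      rwa [chQ, if_pos hk] at h'
    rw [← eval_stepExpr G e, ← h1]
    refine Expr.evA_eq_eval _ G _ g _ fun k hk1 hk2 => ?_
    rw [queries_stepExpr] at hk2
    have h' := h k (by omega)
    rwa [chQ, if_neg (by omega)] at h'

lemma measurable_block (b : ℕ) :
    Measurable fun p : (ℕ → Euc d) × (ℕ → Euc d) => fun j => p.1 (Nat.pair b j) :=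
  measurable_pi_lambda _ fun j => (measurable_pi_apply (Nat.pair b j)).comp measurable_fst

lemma measurable_chA : ∀ es : List (Expr 1),
    Measurable fun p : (ℕ → Euc d) × (ℕ → Euc d) => chA es p.1 p.2
  | [] => measurable_const
  | e :: es => by
    simp only [chA]
    exact (Expr.measurable_evA _ _).comp ((measurable_consNoise.comp
      (((measurable_chA es).comp
        ((measurable_block 1).prodMk
          measurable_snd)).prodMk
        (measurable_block 0))).prodMk
      measurable_snd)

lemma measurable_chQ : ∀ (es : List (Expr 1)) (k : ℕ),
    Measurable fun p : (ℕ → Euc d) × (ℕ → Euc d) => chQ es p.1 p.2 k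
  | [], _ => measurable_const
  | e :: es, k => by
    simp only [chQ]
    by_cases hk : k < chainQueries es
    · simp only [if_pos hk]
      exact (measurable_chQ es k).comp
        ((measurable_block 1).prodMk
          measurable_snd)
    · simp only [if_neg hk]
      exact (Expr.measurable_evQ _ _ _).comp ((measurable_consNoise.comp
        (((measurable_chA es).comp
          ((measurable_block 1).prodMk
            measurable_snd)).prodMk
          (measurable_block 0))).prodMk
        measurable_snd)

/-- The algorithm which runs a chain. -/
noncomputable def chainAlg (d q : ℕ) (es : List (Expr 1)) : Algorithm d q where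
  query k p := chQ es (splitSeed d p.1) (pastGrad (k : ℕ) p.2) k
  measurable_query k := (measurable_chQ es k).comp
    (((measurable_splitSeed d).comp measurable_fst).prodMk
      ((measurable_pastGrad (k : ℕ)).comp measurable_snd))
  output p := chA es (splitSeed d p.1) (pastGrad q p.2)
  measurable_output := (measurable_chA es).comp
    (((measurable_splitSeed d).comp measurable_fst).prodMk
      ((measurable_pastGrad q).comp measurable_snd))

lemma chainAlg_answers (es : List (Expr 1)) (V : Euc d → ℝ) (w : Seed) (k : ℕ) :
    ∀ (hk : k ≤ q) (i : ℕ), i < k →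
      pastGrad k ((chainAlg d q es).answers V w k hk) i
        = ∇ V (chQ es (splitSeed d w) (pastGrad k ((chainAlg d q es).answers V w k hk)) i) := by
  induction k with
  | zero => intro _ i hi; omega
  | succ k ih =>
      intro hk i hi
      set prev := (chainAlg d q es).answers V w k (Nat.le_of_succ_le hk) with hprev
      set x := (chainAlg d q es).query ⟨k, hk⟩ (w, prev) with hx
      have he : (chainAlg d q es).answers V w (k + 1) hk = Fin.snoc prev (V x, ∇ V x) := rfl
      rw [he]
      have hlow : ∀ j, j < k → pastGrad (k + 1) (Fin.snoc prev (V x, ∇ V x)) j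
          = pastGrad k prev j := by
        intro j hj
        simp only [pastGrad, dif_pos hj, dif_pos (Nat.lt_succ_of_lt hj)]
        have : (⟨j, Nat.lt_succ_of_lt hj⟩ : Fin (k + 1)) = Fin.castSucc ⟨j, hj⟩ := rfl
        rw [this, Fin.snoc_castSucc]
      rcases Nat.lt_succ_iff_lt_or_eq.1 hi with h | h
      · rw [hlow i h, ih (Nat.le_of_succ_le hk) i h, ← hprev,
          chQ_congr es _ _ _ i fun j hj => (hlow j (by omega)).symm]
      · subst h
        rw [chQ_congr es _ _ (pastGrad i prev) i fun j hj => hlow j hj]
        simp only [pastGrad, dif_pos (Nat.lt_succ_self i)]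
        have : (⟨i, Nat.lt_succ_self i⟩ : Fin (i + 1)) = Fin.last i := rfl
        rw [this, Fin.snoc_last]
        rfl

/-- Every chain is realised by an algorithm with the same law and query budget. -/
theorem realiseChain : RealiseChainStatement := by
  intro d q es he
  refine ⟨chainAlg d q es, fun V hV => ?_⟩
  have h : (chainAlg d q es).run V = chainEval (∇ V) es ∘ splitSeed d := funext fun w =>
    chA_eq_eval es (∇ V) _ _ fun k hk => chainAlg_answers es V w q le_rfl k (by omega)
  have hm : ∀ es : List (Expr 1), Measurable fun ω : ℕ → Euc d => chainEval (∇ V) es ω := by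
    intro es
    induction es with
    | nil => exact measurable_const
    | cons e es ih =>
      simp only [chainEval]
      exact ((Expr.continuous_eval hV e).measurable).comp
        ((measurable_pi_lambda _ fun _ => ih.comp
          (measurable_pi_lambda _ fun j => measurable_pi_apply (Nat.pair 1 j))).prodMk
          (measurable_pi_lambda _ fun j => measurable_pi_apply (Nat.pair 0 j)))
  rw [h, ← Measure.map_map (hm es) (measurable_splitSeed d), seedLaw_map_splitSeed]
  rfl

end Vale.Agent.P347
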