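import Vale.Agent.P347.LevelBase

/-!
Gaussian averages `(σ, y) ↦ E g (y + σ η)` of functions of temperate growth, as smooth functions
of the scale and the point.
-/

namespace Vale.Agent.P347

open MeasureTheory ProbabilityTheory Filter Set
open scoped Gradient RealInnerProductSpace ContDiff Topology

variable {d : ℕ} {P : Type} [NormedAddCommGroup P] [NormedSpace ℝ P]

lemma temperate_prodMk {E F G : Type*} [NormedAddCommGroup E] [NormedSpace ℝ E]
    [NormedAddCommGroup F] [NormedSpace ℝ F] [NormedAddCommGroup G] [NormedSpace ℝ G]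
    {f : E → F} {g : E → G} (hf : Function.HasTemperateGrowth f)
    (hg : Function.HasTemperateGrowth g) :
    Function.HasTemperateGrowth fun x => (f x, g x) := by
  have h := ((ContinuousLinearMap.inl ℝ F G).hasTemperateGrowth.comp hf).add
    ((ContinuousLinearMap.inr ℝ F G).hasTemperateGrowth.comp hg)
  have e : (fun x => (f x, g x))
      = ⇑(ContinuousLinearMap.inl ℝ F G) ∘ f + ⇑(ContinuousLinearMap.inr ℝ F G) ∘ g := by
    funext x; simp
  rw [e]; exact h

lemma temperate_deriv_clm {E F G : Type*} [NormedAddCommGroup E] [NormedSpace ℝ E]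
    [NormedAddCommGroup F] [NormedSpace ℝ F] [NormedAddCommGroup G] [NormedSpace ℝ G]
    {f : E → F} (hf : Function.HasTemperateGrowth f) (T : (E →L[ℝ] F) →L[ℝ] G) :
    Function.HasTemperateGrowth fun x => T (fderiv ℝ f x) := by
  refine T.hasTemperateGrowth.comp ⟨hf.1.fderiv_right le_rfl, fun n => ?_⟩
  obtain ⟨k, C, h⟩ := hf.2 (n + 1)
  exact ⟨k, C, fun x => by rw [norm_iteratedFDeriv_fderiv]; exact h x⟩

lemma gauss_growth_pair {F : Type} [NormedAddCommGroup F] [NormedSpace ℝ F] {g : P × Euc d → F}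
    (hg : Function.HasTemperateGrowth g) :
    ∃ (k : ℕ) (C : ℝ), 0 ≤ C ∧ ∀ q η, ‖g (q, η)‖ ≤ C * (1 + ‖q‖) ^ k * (1 + ‖η‖ ^ k) := by
  obtain ⟨k, C, h⟩ := hg.2 0
  have hC : 0 ≤ C := by simpa using (norm_nonneg _).trans (h 0)
  refine ⟨k, C * 2 ^ (k - 1), by positivity, fun q η => ?_⟩
  have h0 := h (q, η)
  rw [norm_iteratedFDeriv_zero] at h0
  refine h0.trans ?_
  calc C * (1 + ‖(q, η)‖) ^ k ≤ C * ((1 + ‖q‖) * (1 + ‖η‖)) ^ k := by
        gcongr
        rw [Prod.norm_def]
        nlinarith [max_le_add_of_nonneg (norm_nonneg q) (norm_nonneg η),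
          mul_nonneg (norm_nonneg q) (norm_nonneg η)]
    _ = C * (1 + ‖q‖) ^ k * (1 + ‖η‖) ^ k := by rw [mul_pow, mul_assoc]
    _ ≤ C * (1 + ‖q‖) ^ k * (2 ^ (k - 1) * (1 + ‖η‖ ^ k)) := by
        refine mul_le_mul_of_nonneg_left ?_ (by positivity)
        simpa using add_pow_le (zero_le_one (α := ℝ)) (norm_nonneg η) k
    _ = _ := by ring

/-- Gaussian integrals of temperate functions may be differentiated in the parameter. -/
lemma hasFDerivAt_gauss_integral {F : Type} [NormedAddCommGroup F] [NormedSpace ℝ F]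
    {g : P × Euc d → F} (hg : Function.HasTemperateGrowth g) (q : P) :
    HasFDerivAt (fun q => ∫ η, g (q, η) ∂(gauss d))
      (∫ η, (fderiv ℝ g (q, η)).comp (ContinuousLinearMap.inl ℝ P (Euc d)) ∂(gauss d)) q := by
  set T : ((P × Euc d) →L[ℝ] F) →L[ℝ] (P →L[ℝ] F) :=
    (ContinuousLinearMap.compL ℝ P (P × Euc d) F).flip (ContinuousLinearMap.inl ℝ P (Euc d))
  have hd : Function.HasTemperateGrowth fun p => T (fderiv ℝ g p) :=
    temperate_deriv_clm hg T
  obtain ⟨k, C, hC, h⟩ := gauss_growth_pair hd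
  obtain ⟨k', C', hC', h'⟩ := gauss_growth_pair hg
  have hpair : ∀ q : P, Continuous fun η : Euc d => (q, η) := fun q =>
    continuous_const.prodMk continuous_id
  refine hasFDerivAt_integral_of_dominated_of_fderiv_le (F := fun q η => g (q, η))
    (F' := fun q η => T (fderiv ℝ g (q, η)))
    (bound := fun η => C * (2 + ‖q‖) ^ k * (1 + ‖η‖ ^ k)) (Metric.ball_mem_nhds q one_pos)
    (.of_forall fun q => (hg.1.continuous.comp (hpair q)).aestronglyMeasurable)
    (gauss_integrable_of_growth (hg.1.continuous.comp (hpair q)).aestronglyMeasurable fun η =>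
      h' q η)
    (hd.1.continuous.comp (hpair q)).aestronglyMeasurable (.of_forall fun η q' hq' => ?_)
    (((integrable_const (1 : ℝ)).add (gauss_integrable_norm_pow k)).const_mul _)
    (.of_forall fun η q' _ => ?_)
  · refine (h q' η).trans ?_
    have : ‖q'‖ ≤ 1 + ‖q‖ := by
      have := norm_le_norm_add_norm_sub' q' q
      rw [Metric.mem_ball, dist_eq_norm] at hq'
      linarith
    exact mul_le_mul_of_nonneg_right (mul_le_mul_of_nonneg_left
      (pow_le_pow_left₀ (by positivity) (by linarith) k) hC) (by positivity)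
  · exact (hg.1.differentiable (by simp) (q', η)).hasFDerivAt.comp q'
      (hasFDerivAt_prodMk_left q' η)

lemma gauss_integral_temperate {F : Type} [NormedAddCommGroup F] [NormedSpace ℝ F]
    {g : P × Euc d → F} (hg : Function.HasTemperateGrowth g) :
    Function.HasTemperateGrowth fun q => ∫ η, g (q, η) ∂(gauss d) := by
  have main : ∀ (n : ℕ) {F : Type} [NormedAddCommGroup F] [NormedSpace ℝ F] (g : P × Euc d → F),
      Function.HasTemperateGrowth g →
      ContDiff ℝ n (fun q => ∫ η, g (q, η) ∂(gauss d)) ∧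
        ∃ (k : ℕ) (C : ℝ), ∀ q,
          ‖iteratedFDeriv ℝ n (fun q => ∫ η, g (q, η) ∂(gauss d)) q‖ ≤ C * (1 + ‖q‖) ^ k := by
    intro n
    induction n with
    | zero =>
      intro F _ _ g hg
      obtain ⟨k, C, hC, h⟩ := gauss_growth_pair hg
      refine ⟨contDiff_zero.2 (continuous_iff_continuousAt.2 fun q =>
        (hasFDerivAt_gauss_integral hg q).continuousAt),
        k, C * ∫ η, (1 + ‖η‖ ^ k) ∂(gauss d), fun q => ?_⟩
      rw [norm_iteratedFDeriv_zero]
      refine (norm_integral_le_of_norm_le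
        (((integrable_const (1 : ℝ)).add (gauss_integrable_norm_pow k)).const_mul
          (C * (1 + ‖q‖) ^ k)) (.of_forall fun η => h q η)).trans (le_of_eq ?_)
      simp only [Pi.add_apply]
      rw [integral_const_mul]
      ring
    | succ n ih =>
      intro F _ _ g hg
      set T : ((P × Euc d) →L[ℝ] F) →L[ℝ] (P →L[ℝ] F) :=
        (ContinuousLinearMap.compL ℝ P (P × Euc d) F).flip (ContinuousLinearMap.inl ℝ P (Euc d))
      obtain ⟨h1, k, C, h⟩ := ih _ (temperate_deriv_clm hg T)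
      have he : fderiv ℝ (fun q => ∫ η, g (q, η) ∂(gauss d))
          = fun q => ∫ η, T (fderiv ℝ g (q, η)) ∂(gauss d) :=
        funext fun q => (hasFDerivAt_gauss_integral hg q).fderiv
      refine ⟨?_, k, C, fun q => ?_⟩
      · push_cast
        exact contDiff_succ_iff_fderiv.2
          ⟨fun q => (hasFDerivAt_gauss_integral hg q).differentiableAt, by simp, by rw [he]; exact h1⟩
      · rw [← norm_iteratedFDeriv_fderiv, he]; exact h q
  exact ⟨contDiff_infty.2 fun n => (main n g hg).1, fun n => (main n g hg).2⟩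

/-- The Gaussian average of `g` at scale `σ`, as a function of `(σ, y)`. -/
noncomputable def avgAt {F : Type*} [NormedAddCommGroup F] [NormedSpace ℝ F] (g : Euc d → F)
    (p : ℝ × Euc d) : F :=
  ∫ η, g (p.2 + p.1 • η) ∂(gauss d)

lemma heat_eq_avgAt {F : Type*} [NormedAddCommGroup F] [NormedSpace ℝ F] (g : Euc d → F)
    (ρ : ℝ) (y : Euc d) : heat ρ g y = avgAt g (√ρ, y) := rfl

/-- The map `((σ, y), η) ↦ y + σ η` is of temperate growth. -/
lemma shift_temperate :
    Function.HasTemperateGrowth fun p : (ℝ × Euc d) × Euc d => p.1.2 + p.1.1 • p.2 :=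
  ((ContinuousLinearMap.snd ℝ ℝ (Euc d)).comp
      (ContinuousLinearMap.fst ℝ (ℝ × Euc d) (Euc d))).hasTemperateGrowth.add
    (((ContinuousLinearMap.fst ℝ ℝ (Euc d)).comp
      (ContinuousLinearMap.fst ℝ (ℝ × Euc d) (Euc d))).hasTemperateGrowth.smul
      (ContinuousLinearMap.snd ℝ (ℝ × Euc d) (Euc d)).hasTemperateGrowth)

lemma avgAt_temperate {F : Type} [NormedAddCommGroup F] [NormedSpace ℝ F] {g : Euc d → F}
    (hg : Function.HasTemperateGrowth g) : Function.HasTemperateGrowth (avgAt g) :=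
  gauss_integral_temperate (g := fun p : (ℝ × Euc d) × Euc d => g (p.1.2 + p.1.1 • p.2))
    (hg.comp shift_temperate)

/-- The derivative of a Gaussian average in both variables. -/
lemma fderiv_avgAt {F : Type} [NormedAddCommGroup F] [NormedSpace ℝ F] [CompleteSpace F]
    {g : Euc d → F} (hg : Function.HasTemperateGrowth g) (p v : ℝ × Euc d) :
    fderiv ℝ (avgAt g) p v
      = ∫ η, fderiv ℝ g (p.2 + p.1 • η) (v.2 + v.1 • η) ∂(gauss d) := by
  have hc := hg.comp (shift_temperate (d := d))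
  have h := hasFDerivAt_gauss_integral (g := fun q : (ℝ × Euc d) × Euc d =>
    g (q.1.2 + q.1.1 • q.2)) hc p
  have he : fderiv ℝ (avgAt g) p = ∫ η, (fderiv ℝ (fun q : (ℝ × Euc d) × Euc d =>
      g (q.1.2 + q.1.1 • q.2)) (p, η)).comp
        (ContinuousLinearMap.inl ℝ (ℝ × Euc d) (Euc d)) ∂(gauss d) := h.fderiv
  set T : ((ℝ × Euc d) × Euc d →L[ℝ] F) →L[ℝ] (ℝ × Euc d →L[ℝ] F) :=
    (ContinuousLinearMap.compL ℝ (ℝ × Euc d) ((ℝ × Euc d) × Euc d) F).flip
      (ContinuousLinearMap.inl ℝ (ℝ × Euc d) (Euc d))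
  have ht : Function.HasTemperateGrowth fun q => T (fderiv ℝ (fun q : (ℝ × Euc d) × Euc d =>
      g (q.1.2 + q.1.1 • q.2)) q) := temperate_deriv_clm hc T
  obtain ⟨k, C, -, hb⟩ := gauss_growth_pair ht
  have hint : Integrable (fun η => (fderiv ℝ (fun q : (ℝ × Euc d) × Euc d =>
      g (q.1.2 + q.1.1 • q.2)) (p, η)).comp (ContinuousLinearMap.inl ℝ (ℝ × Euc d) (Euc d)))
      (gauss d) :=
    gauss_integrable_of_growth
      (ht.1.continuous.comp (continuous_const.prodMk continuous_id)).aestronglyMeasurable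
      fun η => hb p η
  rw [he, ContinuousLinearMap.integral_apply hint]
  refine integral_congr_ae (.of_forall fun η => ?_)
  have hs : HasFDerivAt (fun q : (ℝ × Euc d) × Euc d => q.1.2 + q.1.1 • q.2)
      ((ContinuousLinearMap.snd ℝ ℝ (Euc d)).comp
          (ContinuousLinearMap.fst ℝ (ℝ × Euc d) (Euc d))
        + (p.1 • ContinuousLinearMap.snd ℝ (ℝ × Euc d) (Euc d)
          + ((ContinuousLinearMap.fst ℝ ℝ (Euc d)).comp
            (ContinuousLinearMap.fst ℝ (ℝ × Euc d) (Euc d))).smulRight η)) (p, η) :=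
    (((ContinuousLinearMap.snd ℝ ℝ (Euc d)).comp
        (ContinuousLinearMap.fst ℝ (ℝ × Euc d) (Euc d))).hasFDerivAt (x := (p, η))).fun_add
      ((((ContinuousLinearMap.fst ℝ ℝ (Euc d)).comp
        (ContinuousLinearMap.fst ℝ (ℝ × Euc d) (Euc d))).hasFDerivAt (x := (p, η))).fun_smul
        ((ContinuousLinearMap.snd ℝ (ℝ × Euc d) (Euc d)).hasFDerivAt (x := (p, η))))
  simp only [ContinuousLinearMap.comp_apply]
  have h1 := (hg.1.differentiable (by simp) _).hasFDerivAt.comp (p, η) hs
  simp only [Function.comp_def] at h1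
  rw [h1.fderiv]
  simp

/-- Gaussian integration by parts for temperate functions. -/
lemma gauss_ibp_temperate {φ : Euc d → ℝ} (hφ : Function.HasTemperateGrowth φ) (v : Euc d) :
    ∫ η, fderiv ℝ φ η v ∂(gauss d) = ∫ η, φ η * ⟪η, v⟫ ∂(gauss d) := by
  have hW : Weight fun x : Euc d => ‖x‖ ^ 2 / 2 :=
    ⟨(Function.hasTemperateGrowth_norm_sq (Euc d)).mul
      (Function.HasTemperateGrowth.const (2 : ℝ)⁻¹), 1 / 2, 0, by norm_num, fun x => by linarith⟩
  rw [gauss_eq_gibbs]
  refine (hW.ibp hφ v).trans (integral_congr_ae (.of_forall fun x => ?_))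
  have := ((hasFDerivAt_id x).norm_sq.mul_const (2 : ℝ)⁻¹).fderiv
  simp only [id_eq, ← div_eq_mul_inv] at this
  dsimp only
  rw [this]
  simp

end Vale.Agent.P347
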