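import Vale.Agent.P347.LevelPath

/-!
Uniform facts about the smoothed potentials at small levels.
-/

namespace Vale.Agent.P347

open MeasureTheory ProbabilityTheory Filter Set
open scoped Gradient RealInnerProductSpace ContDiff Topology

variable {d : ℕ} {U : Euc d → ℝ}

/-- A convex weight with Hessian at most `2`. -/
structure LevelPot (U : Euc d → ℝ) : Prop where
  weight : Weight U
  hess_nonneg : ∀ x v : Euc d, 0 ≤ fderiv ℝ (fderiv ℝ U) x v v
  hess_upper : ∀ x v : Euc d, fderiv ℝ (fderiv ℝ U) x v v ≤ 2 * ‖v‖ ^ 2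

/-- Small levels of the smoothing flow consist of convex potentials with Hessian at most `2`. -/
lemma exists_levelPot : ∃ c₀ : ℝ, 0 < c₀ ∧ c₀ ≤ 1 ∧ ∀ (d : ℕ) (V : Euc d → ℝ),
    NicePot d V 1 2 → ∀ t, 0 ≤ t → t ≤ c₀ → LevelPot (smoothPot V t) := by
  obtain ⟨c, hc, h⟩ := hessianBound poincare
  refine ⟨min 1 (c / 2), by positivity, min_le_left _ _, fun d V hV t ht htc => ?_⟩
  refine ⟨hV.weight.smoothPot ht, ?_, ?_⟩ <;> intro x v <;> rcases ht.eq_or_lt with rfl | ht'
  · rw [smoothPot_zero]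
    exact le_trans (by positivity) (hV.hessian_lower x v)
  · refine le_trans (by positivity)
      (h d V 1 2 t hV (by norm_num) ht' ?_ x v).1
    linarith [min_le_right 1 (c / 2)]
  · rw [smoothPot_zero]
    exact hV.hessian_upper x v
  · exact (h d V 1 2 t hV (by norm_num) ht' (by linarith [min_le_right 1 (c / 2)]) x v).2

namespace LevelPot

lemma hess_symm (h : LevelPot U) (x u v : Euc d) :
    fderiv ℝ (fderiv ℝ U) x u v = fderiv ℝ (fderiv ℝ U) x v u :=
  (h.weight.temperate.1.contDiffAt.isSymmSndFDerivAt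
    (by simp only [minSmoothness_of_isRCLikeNormedField]; exact ENat.LEInfty.out)) u v

lemma inner_fderiv_symm (h : LevelPot U) (x u v : Euc d) :
    ⟪fderiv ℝ (∇ U) x u, v⟫ = ⟪u, fderiv ℝ (∇ U) x v⟫ := by
  rw [real_inner_comm _ u, h.weight.inner_fderiv_gradient, h.weight.inner_fderiv_gradient,
    h.hess_symm]

lemma norm_fderiv_gradient_le (h : LevelPot U) (x : Euc d) : ‖fderiv ℝ (∇ U) x‖ ≤ 2 := by
  refine ContinuousLinearMap.opNorm_le_bound _ zero_le_two fun u => ?_
  set w := fderiv ℝ (∇ U) x u with hw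
  have h1 := bilin_le_of_quad (h.hess_symm x) (h.hess_nonneg x) (h.hess_upper x) u w
  rw [← h.weight.inner_fderiv_gradient, ← hw, real_inner_self_eq_norm_sq, abs_pow, abs_norm] at h1
  rcases eq_or_ne ‖w‖ 0 with h0 | h0
  · rw [h0]; positivity
  · exact le_of_mul_le_mul_right (by linarith : ‖w‖ * ‖w‖ ≤ 2 * ‖u‖ * ‖w‖) (by positivity)

lemma gradient_differentiable (h : LevelPot U) : Differentiable ℝ (∇ U) :=
  h.weight.gradient_temperate.1.differentiable (by simp)

lemma gradient_continuous (h : LevelPot U) : Continuous (∇ U) :=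
  h.weight.gradient_temperate.1.continuous

lemma gradient_lipschitz (h : LevelPot U) (a b : Euc d) : ‖∇ U a - ∇ U b‖ ≤ 2 * ‖a - b‖ :=
  convex_univ.norm_image_sub_le_of_norm_fderiv_le (fun x _ => h.gradient_differentiable x)
    (fun x _ => h.norm_fderiv_gradient_le x) (mem_univ b) (mem_univ a)

lemma gradient_norm_le (h : LevelPot U) (a b : Euc d) : ‖∇ U a‖ ≤ ‖∇ U b‖ + 2 * ‖a - b‖ := by
  linarith [h.gradient_lipschitz a b, norm_le_norm_add_norm_sub' (∇ U a) (∇ U b)]

/-- First order expansion. -/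
lemma taylor (h : LevelPot U) (x v : Euc d) :
    |U (x + v) - U x - ⟪∇ U x, v⟫| ≤ 2 * ‖v‖ ^ 2 := by
  have key := (convex_closedBall x ‖v‖).norm_image_sub_le_of_norm_fderiv_le' (f := U)
    (φ := fderiv ℝ U x) (C := 2 * ‖v‖) (fun y _ => h.weight.differentiable y)
    (fun y hy => ?_) (x := x) (y := x + v) (by simp) (by simp [dist_eq_norm])
  · simpa [inner_gradient, Real.norm_eq_abs, pow_two, mul_assoc] using key
  · rw [Metric.mem_closedBall, dist_eq_norm] at hy
    refine ContinuousLinearMap.opNorm_le_bound _ (by positivity) fun u => ?_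
    rw [sub_apply, ← inner_gradient, ← inner_gradient, ← inner_sub_left]
    refine (abs_real_inner_le_norm _ _).trans (mul_le_mul_of_nonneg_right ?_ (norm_nonneg u))
    exact (h.gradient_lipschitz y x).trans (by linarith)

/-- Monotonicity of the gradient. -/
lemma gradient_mono (h : LevelPot U) (a b : Euc d) : 0 ≤ ⟪∇ U a - ∇ U b, a - b⟫ := by
  have hd : ∀ r : ℝ, HasDerivAt (fun r : ℝ => ⟪∇ U (b + r • (a - b)), a - b⟫)
      (fderiv ℝ (fderiv ℝ U) (b + r • (a - b)) (a - b) (a - b)) r := fun r => by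
    have h1 : HasDerivAt (fun r : ℝ => b + r • (a - b)) (a - b) r := by
      simpa using ((hasDerivAt_id r).smul_const (a - b)).const_add b
    have h2 := ((h.gradient_differentiable _).hasFDerivAt.comp_hasDerivAt r h1).inner ℝ
      (hasDerivAt_const r (a - b))
    refine h2.congr_deriv ?_
    rw [inner_zero_right, zero_add, h.weight.inner_fderiv_gradient]
  have := monotone_of_hasDerivAt_nonneg hd (fun r => h.hess_nonneg _ _) zero_le_one
  simpa [inner_sub_left] using this

end LevelPot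

variable {V : Euc d → ℝ}

lemma gradient_lower (hV : NicePot d V 1 2) (h0 : ∇ V 0 = 0) (z : Euc d) :
    1 * ‖z‖ ^ 2 - 0 ≤ ⟪z, ∇ V z⟫ := by
  have hW := hV.weight
  have hd : ∀ r : ℝ, HasDerivAt (fun r : ℝ => ⟪∇ V (r • z), z⟫ - r * ‖z‖ ^ 2)
      (fderiv ℝ (fderiv ℝ V) (r • z) z z - ‖z‖ ^ 2) r := fun r => by
    have h1 : HasDerivAt (fun r : ℝ => r • z) z r := by
      simpa using (hasDerivAt_id r).smul_const z
    have h2 := ((hW.gradient_temperate.1.differentiable (by simp) _).hasFDerivAt.comp_hasDerivAt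
      r h1).inner ℝ (hasDerivAt_const r z)
    refine (h2.fun_sub ((hasDerivAt_id' r).mul_const (‖z‖ ^ 2))).congr_deriv ?_
    rw [inner_zero_right, zero_add, hW.inner_fderiv_gradient, one_mul]
  have := monotone_of_hasDerivAt_nonneg hd
    (fun r => sub_nonneg.2 (by simpa using hV.hessian_lower _ z)) zero_le_one
  rw [real_inner_comm]
  simpa [h0] using this

lemma gradient_upper (hV : NicePot d V 1 2) (h0 : ∇ V 0 = 0) (z : Euc d) :
    ‖∇ V z‖ ≤ 2 * ‖z‖ := by
  have h := hV.fderiv_norm_le z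
  rw [← norm_gradient, ← norm_gradient, h0] at h
  simpa using h

lemma le_one_add_sq (x : ℝ) : x ≤ 1 + x ^ 2 := by nlinarith [sq_nonneg (x - 1)]

lemma integral_norm_le_sq {ν : Measure (Euc d)} [IsProbabilityMeasure ν]
    (h2 : Integrable (fun x => ‖x‖ ^ 2) ν) :
    ∫ x, ‖x‖ ∂ν ≤ 1 + ∫ x, ‖x‖ ^ 2 ∂ν := by
  calc ∫ x, ‖x‖ ∂ν ≤ ∫ x, (1 + ‖x‖ ^ 2) ∂ν :=
        integral_mono_of_nonneg (.of_forall fun x => norm_nonneg x)
          ((integrable_const 1).add h2) (.of_forall fun x => le_one_add_sq ‖x‖)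
    _ = _ := by rw [integral_add (integrable_const 1) h2]; simp

lemma gauss_norm_le (d : ℕ) : ∫ η, ‖η‖ ∂(gauss d) ≤ (d : ℝ) + 1 := by
  refine (gauss_integral_norm_le (d := d)).trans ?_
  nlinarith [Real.sq_sqrt (Nat.cast_nonneg (α := ℝ) d), sq_nonneg (√(d : ℝ) - 1)]

lemma target_norm_le (hV : NicePot d V 1 2) (h0 : ∇ V 0 = 0) :
    ∫ z, ‖z‖ ∂(gibbs V) ≤ (d : ℝ) + 1 := by
  have := hV.weight.isProbabilityMeasure
  have h := hV.weight.integral_sq_le (gradient_lower hV h0)
  linarith [integral_norm_le_sq (hV.weight.integrable_norm_moment 2)]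

lemma levelLaw_norm_le (hV : NicePot d V 1 2) (h0 : ∇ V 0 = 0) {t : ℝ} (ht : 0 ≤ t)
    (ht1 : t ≤ 1) : ∫ y, ‖y‖ ∂(levelLaw V t) ≤ 2 * ((d : ℝ) + 1) := by
  have := hV.weight.isProbabilityMeasure
  have hη := (gauss_integrable_norm (d := d)).comp_snd (gibbs V)
  have hz := hV.weight.integrable_norm.comp_fst (gauss d)
  rw [levelLaw, integral_gibbs_smoothPot hV.weight ht continuous_norm]
  have hr : √t ≤ 1 := Real.sqrt_le_one.2 ht1
  calc ∫ p : Euc d × Euc d, ‖p.1 + √t • p.2‖ ∂((gibbs V).prod (gauss d))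
      ≤ ∫ p : Euc d × Euc d, (‖p.1‖ + ‖p.2‖) ∂((gibbs V).prod (gauss d)) := by
        refine integral_mono_of_nonneg (.of_forall fun p => norm_nonneg _) (hz.add hη)
          (.of_forall fun p => (norm_add_le _ _).trans (add_le_add le_rfl ?_))
        rw [norm_smul, Real.norm_eq_abs, abs_of_nonneg (Real.sqrt_nonneg t)]
        exact mul_le_of_le_one_left (norm_nonneg _) hr
    _ ≤ _ := by
        rw [integral_add hz hη, integral_fun_fst (μ := gibbs V) (ν := gauss d) (‖·‖),
          integral_fun_snd (μ := gibbs V) (ν := gauss d) (‖·‖)]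
        simp only [probReal_univ, one_smul]
        linarith [target_norm_le hV h0, gauss_norm_le d]

lemma levelLaw_score_le (hV : NicePot d V 1 2) (h0 : ∇ V 0 = 0) {s : ℝ} (hs : 0 < s) :
    ∫ y, ‖score V s y‖ ∂(levelLaw V s) ≤ 2 * ((d : ℝ) + 1) := by
  have := hV.weight.isProbabilityMeasure
  have hg := hV.weight.gradient_temperate
  have hgn : Integrable (fun z => ‖∇ V z‖) (gibbs V) := (hV.weight.integrable_temperate hg).norm
  obtain ⟨hi, he⟩ := integral_post_step hV.weight hs (G := fun q => ‖∇ V q.2‖)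
    (hg.1.continuous.norm.comp continuous_snd) (hgn.comp_fst _)
  calc ∫ y, ‖score V s y‖ ∂(levelLaw V s)
      ≤ ∫ x, ∫ y, ‖∇ V y‖ ∂(gibbs (postPot V s x)) ∂(gibbs (smoothPot V s)) := by
        refine integral_mono_of_nonneg (.of_forall fun y => norm_nonneg _) hi
          (.of_forall fun x => ?_)
        dsimp only
        rw [score_eq_postMean hV.weight, postMean_eq_gibbs V _ hs]
        exact norm_integral_le_integral_norm _
    _ = ∫ p : Euc d × Euc d, ‖∇ V p.1‖ ∂((gibbs V).prod (gauss d)) := he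
    _ ≤ ∫ p : Euc d × Euc d, 2 * ‖p.1‖ ∂((gibbs V).prod (gauss d)) :=
        integral_mono (hgn.comp_fst _) ((hV.weight.integrable_norm.comp_fst _).const_mul 2)
          fun p => gradient_upper hV h0 p.1
    _ ≤ _ := by
        rw [integral_const_mul, integral_fun_fst (μ := gibbs V) (ν := gauss d) (‖·‖)]
        simp only [probReal_univ, one_smul]
        linarith [target_norm_le hV h0]

end Vale.Agent.P347
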