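import Vale.Agent.P347.GadgetFlow
import Vale.Agent.P347.GaussAvg
import Vale.Agent.P347.LevelPot

/-!
The exact cleaning paths: existence, the integral equations and the invariance of the Gaussian
law. The radius is parametrised by an angle, `r = √ν cos θ`, `√(ν - r²) = √ν sin θ`.
-/

namespace Vale.Agent.P347

open MeasureTheory ProbabilityTheory Filter Set
open scoped Gradient RealInnerProductSpace ContDiff Topology

variable {d : ℕ}

namespace Clean

open Gadget

lemma temperate_sin : Function.HasTemperateGrowth Real.sin :=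
  ⟨Real.contDiff_sin, fun n => ⟨0, 1, fun x => by
    simpa [norm_iteratedFDeriv_eq_norm_iteratedDeriv] using
      Real.abs_iteratedDeriv_sin_le_one n x⟩⟩

lemma temperate_cos : Function.HasTemperateGrowth Real.cos :=
  ⟨Real.contDiff_cos, fun n => ⟨0, 1, fun x => by
    simpa [norm_iteratedFDeriv_eq_norm_iteratedDeriv] using
      Real.abs_iteratedDeriv_cos_le_one n x⟩⟩

/-- The mean norm of a standard Gaussian vector. -/
noncomputable def meanNorm (d : ℕ) : ℝ := ∫ η, ‖η‖ ∂(gauss d)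

lemma meanNorm_nonneg : 0 ≤ meanNorm d := integral_nonneg fun _ => norm_nonneg _

/-- A gradient field: temperate, with symmetric derivative of norm at most `2`. -/
structure GradField (g : Euc d → Euc d) : Prop where
  temperate : Function.HasTemperateGrowth g
  bound : ∀ y, ‖fderiv ℝ g y‖ ≤ 2
  symm : ∀ y a b, ⟪fderiv ℝ g y a, b⟫ = ⟪a, fderiv ℝ g y b⟫

variable {g : Euc d → Euc d}

lemma integrable_avg_deriv (hg : GradField g) (p v : ℝ × Euc d) :
    Integrable (fun η => fderiv ℝ g (p.2 + p.1 • η) (v.2 + v.1 • η)) (gauss d) := by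
  refine gauss_integrable_of_growth (C := 2 * (‖v.2‖ + |v.1|)) (n := 1)
    (((hg.temperate.1.continuous_fderiv (by simp)).comp (by fun_prop)).clm_apply
      (by fun_prop)).aestronglyMeasurable fun η => ?_
  refine (ContinuousLinearMap.le_opNorm _ _).trans ?_
  rw [mul_assoc, pow_one]
  refine mul_le_mul (hg.bound _) ((norm_add_le _ _).trans ?_) (norm_nonneg _) zero_le_two
  rw [norm_smul, Real.norm_eq_abs]
  nlinarith [norm_nonneg η, norm_nonneg v.2, abs_nonneg v.1]

lemma norm_fderiv_avgAt_le (hg : GradField g) (p v : ℝ × Euc d) :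
    ‖fderiv ℝ (avgAt g) p v‖ ≤ 2 * ‖v.2‖ + 2 * |v.1| * meanNorm d := by
  rw [fderiv_avgAt hg.temperate]
  refine (norm_integral_le_of_norm_le
    (g := fun η => 2 * ‖v.2‖ + 2 * |v.1| * ‖η‖) ((integrable_const _).add ?_)
    (.of_forall fun η => ?_)).trans (le_of_eq ?_)
  · simpa using (gauss_integrable_norm_pow (d := d) 1).const_mul (2 * |v.1|)
  · refine (ContinuousLinearMap.le_opNorm _ _).trans
      ((mul_le_mul (hg.bound _) (norm_add_le _ _) (norm_nonneg _) zero_le_two).trans ?_)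
    rw [norm_smul, Real.norm_eq_abs, mul_add, mul_assoc 2 |v.1|]
  · rw [integral_add (integrable_const _)
      (by simpa using (gauss_integrable_norm_pow (d := d) 1).const_mul (2 * |v.1|)),
      integral_const_mul (2 * |v.1|), meanNorm]
    simp

lemma avg_symm (hg : GradField g) (p : ℝ × Euc d) (a b : Euc d) :
    ⟪fderiv ℝ (avgAt g) p (0, a), b⟫ = ⟪a, fderiv ℝ (avgAt g) p (0, b)⟫ := by
  have hi := integrable_avg_deriv hg p
  rw [real_inner_comm, fderiv_avgAt hg.temperate, fderiv_avgAt hg.temperate,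
    ← integral_inner (hi (0, a)), ← integral_inner (hi (0, b))]
  refine integral_congr_ae (.of_forall fun η => ?_)
  simp only [zero_smul, add_zero]
  rw [real_inner_comm]
  exact hg.symm _ a b

/-- The derivative in the scale is `σ` times the divergence of the averaged Hessian. -/
lemma avg_scale (hg : GradField g) (σ : ℝ) (y ξ : Euc d) :
    ⟪ξ, fderiv ℝ (avgAt g) (σ, y) (1, 0)⟫
      = σ * ∑ j, fderiv ℝ (fun u => ⟪ξ, fderiv ℝ (avgAt g) (σ, u) (0, unitVec j)⟫) y
          (unitVec j) := by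
  set φ : Fin d → Euc d → ℝ := fun j x => ⟪ξ, fderiv ℝ g x (unitVec j)⟫ with hφdef
  have hφ : ∀ j, Function.HasTemperateGrowth (φ j) := fun j =>
    temperate_deriv_clm hg.temperate
      ((innerSL ℝ ξ).comp (ContinuousLinearMap.apply ℝ (Euc d) (unitVec j)))
  have hi := integrable_avg_deriv hg
  have e1 : ∀ j, (fun u => ⟪ξ, fderiv ℝ (avgAt g) (σ, u) (0, unitVec j)⟫)
      = fun u => avgAt (φ j) (σ, u) := fun j => funext fun u => by
    rw [fderiv_avgAt hg.temperate, ← integral_inner (hi _ _), avgAt]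
    simp [hφdef]
  have e2 : ∀ j, fderiv ℝ (fun u => avgAt (φ j) (σ, u)) y (unitVec j)
      = ∫ η, fderiv ℝ (φ j) (y + σ • η) (unitVec j) ∂(gauss d) := fun j => by
    have h := ((avgAt_temperate (hφ j)).1.differentiable (by simp) (σ, y)).hasFDerivAt.comp y
      (hasFDerivAt_prodMk_right (𝕜 := ℝ) σ y)
    simp only [Function.comp_def] at h
    rw [h.fderiv, ContinuousLinearMap.comp_apply, fderiv_avgAt (hφ j)]
    simp
  have hshift : Function.HasTemperateGrowth fun η : Euc d => y + σ • η :=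
    (Function.HasTemperateGrowth.const y).add
      ((σ • ContinuousLinearMap.id ℝ (Euc d)).hasTemperateGrowth)
  have hj : ∀ j, σ * ∫ η, fderiv ℝ (φ j) (y + σ • η) (unitVec j) ∂(gauss d)
      = ∫ η, φ j (y + σ • η) * ⟪η, unitVec j⟫ ∂(gauss d) := fun j => by
    rw [← integral_const_mul]
    refine Eq.trans (integral_congr_ae (.of_forall fun η => ?_))
      (gauss_ibp_temperate ((hφ j).comp hshift) (unitVec j))
    have h := ((hφ j).1.differentiable (by simp) _).hasFDerivAt.comp η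
      (((hasFDerivAt_id η).const_smul σ).const_add y)
    simp only [Function.comp_def, Pi.smul_apply, id_eq] at h
    show σ * _ = fderiv ℝ (fun x => φ j (y + σ • x)) η (unitVec j)
    rw [h.fderiv]
    simp
  have hint : ∀ j, Integrable (fun η => φ j (y + σ • η) * ⟪η, unitVec j⟫) (gauss d) := fun j => by
    refine gauss_integrable_of_growth (C := 2 * ‖ξ‖) (n := 1)
      (((hφ j).1.continuous.comp hshift.1.continuous).mul (by fun_prop)).aestronglyMeasurable
      fun η => ?_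
    rw [norm_mul, Real.norm_eq_abs, Real.norm_eq_abs, pow_one]
    have h1 : |φ j (y + σ • η)| ≤ 2 * ‖ξ‖ := by
      refine (abs_real_inner_le_norm _ _).trans ?_
      rw [mul_comm 2]
      refine mul_le_mul_of_nonneg_left ((ContinuousLinearMap.le_opNorm _ _).trans ?_) (norm_nonneg _)
      simpa [unitVec] using hg.bound (y + σ • η)
    have h2 : |⟪η, unitVec j⟫| ≤ 1 + ‖η‖ := by
      refine (abs_real_inner_le_norm _ _).trans ?_
      simp [unitVec]
    exact mul_le_mul h1 h2 (abs_nonneg _) (by positivity)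
  simp only [e1, e2]
  rw [Finset.mul_sum, Finset.sum_congr rfl fun j _ => hj j, ← integral_finsetSum _ fun j _ => hint j,
    fderiv_avgAt hg.temperate, ← integral_inner (hi _ _)]
  refine integral_congr_ae (.of_forall fun η => ?_)
  simp only [one_smul, zero_add, hφdef]
  have key : ∀ L : Euc d →L[ℝ] Euc d, ⟪ξ, L η⟫ = ∑ j, ⟪ξ, L (unitVec j)⟫ * ⟪η, unitVec j⟫ := by
    intro L
    conv_lhs => rw [← sum_inner_smul_unitVec η]
    simp only [map_sum, map_smul, inner_sum, real_inner_smul_right]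
    exact Finset.sum_congr rfl fun j _ => by rw [real_inner_comm η (unitVec j), mul_comm]
  exact key _

section Field

variable (g : Euc d → Euc d) (s k : ℝ)

/-- The scale and the position at angle `θ`. -/
noncomputable def point (θ : ℝ) (z w : Euc d) : ℝ × Euc d :=
  (s * Real.sin θ, z + (s * Real.cos θ) • w)

/-- The velocity of `w` in the angle. -/
noncomputable def velW (θ : ℝ) (z w ξ : Euc d) : Euc d :=
  (-(k * (s * Real.sin θ))) • fderiv ℝ (avgAt g) (point s θ z w) (0, ξ)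

/-- The velocity of `ξ` in the angle. -/
noncomputable def velX (θ : ℝ) (z w : Euc d) : Euc d :=
  (k * (s * Real.sin θ)) • fderiv ℝ (avgAt g) (point s θ z w) (0, w)
    - (k * (s * Real.cos θ)) • fderiv ℝ (avgAt g) (point s θ z w) (1, 0)

/-- The field of the cleaning paths on triples. -/
noncomputable def triple (θ : ℝ) (q : Euc d × Euc d × Euc d) : Euc d × Euc d × Euc d :=
  (0, velW g s k θ q.1 q.2.1 q.2.2, velX g s k θ q.1 q.2.1)

/-- The field at a fixed base point `z`. -/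
noncomputable def pairField (z : Euc d) (θ : ℝ) (q : Sp (Pair d)) : Sp (Pair d) :=
  (split d).symm (velW g s k θ z (posL d q) (velL d q), velX g s k θ z (posL d q))

end Field

variable {s k : ℝ}

lemma triple_temperate (hg : GradField g) :
    Function.HasTemperateGrowth fun p : ℝ × (Euc d × Euc d × Euc d) => triple g s k p.1 p.2 := by
  have hπ : ∀ {F : Type} [NormedAddCommGroup F] [NormedSpace ℝ F]
      (L : ℝ × (Euc d × Euc d × Euc d) →L[ℝ] F), Function.HasTemperateGrowth fun p => L p :=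
    fun L => L.hasTemperateGrowth
  have hz := hπ ((ContinuousLinearMap.fst ℝ (Euc d) (Euc d × Euc d)).comp
    (ContinuousLinearMap.snd ℝ ℝ _))
  have hw := hπ (((ContinuousLinearMap.fst ℝ (Euc d) (Euc d)).comp
    (ContinuousLinearMap.snd ℝ (Euc d) (Euc d × Euc d))).comp (ContinuousLinearMap.snd ℝ ℝ _))
  have hξ := hπ (((ContinuousLinearMap.snd ℝ (Euc d) (Euc d)).comp
    (ContinuousLinearMap.snd ℝ (Euc d) (Euc d × Euc d))).comp (ContinuousLinearMap.snd ℝ ℝ _))
  have hθ := hπ (ContinuousLinearMap.fst ℝ ℝ (Euc d × Euc d × Euc d))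
  have hσ := (Function.HasTemperateGrowth.const (E := ℝ × (Euc d × Euc d × Euc d)) s).mul
    (temperate_sin.comp hθ)
  have hr := (Function.HasTemperateGrowth.const (E := ℝ × (Euc d × Euc d × Euc d)) s).mul
    (temperate_cos.comp hθ)
  have hp := temperate_prodMk hσ (hz.add (hr.smul hw))
  have hD := (temperate_deriv_clm (avgAt_temperate hg.temperate)
    (ContinuousLinearMap.id ℝ (ℝ × Euc d →L[ℝ] Euc d))).comp hp
  have happ : ∀ {v : ℝ × (Euc d × Euc d × Euc d) → ℝ × Euc d}, Function.HasTemperateGrowth v →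
      Function.HasTemperateGrowth fun p => fderiv ℝ (avgAt g) (point s p.1 p.2.1 p.2.2.1) (v p) :=
    fun hv => (ContinuousLinearMap.id ℝ (ℝ × Euc d →L[ℝ] Euc d)).bilinear_hasTemperateGrowth hD hv
  have h0 := Function.HasTemperateGrowth.const (E := ℝ × (Euc d × Euc d × Euc d)) (0 : ℝ)
  have hk := Function.HasTemperateGrowth.const (E := ℝ × (Euc d × Euc d × Euc d)) k
  have h1 := ((hk.mul hσ).neg).smul (happ (temperate_prodMk h0 hξ))
  have h2 := ((hk.mul hσ).smul (happ (temperate_prodMk h0 hw))).sub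
    ((hk.mul hr).smul (happ (Function.HasTemperateGrowth.const ((1 : ℝ), (0 : Euc d)))))
  exact temperate_prodMk (Function.HasTemperateGrowth.const (0 : Euc d)) (temperate_prodMk h1 h2)

lemma pairField_tame (hg : GradField g) (z : Euc d) :
    Tame (ι := Pair d) univ (pairField g s k z) := by
  have hm : Function.HasTemperateGrowth fun p : ℝ × Sp (Pair d) =>
      ((p.1, z, posL d p.2, velL d p.2) : ℝ × (Euc d × Euc d × Euc d)) :=
    temperate_prodMk (f := fun p : ℝ × Sp (Pair d) => p.1)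
      (ContinuousLinearMap.fst ℝ ℝ (Sp (Pair d))).hasTemperateGrowth
      (temperate_prodMk (Function.HasTemperateGrowth.const z)
        (temperate_prodMk ((posL d).comp (ContinuousLinearMap.snd ℝ ℝ _)).hasTemperateGrowth
          ((velL d).comp (ContinuousLinearMap.snd ℝ ℝ _)).hasTemperateGrowth))
  exact Tame.of_temperate ((((split d).symm : Euc d × Euc d →L[ℝ] Sp (Pair d)).comp
    (ContinuousLinearMap.snd ℝ (Euc d) (Euc d × Euc d))).hasTemperateGrowth.comp
      ((triple_temperate hg).comp hm))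

/-- The growth constant. -/
noncomputable def growth (s k : ℝ) (d : ℕ) : ℝ := 4 * |k| * s * (1 + meanNorm d)

lemma vel_growth (hg : GradField g) (hs : 0 ≤ s) (θ : ℝ) (z w ξ : Euc d) :
    ‖velW g s k θ z w ξ‖ ≤ 2 * |k| * s * ‖ξ‖ ∧
      ‖velX g s k θ z w‖ ≤ 2 * |k| * s * ‖w‖ + 2 * |k| * s * meanNorm d := by
  have hσ : |k * (s * Real.sin θ)| ≤ |k| * s := by
    rw [abs_mul, abs_mul, abs_of_nonneg hs]
    exact mul_le_mul_of_nonneg_left (mul_le_of_le_one_right hs (Real.abs_sin_le_one θ))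
      (abs_nonneg k)
  have hr : |k * (s * Real.cos θ)| ≤ |k| * s := by
    rw [abs_mul, abs_mul, abs_of_nonneg hs]
    exact mul_le_mul_of_nonneg_left (mul_le_of_le_one_right hs (Real.abs_cos_le_one θ))
      (abs_nonneg k)
  have hks : 0 ≤ |k| * s := mul_nonneg (abs_nonneg k) hs
  have h0 : ∀ v : Euc d, ‖fderiv ℝ (avgAt g) (point s θ z w) (0, v)‖ ≤ 2 * ‖v‖ := fun v => by
    simpa using norm_fderiv_avgAt_le hg (point s θ z w) (0, v)
  have h1 : ‖fderiv ℝ (avgAt g) (point s θ z w) (1, 0)‖ ≤ 2 * meanNorm d := by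
    simpa using norm_fderiv_avgAt_le hg (point s θ z w) (1, 0)
  constructor
  · rw [velW, norm_smul, Real.norm_eq_abs, abs_neg]
    exact (mul_le_mul hσ (h0 ξ) (norm_nonneg _) hks).trans (le_of_eq (by ring))
  · refine (norm_sub_le _ _).trans ?_
    rw [norm_smul, norm_smul, Real.norm_eq_abs, Real.norm_eq_abs]
    exact (add_le_add (mul_le_mul hσ (h0 w) (norm_nonneg _) hks)
      (mul_le_mul hr h1 (norm_nonneg _) hks)).trans (le_of_eq (by ring))

lemma triple_growth (hg : GradField g) (hs : 0 ≤ s) (θ : ℝ) (q : Euc d × Euc d × Euc d) :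
    ‖triple g s k θ q‖ ≤ growth s k d * (1 + ‖q‖) := by
  obtain ⟨z, w, ξ⟩ := q
  obtain ⟨h1, h2⟩ := vel_growth (k := k) hg hs θ z w ξ
  have hw : ‖w‖ ≤ ‖(z, w, ξ)‖ := (norm_fst_le (w, ξ)).trans (norm_snd_le (z, w, ξ))
  have hξ : ‖ξ‖ ≤ ‖(z, w, ξ)‖ := (norm_snd_le (w, ξ)).trans (norm_snd_le (z, w, ξ))
  have hks : 0 ≤ |k| * s := mul_nonneg (abs_nonneg k) hs
  have hm := meanNorm_nonneg (d := d)
  rw [triple, Prod.norm_def, Prod.norm_def, norm_zero, growth]
  refine max_le (by positivity) (max_le (h1.trans ?_) (h2.trans ?_))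
  all_goals nlinarith [mul_nonneg hks hm, mul_nonneg (mul_nonneg hks hm) (norm_nonneg (z, w, ξ)),
    mul_le_mul_of_nonneg_left hw hks, mul_le_mul_of_nonneg_left hξ hks,
    mul_nonneg hks (norm_nonneg (z, w, ξ))]

lemma pairField_growth (hg : GradField g) (hs : 0 ≤ s) (z : Euc d) (θ : ℝ) (q : Sp (Pair d)) :
    ‖pairField g s k z θ q‖ ≤ growth s k d * (1 + ‖q‖) := by
  obtain ⟨h1, h2⟩ := vel_growth (k := k) hg hs θ z (posL d q) (velL d q)
  refine (norm_split_symm_le _).trans ((add_le_add h1 h2).trans ?_)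
  have hks : 0 ≤ |k| * s := mul_nonneg (abs_nonneg k) hs
  rw [growth]
  nlinarith [mul_le_mul_of_nonneg_left (posL_le q) hks, mul_le_mul_of_nonneg_left (velL_le q) hks,
    mul_nonneg hks (meanNorm_nonneg (d := d)),
    mul_nonneg (mul_nonneg hks (meanNorm_nonneg (d := d))) (norm_nonneg q)]

lemma inner_pair (u q : Sp (Pair d)) :
    ⟪u, q⟫ = ⟪posL d u, posL d q⟫ + ⟪velL d u, velL d q⟫ := by
  simp [PiLp.inner_apply, Fintype.sum_sum_type, posL_apply, velL_apply]

/-- The derivative along a coordinate of a function of the position. -/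
lemma fderiv_shift {ψ : Euc d → ℝ} {F : Sp (Pair d) → ℝ} (q v : Sp (Pair d))
    (hF : DifferentiableAt ℝ F q) (y u : Euc d) (hψ : DifferentiableAt ℝ ψ y)
    (h : ∀ t : ℝ, F (q + t • v) = ψ (y + t • u)) :
    fderiv ℝ F q v = fderiv ℝ ψ y u := by
  rw [← hF.lineDeriv_eq_fderiv, ← hψ.lineDeriv_eq_fderiv]
  simp only [lineDeriv, h]

lemma pairField_continuity (hg : GradField g) (z : Euc d) (θ : ℝ) (q : Sp (Pair d)) :
    fderiv ℝ (fun p : ℝ × Sp (Pair d) => 2⁻¹ * ‖p.2‖ ^ 2) (θ, q) (1, pairField g s k z θ q)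
      = ∑ i, fderiv ℝ (fun u => pairField g s k z θ u i) q (EuclideanSpace.single i 1) := by
  set σ := s * Real.sin θ with hσ
  set r := s * Real.cos θ with hr
  set w := posL d q with hw
  set ξ := velL d q with hξ
  set y := z + r • w with hy
  have hpt : point s θ z w = (σ, y) := rfl
  have hL : fderiv ℝ (fun p : ℝ × Sp (Pair d) => 2⁻¹ * ‖p.2‖ ^ 2) (θ, q)
      (1, pairField g s k z θ q) = ⟪q, pairField g s k z θ q⟫ := by
    have h := (((ContinuousLinearMap.snd ℝ ℝ (Sp (Pair d))).hasFDerivAt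
      (x := (θ, q))).norm_sq.const_mul (2 : ℝ)⁻¹).fderiv
    simp only [ContinuousLinearMap.coe_snd'] at h
    rw [h]
    simp
  have hsp : ∀ u, split d (pairField g s k z θ u)
      = (velW g s k θ z (posL d u) (velL d u), velX g s k θ z (posL d u)) := fun u =>
    (split d).apply_symm_apply _
  have hp1 : ∀ u, posL d (pairField g s k z θ u) = velW g s k θ z (posL d u) (velL d u) :=
    fun u => congrArg Prod.fst (hsp u)
  have hp2 : ∀ u, velL d (pairField g s k z θ u) = velX g s k θ z (posL d u) :=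
    fun u => congrArg Prod.snd (hsp u)
  have hdiff : ∀ i, DifferentiableAt ℝ (fun u => pairField g s k z θ u i) q := fun i =>
    ((pairField_tame hg z).component isOpen_univ i).differentiableAt_space (mem_univ θ) q
  have hX : ∀ j : Fin d, fderiv ℝ (fun u => pairField g s k z θ u (Sum.inr j)) q
      (EuclideanSpace.single (Sum.inr j) 1) = 0 := fun j => by
    refine (fderiv_shift (ψ := fun _ => velX g s k θ z w j) q _ (hdiff _) w 0
      (differentiableAt_const _) fun t => ?_).trans (by simp)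
    rw [← velL_apply, hp2, map_add, map_smul, pos_single_inr, smul_zero, add_zero]
  have hW : ∀ j : Fin d, fderiv ℝ (fun u => pairField g s k z θ u (Sum.inl j)) q
      (EuclideanSpace.single (Sum.inl j) 1)
      = -(k * σ) * (r * fderiv ℝ (fun u => ⟪ξ, fderiv ℝ (avgAt g) (σ, u) (0, unitVec j)⟫) y
          (unitVec j)) := fun j => by
    have hd : DifferentiableAt ℝ
        (fun u => ⟪ξ, fderiv ℝ (avgAt g) (σ, u) (0, unitVec j)⟫) y := by
      have h2 := (((avgAt_temperate hg.temperate).1.fderiv_right (m := ∞) le_rfl).clm_apply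
        (contDiff_const (c := ((0 : ℝ), (unitVec j : Euc d))))).comp
          (contDiff_const (c := σ) |>.prodMk contDiff_id)
      exact ((contDiff_const (c := ξ)).inner ℝ h2).differentiable (by simp) y
    have key := fderiv_shift
      (ψ := fun u => -(k * σ) * ⟪ξ, fderiv ℝ (avgAt g) (σ, u) (0, unitVec j)⟫) q
      (EuclideanSpace.single (Sum.inl j) 1) (hdiff (Sum.inl j)) y (r • unitVec j)
      (hd.const_mul _) fun t => by
        rw [← posL_apply, hp1, map_add, map_smul, (pos_single_inl j).1, map_add, map_smul,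
          (pos_single_inl j).2, smul_zero, add_zero, velW, point, ← hσ, ← hr, ← hξ, ← hw,
          PiLp.smul_apply, smul_eq_mul]
        congr 1
        rw [← avg_symm hg, smul_add, smul_comm r t, ← add_assoc]
        simp [EuclideanSpace.inner_single_right, hy]
    rw [key, fderiv_const_mul hd]
    simp only [map_smul, smul_apply, smul_eq_mul]
    ring
  have hscale := avg_scale hg σ y ξ
  rw [hL, inner_pair, ← hw, ← hξ, hp1, hp2, velW, velX, ← hξ, ← hw, hpt, ← hσ, ← hr,
    Fintype.sum_sum_type, Finset.sum_congr rfl fun j _ => hX j,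
    Finset.sum_congr rfl fun j _ => hW j, Finset.sum_const_zero, add_zero, ← Finset.mul_sum,
    ← Finset.mul_sum, real_inner_smul_right, inner_sub_right, real_inner_smul_right,
    real_inner_smul_right, hscale,
    show ⟪ξ, fderiv ℝ (avgAt g) (σ, y) (0, w)⟫ = ⟪w, fderiv ℝ (avgAt g) (σ, y) (0, ξ)⟫ by
      rw [← avg_symm hg, real_inner_comm]]
  ring

lemma law_eq :
    (gauss d).prod (gauss d)
      = (volume.tilted fun q : Sp (Pair d) => -(2⁻¹ * ‖q‖ ^ 2)).map (split d) := by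
  rw [gauss_eq_gibbs, gibbs, tilted_prod _ _ (by fun_prop) (by fun_prop),
    ← map_tilted split_measurePreserving (by fun_prop)]
  congr 2
  funext q
  simp only [Function.comp_apply, split_apply, norm_pair_sq q]
  ring

/-- The angle of the radius `r`. -/
noncomputable def angle (s r : ℝ) : ℝ := Real.arccos (r / s)

lemma angle_mem (hs : 0 < s) {r : ℝ} (hr : r ∈ Icc 0 s) :
    angle s r ∈ Icc 0 (Real.pi / 2) :=
  ⟨Real.arccos_nonneg _, Real.arccos_le_pi_div_two.2 (div_nonneg hr.1 hs.le)⟩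

lemma angle_top (hs : 0 < s) : angle s s = 0 := by simp [angle, div_self hs.ne']

lemma cos_angle (hs : 0 < s) {r : ℝ} (hr : r ∈ Icc 0 s) : s * Real.cos (angle s r) = r := by
  rw [angle, Real.cos_arccos (by linarith [div_nonneg hr.1 hs.le]) ((div_le_one hs).2 hr.2)]
  field_simp

lemma sin_angle (hs : 0 < s) {r : ℝ} :
    s * Real.sin (angle s r) = √(s ^ 2 - r ^ 2) := by
  have e : s ^ 2 - r ^ 2 = s ^ 2 * (1 - (r / s) ^ 2) := by field_simp
  rw [angle, Real.sin_arccos, e, Real.sqrt_mul (sq_nonneg s), Real.sqrt_sq hs.le]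

lemma continuous_angle : Continuous (angle s) := Real.continuous_arccos.comp (by fun_prop)

/-- Integrals in the radius from derivatives in the angle. -/
lemma integral_angle {E : Type*} [NormedAddCommGroup E] [NormedSpace ℝ E] [CompleteSpace E]
    (hs : 0 < s) {f G : ℝ → E}
    (hd : ∀ θ ∈ Icc 0 (Real.pi / 2),
      HasDerivWithinAt f ((-(s * Real.sin θ)) • G θ) (Icc 0 (Real.pi / 2)) θ)
    (hG : ContinuousOn G (Icc 0 (Real.pi / 2))) {r : ℝ} (hr : r ∈ Icc 0 s) :
    ∫ u in s..r, G (angle s u) = f (angle s r) - f 0 := by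
  have hsub : uIcc s r ⊆ Icc 0 s := uIcc_subset_Icc (right_mem_Icc.2 hs.le) hr
  have hmaps : MapsTo (angle s) (uIcc s r) (Icc 0 (Real.pi / 2)) := fun u hu =>
    angle_mem hs (hsub hu)
  have hf : ContinuousOn f (Icc 0 (Real.pi / 2)) := fun θ hθ => (hd θ hθ).continuousWithinAt
  rw [← angle_top hs]
  refine intervalIntegral.integral_eq_sub_of_hasDeriv_right (f := fun u => f (angle s u))
    (hf.comp continuous_angle.continuousOn hmaps) (fun u hu => ?_)
    (hG.comp continuous_angle.continuousOn hmaps).intervalIntegrable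
  have hu0 : 0 < u := (le_min hs.le hr.1).trans_lt hu.1
  have hu1 : u < s := hu.2.trans_le (max_le le_rfl hr.2)
  have hx0 : 0 < u / s := div_pos hu0 hs
  have hx1 : u / s < 1 := (div_lt_one hs).2 hu1
  have hθ0 : 0 < angle s u := Real.arccos_pos.2 hx1
  have hθ1 : angle s u < Real.pi / 2 := Real.arccos_lt_pi_div_two.2 hx0
  have hsq : 0 < √(1 - (u / s) ^ 2) := Real.sqrt_pos.2 (by nlinarith)
  have ha : HasDerivAt (angle s) (-(1 / √(1 - (u / s) ^ 2)) * (1 / s)) u :=
    (Real.hasDerivAt_arccos (by linarith) hx1.ne).comp u ((hasDerivAt_id u).div_const s)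
  have h := ((hd _ ⟨hθ0.le, hθ1.le⟩).hasDerivAt (Icc_mem_nhds hθ0 hθ1)).scomp u ha
  refine (h.congr_deriv ?_).hasDerivWithinAt
  rw [smul_smul, angle, Real.sin_arccos]
  rw [show -(1 / √(1 - (u / s) ^ 2)) * (1 / s) * -(s * √(1 - (u / s) ^ 2)) = 1 by
    generalize √(1 - (u / s) ^ 2) = q at hsq ⊢
    field_simp]
  exact one_smul _ _

section Paths

variable {Ψ : ℝ → Euc d × Euc d × Euc d → Euc d × Euc d × Euc d}

lemma path_fst (hΨd : ∀ p, Flow.IsSol 0 (Real.pi / 2) (triple g s k) fun t => Ψ t p)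
    (hΨ0 : ∀ p, Ψ 0 p = p) (p : Euc d × Euc d × Euc d) {θ : ℝ} (hθ : θ ∈ Icc 0 (Real.pi / 2)) :
    (Ψ θ p).1 = p.1 := by
  have hd : ∀ u ∈ Icc (0 : ℝ) (Real.pi / 2),
      HasDerivWithinAt (fun u => (Ψ u p).1) (0 : Euc d) (Icc 0 (Real.pi / 2)) u :=
    fun u hu => (hΨd p u hu).fst
  have := (convex_Icc (0 : ℝ) (Real.pi / 2)).norm_image_sub_le_of_norm_hasDerivWithin_le hd
    (C := 0) (fun u _ => by simp) (left_mem_Icc.2 (by positivity)) hθ
  rw [zero_mul, norm_le_zero_iff, sub_eq_zero] at this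
  rw [this, hΨ0]

lemma path_deriv (hΨd : ∀ p, Flow.IsSol 0 (Real.pi / 2) (triple g s k) fun t => Ψ t p)
    (hΨ0 : ∀ p, Ψ 0 p = p) (p : Euc d × Euc d × Euc d) {θ : ℝ} (hθ : θ ∈ Icc 0 (Real.pi / 2)) :
    HasDerivWithinAt (fun u => (Ψ u p).2.1)
        (velW g s k θ p.1 (Ψ θ p).2.1 (Ψ θ p).2.2) (Icc 0 (Real.pi / 2)) θ ∧
      HasDerivWithinAt (fun u => (Ψ u p).2.2)
        (velX g s k θ p.1 (Ψ θ p).2.1) (Icc 0 (Real.pi / 2)) θ := by
  have h1 := (hΨd p θ hθ).snd.fst
  have h2 := (hΨd p θ hθ).snd.snd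
  rw [← path_fst hΨd hΨ0 p hθ]
  exact ⟨h1, h2⟩

lemma path_continuity (hg : GradField g)
    (hΨd : ∀ p, Flow.IsSol 0 (Real.pi / 2) (triple g s k) fun t => Ψ t p)
    (hΨ0 : ∀ p, Ψ 0 p = p) (p : Euc d × Euc d × Euc d) :
    ContinuousOn (fun θ => fderiv ℝ (avgAt g) (point s θ p.1 (Ψ θ p).2.1) (0, (Ψ θ p).2.2))
        (Icc 0 (Real.pi / 2)) ∧
      ContinuousOn (fun θ => fderiv ℝ (avgAt g) (point s θ p.1 (Ψ θ p).2.1)
        (0, fderiv ℝ (avgAt g) (point s θ p.1 (Ψ θ p).2.1) (0, (Ψ θ p).2.2)))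
        (Icc 0 (Real.pi / 2)) := by
  have hW : ContinuousOn (fun u => (Ψ u p).2.1) (Icc 0 (Real.pi / 2)) := fun u hu =>
    (path_deriv hΨd hΨ0 p hu).1.continuousWithinAt
  have hX : ContinuousOn (fun u => (Ψ u p).2.2) (Icc 0 (Real.pi / 2)) := fun u hu =>
    (path_deriv hΨd hΨ0 p hu).2.continuousWithinAt
  have hpt : ContinuousOn (fun u => point s u p.1 (Ψ u p).2.1) (Icc 0 (Real.pi / 2)) := by
    unfold point
    fun_prop
  have hD := ((avgAt_temperate hg.temperate).1.continuous_fderiv (by simp)).comp_continuousOn hpt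
  have h1 := hD.clm_apply ((continuousOn_const (c := (0 : ℝ))).prodMk hX)
  exact ⟨h1, hD.clm_apply ((continuousOn_const (c := (0 : ℝ))).prodMk h1)⟩

lemma path_w (hg : GradField g) (hs : 0 < s)
    (hΨd : ∀ p, Flow.IsSol 0 (Real.pi / 2) (triple g s k) fun t => Ψ t p)
    (hΨ0 : ∀ p, Ψ 0 p = p) (p : Euc d × Euc d × Euc d) {r : ℝ} (hr : r ∈ Icc 0 s) :
    (Ψ (angle s r) p).2.1 = p.2.1 + k • ∫ u in s..r,
      fderiv ℝ (avgAt g) (√(s ^ 2 - u ^ 2), p.1 + u • (Ψ (angle s u) p).2.1)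
        (0, (Ψ (angle s u) p).2.2) := by
  have hI := integral_angle hs (f := fun θ => (Ψ θ p).2.1)
    (G := fun θ => k • fderiv ℝ (avgAt g) (point s θ p.1 (Ψ θ p).2.1) (0, (Ψ θ p).2.2))
    (fun θ hθ => (path_deriv hΨd hΨ0 p hθ).1.congr_deriv (by
      simp only [velW, smul_smul]; congr 1; ring))
    ((path_continuity hg hΨd hΨ0 p).1.const_smul k) hr
  rw [intervalIntegral.integral_smul, hΨ0] at hI
  rw [intervalIntegral.integral_congr (g := fun u => fderiv ℝ (avgAt g)
    (point s (angle s u) p.1 (Ψ (angle s u) p).2.1) (0, (Ψ (angle s u) p).2.2)) fun u hu => ?_]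
  · rw [hI]; abel
  · have hu' := uIcc_subset_Icc (right_mem_Icc.2 hs.le) hr hu
    simp only [point, sin_angle hs, cos_angle hs hu']

lemma path_xi_deriv (hg : GradField g) {c : ℝ} (hc : c * k = 1)
    (hΨd : ∀ p, Flow.IsSol 0 (Real.pi / 2) (triple g s k) fun t => Ψ t p)
    (hΨ0 : ∀ p, Ψ 0 p = p) (p : Euc d × Euc d × Euc d) {θ : ℝ}
    (hθ : θ ∈ Icc 0 (Real.pi / 2)) :
    HasDerivWithinAt (fun θ => c • (Ψ θ p).2.2 + avgAt g (point s θ p.1 (Ψ θ p).2.1))
      ((-(s * Real.sin θ)) • k • ((s * Real.cos θ) •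
        fderiv ℝ (avgAt g) (point s θ p.1 (Ψ θ p).2.1)
          (0, fderiv ℝ (avgAt g) (point s θ p.1 (Ψ θ p).2.1) (0, (Ψ θ p).2.2))))
      (Icc 0 (Real.pi / 2)) θ := by
  obtain ⟨h1, h2⟩ := path_deriv hΨd hΨ0 p hθ
  have hpt : HasDerivWithinAt (fun u => point s u p.1 (Ψ u p).2.1)
      (s * Real.cos θ, (s * Real.cos θ) • velW g s k θ p.1 (Ψ θ p).2.1 (Ψ θ p).2.2
        + (s * -Real.sin θ) • (Ψ θ p).2.1) (Icc 0 (Real.pi / 2)) θ :=
    (((Real.hasDerivAt_sin θ).const_mul s).hasDerivWithinAt).prodMk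
      ((((Real.hasDerivAt_cos θ).const_mul s).hasDerivWithinAt.smul h1).const_add p.1)
  have hS := ((avgAt_temperate hg.temperate).1.differentiable (by simp)
    (point s θ p.1 (Ψ θ p).2.1)).hasFDerivAt.comp_hasDerivWithinAt
      (f := fun u => point s u p.1 (Ψ u p).2.1) θ hpt
  refine ((h2.const_smul c).add hS).congr_deriv ?_
  simp only [velX, velW]
  generalize fderiv ℝ (avgAt g) (point s θ p.1 (Ψ θ p).2.1) = A
  have hlin : ∀ (a : ℝ) (v : Euc d), A (a, v) = a • A (1, 0) + A (0, v) := fun a v => by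
    rw [← map_smul, ← map_add]
    simp
  have hzero : ∀ (a : ℝ) (v : Euc d), A (0, a • v) = a • A (0, v) := fun a v => by
    rw [← map_smul]
    simp
  have hadd : ∀ (u v : Euc d), A (0, u + v) = A (0, u) + A (0, v) := fun u v => by
    rw [← map_add]
    simp
  simp only [hlin (s * Real.cos θ), hadd, hzero, smul_sub, smul_smul]
  rw [show c * (k * (s * Real.sin θ)) = s * Real.sin θ by rw [← mul_assoc, hc, one_mul],
    show c * (k * (s * Real.cos θ)) = s * Real.cos θ by rw [← mul_assoc, hc, one_mul]]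
  match_scalars <;> ring

lemma path_xi (hg : GradField g) (hs : 0 < s) {c : ℝ} (hc : c * k = 1)
    (hΨd : ∀ p, Flow.IsSol 0 (Real.pi / 2) (triple g s k) fun t => Ψ t p)
    (hΨ0 : ∀ p, Ψ 0 p = p) (p : Euc d × Euc d × Euc d) {r : ℝ} (hr : r ∈ Icc 0 s) :
    c • (Ψ (angle s r) p).2.2
        + avgAt g (√(s ^ 2 - r ^ 2), p.1 + r • (Ψ (angle s r) p).2.1)
      = c • p.2.2 + g (p.1 + s • p.2.1) + k • ∫ u in s..r, u •
          fderiv ℝ (avgAt g) (√(s ^ 2 - u ^ 2), p.1 + u • (Ψ (angle s u) p).2.1)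
            (0, fderiv ℝ (avgAt g) (√(s ^ 2 - u ^ 2), p.1 + u • (Ψ (angle s u) p).2.1)
              (0, (Ψ (angle s u) p).2.2)) := by
  have hcos : ContinuousOn (fun θ => s * Real.cos θ) (Icc 0 (Real.pi / 2)) :=
    (continuous_const.mul Real.continuous_cos).continuousOn
  have hcont : ContinuousOn (fun θ => k • ((s * Real.cos θ) •
      fderiv ℝ (avgAt g) (point s θ p.1 (Ψ θ p).2.1)
        (0, fderiv ℝ (avgAt g) (point s θ p.1 (Ψ θ p).2.1) (0, (Ψ θ p).2.2))))
      (Icc 0 (Real.pi / 2)) :=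
    (hcos.smul (path_continuity hg hΨd hΨ0 p).2).const_smul k
  have hI := integral_angle hs
    (f := fun θ => c • (Ψ θ p).2.2 + avgAt g (point s θ p.1 (Ψ θ p).2.1))
    (fun θ hθ => path_xi_deriv hg hc hΨd hΨ0 p hθ) hcont hr
  rw [intervalIntegral.integral_smul, hΨ0] at hI
  have h0 : avgAt g (point s 0 p.1 p.2.1) = g (p.1 + s • p.2.1) := by simp [point, avgAt]
  rw [h0] at hI
  rw [intervalIntegral.integral_congr (g := fun u => (s * Real.cos (angle s u)) •
    fderiv ℝ (avgAt g) (point s (angle s u) p.1 (Ψ (angle s u) p).2.1)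
      (0, fderiv ℝ (avgAt g) (point s (angle s u) p.1 (Ψ (angle s u) p).2.1)
        (0, (Ψ (angle s u) p).2.2))) fun u hu => ?_, hI]
  · simp only [point, sin_angle hs, cos_angle hs hr]
    abel
  · have hu' := uIcc_subset_Icc (right_mem_Icc.2 hs.le) hr hu
    simp only [point, sin_angle hs, cos_angle hs hu']

lemma path_law (hg : GradField g) (hs : 0 ≤ s)
    {v : ℕ → ℝ → Euc d × Euc d × Euc d → Euc d × Euc d × Euc d} {C : ℝ}
    (hv : Flow.Approx 0 (Real.pi / 2) (triple g s k) C v)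
    (hΨc : ContinuousOn (fun q : ℝ × (Euc d × Euc d × Euc d) => Ψ q.1 q.2)
      (Icc 0 (Real.pi / 2) ×ˢ univ))
    (hΨd : ∀ p, Flow.IsSol 0 (Real.pi / 2) (triple g s k) fun t => Ψ t p)
    (hΨ0 : ∀ p, Ψ 0 p = p) (z : Euc d) {θ : ℝ} (hθ : θ ∈ Icc 0 (Real.pi / 2)) :
    ((gauss d).prod (gauss d)).map (fun q => (Ψ θ (z, q.1, q.2)).2)
      = (gauss d).prod (gauss d) := by
  have h0 : (0 : ℝ) ∈ Icc 0 (Real.pi / 2) := left_mem_Icc.2 (by positivity)
  obtain ⟨Φ, hΦc, hΦ0, hΦd, hΦm⟩ := Flow.potential_flow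
    (P := fun _ (q : Sp (Pair d)) => 2⁻¹ * ‖q‖ ^ 2) isOpen_univ (subset_univ _)
    (by positivity) (Tame.of_temperate ((Function.HasTemperateGrowth.const (2 : ℝ)⁻¹).mul
      ((Function.hasTemperateGrowth_norm_sq (Sp (Pair d))).comp
        (ContinuousLinearMap.snd ℝ ℝ _).hasTemperateGrowth)))
    (pairField_tame hg z) (fun θ _ q => pairField_growth (k := k) hg hs z θ q)
    (fun J _ _ => ⟨2⁻¹, 0, by norm_num, fun t _ q => by simp⟩)
    (fun θ _ q => pairField_continuity hg z θ q) h0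
  have hmΦ : Measurable (Φ θ) := (hΦc.comp_continuous (continuous_const.prodMk continuous_id)
    fun _ => ⟨hθ, trivial⟩).measurable
  have hmΨ : Measurable fun q : Euc d × Euc d => (Ψ θ (z, q.1, q.2)).2 :=
    ((continuous_snd.comp_continuousOn hΨc).comp_continuous
      (continuous_const.prodMk (by fun_prop : Continuous fun q : Euc d × Euc d => (z, q.1, q.2)))
      fun _ => ⟨hθ, trivial⟩).measurable
  have heq : (fun q : Euc d × Euc d => (Ψ θ (z, q.1, q.2)).2) ∘ split d = split d ∘ Φ θ := by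
    funext q
    have hsol : Flow.IsSol 0 (Real.pi / 2) (triple g s k) fun u => (z, split d (Φ u q)) :=
      fun u hu => by
      have := (hasDerivWithinAt_const u (Icc 0 (Real.pi / 2)) z).prodMk
        ((split d).hasFDerivAt.comp_hasDerivWithinAt u (hΦd q u hu))
      refine this.congr_deriv ?_
      simp [triple, pairField, split_apply]
    have hs' := hv.eqOn (hΨd (z, (split d q).1, (split d q).2)) hsol h0
      (by simp [hΨ0, hΦ0]) hθ
    exact congrArg Prod.snd hs'
  rw [law_eq, Measure.map_map hmΨ (split d).continuous.measurable, heq,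
    ← Measure.map_map (split d).continuous.measurable hmΦ, hΦm θ hθ]

end Paths

/-- The scores of the levels are gradient fields below a fixed level. -/
lemma exists_gradField :
    ∃ c₀ : ℝ, 0 < c₀ ∧ ∀ (d : ℕ) (V : Euc d → ℝ), NicePot d V 1 2 → ∀ t, 0 ≤ t → t ≤ c₀ →
      GradField (score V t) := by
  obtain ⟨c₀, hc₀, -, h⟩ := exists_levelPot
  refine ⟨c₀, hc₀, fun d V hV t ht htc => ?_⟩
  have hP := h d V hV t ht htc
  exact ⟨hP.weight.gradient_temperate, hP.norm_fderiv_gradient_le, hP.inner_fderiv_symm⟩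

lemma hessAvg_eq (V : Euc d → ℝ) (t ρ : ℝ) (hg : GradField (score V (t + ρ))) (y v : Euc d) :
    hessAvg V t ρ y v = fderiv ℝ (avgAt (score V (t + ρ))) (√ρ, y) (0, v) := by
  have h := ((avgAt_temperate hg.temperate).1.differentiable (by simp) (√ρ, y)).hasFDerivAt.comp y
    (hasFDerivAt_prodMk_right (𝕜 := ℝ) √ρ y)
  simp only [Function.comp_def] at h
  rw [hessAvg, show scoreAvg V t ρ = fun y => avgAt (score V (t + ρ)) (√ρ, y) from rfl, h.fderiv]
  rfl

end Clean

open Clean in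
/-- The exact cleaning paths: existence, the integral equations and the invariant law. -/
theorem cleanPath_exists :
    ∃ c₀ : ℝ, 0 < c₀ ∧ ∀ (d : ℕ) (V : Euc d → ℝ), NicePot d V 1 2 →
      ∀ τ ν δe : ℝ, 0 < τ → 0 < ν → ν ≤ τ → τ ≤ c₀ → τ ≤ δe →
      ∃ Φ : ℝ → Euc d × Euc d × Euc d → Euc d × Euc d,
        ContinuousOn (fun q : ℝ × (Euc d × Euc d × Euc d) => Φ q.1 q.2)
          (Set.Icc 0 √ν ×ˢ Set.univ) ∧
        (∀ p, Φ √ν p = (p.2.1, p.2.2)) ∧
        let pos : ℝ → Euc d × Euc d × Euc d → Euc d := fun r p => p.1 + r • (Φ r p).1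
        let H : ℝ → Euc d × Euc d × Euc d → Euc d →L[ℝ] Euc d := fun r p =>
          hessAvg V (τ + r ^ 2) (ν - r ^ 2) (pos r p)
        (∀ p, ∀ r ∈ Set.Icc 0 √ν,
          (Φ r p).1 = p.2.1 + (√δe)⁻¹ • ∫ u in √ν..r, H u p (Φ u p).2) ∧
        (∀ p, ∀ r ∈ Set.Icc 0 √ν,
          √δe • (Φ r p).2 + scoreAvg V (τ + r ^ 2) (ν - r ^ 2) (pos r p)
            = √δe • p.2.2 + score V (τ + ν) (p.1 + √ν • p.2.1)
              + (√δe)⁻¹ • ∫ u in √ν..r, u • H u p (H u p (Φ u p).2)) ∧
        (∀ z, ∀ r ∈ Set.Icc 0 √ν,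
          ((gauss d).prod (gauss d)).map (fun q => Φ r (z, q.1, q.2))
            = (gauss d).prod (gauss d)) := by
  obtain ⟨c₁, hc₁, hlev⟩ := exists_gradField
  refine ⟨c₁ / 2, by positivity, fun d V hV τ ν δe hτ hν hντ hτc hτδ => ?_⟩
  have hg : GradField (score V (τ + ν)) := hlev d V hV (τ + ν) (by linarith) (by linarith)
  have hs : 0 < √ν := Real.sqrt_pos.2 hν
  have hδ : 0 < δe := lt_of_lt_of_le hτ hτδ
  have hδ' : √δe * (√δe)⁻¹ = 1 := mul_inv_cancel₀ (Real.sqrt_pos.2 hδ).ne'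
  obtain ⟨v, hv⟩ := Flow.exists_approx (E := Euc d × Euc d × Euc d)
    (b := triple (score V (τ + ν)) √ν (√δe)⁻¹) (a₀ := 0) (a₁ := Real.pi / 2)
    (C := growth √ν (√δe)⁻¹ d) isOpen_univ (subset_univ _)
    ((triple_temperate hg).1.of_le (by simp)).contDiffOn
    (by have := meanNorm_nonneg (d := d); rw [growth]; positivity)
    fun θ _ q => triple_growth hg hs.le θ q
  obtain ⟨Ψ, hΨc, hΨ0, hΨd⟩ := hv.exists_flow (t₀ := 0) (left_mem_Icc.2 (by positivity))
  have hH : ∀ u y w, hessAvg V (τ + u ^ 2) (ν - u ^ 2) y w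
      = fderiv ℝ (avgAt (score V (τ + ν))) (√(√ν ^ 2 - u ^ 2), y) (0, w) := fun u y w => by
    have e : τ + u ^ 2 + (ν - u ^ 2) = τ + ν := by ring
    rw [hessAvg_eq V _ _ (by rw [e]; exact hg), e, Real.sq_sqrt hν.le]
  refine ⟨fun r p => (Ψ (angle √ν r) p).2, ?_, fun p => ?_, fun p r hr => ?_, fun p r hr => ?_,
    fun z r hr => ?_⟩
  · exact continuous_snd.comp_continuousOn (hΨc.comp
      (f := fun q : ℝ × (Euc d × Euc d × Euc d) => (angle √ν q.1, q.2))
      ((continuous_angle.comp continuous_fst).prodMk continuous_snd).continuousOn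
      fun q hq => ⟨angle_mem hs hq.1, trivial⟩)
  · show (Ψ (angle √ν √ν) p).2 = (p.2.1, p.2.2)
    rw [angle_top hs, hΨ0]
  · simp only [hH]
    exact path_w hg hs hΨd hΨ0 p hr
  · simp only [hH]
    rw [show scoreAvg V (τ + r ^ 2) (ν - r ^ 2) (p.1 + r • (Ψ (angle √ν r) p).2.1)
        = avgAt (score V (τ + ν)) (√(√ν ^ 2 - r ^ 2), p.1 + r • (Ψ (angle √ν r) p).2.1) by
      rw [scoreAvg, heat_eq_avgAt, Real.sq_sqrt hν.le,
        show τ + r ^ 2 + (ν - r ^ 2) = τ + ν by ring]]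
    exact path_xi hg hs hδ' hΨd hΨ0 p hr
  · exact path_law hg hs.le hv hΨc hΨd hΨ0 z (angle_mem hs hr)

end Vale.Agent.P347
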