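import Vale.Agent.P347.Node

/-!
The random setting of the cleaning step and the laws of its ideal paths.
-/

namespace Vale.Agent.P347

open MeasureTheory ProbabilityTheory
open scoped Gradient

variable {d : ℕ}

/-- The law of `(z, (x, ξ, ξ'))` with `z` at level `τ` and `x ~ N(z, ν)`. -/
noncomputable def cleanLaw (τ ν : ℝ) : RandFam := fun d V =>
  ((levelLaw V τ).prod (Measure.pi fun _ : Fin 3 => gauss d)).map
    fun p => (p.1, ![p.1 + √ν • p.2 0, p.2 1, p.2 2])

/-- The path coordinates `(z, w, ξ)` of an outcome. -/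
noncomputable def cleanPt (ν : ℝ) (ω : Rand d) : Euc d × Euc d × Euc d :=
  (ω.1, (√ν)⁻¹ • (ω.2 0 - ω.1), ω.2 1)

lemma measurable_cleanMap (ν : ℝ) : Measurable
    fun p : Euc d × (Fin 3 → Euc d) => ((p.1, ![p.1 + √ν • p.2 0, p.2 1, p.2 2]) : Rand d) := by
  refine measurable_fst.prodMk (measurable_pi_lambda _ fun i => ?_)
  fin_cases i <;> simp <;> fun_prop

lemma measurable_cleanPt (ν : ℝ) : Measurable (cleanPt (d := d) ν) := by
  unfold cleanPt; fun_prop

lemma isProbabilityMeasure_cleanLaw {τ ν : ℝ} {V : Euc d → ℝ}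
    [IsProbabilityMeasure (levelLaw V τ)] : IsProbabilityMeasure (cleanLaw τ ν d V) :=
  Measure.isProbabilityMeasure_map (measurable_cleanMap ν).aemeasurable

lemma disint_cleanLaw {τ ν : ℝ} (hν : 0 < ν) {V : Euc d → ℝ}
    [IsProbabilityMeasure (levelLaw V τ)] :
    Disint (cleanLaw τ ν d V) (levelLaw V τ)
      fun y => Measure.pi ![gN y ν, gauss d, gauss d] := by
  intro F hF
  set π := Measure.pi fun _ : Fin 3 => gauss d
  set g : Euc d → (Fin 3 → Euc d) → Fin 3 → Euc d := fun y s =>
    ![y + √ν • s 0, s 1, s 2] with hg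
  have hgm : ∀ y, MeasurableEmbedding (g y) := by
    intro y
    refine Continuous.measurableEmbedding (continuous_pi fun i => ?_) fun s t h => ?_
    · fin_cases i <;> simp [hg] <;> fun_prop
    · funext i
      have hi := congr_fun h i
      fin_cases i <;> simp [hg, (Real.sqrt_pos.2 hν).ne'] at hi ⊢ <;> exact hi
  have hGm : MeasurableEmbedding fun q : Rand d => ((q.1, g q.1 q.2) : Rand d) := by
    refine Continuous.measurableEmbedding
      (continuous_fst.prodMk (continuous_pi fun i => ?_)) fun q r h => ?_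
    · fin_cases i <;> simp [hg] <;> fun_prop
    · obtain ⟨h1, h2⟩ := Prod.ext_iff.1 h
      dsimp only at h1 h2
      rw [h1] at h2
      exact Prod.ext h1 ((hgm r.1).injective h2)
  have hpi : ∀ y, π.map (g y) = Measure.pi ![gN y ν, gauss d, gauss d] := by
    intro y
    set f : Fin 3 → Euc d → Euc d := ![fun u => y + √ν • u, id, id] with hf
    have hfm : ∀ i, Measurable (f i) := fun i => by fin_cases i <;> simp [hf] <;> fun_prop
    have h1 : g y = fun s i => f i (s i) := by
      funext s i; fin_cases i <;> simp [hg, hf]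
    have : ∀ i, IsProbabilityMeasure ((gauss d).map (f i)) := fun i =>
      Measure.isProbabilityMeasure_map (hfm i).aemeasurable
    rw [h1, Measure.pi_map_pi (μ := fun _ : Fin 3 => gauss d) fun i => (hfm i).aemeasurable]
    congr 1
    funext i
    fin_cases i <;> simp [hf, gN]
  have hP : cleanLaw τ ν d V = ((levelLaw V τ).prod π).map fun q => (q.1, g q.1 q.2) := rfl
  rw [hP, hGm.integrable_map_iff] at hF
  simp only [← hpi, fun y => (hgm y).integral_map (μ := π) fun s => F (y, s)]
  refine ⟨hF.prod_right_ae.mono fun y hy => ((hgm y).integrable_map_iff).2 hy,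
    hF.integral_prod_left, ?_⟩
  rw [hP, hGm.integral_map]
  exact (integral_prod _ hF).symm

/-- The law of position, spare vector and Gaussian state along an invariant path. -/
lemma cleanLaw_map_path {τ ν : ℝ} (hν : 0 < ν) {V : Euc d → ℝ}
    [IsProbabilityMeasure (levelLaw V τ)] {Ψ : Euc d × Euc d × Euc d → Euc d × Euc d}
    (hΨ : Continuous Ψ)
    (hlaw : ∀ z, ((gauss d).prod (gauss d)).map (fun q => Ψ (z, q.1, q.2))
      = (gauss d).prod (gauss d))
    {r : ℝ} {μ : Measure (Euc d)}
    (hconv : ((levelLaw V τ).prod (gauss d)).map (fun p => p.1 + r • p.2) = μ) :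
    Measurable (fun ω : Rand d =>
        (ω.1 + r • (Ψ (cleanPt ν ω)).1, ω.2 2, (Ψ (cleanPt ν ω)).2)) ∧
      (cleanLaw τ ν d V).map (fun ω =>
        (ω.1 + r • (Ψ (cleanPt ν ω)).1, ω.2 2, (Ψ (cleanPt ν ω)).2))
        = μ.prod ((gauss d).prod (gauss d)) := by
  have hcp : Continuous (cleanPt (d := d) ν) := by unfold cleanPt; fun_prop
  have hm : Measurable (fun ω : Rand d =>
      (ω.1 + r • (Ψ (cleanPt ν ω)).1, ω.2 2, (Ψ (cleanPt ν ω)).2)) := by
    refine Continuous.measurable ?_
    have := hΨ.comp hcp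
    fun_prop
  refine ⟨hm, ?_⟩
  set L := levelLaw V τ
  set γ := gauss d
  -- regroup the three Gaussian slots
  set e : (Fin 3 → Euc d) → (Euc d × Euc d) × Euc d := fun s => ((s 0, s 1), s 2) with he
  have he' : (Measure.pi fun _ : Fin 3 => γ).map e = (γ.prod γ).prod γ := by
    set T := Measure.pi fun _ : Fin 3 => γ
    have h1 := (measurePreserving_piFinSuccAbove (fun _ : Fin 3 => γ) 2).map_eq
    have h2 := (measurePreserving_piFinTwo fun _ : Fin 2 => γ).map_eq
    have h3 : e = Prod.swap ∘ (Prod.map id (MeasurableEquiv.piFinTwo fun _ => Euc d)) ∘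
        (MeasurableEquiv.piFinSuccAbove (fun _ : Fin 3 => Euc d) 2) := by
      funext s; rfl
    rw [h3, ← Function.comp_assoc, ← Measure.map_map (by fun_prop) (MeasurableEquiv.measurable _),
      h1, ← Measure.map_map (g := Prod.swap) (by fun_prop) (by fun_prop),
      ← Measure.map_prod_map _ _ measurable_id (MeasurableEquiv.measurable _), h2, Measure.map_id,
      Measure.prod_swap]
  -- the invariant step
  set K : Euc d × ((Euc d × Euc d) × Euc d) → Euc d × ((Euc d × Euc d) × Euc d) :=
    fun p => (p.1, (Ψ (p.1, p.2.1.1, p.2.1.2), p.2.2)) with hK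
  have hK' : (L.prod ((γ.prod γ).prod γ)).map K = L.prod ((γ.prod γ).prod γ) := by
    have hsk : MeasurePreserving K (L.prod ((γ.prod γ).prod γ)) (L.prod ((γ.prod γ).prod γ)) := by
      refine MeasurePreserving.skew_product (f := id)
        (g := fun z (p : (Euc d × Euc d) × Euc d) => (Ψ (z, p.1.1, p.1.2), p.2))
        (MeasurePreserving.id L) ?_ (.of_forall fun z => ?_)
      · exact (by fun_prop : Continuous (Function.uncurry
          fun z (p : (Euc d × Euc d) × Euc d) => (Ψ (z, p.1.1, p.1.2), p.2))).measurable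
      · have hc : Continuous fun q : Euc d × Euc d => Ψ (z, q.1, q.2) := by fun_prop
        change Measure.map (Prod.map (fun q : Euc d × Euc d => Ψ (z, q.1, q.2)) id) _ = _
        rw [← Measure.map_prod_map _ _ hc.measurable measurable_id, hlaw z, Measure.map_id]
    exact hsk.map_eq
  -- rearrangement
  set A : Euc d × ((Euc d × Euc d) × Euc d) → (Euc d × Euc d) × (Euc d × Euc d) :=
    fun p => ((p.1, p.2.1.1), (p.2.2, p.2.1.2)) with hA
  have hA' : (L.prod ((γ.prod γ).prod γ)).map A = (L.prod γ).prod (γ.prod γ) := by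
    have h1 := (measurePreserving_prodAssoc γ γ γ).map_eq
    have h2 : A = MeasurableEquiv.prodAssoc.symm ∘ Prod.map id (Prod.map id Prod.swap)
        ∘ Prod.map id MeasurableEquiv.prodAssoc := by
      funext p; rfl
    rw [h2, ← Function.comp_assoc, ← Measure.map_map (by fun_prop) (by fun_prop),
      ← Measure.map_prod_map _ _ measurable_id (by fun_prop), h1, Measure.map_id,
      ← Measure.map_map (by fun_prop) (by fun_prop),
      ← Measure.map_prod_map _ _ measurable_id (by fun_prop),
      ← Measure.map_prod_map _ _ measurable_id (by fun_prop), Measure.prod_swap, Measure.map_id,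
      Measure.map_id]
    exact ((measurePreserving_prodAssoc L γ (γ.prod γ)).symm _).map_eq
  have hcomp : (fun ω : Rand d => (ω.1 + r • (Ψ (cleanPt ν ω)).1, ω.2 2, (Ψ (cleanPt ν ω)).2)) ∘
      (fun p : Euc d × (Fin 3 → Euc d) => ((p.1, ![p.1 + √ν • p.2 0, p.2 1, p.2 2]) : Rand d))
      = (Prod.map (fun q : Euc d × Euc d => q.1 + r • q.2) id) ∘ A ∘ K ∘ Prod.map id e := by
    funext p
    simp [cleanPt, hA, hK, he, (Real.sqrt_pos.2 hν).ne']
  have hKm : Measurable K := by
    refine Continuous.measurable ?_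
    simp only [hK]; fun_prop
  rw [cleanLaw, Measure.map_map hm (measurable_cleanMap ν), hcomp,
    ← Measure.map_map (by fun_prop) (by fun_prop), ← Measure.map_map (by fun_prop) (by fun_prop),
    ← Measure.map_map hKm (by fun_prop), ← Measure.map_prod_map _ _ measurable_id (by fun_prop),
    he', Measure.map_id, hK', hA', ← Measure.map_prod_map _ _ (by fun_prop) measurable_id,
    hconv, Measure.map_id]

/-- The law of the first slot. -/
lemma cleanLaw_map_slot {τ ν : ℝ} {V : Euc d → ℝ} [IsProbabilityMeasure (levelLaw V τ)]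
    {μ : Measure (Euc d)}
    (hconv : ((levelLaw V τ).prod (gauss d)).map (fun p => p.1 + √ν • p.2) = μ) :
    (cleanLaw τ ν d V).map (fun ω => ω.2 0) = μ := by
  rw [cleanLaw, Measure.map_map (by fun_prop) (measurable_cleanMap ν), ← hconv]
  have h : (fun ω : Rand d => ω.2 0) ∘
      (fun p : Euc d × (Fin 3 → Euc d) => ((p.1, ![p.1 + √ν • p.2 0, p.2 1, p.2 2]) : Rand d))
      = (fun q : Euc d × Euc d => q.1 + √ν • q.2) ∘ Prod.map id fun s => s 0 := by
    funext p; simp
  rw [h, ← Measure.map_map (by fun_prop) (by fun_prop),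
    ← Measure.map_prod_map _ _ measurable_id (by fun_prop), Measure.map_id]
  exact congrArg (fun m => Measure.map _ ((levelLaw V τ).prod m))
    ((measurePreserving_eval (fun _ : Fin 3 => gauss d) 0).map_eq)

end Vale.Agent.P347
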