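import Vale.Agent.P347.CoefSplit

/-!
A dimension-independent syntax of coefficient fields, and the proof that all such fields are
`Family.Good` at every level once the leaves satisfy three rules.
-/

namespace Vale.Agent.P347

open scoped RealInnerProductSpace

/-- Coefficient expressions over leaves `κ n` of rank `n`. -/
inductive CExpr (κ : ℕ → Type) : ℕ → Type
  | leaf {n : ℕ} (i : κ n) : CExpr κ n
  | zero (n : ℕ) : CExpr κ n
  | add {n : ℕ} (x y : CExpr κ n) : CExpr κ n
  | smul {n : ℕ} (r : ℝ) (x : CExpr κ n) : CExpr κ n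
  | perm {k l : ℕ} (σ : Fin k ≃ Fin l) (x : CExpr κ k) : CExpr κ l
  | mul {a b c m : ℕ} (e : Fin a ⊕ Fin b ≃ Fin m) (ha : 0 < a) (hb : 0 < b) (hc : 0 < c)
      (x : CExpr κ m) (y : CExpr κ (b + c)) : CExpr κ (a + c)

/-- The splitting of the second factor with its free slots in the first group. -/
def swapSplit (b c : ℕ) : Fin c ⊕ Fin b ≃ Fin (b + c) :=
  (Equiv.sumComm _ _).trans finSumFinEquiv

/-- The slots of the first factor reordered to contracted slots followed by free slots. -/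
def toRight {a b m : ℕ} (e : Fin a ⊕ Fin b ≃ Fin m) : Fin m ≃ Fin (b + a) :=
  e.symm.trans ((Equiv.sumComm _ _).trans finSumFinEquiv)

namespace CExpr

variable {κ : ℕ → Type}

/-- Evaluation. -/
noncomputable def eval {ι : Type} [Fintype ι] [DecidableEq ι]
    (L : ∀ n, κ n → ℝ → Sp ι → Ten ι n) : {n : ℕ} → CExpr κ n → ℝ → Sp ι → Ten ι n
  | _, leaf i => L _ i
  | _, zero _ => fun _ _ => 0
  | _, add x y => fun t z => eval L x t z + eval L y t z
  | _, smul r x => fun t z => r • eval L x t z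
  | _, perm σ x => fun t z => permTen σ (eval L x t z)
  | _, mul e _ _ _ x y => fun t z => contractTen e (eval L x t z) (eval L y t z)

/-- A bound for all splittings. -/
noncomputable def bound (c₀ : ∀ n, κ n → ℝ) : {n : ℕ} → CExpr κ n → ℝ
  | _, leaf i => c₀ _ i
  | _, zero _ => 0
  | _, add x y => bound c₀ x + bound c₀ y
  | _, smul r x => |r| * bound c₀ x
  | _, perm _ x => bound c₀ x
  | _, mul _ _ _ _ x y => bound c₀ x * bound c₀ y

/-- The gradient of an expression. -/
def grad (g : ∀ n, κ n → CExpr κ (n + 1)) : {n : ℕ} → CExpr κ n → CExpr κ (n + 1)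
  | _, leaf i => g _ i
  | _, zero _ => zero _
  | _, add x y => add (grad g x) (grad g y)
  | _, smul r x => smul r (grad g x)
  | _, perm σ x => perm (succEquiv σ) (grad g x)
  | _, @mul _ a b c _ e ha hb hc x y =>
      add (perm (castL a c) (mul (splitL e) (Nat.succ_pos a) hb hc (grad g x) y))
        (perm (pull a c).symm (mul e ha hb (Nat.succ_pos c) x (perm (pull b c) (grad g y))))

/-- The divergence part of the flow derivative of a contraction, from the first factor. -/
def mulMain {a b c m : ℕ} (e : Fin a ⊕ Fin b ≃ Fin m) (hb : 0 < b) (hc : 0 < c)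
    (X1 : CExpr κ (m + 1)) (y : CExpr κ (b + c)) : CExpr κ (a + c + 1) :=
  perm (castL a c) (mul (splitL e) (Nat.succ_pos a) hb hc X1 y)

/-- The remainder of the flow derivative of a contraction, from the first factor. -/
def mulRest {a b c m : ℕ} (e : Fin a ⊕ Fin b ≃ Fin m) (ha : 0 < a) (hb : 0 < b) (hc : 0 < c)
    (X1 : CExpr κ (m + 1)) (X0 : CExpr κ m) (y : CExpr κ (b + c)) (dy : CExpr κ (b + c + 1)) :
    CExpr κ (a + c) :=
  add (mul (splitR e) ha (Nat.succ_pos b) hc X1 (perm (castL b c).symm dy))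
    (mul e ha hb hc X0 y)

/-- The divergence part and the remainder of the flow derivative of an expression. -/
def flow (g g₁ : ∀ n, κ n → CExpr κ (n + 1)) (g₀ : ∀ n, κ n → CExpr κ n) :
    {n : ℕ} → CExpr κ n → CExpr κ (n + 1) × CExpr κ n
  | _, leaf i => (g₁ _ i, g₀ _ i)
  | _, zero _ => (zero _, zero _)
  | _, add x y =>
      (add (flow g g₁ g₀ x).1 (flow g g₁ g₀ y).1, add (flow g g₁ g₀ x).2 (flow g g₁ g₀ y).2)
  | _, smul r x => (smul r (flow g g₁ g₀ x).1, smul r (flow g g₁ g₀ x).2)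
  | _, perm σ x => (perm (succEquiv σ) (flow g g₁ g₀ x).1, perm σ (flow g g₁ g₀ x).2)
  | _, @mul _ a b c _ e ha hb hc x y =>
      (add (mulMain e hb hc (flow g g₁ g₀ x).1 y)
          (perm (succEquiv finAddFlip)
            (mulMain (swapSplit b c) hb ha (flow g g₁ g₀ y).1 (perm (toRight e) x))),
        add (mulRest e ha hb hc (flow g g₁ g₀ x).1 (flow g g₁ g₀ x).2 y (grad g y))
          (perm finAddFlip
            (mulRest (swapSplit b c) hc hb ha (flow g g₁ g₀ y).1 (flow g g₁ g₀ y).2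
              (perm (toRight e) x) (perm (succEquiv (toRight e)) (grad g x)))))

end CExpr

variable {ι : Type} [Fintype ι] [DecidableEq ι]

omit [DecidableEq ι] in
theorem AllSplit.add {n : ℕ} {C C' : ℝ} {S T : Ten ι n} (hS : AllSplit C S)
    (hT : AllSplit C' T) : AllSplit (C + C') (S + T) := by
  intro a b e ha hb A B
  simp only [PiLp.add_apply, add_mul, Finset.sum_add_distrib]
  exact (abs_add_le _ _).trans (add_le_add (hS a b e ha hb A B) (hT a b e ha hb A B))

omit [DecidableEq ι] in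
theorem AllSplit.smul {n : ℕ} {C : ℝ} {T : Ten ι n} (hT : AllSplit C T) (r : ℝ) :
    AllSplit (|r| * C) (r • T) := by
  intro a b e ha hb A B
  simp only [PiLp.smul_apply, smul_eq_mul, mul_assoc r, ← Finset.mul_sum, abs_mul]
  refine (mul_le_mul_of_nonneg_left (hT a b e ha hb A B) (abs_nonneg r)).trans_eq ?_
  ring

omit [DecidableEq ι] in
theorem AllSplit.perm {k l : ℕ} {C : ℝ} {T : Ten ι k} (hT : AllSplit C T) (σ : Fin k ≃ Fin l) :
    AllSplit C (permTen σ T) := by
  intro a b e ha hb A B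
  have h : ∀ (α : Fin a → ι) (β : Fin b → ι),
      joinIdx e α β ∘ σ = joinIdx (e.trans σ.symm) α β := fun α β => rfl
  simp only [permTen_apply, h]
  exact hT a b _ ha hb A B

omit [DecidableEq ι] in
/-- Exchanging the two factors of a contraction. -/
theorem contractTen_comm {a b c m : ℕ} (e : Fin a ⊕ Fin b ≃ Fin m) (K : Ten ι m)
    (f : Ten ι (b + c)) :
    contractTen e K f
      = permTen finAddFlip (contractTen (swapSplit b c) f (permTen (toRight e) K)) := by
  ext α
  simp only [permTen_apply, contractTen_apply]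
  refine Finset.sum_congr rfl fun β _ => ?_
  have h1 : (Fin.append β fun i => (α ∘ finAddFlip) (Fin.natAdd c i)) ∘ toRight e
      = joinIdx e (fun i => α (Fin.castAdd c i)) β := by
    refine (joinIdx_eq _ _ _ _ (fun i => ?_) (fun i => ?_)).symm <;> simp [toRight]
  have h2 : joinIdx (swapSplit b c) (fun i => (α ∘ finAddFlip) (Fin.castAdd a i)) β
      = Fin.append β fun i => α (Fin.natAdd a i) := by
    refine joinIdx_eq _ _ _ _ (fun i => ?_) (fun i => ?_) <;> simp [swapSplit]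
  rw [h1, h2, mul_comm]

omit [Fintype ι] [DecidableEq ι] in
theorem succEquiv_cons {k l : ℕ} (σ : Fin k ≃ Fin l) (i : ι) (α : Fin l → ι) :
    (Fin.cons i α : Fin (l + 1) → ι) ∘ succEquiv σ = Fin.cons i (α ∘ σ) := by
  funext s
  refine Fin.cases ?_ ?_ s
  · simp [succEquiv]
  · intro s; simp [succEquiv]

theorem nabla_smul {I : Set ℝ} {k : ℕ} {f : ℝ → Sp ι → Ten ι k} (hf : Tame I f) (r : ℝ) {t : ℝ}
    (ht : t ∈ I) (x : Sp ι) : nabla (fun y => r • f t y) x = r • nabla (f t) x := by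
  ext α
  change fderiv ℝ (fun y => r • f t y) x _ _ = r * (fderiv ℝ (f t) x _ _)
  rw [fderiv_fun_const_smul (hf.differentiableAt_space ht x)]
  rfl

namespace Family

variable {F : Family ι} {k l : ℕ}

theorem D_smul {f : ℝ → Sp ι → Ten ι k} (hf : Tame F.dom f) (r : ℝ) {t : ℝ} (ht : t ∈ F.dom)
    (x : Sp ι) : F.D (fun t x => r • f t x) t x = r • F.D f t x := by
  simp only [D]
  rw [fderiv_fun_const_smul (hf.differentiableAt F.isOpen_dom ht x)]
  rfl

theorem delta_add {f g : ℝ → Sp ι → Ten ι (k + 1)} (hf : Tame F.dom f) (hg : Tame F.dom g)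
    {t : ℝ} (ht : t ∈ F.dom) (x : Sp ι) :
    F.delta (fun t x => f t x + g t x) t x = F.delta f t x + F.delta g t x := by
  ext α
  rw [PiLp.add_apply, F.delta_apply hf ht, F.delta_apply hg ht,
    F.delta_apply (hf.add hg F.isOpen_dom) ht, ← Finset.sum_add_distrib]
  refine Finset.sum_congr rfl fun i _ => ?_
  simp only [PiLp.add_apply]
  rw [pd_add (hf.component F.isOpen_dom _) (hg.component F.isOpen_dom _) ht]
  ring

theorem delta_smul {f : ℝ → Sp ι → Ten ι (k + 1)} (hf : Tame F.dom f) (r : ℝ)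
    {t : ℝ} (ht : t ∈ F.dom) (x : Sp ι) :
    F.delta (fun t x => r • f t x) t x = r • F.delta f t x := by
  ext α
  rw [PiLp.smul_apply, F.delta_apply hf ht,
    F.delta_apply (hf.const_smul F.isOpen_dom r) ht, smul_eq_mul, Finset.mul_sum]
  refine Finset.sum_congr rfl fun i _ => ?_
  simp only [PiLp.smul_apply, smul_eq_mul, pd]
  rw [fderiv_const_mul ((hf.component F.isOpen_dom (Fin.cons i α)).differentiableAt_space ht x)]
  simp only [smul_apply, smul_eq_mul]
  ring

theorem delta_perm {f : ℝ → Sp ι → Ten ι (k + 1)} (hf : Tame F.dom f) (σ : Fin k ≃ Fin l)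
    {t : ℝ} (ht : t ∈ F.dom) (x : Sp ι) :
    F.delta (fun t x => permTen (succEquiv σ) (f t x)) t x = permTen σ (F.delta f t x) := by
  ext α
  rw [permTen_apply, F.delta_apply hf ht,
    F.delta_apply (hf.perm F.isOpen_dom (succEquiv σ)) ht]
  simp only [permTen_apply, succEquiv_cons]

theorem Good.congr {J : Set ℝ} {C : ℝ} (hJ : J ⊆ F.dom) :
    ∀ {N : ℕ} {n : ℕ} {K K' : ℝ → Sp ι → Ten ι n}, F.Good J C N K →
      (∀ t ∈ F.dom, ∀ x, K' t x = K t x) → F.Good J C N K'
  | 0, _, K, K', h, he =>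
    ⟨h.1.of_eq F.isOpen_dom he, fun t ht x => by rw [he t (hJ ht) x]; exact h.2 t ht x⟩
  | _ + 1, _, K, K', h, he => by
    obtain ⟨⟨hT, hS⟩, hn, K1, K0, h1, h0, hd⟩ := h
    refine ⟨⟨hT.of_eq F.isOpen_dom he, fun t ht x => by rw [he t (hJ ht) x]; exact hS t ht x⟩,
      Good.congr hJ hn fun t ht x => ?_, K1, K0, h1, h0, fun t ht x => ?_⟩
    · rw [show K' t = K t from funext (he t ht)]
    · rw [F.D_congr he ht, hd t ht x]

theorem delta_zero {t : ℝ} (x : Sp ι) :
    F.delta (fun _ _ => (0 : Ten ι (k + 1))) t x = 0 := by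
  ext α
  simp [delta, nabla_const]

end Family

/-- The rules for the leaves. -/
structure CRules {κ : ℕ → Type} (F : Family ι) (J : Set ℝ) (L : ∀ n, κ n → ℝ → Sp ι → Ten ι n)
    (c₀ : ∀ n, κ n → ℝ) (g g₁ : ∀ n, κ n → CExpr κ (n + 1)) (g₀ : ∀ n, κ n → CExpr κ n) :
    Prop where
  tame : ∀ n i, Tame F.dom (L n i)
  nonneg : ∀ n i, 0 ≤ c₀ n i
  split : ∀ n i, ∀ t ∈ J, ∀ x, AllSplit (c₀ n i) (L n i t x)
  nabla_eq : ∀ n i, ∀ t ∈ F.dom, ∀ x, nabla (L n i t) x = (g n i).eval L t x
  flow_eq : ∀ n i, ∀ t ∈ F.dom, ∀ x,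
    F.D (L n i) t x = F.delta ((g₁ n i).eval L) t x + (g₀ n i).eval L t x

namespace CRules

variable {κ : ℕ → Type} {F : Family ι} {J : Set ℝ} {L : ∀ n, κ n → ℝ → Sp ι → Ten ι n}
  {c₀ : ∀ n, κ n → ℝ} {g g₁ : ∀ n, κ n → CExpr κ (n + 1)} {g₀ : ∀ n, κ n → CExpr κ n}
  (R : CRules F J L c₀ g g₁ g₀)
include R

theorem tame_eval {n : ℕ} (e : CExpr κ n) : Tame F.dom (e.eval L) := by
  have hI := F.isOpen_dom
  induction e with
  | leaf i => exact R.tame _ i
  | zero n => exact Tame.const _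
  | add x y ihx ihy => exact ihx.add ihy hI
  | smul r x ih => exact ih.const_smul hI r
  | perm σ x ih => exact ih.perm hI σ
  | mul e _ _ _ x y ihx ihy => exact ihx.contract ihy hI e

theorem split_eval {n : ℕ} (e : CExpr κ n) :
    0 ≤ e.bound c₀ ∧ ∀ t ∈ J, ∀ x, AllSplit (e.bound c₀) (e.eval L t x) := by
  induction e with
  | leaf i => exact ⟨R.nonneg _ i, R.split _ i⟩
  | zero n => exact ⟨le_rfl, fun t _ x => allSplit_zero le_rfl⟩
  | add x y ihx ihy =>
    exact ⟨add_nonneg ihx.1 ihy.1, fun t ht z => (ihx.2 t ht z).add (ihy.2 t ht z)⟩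
  | smul r x ih =>
    exact ⟨mul_nonneg (abs_nonneg r) ih.1, fun t ht z => (ih.2 t ht z).smul r⟩
  | perm σ x ih => exact ⟨ih.1, fun t ht z => (ih.2 t ht z).perm σ⟩
  | mul e ha hb hc x y ihx ihy =>
    exact ⟨mul_nonneg ihx.1 ihy.1, fun t ht z =>
      AllSplit.contractTen ihx.1 ihy.1 (ihx.2 t ht z) (ihy.2 t ht z) e ha hb hc⟩

theorem nabla_eval {n : ℕ} (e : CExpr κ n) {t : ℝ} (ht : t ∈ F.dom) (x : Sp ι) :
    nabla (e.eval L t) x = (e.grad g).eval L t x := by
  have hI := F.isOpen_dom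
  induction e with
  | leaf i => exact R.nabla_eq _ i t ht x
  | zero n => exact nabla_const 0 x
  | add p q ihp ihq =>
    simp only [CExpr.grad, CExpr.eval]
    rw [nabla_add (R.tame_eval p) (R.tame_eval q) ht, ihp, ihq]
  | smul r p ih =>
    simp only [CExpr.grad, CExpr.eval]
    rw [nabla_smul (R.tame_eval p) r ht, ih]
  | perm σ p ih =>
    simp only [CExpr.grad, CExpr.eval]
    rw [nabla_perm (R.tame_eval p) hI σ ht, ih]
  | mul e ha hb hc p q ihp ihq =>
    simp only [CExpr.grad, CExpr.eval]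
    rw [F.nabla_contract (R.tame_eval p) (R.tame_eval q) e ht, ihp, ihq]

theorem mulMain_rest {a b c m : ℕ} (e : Fin a ⊕ Fin b ≃ Fin m) (ha : 0 < a) (hb : 0 < b)
    (hc : 0 < c) (X1 : CExpr κ (m + 1)) (X0 : CExpr κ m) (y : CExpr κ (b + c))
    (dy : CExpr κ (b + c + 1)) {t : ℝ} (ht : t ∈ F.dom) (x : Sp ι)
    (hdy : nabla (y.eval L t) x = dy.eval L t x) :
    contractTen e (F.delta (X1.eval L) t x + X0.eval L t x) (y.eval L t x)
      = F.delta ((CExpr.mulMain e hb hc X1 y).eval L) t x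
        + (CExpr.mulRest e ha hb hc X1 X0 y dy).eval L t x := by
  rw [contractTen_add_left, F.contract_delta (R.tame_eval X1) (R.tame_eval y) e ht, hdy,
    add_assoc]
  rfl

theorem flow_eval {n : ℕ} (e : CExpr κ n) {t : ℝ} (ht : t ∈ F.dom) (x : Sp ι) :
    F.D (e.eval L) t x = F.delta ((e.flow g g₁ g₀).1.eval L) t x
      + (e.flow g g₁ g₀).2.eval L t x := by
  have hI := F.isOpen_dom
  induction e with
  | leaf i => exact R.flow_eq _ i t ht x
  | zero n =>
    simp only [CExpr.flow, CExpr.eval]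
    rw [F.delta_zero, add_zero]
    exact F.D_const 0 t x
  | add p q ihp ihq =>
    simp only [CExpr.flow, CExpr.eval]
    rw [F.D_add (R.tame_eval p) (R.tame_eval q) ht, ihp, ihq,
      F.delta_add (R.tame_eval _) (R.tame_eval _) ht]
    abel
  | smul r p ih =>
    simp only [CExpr.flow, CExpr.eval]
    rw [F.D_smul (R.tame_eval p) r ht, ih, F.delta_smul (R.tame_eval _) r ht, smul_add]
  | perm σ p ih =>
    simp only [CExpr.flow, CExpr.eval]
    have h := F.D_clm (R.tame_eval p) (permL σ) ht (x := x)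
    simp only [permL_apply] at h
    rw [h, ih, permTen_add, F.delta_perm (R.tame_eval _) σ ht]
  | @mul a b c m e ha hb hc p q ihp ihq =>
    have h1 := R.mulMain_rest e ha hb hc (p.flow g g₁ g₀).1 (p.flow g g₁ g₀).2 q (q.grad g) ht x
      (R.nabla_eval q ht x)
    have h2 := R.mulMain_rest (swapSplit b c) hc hb ha (q.flow g g₁ g₀).1 (q.flow g g₁ g₀).2
      (CExpr.perm (toRight e) p) (CExpr.perm (succEquiv (toRight e)) (p.grad g)) ht x
      (R.nabla_eval (CExpr.perm (toRight e) p) ht x)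
    rw [← ihp] at h1
    rw [← ihq] at h2
    simp only [CExpr.flow, CExpr.eval]
    rw [F.D_contract (R.tame_eval p) (R.tame_eval q) e ht, h1,
      contractTen_comm e (p.eval L t x) (F.D (q.eval L) t x),
      show permTen (toRight e) (p.eval L t x) = (CExpr.perm (toRight e) p).eval L t x from rfl,
      h2, permTen_add,
      F.delta_add (R.tame_eval _) ((R.tame_eval _).perm hI _) ht,
      F.delta_perm (R.tame_eval _) finAddFlip ht]
    abel

end CRules

/-- Every expression is a good coefficient field at every level, with dimension-free constants. -/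
theorem cexpr_good {κ : ℕ → Type} (c₀ : ∀ n, κ n → ℝ) (g g₁ : ∀ n, κ n → CExpr κ (n + 1))
    (g₀ : ∀ n, κ n → CExpr κ n) :
    ∀ (N : ℕ) {n : ℕ} (e : CExpr κ n), ∃ C : ℝ, 0 ≤ C ∧
      ∀ (ι : Type) [Fintype ι] [DecidableEq ι] (F : Family ι) (J : Set ℝ)
        (L : ∀ n, κ n → ℝ → Sp ι → Ten ι n), J ⊆ F.dom → CRules F J L c₀ g g₁ g₀ →
          F.Good J C N (e.eval L) := by
  intro N
  induction N with
  | zero =>
    intro n e
    refine ⟨|e.bound c₀|, abs_nonneg _, fun ι _ _ F J L _ R => ?_⟩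
    exact ⟨R.tame_eval e, fun t ht x => ((R.split_eval e).2 t ht x).mono (le_abs_self _)⟩
  | succ N ih =>
    intro n e
    obtain ⟨Cg, hCg, hg⟩ := ih (e.grad g)
    obtain ⟨C₁, hC₁, h₁⟩ := ih (e.flow g g₁ g₀).1
    obtain ⟨C₀, hC₀, h₀⟩ := ih (e.flow g g₁ g₀).2
    refine ⟨|e.bound c₀| + Cg + C₁ + C₀, by positivity, fun ι _ _ F J L hJ R => ?_⟩
    have hb := abs_nonneg (e.bound c₀)
    refine ⟨⟨R.tame_eval e, fun t ht x => ((R.split_eval e).2 t ht x).mono
      ((le_abs_self _).trans (by linarith))⟩, ?_, (e.flow g g₁ g₀).1.eval L,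
      (e.flow g g₁ g₀).2.eval L, (h₁ ι F J L hJ R).mono (by linarith),
      (h₀ ι F J L hJ R).mono (by linarith), fun t ht x => R.flow_eval e ht x⟩
    refine ((hg ι F J L hJ R).congr hJ fun t ht x => R.nabla_eval e ht x).mono (by linarith)

end Vale.Agent.P347
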