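import Vale.Agent.P347.CalcReg

/-!
A single contraction of two tensors bounded for all splittings is bounded for all splittings.
-/

namespace Vale.Agent.P347

open scoped RealInnerProductSpace

variable {ι : Type} [Fintype ι] [DecidableEq ι]
variable {a b c m n : ℕ}

omit [DecidableEq ι] in
/-- The operator form of `AllSplit`, for slot groups indexed by arbitrary finite types. -/
theorem AllSplit.op_bound {P Q : Type} [Fintype P] [Fintype Q] [DecidableEq P] [DecidableEq Q]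
    [Nonempty P] [Nonempty Q] {C : ℝ} {T : Ten ι n} (hT : AllSplit C T)
    (e : P ⊕ Q ≃ Fin n) (B : (Q → ι) → ℝ) :
    ∑ α : P → ι, (∑ β : Q → ι, T (Sum.elim α β ∘ e.symm) * B β) ^ 2
      ≤ C ^ 2 * ∑ β, B β ^ 2 := by
  set eP := Fintype.equivFin P
  set eQ := Fintype.equivFin Q
  set e' : Fin (Fintype.card P) ⊕ Fin (Fintype.card Q) ≃ Fin n :=
    (Equiv.sumCongr eP.symm eQ.symm).trans e with he'
  set Z : (P → ι) → ℝ := fun α => ∑ β : Q → ι, T (Sum.elim α β ∘ e.symm) * B β with hZ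
  set A' : Ten ι (Fintype.card P) := WithLp.toLp 2 fun α => Z (α ∘ eP) with hA'
  set B' : Ten ι (Fintype.card Q) := WithLp.toLp 2 fun β => B (β ∘ eQ) with hB'
  have h := hT _ _ e' Fintype.card_pos Fintype.card_pos A' B'
  have hP : ∀ g : (Fin (Fintype.card P) → ι) → ℝ, ∑ α', g α' = ∑ α : P → ι, g (α ∘ eP.symm) :=
    fun g => (Equiv.sum_comp (Equiv.arrowCongr eP (Equiv.refl ι)) g).symm
  have hQ : ∀ g : (Fin (Fintype.card Q) → ι) → ℝ, ∑ β', g β' = ∑ β : Q → ι, g (β ∘ eQ.symm) :=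
    fun g => (Equiv.sum_comp (Equiv.arrowCongr eQ (Equiv.refl ι)) g).symm
  have hA : ‖A'‖ ^ 2 = ∑ α, Z α ^ 2 := by
    rw [EuclideanSpace.real_norm_sq_eq, hP]
    exact Finset.sum_congr rfl fun α _ => by simp [hA', Function.comp_assoc]
  have hB : ‖B'‖ ^ 2 = ∑ β, B β ^ 2 := by
    rw [EuclideanSpace.real_norm_sq_eq, hQ]
    exact Finset.sum_congr rfl fun β _ => by simp [hB', Function.comp_assoc]
  have hs : ∑ α, ∑ β, T (joinIdx e' α β) * A' α * B' β = ∑ α, Z α ^ 2 := by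
    rw [hP]
    refine Finset.sum_congr rfl fun α _ => ?_
    rw [hQ, sq]
    conv_rhs => arg 2; rw [hZ]
    simp only
    rw [Finset.mul_sum]
    refine Finset.sum_congr rfl fun β _ => ?_
    have hj : joinIdx e' (α ∘ eP.symm) (β ∘ eQ.symm) = Sum.elim α β ∘ e.symm := by
      funext s
      rcases h : e.symm s with i | i <;> simp [joinIdx, he', h]
    have hA2 : A' (α ∘ eP.symm) = Z α := by simp [hA', Function.comp_assoc]
    have hB2 : B' (β ∘ eQ.symm) = B β := by simp [hB', Function.comp_assoc]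
    rw [hj, hA2, hB2]
    ring
  rw [hs, ← hA] at h
  rw [← hA, ← hB]
  have h' : ‖A'‖ ^ 2 ≤ C * ‖A'‖ * ‖B'‖ := (le_abs_self _).trans h
  nlinarith [norm_nonneg A', norm_nonneg B', sq_nonneg (‖A'‖ - C * ‖B'‖)]

/-- Cauchy-Schwarz for a contraction of two kernels against two factors. -/
theorem kernel_pair_bound {X₁ X₂ Y₁ Y₂ Z : Type*} [Fintype X₁] [Fintype X₂] [Fintype Y₁]
    [Fintype Y₂] [Fintype Z] {C C' : ℝ} (hC : 0 ≤ C) (hC' : 0 ≤ C') (K : X₁ → X₂ → Z → ℝ)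
    (f : Z → Y₁ → Y₂ → ℝ)
    (hK : ∀ B : X₂ → ℝ, ∑ x₁, ∑ z, (∑ x₂, K x₁ x₂ z * B x₂) ^ 2 ≤ C ^ 2 * ∑ x₂, B x₂ ^ 2)
    (hf : ∀ A : Y₁ → ℝ, ∑ z, ∑ y₂, (∑ y₁, f z y₁ y₂ * A y₁) ^ 2 ≤ C' ^ 2 * ∑ y₁, A y₁ ^ 2)
    (A : X₁ → Y₁ → ℝ) (B : X₂ → Y₂ → ℝ) :
    |∑ x₁, ∑ x₂, ∑ y₁, ∑ y₂, (∑ z, K x₁ x₂ z * f z y₁ y₂) * A x₁ y₁ * B x₂ y₂|
      ≤ C * C' * √(∑ x₁, ∑ y₁, A x₁ y₁ ^ 2) * √(∑ x₂, ∑ y₂, B x₂ y₂ ^ 2) := by
  set u : X₁ × Z × Y₂ → ℝ := fun p => ∑ y₁, f p.2.1 y₁ p.2.2 * A p.1 y₁ with hu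
  set w : X₁ × Z × Y₂ → ℝ := fun p => ∑ x₂, K p.1 x₂ p.2.1 * B x₂ p.2.2 with hw
  have e : ∑ x₁, ∑ x₂, ∑ y₁, ∑ y₂, (∑ z, K x₁ x₂ z * f z y₁ y₂) * A x₁ y₁ * B x₂ y₂
      = ∑ p, u p * w p := by
    simp only [Fintype.sum_prod_type, hu, hw, Finset.sum_mul, Finset.mul_sum]
    refine Finset.sum_congr rfl fun x₁ _ => ?_
    rw [Finset.sum_comm (s := Finset.univ (α := Z))]
    rw [Finset.sum_congr rfl fun x₂ _ =>
      Finset.sum_comm (s := Finset.univ (α := Y₁)) (t := Finset.univ (α := Y₂)), Finset.sum_comm]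
    refine Finset.sum_congr rfl fun y₂ _ => ?_
    rw [Finset.sum_congr rfl fun x₂ _ =>
      Finset.sum_comm (s := Finset.univ (α := Y₁)) (t := Finset.univ (α := Z)), Finset.sum_comm]
    refine Finset.sum_congr rfl fun z _ => ?_
    exact Finset.sum_congr rfl fun x₂ _ => Finset.sum_congr rfl fun y₁ _ => by ring
  have hu2 : ∑ p, u p ^ 2 ≤ C' ^ 2 * ∑ x₁, ∑ y₁, A x₁ y₁ ^ 2 := by
    simp only [Fintype.sum_prod_type, hu, Finset.mul_sum]
    refine Finset.sum_le_sum fun x₁ _ => ?_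
    refine (hf (A x₁)).trans_eq ?_
    rw [Finset.mul_sum]
  have hw2 : ∑ p, w p ^ 2 ≤ C ^ 2 * ∑ x₂, ∑ y₂, B x₂ y₂ ^ 2 := by
    simp only [Fintype.sum_prod_type, hw]
    rw [Finset.sum_congr rfl fun x₁ _ => Finset.sum_comm, Finset.sum_comm,
      Finset.sum_comm (f := fun x₂ y₂ => B x₂ y₂ ^ 2), Finset.mul_sum]
    exact Finset.sum_le_sum fun y₂ _ => hK fun x₂ => B x₂ y₂
  rw [e]
  have hcs := Finset.sum_mul_sq_le_sq_mul_sq Finset.univ u w
  have h1 : |∑ p, u p * w p| ≤ √((∑ p, u p ^ 2) * ∑ p, w p ^ 2) := Real.abs_le_sqrt hcs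
  refine h1.trans ((Real.sqrt_le_sqrt (mul_le_mul hu2 hw2 (Finset.sum_nonneg fun _ _ => sq_nonneg _)
    (by positivity))).trans_eq ?_)
  rw [show C' ^ 2 * (∑ x₁, ∑ y₁, A x₁ y₁ ^ 2) * (C ^ 2 * ∑ x₂, ∑ y₂, B x₂ y₂ ^ 2)
      = (C * C') ^ 2 * ((∑ x₁, ∑ y₁, A x₁ y₁ ^ 2) * ∑ x₂, ∑ y₂, B x₂ y₂ ^ 2) by ring,
    Real.sqrt_mul (by positivity), Real.sqrt_sq (by positivity),
    Real.sqrt_mul (Finset.sum_nonneg fun _ _ => Finset.sum_nonneg fun _ _ => sq_nonneg _)]
  ring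

/-- Functions on a sum type as pairs of functions, along an equivalence. -/
def sumArrowEquiv {P Q R : Type} (e : P ⊕ Q ≃ R) : (P → ι) × (Q → ι) ≃ (R → ι) :=
  (Equiv.sumArrowEquivProdArrow P Q ι).symm.trans (Equiv.arrowCongr e (Equiv.refl ι))

omit [Fintype ι] [DecidableEq ι] in
theorem sumArrowEquiv_apply {P Q R : Type} (e : P ⊕ Q ≃ R) (α : P → ι) (β : Q → ι) :
    sumArrowEquiv e (α, β) = Sum.elim α β ∘ e.symm := rfl

omit [DecidableEq ι] in
theorem sum_sumArrow {P Q R : Type} [Fintype P] [Fintype Q] [Fintype R] [DecidableEq P]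
    [DecidableEq Q] [DecidableEq R] (e : P ⊕ Q ≃ R) (g : (R → ι) → ℝ) :
    ∑ u, g u = ∑ α : P → ι, ∑ β : Q → ι, g (Sum.elim α β ∘ e.symm) := by
  rw [← Equiv.sum_comp (sumArrowEquiv e) g, Fintype.sum_prod_type]
  rfl

omit [DecidableEq ι] in
/-- The main case: some slot of the first side comes from the second factor and some slot of the
second side comes from the first factor. -/
theorem contractTen_pair_bound {C C' : ℝ} (hC : 0 ≤ C) (hC' : 0 ≤ C') {K : Ten ι m}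
    {f : Ten ι (b + c)} (hK : AllSplit C K) (hf : AllSplit C' f) (e : Fin a ⊕ Fin b ≃ Fin m)
    (hb : 0 < b) {p q : ℕ} (e₂ : Fin p ⊕ Fin q ≃ Fin (a + c))
    (hQa : ∃ i : Fin a, (e₂.symm (Fin.castAdd c i)).isRight)
    (hPc : ∃ i : Fin c, (e₂.symm (Fin.natAdd a i)).isLeft) (A : Ten ι p) (B : Ten ι q) :
    |∑ α : Fin p → ι, ∑ β : Fin q → ι, contractTen e K f (joinIdx e₂ α β) * A α * B β|
      ≤ C * C' * ‖A‖ * ‖B‖ := by
  let la : Fin a → Prop := fun i => (e₂.symm (Fin.castAdd c i)).isLeft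
  let lc : Fin c → Prop := fun i => (e₂.symm (Fin.natAdd a i)).isLeft
  let ea : {i // la i} ⊕ {i // ¬ la i} ≃ Fin a := Equiv.sumCompl la
  let ec : {i // lc i} ⊕ {i // ¬ lc i} ≃ Fin c := Equiv.sumCompl lc
  have : Nonempty {i // ¬ la i} := by
    obtain ⟨i, hi⟩ := hQa
    exact ⟨⟨i, fun h => by
      change (e₂.symm (Fin.castAdd c i)).isLeft = true at h
      cases hh : e₂.symm (Fin.castAdd c i) <;> simp [hh] at hi h⟩⟩
  have : Nonempty {i // lc i} := by
    obtain ⟨i, hi⟩ := hPc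
    exact ⟨⟨i, hi⟩⟩
  have : Nonempty (Fin b) := ⟨⟨0, hb⟩⟩
  -- the slot maps of the two sides
  let gP : {i // la i} ⊕ {i // lc i} → Fin p :=
    Sum.elim (fun i => (e₂.symm (Fin.castAdd c i.1)).getLeft i.2)
      fun i => (e₂.symm (Fin.natAdd a i.1)).getLeft i.2
  have hgP : ∀ z, e₂ (Sum.inl (gP z)) =
      Sum.elim (fun i => Fin.castAdd c i.1) (fun i => Fin.natAdd a i.1) z := by
    rintro (i | i) <;> simp only [gP, Sum.elim_inl, Sum.elim_inr, Sum.inl_getLeft,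
      Equiv.apply_symm_apply]
  have hgPb : Function.Bijective gP := by
    refine ⟨fun y z h => ?_, fun j => ?_⟩
    · have h' := (hgP y).symm.trans ((congrArg (fun s => e₂ (Sum.inl s)) h).trans (hgP z))
      rcases y with i | i <;> rcases z with j | j <;>
        simp [Fin.ext_iff] at h' ⊢ <;> first
          | exact Subtype.ext (Fin.ext h')
          | omega
    · obtain ⟨s, hs⟩ : ∃ s, e₂ (Sum.inl j) = s := ⟨_, rfl⟩
      induction s using Fin.addCases with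
      | left i =>
        refine ⟨Sum.inl ⟨i, ?_⟩, ?_⟩
        · show (e₂.symm (Fin.castAdd c i)).isLeft
          simp [← hs]
        · apply Sum.inl_injective (β := Fin q)
          apply e₂.injective
          exact (hgP _).trans hs.symm
      | right i =>
        refine ⟨Sum.inr ⟨i, ?_⟩, ?_⟩
        · show (e₂.symm (Fin.natAdd a i)).isLeft
          simp [← hs]
        · apply Sum.inl_injective (β := Fin q)
          apply e₂.injective
          exact (hgP _).trans hs.symm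
  let gQ : {i // ¬ la i} ⊕ {i // ¬ lc i} → Fin q :=
    Sum.elim
      (fun i => (e₂.symm (Fin.castAdd c i.1)).getRight (Sum.not_isLeft.1 i.2 ▸ rfl))
      fun i => (e₂.symm (Fin.natAdd a i.1)).getRight (Sum.not_isLeft.1 i.2 ▸ rfl)
  have hgQ : ∀ z, e₂ (Sum.inr (gQ z)) =
      Sum.elim (fun i => Fin.castAdd c i.1) (fun i => Fin.natAdd a i.1) z := by
    rintro (i | i) <;> simp only [gQ, Sum.elim_inl, Sum.elim_inr, Sum.inr_getRight,
      Equiv.apply_symm_apply]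
  have hgQb : Function.Bijective gQ := by
    refine ⟨fun y z h => ?_, fun j => ?_⟩
    · have h' := (hgQ y).symm.trans ((congrArg (fun s => e₂ (Sum.inr s)) h).trans (hgQ z))
      rcases y with i | i <;> rcases z with j | j <;>
        simp [Fin.ext_iff] at h' ⊢ <;> first
          | exact Subtype.ext (Fin.ext h')
          | omega
    · obtain ⟨s, hs⟩ : ∃ s, e₂ (Sum.inr j) = s := ⟨_, rfl⟩
      induction s using Fin.addCases with
      | left i =>
        refine ⟨Sum.inl ⟨i, ?_⟩, ?_⟩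
        · show ¬ (e₂.symm (Fin.castAdd c i)).isLeft
          simp [← hs]
        · apply Sum.inr_injective (α := Fin p)
          apply e₂.injective
          exact (hgQ _).trans hs.symm
      | right i =>
        refine ⟨Sum.inr ⟨i, ?_⟩, ?_⟩
        · show ¬ (e₂.symm (Fin.natAdd a i)).isLeft
          simp [← hs]
        · apply Sum.inr_injective (α := Fin p)
          apply e₂.injective
          exact (hgQ _).trans hs.symm
  let eP : {i // la i} ⊕ {i // lc i} ≃ Fin p := Equiv.ofBijective gP hgPb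
  let eQ : {i // ¬ la i} ⊕ {i // ¬ lc i} ≃ Fin q := Equiv.ofBijective gQ hgQb
  -- the joined multi-index
  have hjoin : ∀ (x₁ : {i // la i} → ι) (y₁ : {i // lc i} → ι) (x₂ : {i // ¬ la i} → ι)
      (y₂ : {i // ¬ lc i} → ι),
      joinIdx e₂ (Sum.elim x₁ y₁ ∘ eP.symm) (Sum.elim x₂ y₂ ∘ eQ.symm)
        = Fin.append (Sum.elim x₁ x₂ ∘ ea.symm) (Sum.elim y₁ y₂ ∘ ec.symm) := by
    intro x₁ y₁ x₂ y₂
    refine joinIdx_eq _ _ _ _ (fun s => ?_) (fun s => ?_)
    · obtain ⟨z, rfl⟩ := eP.surjective s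
      show Fin.append _ _ (e₂ (Sum.inl (gP z))) = _
      rw [hgP z, Function.comp_apply, Equiv.symm_apply_apply]
      rcases z with i | i
      · simp [ea, Equiv.sumCompl_symm_apply_of_pos i.2]
      · simp [ec, Equiv.sumCompl_symm_apply_of_pos i.2]
    · obtain ⟨z, rfl⟩ := eQ.surjective s
      show Fin.append _ _ (e₂ (Sum.inr (gQ z))) = _
      rw [hgQ z, Function.comp_apply, Equiv.symm_apply_apply]
      rcases z with i | i
      · simp [ea, Equiv.sumCompl_symm_apply_of_neg i.2]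
      · simp [ec, Equiv.sumCompl_symm_apply_of_neg i.2]
  have hA : ‖A‖ ^ 2 = ∑ x₁ : {i // la i} → ι, ∑ y₁ : {i // lc i} → ι,
      A (Sum.elim x₁ y₁ ∘ eP.symm) ^ 2 := by
    rw [EuclideanSpace.real_norm_sq_eq, sum_sumArrow eP]
  have hB : ‖B‖ ^ 2 = ∑ x₂ : {i // ¬ la i} → ι, ∑ y₂ : {i // ¬ lc i} → ι,
      B (Sum.elim x₂ y₂ ∘ eQ.symm) ^ 2 := by
    rw [EuclideanSpace.real_norm_sq_eq, sum_sumArrow eQ]
  have hS : ∑ α : Fin p → ι, ∑ β : Fin q → ι, contractTen e K f (joinIdx e₂ α β) * A α * B β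
      = ∑ x₁ : {i // la i} → ι, ∑ x₂ : {i // ¬ la i} → ι, ∑ y₁ : {i // lc i} → ι,
          ∑ y₂ : {i // ¬ lc i} → ι,
          (∑ z : Fin b → ι, K (joinIdx e (Sum.elim x₁ x₂ ∘ ea.symm) z)
            * f (Fin.append z (Sum.elim y₁ y₂ ∘ ec.symm)))
            * A (Sum.elim x₁ y₁ ∘ eP.symm) * B (Sum.elim x₂ y₂ ∘ eQ.symm) := by
    rw [sum_sumArrow eP]
    refine Finset.sum_congr rfl fun x₁ _ => ?_
    simp only [sum_sumArrow eQ]
    rw [Finset.sum_comm]
    refine Finset.sum_congr rfl fun x₂ _ => Finset.sum_congr rfl fun y₁ _ =>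
      Finset.sum_congr rfl fun y₂ _ => ?_
    rw [hjoin, contractTen_apply]
    simp only [Fin.append_left, Fin.append_right]
  -- the two operator bounds
  let eK : ({i // la i} ⊕ Fin b) ⊕ {i // ¬ la i} ≃ Fin m :=
    ((Equiv.sumAssoc _ _ _).trans ((Equiv.sumCongr (Equiv.refl _) (Equiv.sumComm _ _)).trans
      ((Equiv.sumAssoc _ _ _).symm.trans (Equiv.sumCongr ea (Equiv.refl _))))).trans e
  let ef : (Fin b ⊕ {i // ¬ lc i}) ⊕ {i // lc i} ≃ Fin (b + c) :=
    ((Equiv.sumAssoc _ _ _).trans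
      (Equiv.sumCongr (Equiv.refl _) ((Equiv.sumComm _ _).trans ec))).trans finSumFinEquiv
  have hKb : ∀ B' : ({i // ¬ la i} → ι) → ℝ,
      ∑ x₁ : {i // la i} → ι, ∑ z : Fin b → ι,
        (∑ x₂, K (joinIdx e (Sum.elim x₁ x₂ ∘ ea.symm) z) * B' x₂) ^ 2
        ≤ C ^ 2 * ∑ x₂, B' x₂ ^ 2 := by
    intro B'
    refine le_trans (le_of_eq ?_) (hK.op_bound eK B')
    rw [sum_sumArrow (Equiv.refl ({i // la i} ⊕ Fin b))]
    refine Finset.sum_congr rfl fun x₁ _ => Finset.sum_congr rfl fun z _ => ?_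
    congr 1
    refine Finset.sum_congr rfl fun x₂ _ => ?_
    refine congrArg (fun u => K u * B' x₂) ?_
    refine joinIdx_eq _ _ _ _ (fun s => ?_) (fun s => ?_)
    · obtain ⟨y, rfl⟩ := ea.surjective s
      rcases y with i | i <;> simp [eK]
    · simp [eK]
  have hfb : ∀ A' : ({i // lc i} → ι) → ℝ,
      ∑ z : Fin b → ι, ∑ y₂ : {i // ¬ lc i} → ι,
        (∑ y₁, f (Fin.append z (Sum.elim y₁ y₂ ∘ ec.symm)) * A' y₁) ^ 2
        ≤ C' ^ 2 * ∑ y₁, A' y₁ ^ 2 := by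
    intro A'
    refine le_trans (le_of_eq ?_) (hf.op_bound ef A')
    rw [sum_sumArrow (Equiv.refl (Fin b ⊕ {i // ¬ lc i}))]
    refine Finset.sum_congr rfl fun z _ => Finset.sum_congr rfl fun y₂ _ => ?_
    congr 1
    refine Finset.sum_congr rfl fun y₁ _ => ?_
    refine congrArg (fun u => f u * A' y₁) ?_
    funext s
    induction s using Fin.addCases with
    | left i => simp [ef]
    | right i =>
      obtain ⟨y, rfl⟩ := ec.surjective i
      rcases y with j | j <;> simp [ef]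
  rw [hS]
  refine (kernel_pair_bound hC hC' _ _ hKb hfb _ _).trans_eq ?_
  rw [← hA, ← hB, Real.sqrt_sq (norm_nonneg _), Real.sqrt_sq (norm_nonneg _)]

omit [DecidableEq ι] in
/-- A single contraction preserves boundedness for all splittings. -/
theorem AllSplit.contractTen {C C' : ℝ} (hC : 0 ≤ C) (hC' : 0 ≤ C') {K : Ten ι m}
    {f : Ten ι (b + c)} (hK : AllSplit C K) (hf : AllSplit C' f) (e : Fin a ⊕ Fin b ≃ Fin m)
    (ha : 0 < a) (hb : 0 < b) (hc : 0 < c) :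
    AllSplit (C * C') (contractTen e K f) := by
  intro p q e₂ hp hq A B
  by_cases h : (∃ i : Fin a, (e₂.symm (Fin.castAdd c i)).isRight) ∧
      ∃ i : Fin c, (e₂.symm (Fin.natAdd a i)).isLeft
  · exact contractTen_pair_bound hC hC' hK hf e hb e₂ h.1 h.2 A B
  · set e₂' : Fin q ⊕ Fin p ≃ Fin (a + c) := (Equiv.sumComm _ _).trans e₂ with he₂'
    have hj : ∀ (α : Fin p → ι) (β : Fin q → ι), joinIdx e₂' β α = joinIdx e₂ α β := by
      intro α β
      funext s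
      rcases hs : e₂.symm s with i | i <;> simp [joinIdx, he₂', hs]
    have hsym : ∀ s, (e₂'.symm s).isRight = (e₂.symm s).isLeft ∧
        (e₂'.symm s).isLeft = (e₂.symm s).isRight := fun s => by
      rcases hs : e₂.symm s with i | i <;> simp [he₂', hs]
    rw [Finset.sum_comm]
    refine le_of_eq_of_le ?_ ((contractTen_pair_bound hC hC' hK hf e hb e₂' ?_ ?_ B A).trans_eq
      (by ring))
    · congr 1
      refine Finset.sum_congr rfl fun β _ => Finset.sum_congr rfl fun α _ => ?_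
      rw [hj]; ring
    · simp only [(hsym _).1]
      by_contra hno
      push Not at hno
      -- the first side then lies in the second factor
      have hQa : ∃ i : Fin a, (e₂.symm (Fin.castAdd c i)).isRight :=
        ⟨⟨0, ha⟩, by simpa using hno ⟨0, ha⟩⟩
      obtain ⟨s, hs⟩ : ∃ s, e₂ (Sum.inl ⟨0, hp⟩) = s := ⟨_, rfl⟩
      induction s using Fin.addCases with
      | left i => exact absurd (hno i) (by simp [← hs])
      | right i => exact h ⟨hQa, i, by simp [← hs]⟩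
    · simp only [(hsym _).2]
      by_contra hno
      push Not at hno
      have hPc : ∃ i : Fin c, (e₂.symm (Fin.natAdd a i)).isLeft :=
        ⟨⟨0, hc⟩, by simpa using hno ⟨0, hc⟩⟩
      obtain ⟨s, hs⟩ : ∃ s, e₂ (Sum.inr ⟨0, hq⟩) = s := ⟨_, rfl⟩
      induction s using Fin.addCases with
      | left i => exact h ⟨⟨i, by simp [← hs]⟩, hPc⟩
      | right i => exact absurd (hno i) (by simp [← hs])

end Vale.Agent.P347
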