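import Vale.Agent.P347.Flow

/-!
Further closure properties of `Tame`, approximations of fields of linear growth, and flows
preserving normalised Gibbs measures given by a potential.
-/

namespace Vale.Agent.P347

open Set MeasureTheory Filter
open scoped NNReal ENNReal Topology ContDiff

variable {ι κ : Type} [Fintype ι] [DecidableEq ι] [Fintype κ] [DecidableEq κ]
variable {G : Type*} [NormedAddCommGroup G] [NormedSpace ℝ G] {I : Set ℝ}

namespace Tame

omit [DecidableEq ι] [DecidableEq κ] in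
/-- Composition with a linear map in space. -/
theorem comp_clm {f : ℝ → Sp ι → G} (hf : Tame I f) (hI : IsOpen I) (L : Sp κ →L[ℝ] Sp ι) :
    Tame I fun t z => f t (L z) := by
  set T : ℝ × Sp κ →L[ℝ] ℝ × Sp ι := (ContinuousLinearMap.id ℝ ℝ).prodMap L with hT
  have hpre : T ⁻¹' (I ×ˢ (univ : Set (Sp ι))) = I ×ˢ (univ : Set (Sp κ)) := by
    ext q; simp [hT]
  have hU : IsOpen (I ×ˢ (univ : Set (Sp ι))) := hI.prod isOpen_univ
  have hU' : IsOpen (T ⁻¹' (I ×ˢ (univ : Set (Sp ι)))) := hU.preimage T.continuous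
  refine ⟨hf.1.comp T.contDiff.contDiffOn fun q hq => ⟨hq.1, mem_univ _⟩, fun n J hJ hJI => ?_⟩
  obtain ⟨C, p, hC, h⟩ := hf.bound_upTo n hJ hJI
  refine ⟨C * (1 + ‖L‖) ^ p * ‖T‖ ^ n, p, fun t ht x => ?_⟩
  have hx : T (t, x) ∈ I ×ˢ (univ : Set (Sp ι)) := ⟨hJI ht, mem_univ _⟩
  have key := T.iteratedFDerivWithin_comp_right (f := fun q : ℝ × Sp ι => f q.1 q.2) hf.1
    hU.uniqueDiffOn hU'.uniqueDiffOn (x := (t, x)) hx (i := n) (mod_cast le_top)
  rw [iteratedFDerivWithin_of_isOpen n hU hx, iteratedFDerivWithin_of_isOpen n hU' hx] at key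
  have e : (fun q : ℝ × Sp κ => f q.1 (L q.2))
      = (fun q : ℝ × Sp ι => f q.1 q.2) ∘ T := rfl
  rw [e, key]
  refine (ContinuousMultilinearMap.norm_compContinuousLinearMap_le _ _).trans ?_
  rw [Finset.prod_const, Finset.card_univ, Fintype.card_fin]
  rw [mul_right_comm (C * (1 + ‖L‖) ^ p)]
  refine mul_le_mul_of_nonneg_right ?_ (pow_nonneg (norm_nonneg T) _)
  have hpow : (1 + ‖L x‖) ^ p ≤ (1 + ‖L‖) ^ p * (1 + ‖x‖) ^ p := by
    rw [← mul_pow]
    refine pow_le_pow_left₀ (by positivity) ?_ p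
    nlinarith [L.le_opNorm x, norm_nonneg L, norm_nonneg x]
  refine (h n le_rfl t ht (L x)).trans ?_
  rw [mul_assoc]
  exact mul_le_mul_of_nonneg_left hpow hC

omit [DecidableEq ι] in
/-- Restrictions of functions of temperate growth in both variables. -/
theorem of_temperate {F : ℝ × Sp ι → G} (hF : Function.HasTemperateGrowth F) :
    Tame I fun t x => F (t, x) := by
  refine ⟨hF.1.contDiffOn, fun n J hJ _ => ?_⟩
  obtain ⟨k, C, hC⟩ := hF.2 n
  obtain ⟨R, hR⟩ := hJ.isBounded.exists_norm_le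
  have hC0 : 0 ≤ C := by simpa using (norm_nonneg _).trans (hC 0)
  refine ⟨C * (1 + max R 0) ^ k, k, fun t ht x => (hC (t, x)).trans ?_⟩
  rw [mul_assoc, ← mul_pow]
  refine mul_le_mul_of_nonneg_left (pow_le_pow_left₀ (by positivity) ?_ k) hC0
  rw [Prod.norm_def]
  have h1 : ‖t‖ ≤ max R 0 := (hR t ht).trans (le_max_left _ _)
  nlinarith [max_le_add_of_nonneg (norm_nonneg t) (norm_nonneg x), norm_nonneg x, le_max_right R 0]

omit [DecidableEq ι] in
/-- Linear functions of the space variable. -/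
theorem linear (L : Sp ι →L[ℝ] G) : Tame I fun (_ : ℝ) (x : Sp ι) => L x :=
  of_temperate (L.comp (ContinuousLinearMap.snd ℝ ℝ (Sp ι))).hasTemperateGrowth

omit [DecidableEq ι] in
/-- Smooth functions of time alone. -/
theorem time {φ : ℝ → G} (hI : IsOpen I) (hφ : ContDiffOn ℝ ∞ φ I) :
    Tame I fun t (_ : Sp ι) => φ t := by
  refine ⟨hφ.comp contDiff_fst.contDiffOn fun q hq => hq.1, fun n J hJ hJI => ?_⟩
  set T := ContinuousLinearMap.fst ℝ ℝ (Sp ι) with hT
  have hU' : IsOpen (T ⁻¹' I) := hI.preimage T.continuous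
  have hc : ContinuousOn (fun t => iteratedFDeriv ℝ n φ t) J :=
    ((hφ.continuousOn_iteratedFDerivWithin (mod_cast le_top) hI.uniqueDiffOn).congr
      fun t ht => (iteratedFDerivWithin_of_isOpen n hI ht).symm).mono hJI
  obtain ⟨C, hC⟩ := hJ.exists_bound_of_continuousOn hc
  refine ⟨C * ‖T‖ ^ n, 0, fun t ht x => ?_⟩
  have key := T.iteratedFDerivWithin_comp_right hφ hI.uniqueDiffOn hU'.uniqueDiffOn
    (x := (t, x)) (hJI ht) (i := n) (mod_cast le_top)
  rw [iteratedFDerivWithin_of_isOpen n hI (show T (t, x) ∈ I from hJI ht),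
    iteratedFDerivWithin_of_isOpen n hU' (show (t, x) ∈ T ⁻¹' I from hJI ht)] at key
  rw [show (fun q : ℝ × Sp ι => φ q.1) = φ ∘ T from rfl, key, pow_zero, mul_one]
  refine (ContinuousMultilinearMap.norm_compContinuousLinearMap_le _ _).trans ?_
  rw [Finset.prod_const, Finset.card_univ, Fintype.card_fin]
  exact mul_le_mul_of_nonneg_right (hC t ht) (pow_nonneg (norm_nonneg T) _)

omit [DecidableEq ι] in
/-- Gaussian decay of all derivatives of `exp (-P)`. -/
theorem exp_neg_bound {P : ℝ → Sp ι → ℝ} (hP : Tame I P) (hI : IsOpen I) {J : Set ℝ}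
    (hJ : IsCompact J) (hJI : J ⊆ I) {c C₀ : ℝ}
    (hc : ∀ t ∈ J, ∀ x, c * ‖x‖ ^ 2 - C₀ ≤ P t x) (n : ℕ) :
    ∃ (C : ℝ) (p : ℕ), 0 ≤ C ∧ ∀ i ≤ n, ∀ t ∈ J, ∀ x : Sp ι,
      ‖iteratedFDeriv ℝ i (fun q : ℝ × Sp ι => Real.exp (-P q.1 q.2)) (t, x)‖
        ≤ C * (1 + ‖x‖) ^ p * Real.exp (-c * ‖x‖ ^ 2) := by
  obtain ⟨A, k, hA, h⟩ := (hP.neg hI).bound_upTo n hJ hJI
  refine ⟨(n.factorial : ℝ) * Real.exp C₀ * (max A 1) ^ n, k * n, by positivity,
    fun i hi t ht x => ?_⟩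
  have hU : IsOpen (I ×ˢ (univ : Set (Sp ι))) := hI.prod isOpen_univ
  have hx : (t, x) ∈ I ×ˢ (univ : Set (Sp ι)) := ⟨hJI ht, mem_univ _⟩
  set D := max A 1 * (1 + ‖x‖) ^ k with hD
  have hD1 : 1 ≤ D := one_le_mul_of_one_le_of_one_le (le_max_right _ _)
    (one_le_pow₀ (le_add_of_nonneg_right (norm_nonneg x)))
  have key := norm_iteratedFDerivWithin_comp_le (g := Real.exp)
    (f := fun q : ℝ × Sp ι => -P q.1 q.2) (N := ∞) (n := i) (C := Real.exp (-P t x)) (D := D)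
    Real.contDiff_exp.contDiffOn (hP.neg hI).1 (mod_cast le_top) uniqueDiffOn_univ hU.uniqueDiffOn
    (fun q _ => mem_univ _) hx
    (fun j _ => by
      rw [iteratedFDerivWithin_univ, norm_iteratedFDeriv_eq_norm_iteratedDeriv,
        iteratedDeriv_eq_iterate, Real.iter_deriv_exp, Real.norm_eq_abs,
        abs_of_pos (Real.exp_pos _)])
    (fun j hj hji => by
      rw [iteratedFDerivWithin_of_isOpen j hU hx]
      exact ((h j (hji.trans hi) t ht x).trans
        (mul_le_mul_of_nonneg_right (le_max_left _ _) (by positivity))).trans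
          (le_self_pow₀ hD1 (by omega)))
  rw [iteratedFDerivWithin_of_isOpen i hU hx] at key
  refine key.trans ?_
  calc (i.factorial : ℝ) * Real.exp (-P t x) * D ^ i
      ≤ (n.factorial : ℝ) * Real.exp (C₀ + -c * ‖x‖ ^ 2) * D ^ n := by
        gcongr
        linarith [hc t ht x]
    _ = _ := by rw [Real.exp_add, hD, mul_pow, ← pow_mul]; ring

omit [DecidableEq ι] in
theorem exp_neg {P : ℝ → Sp ι → ℝ} (hP : Tame I P) (hI : IsOpen I)
    (hc : ∀ J, IsCompact J → J ⊆ I → ∃ C₀ : ℝ, ∀ t ∈ J, ∀ x, -C₀ ≤ P t x) :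
    Tame I fun t x => Real.exp (-P t x) := by
  refine ⟨Real.contDiff_exp.comp_contDiffOn hP.1.neg, fun n J hJ hJI => ?_⟩
  obtain ⟨C₀, h₀⟩ := hc J hJ hJI
  obtain ⟨C, p, -, h⟩ := hP.exp_neg_bound hI hJ hJI (c := 0) (C₀ := C₀)
    (fun t ht x => by simpa using h₀ t ht x) n
  exact ⟨C, p, fun t ht x => by simpa using h n le_rfl t ht x⟩

end Tame

namespace Flow

/-- Bounded Lipschitz approximations of a `C¹` field of linear growth. -/
lemma exists_approx {E : Type*} [NormedAddCommGroup E] [NormedSpace ℝ E] [FiniteDimensional ℝ E]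
    {a₀ a₁ C : ℝ} {b : ℝ → E → E} (hI : IsOpen I) (hsub : Icc a₀ a₁ ⊆ I)
    (hb : ContDiffOn ℝ 1 (fun q : ℝ × E => b q.1 q.2) (I ×ˢ univ)) (hC : 0 ≤ C)
    (hg : ∀ t ∈ Icc a₀ a₁, ∀ x, ‖b t x‖ ≤ C * (1 + ‖x‖)) :
    ∃ v, Approx a₀ a₁ b C v := by
  let χ : ℕ → ContDiffBump (0 : E) := fun n =>
    ⟨(n : ℝ) + 1, (n : ℝ) + 2, by positivity, by linarith⟩
  refine ⟨fun n t x => χ n x • b t x, hC, hg, fun n t ht x => ?_, fun n => ?_,
    fun n t _ x hx => ?_⟩
  · rw [norm_smul, Real.norm_eq_abs, abs_of_nonneg (χ n).nonneg]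
    exact (mul_le_of_le_one_left (norm_nonneg _) (χ n).le_one).trans (hg t ht x)
  · set W := fun q : ℝ × E => χ n q.2 • b q.1 q.2 with hW
    have hU : IsOpen (I ×ˢ (univ : Set E)) := hI.prod isOpen_univ
    have hW1 : ContDiffOn ℝ 1 W (I ×ˢ univ) :=
      ((χ n).contDiff.comp contDiff_snd).contDiffOn.smul hb
    have hs : Icc a₀ a₁ ×ˢ (univ : Set E) ⊆ I ×ˢ univ := prod_mono_left hsub
    have hK : IsCompact (Icc a₀ a₁ ×ˢ tsupport (χ n : E → ℝ)) :=
      isCompact_Icc.prod (χ n).hasCompactSupport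
    have hs' : Icc a₀ a₁ ×ˢ tsupport (χ n : E → ℝ) ⊆ I ×ˢ univ :=
      prod_mono hsub (subset_univ _)
    obtain ⟨B, hB⟩ := hK.exists_bound_of_continuousOn (hW1.continuousOn.mono hs')
    obtain ⟨M, hM⟩ := hK.exists_bound_of_continuousOn
      ((hW1.continuousOn_fderiv_of_isOpen hU le_rfl).mono hs')
    have hev : ∀ t x, x ∉ tsupport (χ n : E → ℝ) → W =ᶠ[𝓝 (t, x)] fun _ => (0 : E) :=
      fun t x hx => by
      filter_upwards [(continuous_snd.tendsto (t, x)).eventually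
        (notMem_tsupport_iff_eventuallyEq.1 hx)] with q hq
      simp [hW, hq]
    refine ⟨max B 0, max M 0, fun t ht x => ?_, fun s hs₁ t ht₁ x y => ?_⟩
    · by_cases hx : x ∈ tsupport (χ n : E → ℝ)
      · exact (hB (t, x) ⟨ht, hx⟩).trans (le_max_left _ _)
      · rw [show χ n x • b t x = 0 from (hev t x hx).eq_of_nhds, norm_zero]
        exact le_max_right _ _
    · have hbd : ∀ q ∈ Icc a₀ a₁ ×ˢ (univ : Set E), ‖fderiv ℝ W q‖ ≤ max M 0 := by
        rintro ⟨r, z⟩ ⟨hr, -⟩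
        by_cases hz : z ∈ tsupport (χ n : E → ℝ)
        · exact (hM (r, z) ⟨hr, hz⟩).trans (le_max_left _ _)
        · rw [(hev r z hz).fderiv_eq]
          simp
      refine (((convex_Icc a₀ a₁).prod convex_univ).norm_image_sub_le_of_norm_fderiv_le (𝕜 := ℝ)
        (fun q hq => (hW1.differentiableOn (by simp)).differentiableAt (hU.mem_nhds (hs hq))) hbd
        (mk_mem_prod ht₁ (mem_univ y)) (mk_mem_prod hs₁ (mem_univ x))).trans ?_
      refine mul_le_mul_of_nonneg_left ?_ (le_max_right _ _)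
      rw [Prod.norm_def]
      simp only [Prod.fst_sub, Prod.snd_sub, Real.norm_eq_abs]
      exact max_le (le_add_of_nonneg_right (norm_nonneg _)) (le_add_of_nonneg_left (abs_nonneg _))
  · rw [(χ n).one_of_mem_closedBall (mem_closedBall_zero_iff.2 ?_), one_smul]
    show ‖x‖ ≤ (n : ℝ) + 1
    linarith

/-- A tilted measure is the normalisation of an unnormalised density. -/
lemma tilted_eq_normalize {α : Type*} [MeasurableSpace α] {μ : Measure α} [NeZero μ] {f : α → ℝ}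
    (hf : Integrable (fun x => Real.exp (f x)) μ) :
    μ.tilted f = ((μ.withDensity fun x => ENNReal.ofReal (Real.exp (f x))) univ)⁻¹
      • μ.withDensity fun x => ENNReal.ofReal (Real.exp (f x)) := by
  rw [withDensity_apply _ MeasurableSet.univ, setLIntegral_univ,
    ← ofReal_integral_eq_lintegral_ofReal hf (ae_of_all _ fun x => (Real.exp_pos _).le),
    ← ENNReal.ofReal_inv_of_pos (integral_exp_pos hf), ← withDensity_smul' _ _ ENNReal.ofReal_ne_top,
    Measure.tilted]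
  congr 1
  funext x
  rw [Pi.smul_apply, smul_eq_mul, ← ENNReal.ofReal_mul (inv_nonneg.2 (integral_exp_pos hf).le),
    div_eq_inv_mul]

omit [DecidableEq ι] in
lemma integrable_exp_of_coercive {P : Sp ι → ℝ} (hP : Continuous P) {c C₀ : ℝ} (hc : 0 < c)
    (h : ∀ x, c * ‖x‖ ^ 2 - C₀ ≤ P x) : Integrable fun x => Real.exp (-P x) := by
  refine ((integrable_poly_gauss (ι := ι) hc 0).const_mul (Real.exp C₀)).mono'
    (Real.continuous_exp.comp hP.neg).aestronglyMeasurable (ae_of_all _ fun x => ?_)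
  rw [Real.norm_eq_abs, abs_of_pos (Real.exp_pos _), pow_zero, one_mul, ← Real.exp_add,
    Real.exp_le_exp]
  linarith [h x]

/-- Flows preserving the Gibbs measures of a moving potential `P`, when
`∂ₜP + b · ∇P = div b`. -/
theorem potential_flow {a₀ a₁ : ℝ} {P : ℝ → Sp ι → ℝ} {b : ℝ → Sp ι → Sp ι} {C : ℝ}
    (hI : IsOpen I) (hsub : Icc a₀ a₁ ⊆ I) (hle : a₀ ≤ a₁) (hP : Tame I P) (hb : Tame I b)
    (hg : ∀ t ∈ Icc a₀ a₁, ∀ x, ‖b t x‖ ≤ C * (1 + ‖x‖))
    (hcoer : ∀ J, IsCompact J → J ⊆ I →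
      ∃ c C₀ : ℝ, 0 < c ∧ ∀ t ∈ J, ∀ x, c * ‖x‖ ^ 2 - C₀ ≤ P t x)
    (hce : ∀ t ∈ Icc a₀ a₁, ∀ x, fderiv ℝ (fun q : ℝ × Sp ι => P q.1 q.2) (t, x) (1, b t x)
      = ∑ i, fderiv ℝ (fun y => b t y i) x (EuclideanSpace.single i 1))
    {t₀ : ℝ} (ht₀ : t₀ ∈ Icc a₀ a₁) :
    ∃ Φ : ℝ → Sp ι → Sp ι,
      ContinuousOn (fun q : ℝ × Sp ι => Φ q.1 q.2) (Icc a₀ a₁ ×ˢ univ) ∧ (∀ x, Φ t₀ x = x) ∧
      (∀ x, IsSol a₀ a₁ b fun s => Φ s x) ∧
      ∀ t ∈ Icc a₀ a₁,
        (volume.tilted fun x => -P t₀ x).map (Φ t) = volume.tilted fun x => -P t x := by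
  obtain ⟨c, C₀, hc, hlow⟩ := hcoer _ isCompact_Icc hsub
  have hm : Tame I fun t x => Real.exp (-P t x) := hP.exp_neg hI fun J hJ hJI => by
    obtain ⟨c', C', hc', h'⟩ := hcoer J hJ hJI
    exact ⟨C', fun t ht x => by nlinarith [h' t ht x, sq_nonneg ‖x‖]⟩
  obtain ⟨Cg, p, -, hdec⟩ := hP.exp_neg_bound hI isCompact_Icc hsub hlow 2
  have hcont : ∀ t ∈ Icc a₀ a₁, ∀ x, deriv (fun s => Real.exp (-P s x)) t
      + ∑ i, fderiv ℝ (fun y => Real.exp (-P t y) * b t y i) x (EuclideanSpace.single i 1) = 0 := by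
    intro t ht x
    have hj := hP.differentiableAt hI (hsub ht) x
    have h1 : HasDerivAt (fun s => P s x)
        (fderiv ℝ (fun q : ℝ × Sp ι => P q.1 q.2) (t, x) (1, 0)) t := by
      exact HasFDerivAt.comp_hasDerivAt (f := fun s : ℝ => (s, x)) t hj.hasFDerivAt
        ((hasDerivAt_id t).prodMk (hasDerivAt_const t x))
    have hPd := hP.differentiableAt_space (hsub ht) x
    have hbd : ∀ i, DifferentiableAt ℝ (fun y => b t y i) x := fun i =>
      (hb.component hI i).differentiableAt_space (hsub ht) x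
    have hterm : ∀ i, fderiv ℝ (fun y => Real.exp (-P t y) * b t y i) x (EuclideanSpace.single i 1)
        = Real.exp (-P t x) * (fderiv ℝ (fun y => b t y i) x (EuclideanSpace.single i 1)
          - b t x i * fderiv ℝ (P t) x (EuclideanSpace.single i 1)) := fun i => by
      have he : HasFDerivAt (fun y => Real.exp (-P t y))
          (Real.exp (-P t x) • -fderiv ℝ (P t) x) x := hPd.hasFDerivAt.neg.exp
      rw [(he.fun_mul (hbd i).hasFDerivAt).fderiv]
      simp only [add_apply, smul_apply, neg_apply, smul_eq_mul]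
      ring
    have hlin : ∑ i, b t x i * fderiv ℝ (P t) x (EuclideanSpace.single i 1)
        = fderiv ℝ (P t) x (b t x) := by
      conv_rhs => rw [← (EuclideanSpace.basisFun ι ℝ).sum_repr (b t x)]
      simp only [map_sum, map_smul, smul_eq_mul, EuclideanSpace.basisFun_repr,
        EuclideanSpace.basisFun_apply]
    have hd : HasDerivAt (fun s => Real.exp (-P s x))
        (Real.exp (-P t x) * -fderiv ℝ (fun q : ℝ × Sp ι => P q.1 q.2) (t, x) (1, 0)) t :=
      h1.neg.exp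
    have hk := hce t ht x
    rw [show ((1 : ℝ), b t x) = (1, 0) + (0, b t x) by simp, map_add,
      ← hP.fderiv_space hI (hsub ht)] at hk
    rw [hd.deriv, Finset.sum_congr rfl fun i _ => hterm i, ← Finset.mul_sum,
      Finset.sum_sub_distrib, hlin, ← hk]
    ring
  obtain ⟨Φ, hΦc, hΦ0, hΦd, hΦm⟩ := flow_invariance ι I a₀ a₁ b (fun t x => Real.exp (-P t x))
    hI hsub hle hb hm ⟨C, hg⟩ (fun t _ x => (Real.exp_pos _).le) ⟨c, Cg, p, hc, hdec⟩ hcont t₀ ht₀
  refine ⟨Φ, hΦc, hΦ0, hΦd, fun t ht => ?_⟩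
  have hint : ∀ s ∈ Icc a₀ a₁, Integrable fun x => Real.exp (-P s x) := fun s hs =>
    integrable_exp_of_coercive (hP.contDiff_space (hsub hs)).continuous hc (hlow s hs)
  have hmeas : Measurable (Φ t) :=
    (hΦc.comp_continuous (continuous_const.prodMk continuous_id)
      fun x => ⟨ht, mem_univ _⟩).measurable
  rw [tilted_eq_normalize (hint t₀ ht₀), tilted_eq_normalize (hint t ht), Measure.map_smul]
  congr 1
  · rw [← hΦm t ht, Measure.map_apply hmeas MeasurableSet.univ, preimage_univ]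
  · exact hΦm t ht

end Flow

end Vale.Agent.P347
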