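import Vale.Agent.P347.Basic
import Vale.Agent.P347.CalcDefs

/-!
Target statements of the analytic modules of P347, as propositions (no proofs here).
-/

namespace Vale.Agent.P347

open MeasureTheory ProbabilityTheory
open scoped Gradient RealInnerProductSpace ContDiff

/-- Dimension-free variance bound for strongly log-concave measures. -/
def PoincareStatement : Prop :=
  ∃ Cp : ℝ, 0 < Cp ∧ ∀ (d : ℕ) (W : Euc d → ℝ) (c M : ℝ), NicePot d W c M →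
    IsProbabilityMeasure (gibbs W) ∧
    (∀ p : ℕ, Integrable (fun x => ‖x‖ ^ p) (gibbs W)) ∧
    ∀ (f : Euc d → ℝ) (L : ℝ), ContDiff ℝ 1 f → (∀ x, ‖fderiv ℝ f x‖ ≤ L) →
      ∫ x, f x ^ 2 ∂(gibbs W) - (∫ x, f x ∂(gibbs W)) ^ 2 ≤ Cp * L ^ 2 / c

/-- Bounds on all derivatives of the smoothed potential, over all index splittings. -/
def TensorBoundStatement : Prop :=
  ∀ n : ℕ, 2 ≤ n → ∃ C : ℝ, ∀ (d : ℕ) (V : Euc d → ℝ) (l L t : ℝ),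
    NicePot d V l L → 0 < t → 100 * (L * t) ≤ 1 → ∀ y : Euc d,
      AllSplit (C * L / √t ^ (n - 2)) (derivTen (smoothPot V t) n y)

/-- Two-sided bounds on the Hessian of the smoothed potential. -/
def HessianBoundStatement : Prop :=
  ∃ c₀ : ℝ, 0 < c₀ ∧ ∀ (d : ℕ) (V : Euc d → ℝ) (l L t : ℝ), NicePot d V l L → L ≤ 4 * l →
    0 < t → L * t ≤ c₀ → ∀ y v : Euc d,
      l / 2 * ‖v‖ ^ 2 ≤ fderiv ℝ (fderiv ℝ (smoothPot V t)) y v v ∧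
        fderiv ℝ (fderiv ℝ (smoothPot V t)) y v v ≤ L * ‖v‖ ^ 2

/-- Flows of a vector field satisfying the continuity equation transport the densities. -/
def FlowStatement : Prop :=
  ∀ (ι : Type) [Fintype ι] [DecidableEq ι] (I : Set ℝ) (a₀ a₁ : ℝ) (b : ℝ → Sp ι → Sp ι)
    (m : ℝ → Sp ι → ℝ), IsOpen I → Set.Icc a₀ a₁ ⊆ I → a₀ ≤ a₁ → Tame I b → Tame I m →
    (∃ C : ℝ, ∀ t ∈ Set.Icc a₀ a₁, ∀ x, ‖b t x‖ ≤ C * (1 + ‖x‖)) →
    (∀ t ∈ Set.Icc a₀ a₁, ∀ x, 0 ≤ m t x) →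
    (∃ (c C : ℝ) (p : ℕ), 0 < c ∧ ∀ n ≤ 2, ∀ t ∈ Set.Icc a₀ a₁, ∀ x : Sp ι,
      ‖iteratedFDeriv ℝ n (fun q : ℝ × Sp ι => m q.1 q.2) (t, x)‖
        ≤ C * (1 + ‖x‖) ^ p * Real.exp (-c * ‖x‖ ^ 2)) →
    (∀ t ∈ Set.Icc a₀ a₁, ∀ x, deriv (fun s => m s x) t
      + ∑ i, fderiv ℝ (fun y => m t y * b t y i) x (EuclideanSpace.single i 1) = 0) →
    ∀ t₀ ∈ Set.Icc a₀ a₁, ∃ Φ : ℝ → Sp ι → Sp ι,
      ContinuousOn (fun q : ℝ × Sp ι => Φ q.1 q.2) (Set.Icc a₀ a₁ ×ˢ Set.univ) ∧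
      (∀ x, Φ t₀ x = x) ∧
      (∀ x, ∀ t ∈ Set.Icc a₀ a₁,
        HasDerivWithinAt (fun s => Φ s x) (b t (Φ t x)) (Set.Icc a₀ a₁) t) ∧
      ∀ t ∈ Set.Icc a₀ a₁,
        (volume.withDensity fun x => ENNReal.ofReal (m t₀ x)).map (Φ t)
          = volume.withDensity fun x => ENNReal.ofReal (m t x)

/-- Closure of `Family.Reg` under the operations of the calculus, uniformly in the dimension. -/
def CalcStatement : Prop :=
  ∀ (C : ℕ → ℝ) (j n : ℕ), ∃ (n' N : ℕ) (C' : ℝ),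
    ∀ (ι : Type) [Fintype ι] [DecidableEq ι] (F : Family ι) (J : Set ℝ), F.Controlled J C →
    ∀ (M : ℝ), 0 ≤ M →
      (∀ (k : ℕ) (f : ℝ → Sp ι → Ten ι k), F.Reg J j n' M f →
        F.Reg J j n (C' * M) (fun t => nabla (f t))) ∧
      (∀ (k : ℕ) (f : ℝ → Sp ι → Ten ι (k + 1)), F.Reg J j n' M f →
        F.Reg J j n (C' * M) (F.delta f)) ∧
      (∀ (a b c m : ℕ) (e : Fin a ⊕ Fin b ≃ Fin m) (K : ℝ → Sp ι → Ten ι m) (C₀ : ℝ),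
        0 < a → 0 < b → 0 ≤ C₀ → F.Good J C₀ N K → ∀ f : ℝ → Sp ι → Ten ι (b + c),
          F.Reg J j n' M f →
            F.Reg J j n (C' * C₀ * M) (fun t x => contractTen e (K t x) (f t x)))

end Vale.Agent.P347
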