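import Vale.Agent.P347.PoincareChain
import Vale.Agent.P347.Specs

/-!
The variance inequality for strongly log-concave measures.
-/

namespace Vale.Agent.P347.Poincare

open MeasureTheory ProbabilityTheory Filter
open scoped RealInnerProductSpace ContDiff Topology

variable {d : ℕ} {W : Euc d → ℝ} {c M C3 : ℝ} {f : Euc d → ℝ} {B L K : ℝ}

/-- The iterates of the chain applied to `f`. -/
noncomputable def chain (W : Euc d → ℝ) (η a : ℝ) (f : Euc d → ℝ) : ℕ → Euc d → ℝ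
  | 0 => f
  | k + 1 => fun x => avg a (chain W η a f k) (gstep W η x)

lemma rho_mem (h : PotData d W c M C3) {η : ℝ} (hη : 0 ≤ η) (hηM : η * M ≤ 1) :
    0 ≤ 1 - c * η ∧ 1 - c * η ≤ 1 := by
  have := mul_le_mul_of_nonneg_left h.le hη
  have := mul_nonneg h.pos.le hη
  constructor <;> linarith

lemma chain_cbd (h : PotData d W c M C3) (hf : CBd f B L K) (hK : 0 ≤ K) {η a : ℝ}
    (hη : 0 ≤ η) (hηM : η * M ≤ 1) (k : ℕ) :
    CBd (chain W η a f k) B (L * (1 - c * η) ^ k) (K + k * (L * (η * C3))) := by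
  obtain ⟨hρ0, hρ1⟩ := rho_mem h hη hηM
  have hL := hf.grad_nonneg
  have hC := h.C3_nonneg
  induction k with
  | zero => simpa [chain] using hf
  | succ k ih =>
    have hKk : 0 ≤ K + k * (L * (η * C3)) := by positivity
    refine ((cbd_avg ih a).comp hKk (h.gstep_diff η) (h.gstep_fderiv_bound hη hηM)
      (h.gstep_fderiv_lip hη)).mono le_rfl (le_of_eq (by ring)) ?_
    have h1 : (1 - c * η) ^ 2 ≤ 1 := pow_le_one₀ hρ0 hρ1
    have h2 : (1 - c * η) ^ k ≤ 1 := pow_le_one₀ hρ0 hρ1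
    push_cast
    calc (K + k * (L * (η * C3))) * (1 - c * η) ^ 2 + L * (1 - c * η) ^ k * (η * C3)
        ≤ (K + k * (L * (η * C3))) * 1 + L * 1 * (η * C3) := by gcongr
      _ = _ := by ring

lemma variance_cbd_step (h : PotData d W c M C3) (hf : CBd f B L K) (hK : 0 ≤ K) {η a : ℝ}
    (ha : 0 ≤ a) (ha1 : a ≤ 1) (hη : 2 * η = a ^ 2) :
    (∫ x, f x ^ 2 ∂(gibbs W)) - ∫ x, avg a f (gstep W η x) ^ 2 ∂(gibbs W)
      ≤ 2 * (a * L) ^ 2 + 2 * (L ^ 2 + B * K) * a ^ 3 * defectConst W := by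
  have := h.isProb
  have hB := hf.bdd_nonneg
  have h2 := h.defect hf.sq (by positivity) ha ha1 hη
  have hc1 := (cbd_avg hf.sq a).continuous.comp (h.gstep_diff η).continuous
  have hc2 := (cbd_avg hf a).continuous.comp (h.gstep_diff η).continuous
  have hi1 : Integrable (fun x => avg a (fun z => f z ^ 2) (gstep W η x)) (gibbs W) :=
    h.integrable_gibbs_bdd hc1 fun x => (cbd_avg hf.sq a).bdd _
  have hi2 : Integrable (fun x => avg a f (gstep W η x) ^ 2) (gibbs W) :=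
    h.integrable_gibbs_bdd (hc2.pow 2) (B := B ^ 2) fun x => by
      rw [abs_pow]; exact pow_le_pow_left₀ (abs_nonneg _) ((cbd_avg hf a).bdd _) 2
  have h3 : (∫ x, avg a (fun z => f z ^ 2) (gstep W η x) ∂(gibbs W))
      - ∫ x, avg a f (gstep W η x) ^ 2 ∂(gibbs W) ≤ 2 * (a * L) ^ 2 := by
    rw [← integral_sub hi1 hi2]
    refine (integral_mono (hi1.sub hi2) (integrable_const _) fun x => avg_variance_le hf a _).trans ?_
    simp
  have := (abs_le.mp h2).1
  linarith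

lemma variance_bound (h : PotData d W c M C3) (hf : CBd f B L K) (hK : 0 ≤ K) {η a : ℝ}
    (ha0 : 0 < a) (ha1 : a ≤ 1) (hη : 2 * η = a ^ 2) (hηM : η * M ≤ 1) (n : ℕ) :
    (∫ x, f x ^ 2 ∂(gibbs W)) - (∫ x, f x ∂(gibbs W)) ^ 2
      ≤ 4 * L ^ 2 / c
        + n * (2 * (L ^ 2 + 2 * B * (K + n * (L * (η * C3)))) * a ^ 3 * defectConst W)
        + L ^ 2 * (1 - c * η) ^ (2 * n) * ∫ x, ‖x‖ ^ 2 ∂(gibbs W) := by
  have := h.isProb
  have hη0 : 0 < η := by nlinarith
  obtain ⟨hρ0, hρ1⟩ := rho_mem h hη0.le hηM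
  set ρ := 1 - c * η with hρ
  set μ := gibbs W
  set g := chain W η a f with hg
  set Kn := K + n * (L * (η * C3)) with hKn
  set G := defectConst W
  have hG : 0 ≤ G := defectConst_nonneg W
  have hL := hf.grad_nonneg
  have hB := hf.bdd_nonneg
  have hC := h.C3_nonneg
  have hKn0 : 0 ≤ Kn := by positivity
  have hgk : ∀ k ≤ n, CBd (g k) B (L * ρ ^ k) Kn := fun k hk =>
    (chain_cbd h hf hK hη0.le hηM k).mono le_rfl le_rfl (by rw [hKn]; gcongr)
  have hstep : ∀ k < n, (∫ x, g k x ^ 2 ∂μ) - ∫ x, g (k + 1) x ^ 2 ∂μ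
      ≤ 2 * a ^ 2 * L ^ 2 * (ρ ^ 2) ^ k + 2 * (L ^ 2 + B * Kn) * a ^ 3 * G := fun k hk => by
    refine (variance_cbd_step h (hgk k hk.le) hKn0 ha0.le ha1 hη).trans ?_
    have h1 : (L * ρ ^ k) ^ 2 ≤ L ^ 2 :=
      pow_le_pow_left₀ (by positivity) (mul_le_of_le_one_right hL (pow_le_one₀ hρ0 hρ1)) 2
    have e : 2 * (a * (L * ρ ^ k)) ^ 2 = 2 * a ^ 2 * L ^ 2 * (ρ ^ 2) ^ k := by
      rw [← pow_mul, mul_comm 2 k, pow_mul]; ring
    rw [e]
    gcongr
  have hmean : ∀ k < n, |(∫ x, g (k + 1) x ∂μ) - ∫ x, g k x ∂μ| ≤ Kn * a ^ 3 * G := fun k hk =>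
    h.defect (hgk k hk.le) hKn0 ha0.le ha1 hη
  have hv : (∫ x, g 0 x ^ 2 ∂μ) - ∫ x, g n x ^ 2 ∂μ
      ≤ ∑ k ∈ Finset.range n, (2 * a ^ 2 * L ^ 2 * (ρ ^ 2) ^ k + 2 * (L ^ 2 + B * Kn) * a ^ 3 * G) := by
    rw [← Finset.sum_range_sub' (fun k => ∫ x, g k x ^ 2 ∂μ) n]
    exact Finset.sum_le_sum fun k hk => hstep k (Finset.mem_range.mp hk)
  have hm : |(∫ x, g n x ∂μ) - ∫ x, g 0 x ∂μ| ≤ n * (Kn * a ^ 3 * G) := by
    rw [← Finset.sum_range_sub (fun k => ∫ x, g k x ∂μ) n]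
    refine (Finset.abs_sum_le_sum_abs _ _).trans ?_
    refine (Finset.sum_le_card_nsmul _ _ _ fun k hk => hmean k (Finset.mem_range.mp hk)).trans ?_
    rw [Finset.card_range, nsmul_eq_mul]
  have hgeo : ∑ k ∈ Finset.range n, 2 * a ^ 2 * L ^ 2 * (ρ ^ 2) ^ k ≤ 4 * L ^ 2 / c := by
    rw [← Finset.mul_sum]
    have hs : (∑ k ∈ Finset.range n, (ρ ^ 2) ^ k) * (c * η) ≤ 1 := by
      have h1 : c * η ≤ 1 - ρ ^ 2 := by
        have := mul_le_mul_of_nonneg_right hρ1 hρ0
        rw [hρ] at this ⊢; linarith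
      calc (∑ k ∈ Finset.range n, (ρ ^ 2) ^ k) * (c * η)
          ≤ (∑ k ∈ Finset.range n, (ρ ^ 2) ^ k) * (1 - ρ ^ 2) :=
            mul_le_mul_of_nonneg_left h1 (Finset.sum_nonneg fun k _ => by positivity)
        _ = 1 - (ρ ^ 2) ^ n := geom_sum_mul_neg _ _
        _ ≤ 1 := sub_le_self _ (by positivity)
    rw [le_div_iff₀ h.pos]
    calc 2 * a ^ 2 * L ^ 2 * (∑ k ∈ Finset.range n, (ρ ^ 2) ^ k) * c
        = 4 * L ^ 2 * ((∑ k ∈ Finset.range n, (ρ ^ 2) ^ k) * (c * η)) := by rw [← hη]; ring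
      _ ≤ 4 * L ^ 2 * 1 := mul_le_mul_of_nonneg_left hs (by positivity)
      _ = _ := mul_one _
  have hn := hgk n le_rfl
  have hend : (∫ x, g n x ^ 2 ∂μ) - (∫ x, g n x ∂μ) ^ 2
      ≤ L ^ 2 * ρ ^ (2 * n) * ∫ x, ‖x‖ ^ 2 ∂μ := by
    have hi1 : Integrable (g n) μ := h.integrable_gibbs_bdd hn.continuous hn.bdd
    have hi2 : Integrable (fun x => g n x ^ 2) μ :=
      h.integrable_gibbs_bdd hn.sq.continuous hn.sq.bdd
    set z := g n 0
    have hi12 : Integrable (fun x => g n x ^ 2 - 2 * z * g n x) μ := hi2.sub (hi1.const_mul _)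
    have hi3 : Integrable (fun x => (g n x - z) ^ 2) μ :=
      (hi12.add (integrable_const (z ^ 2))).congr
        (.of_forall fun x => by simp only [Pi.add_apply]; ring)
    have e : ∫ x, (g n x - z) ^ 2 ∂μ = (∫ x, g n x ^ 2 ∂μ) - 2 * z * (∫ x, g n x ∂μ) + z ^ 2 := by
      simp only [sub_sq]
      have e2 : ∀ x, g n x ^ 2 - 2 * g n x * z + z ^ 2 = g n x ^ 2 - 2 * z * g n x + z ^ 2 :=
        fun x => by ring
      simp only [e2]
      rw [integral_add hi12 (integrable_const _), integral_sub hi2 (hi1.const_mul _),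
        integral_const_mul, integral_const]
      simp
    have h1 : ∫ x, (g n x - z) ^ 2 ∂μ ≤ L ^ 2 * ρ ^ (2 * n) * ∫ x, ‖x‖ ^ 2 ∂μ := by
      rw [← integral_const_mul]
      refine integral_mono hi3 ((h.integrable_moment 2).const_mul _) fun x => ?_
      have := hn.lip x 0
      rw [sub_zero] at this
      rw [← sq_abs]
      refine (pow_le_pow_left₀ (abs_nonneg _) this 2).trans (le_of_eq ?_)
      rw [mul_pow, mul_pow, ← pow_mul, mul_comm n 2]
    nlinarith [sq_nonneg ((∫ x, g n x ∂μ) - z)]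
  have hm2 : (∫ x, g n x ∂μ) ^ 2 - (∫ x, g 0 x ∂μ) ^ 2 ≤ 2 * B * (n * (Kn * a ^ 3 * G)) := by
    have hb : ∀ k ≤ n, |∫ x, g k x ∂μ| ≤ B := fun k hk => by
      have := norm_integral_le_of_norm_le_const (μ := μ) (f := g k) (C := B)
        (.of_forall fun x => by rw [Real.norm_eq_abs]; exact (hgk k hk).bdd x)
      simpa [Real.norm_eq_abs] using this
    have h1 := hb n le_rfl
    have h2 := hb 0 (Nat.zero_le n)
    calc (∫ x, g n x ∂μ) ^ 2 - (∫ x, g 0 x ∂μ) ^ 2
        ≤ |((∫ x, g n x ∂μ) + ∫ x, g 0 x ∂μ) * ((∫ x, g n x ∂μ) - ∫ x, g 0 x ∂μ)| := by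
          refine le_trans (le_of_eq ?_) (le_abs_self _); ring
      _ ≤ _ := by
          rw [abs_mul]
          exact mul_le_mul ((abs_add_le _ _).trans (by linarith)) hm (abs_nonneg _) (by positivity)
  rw [Finset.sum_add_distrib, Finset.sum_const, Finset.card_range, nsmul_eq_mul] at hv
  have he : g 0 = f := rfl
  rw [he] at hv hm2
  have hextra : (n : ℝ) * (2 * (L ^ 2 + B * Kn) * a ^ 3 * G) + 2 * B * (n * (Kn * a ^ 3 * G))
      = n * (2 * (L ^ 2 + 2 * B * Kn) * a ^ 3 * G) := by ring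
  linarith

lemma variance_cbd (h : PotData d W c M C3) (hf : CBd f B L K) (hK : 0 ≤ K) :
    (∫ x, f x ^ 2 ∂(gibbs W)) - (∫ x, f x ∂(gibbs W)) ^ 2 ≤ 4 * L ^ 2 / c := by
  have := h.isProb
  set G := defectConst W
  have hG : 0 ≤ G := defectConst_nonneg W
  have hL := hf.grad_nonneg
  have hB := hf.bdd_nonneg
  have hC := h.C3_nonneg
  set T := 6 * (L ^ 2 + 2 * B * K + 2 * B * L * C3) * G with hT
  set m2 := ∫ x, ‖x‖ ^ 2 ∂(gibbs W)
  have hlim : Tendsto (fun N : ℕ => 4 * L ^ 2 / c + T * (N : ℝ)⁻¹ + L ^ 2 * m2 * (Real.exp (-c)) ^ N)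
      atTop (𝓝 (4 * L ^ 2 / c)) := by
    have h1 := (tendsto_inv_atTop_nhds_zero_nat (𝕜 := ℝ)).const_mul T
    have h2 := (tendsto_pow_atTop_nhds_zero_of_lt_one (Real.exp_pos (-c)).le
      (Real.exp_lt_one_iff.mpr (by linarith [h.pos]))).const_mul (L ^ 2 * m2)
    simpa using (h1.const_add (4 * L ^ 2 / c)).add h2
  refine ge_of_tendsto hlim ?_
  filter_upwards [eventually_ge_atTop (max 2 ⌈M⌉₊)] with N hN
  have hN2 : (2 : ℝ) ≤ N := by exact_mod_cast (le_max_left _ _).trans hN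
  have hNM : M ≤ N := (Nat.le_ceil M).trans (Nat.cast_le.mpr ((le_max_right _ _).trans hN))
  set e : ℝ := (N : ℝ)⁻¹ with he
  have he0 : 0 < e := inv_pos.mpr (by linarith)
  have he2 : e ≤ 1 / 2 := by rw [he, one_div]; exact inv_anti₀ two_pos hN2
  have hNe : (N : ℝ) * e = 1 := mul_inv_cancel₀ (by linarith)
  set a := Real.sqrt 2 * e ^ 3
  set η := e ^ 6 with hη
  have hs2 : Real.sqrt 2 ^ 2 = 2 := Real.sq_sqrt two_pos.le
  have hs : Real.sqrt 2 ≤ 3 / 2 := by rw [Real.sqrt_le_iff]; norm_num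
  have ha1 : a ≤ 1 := by
    calc a ≤ 3 / 2 * (1 / 2) ^ 3 :=
          mul_le_mul hs (pow_le_pow_left₀ he0.le he2 3) (by positivity) (by norm_num)
      _ ≤ 1 := by norm_num
  have hηa : 2 * η = a ^ 2 := by simp only [a, mul_pow, hs2, hη]; ring
  have hηM : η * M ≤ 1 := by
    calc η * M ≤ e * N := mul_le_mul (pow_le_of_le_one he0.le (by linarith) (by norm_num)) hNM h.M_nonneg he0.le
      _ = 1 := by rw [mul_comm, hNe]
  refine (variance_bound h hf hK (by positivity) ha1 hηa hηM (N ^ 7)).trans ?_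
  push_cast
  have hnη : (N : ℝ) ^ 7 * η = N := by
    calc (N : ℝ) ^ 7 * η = ((N : ℝ) * e) ^ 6 * (N : ℝ) := by rw [hη]; ring
      _ = (N : ℝ) := by rw [hNe, one_pow, one_mul]
  have hna : (N : ℝ) ^ 7 * a ^ 3 ≤ 3 * (e ^ 2) := by
    have e1 : (N : ℝ) ^ 7 * a ^ 3 = ((N : ℝ) * e) ^ 7 * (Real.sqrt 2 ^ 2 * Real.sqrt 2) * e ^ 2 := by
      simp only [a]; ring
    rw [e1, hNe, one_pow, one_mul, hs2]
    exact mul_le_mul_of_nonneg_right (by linarith) (sq_nonneg e)
  refine add_le_add (add_le_add le_rfl ?_) ?_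
  · calc (N : ℝ) ^ 7 * (2 * (L ^ 2 + 2 * B * (K + (N : ℝ) ^ 7 * (L * (η * C3)))) * a ^ 3 * G)
        = ((N : ℝ) ^ 7 * a ^ 3) * (2 * (L ^ 2 + 2 * B * (K + ((N : ℝ) ^ 7 * η) * (L * C3))) * G) := by ring
      _ ≤ (3 * e ^ 2) * (2 * (L ^ 2 + 2 * B * (K + (N : ℝ) * (L * C3))) * G) := by
          rw [hnη]; exact mul_le_mul_of_nonneg_right hna (by positivity)
      _ = 6 * ((L ^ 2 + 2 * B * K) * (e * e) + 2 * B * L * C3 * ((N : ℝ) * e) * e) * G := by ring
      _ ≤ 6 * ((L ^ 2 + 2 * B * K) * e + 2 * B * L * C3 * ((N : ℝ) * e) * e) * G := by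
          gcongr
          exact mul_le_of_le_one_left he0.le (by linarith)
      _ = T * e := by rw [hNe, hT]; ring
  · rw [mul_assoc (L ^ 2), mul_assoc (L ^ 2), mul_comm m2]
    refine mul_le_mul_of_nonneg_left (mul_le_mul_of_nonneg_right ?_
      (integral_nonneg fun x => by positivity)) (sq_nonneg L)
    obtain ⟨hρ0, -⟩ := rho_mem h (show 0 ≤ η by positivity) hηM
    calc (1 - c * η) ^ (2 * N ^ 7) ≤ Real.exp (-(c * η)) ^ (2 * N ^ 7) :=
          pow_le_pow_left₀ hρ0 (Real.one_sub_le_exp_neg _) _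
      _ ≤ Real.exp (-c) ^ N := by
          rw [← Real.exp_nat_mul, ← Real.exp_nat_mul]
          refine Real.exp_le_exp.mpr ?_
          push_cast
          have : (N : ℝ) ^ 7 * η * c = N * c := by rw [hnη]
          nlinarith [h.pos]

/-- Bounded smooth truncations. -/
noncomputable def trunc (R : ℝ) (s : ℝ) : ℝ := R * Real.sin (s / R)

lemma hasDerivAt_trunc {R : ℝ} (hR : R ≠ 0) (s : ℝ) : HasDerivAt (trunc R) (Real.cos (s / R)) s := by
  refine (((hasDerivAt_id s).div_const R).sin.const_mul R).congr_deriv ?_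
  simp; field_simp

lemma abs_trunc_le_self {R : ℝ} (hR : 0 < R) (s : ℝ) : |trunc R s| ≤ |s| := by
  rw [trunc, abs_mul, abs_of_pos hR]
  calc R * |Real.sin (s / R)| ≤ R * |s / R| :=
        mul_le_mul_of_nonneg_left Real.abs_sin_le_abs hR.le
    _ = |s| := by rw [abs_div, abs_of_pos hR]; field_simp

lemma tendsto_trunc (s : ℝ) : Tendsto (fun j : ℕ => trunc ((j : ℝ) + 1) s) atTop (𝓝 s) := by
  have h0 : Tendsto (fun j : ℕ => s / ((j : ℝ) + 1)) atTop (𝓝 0) :=
    tendsto_const_nhds.div_atTop (tendsto_atTop_add_const_right _ _ tendsto_natCast_atTop_atTop)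
  have h1 : Tendsto (fun j : ℕ => s * Real.sinc (s / ((j : ℝ) + 1))) atTop (𝓝 s) := by
    have := ((Real.continuous_sinc.tendsto 0).comp h0).const_mul s
    simpa using this
  refine h1.congr fun j => ?_
  rcases eq_or_ne s 0 with rfl | hs
  · simp [trunc]
  · rw [trunc, Real.sinc_of_ne_zero (by positivity)]
    field_simp

lemma variance_lip (h : PotData d W c M C3) {f : Euc d → ℝ} (hf : ContDiff ℝ 1 f) {L : ℝ}
    (hL : ∀ x, ‖fderiv ℝ f x‖ ≤ L) :
    (∫ x, f x ^ 2 ∂(gibbs W)) - (∫ x, f x ∂(gibbs W)) ^ 2 ≤ 4 * L ^ 2 / c := by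
  have := h.isProb
  have hL0 : 0 ≤ L := (norm_nonneg _).trans (hL 0)
  have hd : Differentiable ℝ f := hf.differentiable (by norm_num)
  set R : ℕ → ℝ := fun j => (j : ℝ) + 1
  have hR : ∀ j, 0 < R j := fun j => by positivity
  set fT : ℕ → Euc d → ℝ := fun j x => trunc (R j) (f x)
  set e : ℕ → ℝ := fun j => ((j : ℝ) + 1)⁻¹
  have he : ∀ j, 0 < e j := fun j => by positivity
  set F : ℕ → Euc d → ℝ := fun j => avg (e j) (fT j)
  have hTd : ∀ j x, HasFDerivAt (fT j) (Real.cos (f x / R j) • fderiv ℝ f x) x := fun j x =>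
    (hasDerivAt_trunc (hR j).ne' (f x)).comp_hasFDerivAt x (hd x).hasFDerivAt
  have hTd1 : ∀ j, Differentiable ℝ (fT j) := fun j x => (hTd j x).differentiableAt
  have hTc : ∀ j, Continuous (fderiv ℝ (fT j)) := fun j => by
    rw [show fderiv ℝ (fT j) = fun x => Real.cos (f x / R j) • fderiv ℝ f x from
      funext fun x => (hTd j x).fderiv]
    exact (Real.continuous_cos.comp (hd.continuous.div_const _)).smul
      (hf.continuous_fderiv (by norm_num))
  have hTb : ∀ j x, |fT j x| ≤ R j := fun j x => by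
    simp only [fT, trunc, abs_mul, abs_of_pos (hR j)]
    exact mul_le_of_le_one_right (hR j).le (Real.abs_sin_le_one _)
  have hTL : ∀ j x, ‖fderiv ℝ (fT j) x‖ ≤ L := fun j x => by
    rw [(hTd j x).fderiv, norm_smul, Real.norm_eq_abs]
    exact (mul_le_of_le_one_left (norm_nonneg _) (Real.abs_cos_le_one _)).trans (hL x)
  have hF : ∀ j, CBd (F j) (R j) L (L * gmom d 1 / e j) := fun j =>
    cbd_avg_of_lip (hTd1 j) (hTc j) (hTb j) (hTL j) (he j)
  have hclose : ∀ j x, |F j x - fT j x| ≤ L * e j * gmom d 1 := fun j x => by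
    have hi : Integrable (fun ξ => fT j (x + e j • ξ)) (gauss d) :=
      (integrable_const (R j)).mono'
        ((hTd1 j).continuous.comp (by fun_prop)).aestronglyMeasurable
        (.of_forall fun ξ => by rw [Real.norm_eq_abs]; exact hTb j _)
    have eq : F j x - fT j x = ∫ ξ, (fT j (x + e j • ξ) - fT j x) ∂(gauss d) := by
      rw [integral_sub hi (integrable_const _), integral_const]; simp [F, avg]
    rw [eq, ← Real.norm_eq_abs]
    refine (norm_integral_le_of_norm_le ((gauss_integrable_norm_pow 1).const_mul (L * e j))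
      (.of_forall fun ξ => ?_)).trans (le_of_eq ?_)
    · have := Convex.norm_image_sub_le_of_norm_fderiv_le (𝕜 := ℝ) (fun z _ => hTd1 j z)
        (fun z _ => hTL j z) convex_univ (Set.mem_univ x) (Set.mem_univ (x + e j • ξ))
      simp only [add_sub_cancel_left, norm_smul, Real.norm_eq_abs, abs_of_pos (he j)] at this
      exact this.trans (le_of_eq (by rw [pow_one]; ring))
    · rw [integral_const_mul, gmom]
  set D := |f 0| + L * gmom d 1
  have hbound : ∀ j x, |F j x| ≤ D + L * ‖x‖ := fun j x => by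
    have h1 := hclose j x
    have h2 := abs_trunc_le_self (hR j) (f x)
    have h3 := lipschitz_growth hd hL x
    have h4 : L * e j * gmom d 1 ≤ L * gmom d 1 := by
      refine mul_le_mul_of_nonneg_right (mul_le_of_le_one_right hL0 ?_) (gmom_nonneg d 1)
      exact inv_le_one_of_one_le₀ (by linarith [Nat.cast_nonneg (α := ℝ) j])
    have := abs_sub_abs_le_abs_sub (F j x) (fT j x)
    simp only [fT, D] at *
    linarith
  have hlimpt : ∀ x, Tendsto (fun j => F j x) atTop (𝓝 (f x)) := fun x => by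
    have h1 : Tendsto (fun j => L * e j * gmom d 1) atTop (𝓝 0) := by
      have := ((tendsto_one_div_add_atTop_nhds_zero_nat).const_mul L).mul_const (gmom d 1)
      simpa [e, one_div] using this
    have h2 : Tendsto (fun j => F j x - fT j x) atTop (𝓝 0) :=
      squeeze_zero_norm (fun j => by rw [Real.norm_eq_abs]; exact hclose j x) h1
    simpa [fT, R] using h2.add (tendsto_trunc (f x))
  have hi1 : Integrable (fun x => D + L * ‖x‖) (gibbs W) :=
    (integrable_const D).add (by simpa using (h.integrable_moment 1).const_mul L)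
  have hi2 : Integrable (fun x => (D + L * ‖x‖) ^ 2) (gibbs W) := by
    refine h.integrable_of_growth (by fun_prop) (C := 2 * (D ^ 2 + L ^ 2)) (p := 2) fun x => ?_
    rw [abs_of_nonneg (sq_nonneg _)]
    nlinarith [sq_nonneg (D - L * ‖x‖), sq_nonneg D, mul_nonneg (sq_nonneg D) (sq_nonneg ‖x‖), sq_nonneg L]
  have hm := tendsto_integral_of_dominated_convergence (fun x => D + L * ‖x‖)
    (fun j => (hF j).continuous.aestronglyMeasurable) hi1
    (fun j => .of_forall fun x => by rw [Real.norm_eq_abs]; exact hbound j x) (.of_forall hlimpt)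
  have hv := tendsto_integral_of_dominated_convergence (fun x => (D + L * ‖x‖) ^ 2)
    (fun j => ((hF j).continuous.pow 2).aestronglyMeasurable) hi2
    (fun j => .of_forall fun x => by
      rw [Real.norm_eq_abs, Pi.pow_apply, abs_pow]; exact pow_le_pow_left₀ (abs_nonneg _) (hbound j x) 2)
    (.of_forall fun x => (hlimpt x).pow 2)
  refine le_of_tendsto (hv.sub (hm.pow 2)) (.of_forall fun j => ?_)
  exact variance_cbd h (hF j)
    (div_nonneg (mul_nonneg hL0 (gmom_nonneg d 1)) (he j).le)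

end Vale.Agent.P347.Poincare

namespace Vale.Agent.P347

/-- The dimension-free variance inequality for strongly log-concave measures. -/
theorem poincare : PoincareStatement :=
  ⟨4, by norm_num, fun _ W _ _ hW => by
    obtain ⟨C3, h⟩ := Poincare.exists_potData hW
    exact ⟨h.isProb, h.integrable_moment, fun f L hf hL => Poincare.variance_lip h hf hL⟩⟩

end Vale.Agent.P347
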