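import Vale.Agent.P347.PostGibbs
import Vale.Agent.P347.Specs

/-!
Derivatives of posterior means as covariances, and the Hessian of the smoothed potential.
-/

namespace Vale.Agent.P347

open MeasureTheory ProbabilityTheory Filter Set
open scoped Gradient RealInnerProductSpace ContDiff Topology

variable {d : ℕ} {F G : Type*} [NormedAddCommGroup F] [NormedSpace ℝ F]
  [NormedAddCommGroup G] [NormedSpace ℝ G] {U : Euc d → ℝ}

lemma postMean_sub (hU : Weight U) {φ ψ : Euc d → F} (hφ : Function.HasTemperateGrowth φ)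
    (hψ : Function.HasTemperateGrowth ψ) (t : ℝ) (y : Euc d) :
    postMean U t (fun z => φ z - ψ z) y = postMean U t φ y - postMean U t ψ y := by
  rw [postMean, postMean, postMean, ← smul_sub]
  congr 1
  simp only [heat, smul_sub]
  exact integral_sub ((hU.bddSmooth_smul hφ).heat_integrable t y)
    ((hU.bddSmooth_smul hψ).heat_integrable t y)

lemma postMean_neg (t : ℝ) (φ : Euc d → F) (y : Euc d) :
    postMean U t (fun z => -φ z) y = -postMean U t φ y := by
  simp [postMean, heat, integral_neg]

lemma postMean_smul_const [CompleteSpace F] (t : ℝ) (φ : Euc d → ℝ) (c : F) (y : Euc d) :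
    postMean U t (fun z => φ z • c) y = postMean U t φ y • c := by
  simp only [postMean, heat, smul_smul, smul_eq_mul]
  rw [integral_smul_const, smul_smul]

variable [CompleteSpace F] [CompleteSpace G]

lemma postMean_clm (hU : Weight U) {φ : Euc d → F} (hφ : Function.HasTemperateGrowth φ)
    (T : F →L[ℝ] G) (t : ℝ) (y : Euc d) :
    T (postMean U t φ y) = postMean U t (fun z => T (φ z)) y := by
  rw [postMean, postMean, map_smul, ← heat_clm (hU.bddSmooth_smul hφ) T]
  congr 1
  refine integral_congr_ae (.of_forall fun η => ?_)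
  simp

omit [CompleteSpace F] [CompleteSpace G] in
lemma temperate_inner (u : Euc d) : Function.HasTemperateGrowth fun z : Euc d => ⟪u, z⟫ :=
  (innerSL ℝ u).hasTemperateGrowth

omit [CompleteSpace G] in
/-- Gaussian integration by parts inside the heat semigroup. -/
lemma heat_fderiv_apply {f : Euc d → F} (hf : BddSmooth f) {t : ℝ} (ht : 0 < t) (y u : Euc d)
    (hi : Integrable (fun η => ⟪u, y + √t • η⟫ • f (y + √t • η)) (gauss d)) :
    heat t (fderiv ℝ f) y u
      = t⁻¹ • (heat t (fun z => ⟪u, z⟫ • f z) y - ⟪u, y⟫ • heat t f y) := by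
  have hs : 0 < √t := Real.sqrt_pos.2 ht
  have hcomp : BddSmooth fun η : Euc d => f (y + √t • η) := by
    refine ⟨hf.smooth.comp (by fun_prop), fun n => ?_⟩
    obtain ⟨C, hC⟩ := hf.bdd n
    refine ⟨C * ∏ _i : Fin n, ‖(√t • ContinuousLinearMap.id ℝ (Euc d))‖, fun x => ?_⟩
    have e := (√t • ContinuousLinearMap.id ℝ (Euc d)).iteratedFDeriv_comp_right
      (f := fun z => f (y + z)) (hf.smooth.comp (by fun_prop)) x (i := n) (by exact_mod_cast le_top)
    have e' : ((fun z => f (y + z)) ∘ ⇑(√t • ContinuousLinearMap.id ℝ (Euc d)))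
        = fun η : Euc d => f (y + √t • η) := by
      funext η; simp
    rw [e'] at e
    rw [e]
    refine (ContinuousMultilinearMap.norm_compContinuousLinearMap_le _ _).trans ?_
    gcongr
    rw [iteratedFDeriv_comp_add_left' (f := f) n y]
    exact hC _
  have hd : ∀ η, fderiv ℝ (fun η : Euc d => f (y + √t • η)) η u
      = √t • fderiv ℝ f (y + √t • η) u := fun η => by
    have h1 : HasFDerivAt (fun η : Euc d => y + √t • η) (√t • ContinuousLinearMap.id ℝ (Euc d)) η :=
      ((hasFDerivAt_id η).const_smul (√t)).const_add y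
    have h2 := ((hf.differentiable (y + √t • η)).hasFDerivAt.comp η h1).fderiv
    simp only [Function.comp_def] at h2
    rw [h2]; simp
  have key := gauss_ibp_vec hcomp u
  simp only [hd, integral_smul] at key
  have lhs : heat t (fderiv ℝ f) y u = ∫ η, fderiv ℝ f (y + √t • η) u ∂(gauss d) :=
    ((ContinuousLinearMap.apply ℝ F u).integral_comp_comm (hf.fderiv.heat_integrable t y)).symm
  have hi2 : Integrable (fun η => ⟪u, y⟫ • f (y + √t • η)) (gauss d) :=
    (hf.heat_integrable t y).smul ⟪u, y⟫
  have rhs : heat t (fun z => ⟪u, z⟫ • f z) y - ⟪u, y⟫ • heat t f y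
      = √t • ∫ η, ⟪u, η⟫ • f (y + √t • η) ∂(gauss d) := by
    simp only [heat]
    rw [← integral_smul, ← integral_sub hi hi2, ← integral_smul]
    refine integral_congr_ae (.of_forall fun η => ?_)
    simp [inner_add_right, inner_smul_right, add_smul, mul_smul]
  rw [lhs, rhs, key, smul_smul, smul_smul, mul_assoc, Real.mul_self_sqrt ht.le,
    inv_mul_cancel₀ ht.ne',
    one_smul]

omit [CompleteSpace G] in
lemma hasFDerivAt_postMean_space (hU : Weight U) {φ : Euc d → F}
    (hφ : Function.HasTemperateGrowth φ) {t : ℝ} (ht : 0 < t) (y : Euc d) :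
    HasFDerivAt (postMean U t φ)
      (postMean U t (wgrad U φ) y
        - (postMean U t (wgrad U fun _ => (1 : ℝ)) y).smulRight (postMean U t φ y)) y := by
  refine ((hasFDerivAt_postMean hU hφ ht y).comp y
    (hasFDerivAt_prodMk_right (𝕜 := ℝ) t y)).congr_fderiv ?_
  ext u
  simp [dpost, coprodL]

omit [CompleteSpace G] in
/-- The derivative of a posterior mean, with the derivative of the test function. -/
lemma fderiv_postMean_eq (hU : Weight U) {φ : Euc d → F} (hφ : Function.HasTemperateGrowth φ)
    {t : ℝ} (ht : 0 < t) (y u : Euc d) :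
    fderiv ℝ (postMean U t φ) y u = postMean U t (fun z => fderiv ℝ φ z u) y
      - (postMean U t (fun z => fderiv ℝ U z u • φ z) y
          - postMean U t (fun z => fderiv ℝ U z u) y • postMean U t φ y) := by
  have h1 := Function.HasTemperateGrowth.const (E := Euc d) (1 : ℝ)
  rw [(hasFDerivAt_postMean_space hU hφ ht y).fderiv, sub_apply,
    ContinuousLinearMap.smulRight_apply]
  have hUu := temperate_clm (temperate_fderiv hU.temperate) (ContinuousLinearMap.apply ℝ ℝ u)
  have hφu := temperate_clm (temperate_fderiv hφ) (ContinuousLinearMap.apply ℝ F u)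
  have e1 : postMean U t (wgrad U φ) y u = postMean U t (fun z => fderiv ℝ φ z u) y
      - postMean U t (fun z => fderiv ℝ U z u • φ z) y := by
    refine (postMean_clm hU (wgrad_temperate hU hφ) (ContinuousLinearMap.apply ℝ F u) t y).trans ?_
    simpa [wgrad, Pi.smul_def'] using postMean_sub hU hφu (hUu.smul hφ) t y
  have e2 : postMean U t (wgrad U fun _ => (1 : ℝ)) y u
      = -postMean U t (fun z => fderiv ℝ U z u) y := by
    refine (postMean_clm hU (wgrad_temperate hU h1) (ContinuousLinearMap.apply ℝ ℝ u) t y).trans ?_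
    simpa [wgrad] using postMean_neg t (fun z => fderiv ℝ U z u) y
  rw [e1, e2, neg_smul]
  abel

omit [CompleteSpace G] in
lemma postMean_wgrad_apply (hU : Weight U) {ψ : Euc d → F} (hψ : Function.HasTemperateGrowth ψ)
    {t : ℝ} (ht : 0 < t) (y u : Euc d) :
    postMean U t (wgrad U ψ) y u
      = t⁻¹ • (postMean U t (fun z => ⟪u, z⟫ • ψ z) y - ⟪u, y⟫ • postMean U t ψ y) := by
  have e : (fun z => ⟪u, z⟫ • (Real.exp (-U z) • ψ z))
      = fun z => Real.exp (-U z) • (⟪u, z⟫ • ψ z) := funext fun z => smul_comm _ _ _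
  have h := heat_fderiv_apply (hU.bddSmooth_smul hψ) ht y u
    (by
      refine ((hU.bddSmooth_smul ((temperate_inner u).smul hψ)).heat_integrable t y).congr
        (.of_forall fun η => smul_comm _ _ _))
  rw [fderiv_weighted hU (hψ.1.differentiable (by simp)), e] at h
  simp only [postMean, smul_apply]
  rw [h, smul_comm _ t⁻¹, smul_sub, smul_comm ((smoothDensity U t y)⁻¹) ⟪u, y⟫]

omit [CompleteSpace G] in
/-- The derivative of a posterior mean is a covariance with the position, divided by the time. -/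
lemma fderiv_postMean_eq_cov (hU : Weight U) {φ : Euc d → F} (hφ : Function.HasTemperateGrowth φ)
    {t : ℝ} (ht : 0 < t) (y u : Euc d) :
    fderiv ℝ (postMean U t φ) y u = t⁻¹ • (postMean U t (fun z => ⟪u, z⟫ • φ z) y
      - postMean U t (fun z => ⟪u, z⟫) y • postMean U t φ y) := by
  have h1 := Function.HasTemperateGrowth.const (E := Euc d) (1 : ℝ)
  rw [(hasFDerivAt_postMean_space hU hφ ht y).fderiv, sub_apply,
    ContinuousLinearMap.smulRight_apply, postMean_wgrad_apply hU hφ ht]
  have e2 := postMean_wgrad_apply hU h1 ht y u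
  have e3 : postMean U t (fun _ => (1 : ℝ)) y = 1 := by
    simp [postMean, smoothDensity, heat, integral_exp_pos (hU.exp_neg_pos_integrable t y) |>.ne']
  simp only [smul_eq_mul, mul_one] at e2
  rw [e2, e3]
  simp only [smul_sub, mul_one, sub_smul, smul_smul, mul_sub]
  abel

omit [CompleteSpace F] [CompleteSpace G] in
/-- Variance bound for the posterior law. -/
lemma post_variance_le {Cp : ℝ} (hCp : 0 ≤ Cp)
    (hP : ∀ (d : ℕ) (W : Euc d → ℝ) (c M : ℝ), NicePot d W c M →
      IsProbabilityMeasure (gibbs W) ∧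
      (∀ p : ℕ, Integrable (fun x => ‖x‖ ^ p) (gibbs W)) ∧
      ∀ (f : Euc d → ℝ) (L : ℝ), ContDiff ℝ 1 f → (∀ x, ‖fderiv ℝ f x‖ ≤ L) →
        ∫ x, f x ^ 2 ∂(gibbs W) - (∫ x, f x ∂(gibbs W)) ^ 2 ≤ Cp * L ^ 2 / c)
    {V : Euc d → ℝ} {l L : ℝ} (hV : NicePot d V l L) {t : ℝ} (ht : 0 < t) {f : Euc d → ℝ} {K : ℝ}
    (hf : ContDiff ℝ 1 f) (hK : ∀ x, ‖fderiv ℝ f x‖ ≤ K) (y : Euc d) :
    0 ≤ postMean V t (fun z => f z ^ 2) y - postMean V t f y ^ 2 ∧
      postMean V t (fun z => f z ^ 2) y - postMean V t f y ^ 2 ≤ Cp * K ^ 2 * t := by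
  obtain ⟨hprob, hmom, hvar⟩ := hP d _ _ _ (hV.postPot ht y)
  rw [postMean_eq_gibbs V _ ht, postMean_eq_gibbs V _ ht]
  set μ := gibbs (postPot V t y)
  constructor
  · have hdf : Differentiable ℝ f := hf.differentiable (by simp)
    have hc := hf.continuous
    have hK0 : 0 ≤ K := (norm_nonneg _).trans (hK 0)
    have hi1 : Integrable f μ := by
      refine Integrable.mono' ((integrable_const |f 0|).add (((hmom 1)).const_mul K))
        hc.aestronglyMeasurable (.of_forall fun x => ?_)
      simpa using lipschitz_growth hdf hK x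
    have hi2 : Integrable (fun x => f x ^ 2) μ := by
      refine Integrable.mono' ((integrable_const (2 * f 0 ^ 2)).add ((hmom 2).const_mul (2 * K ^ 2)))
        (by fun_prop) (.of_forall fun x => ?_)
      have h := lipschitz_growth hdf hK x
      simp only [Pi.add_apply, Real.norm_eq_abs, abs_of_nonneg (sq_nonneg (f x))]
      nlinarith [sq_abs (f x), abs_nonneg (f x), sq_abs (f 0), sq_nonneg (|f 0| - K * ‖x‖)]
    set m := ∫ x, f x ∂μ
    have h := integral_nonneg (μ := μ) (f := fun x => (f x - m) ^ 2) fun x => sq_nonneg _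
    have e : (fun x => (f x - m) ^ 2) = fun x => f x ^ 2 - (2 * m * f x - m ^ 2) := by
      funext x; ring
    have hi3 : Integrable (fun x => 2 * m * f x - m ^ 2) μ :=
      (hi1.const_mul _).sub (integrable_const _)
    rw [e, integral_sub hi2 hi3, integral_sub (hi1.const_mul _) (integrable_const _),
      integral_const_mul, integral_const] at h
    simp only [probReal_univ, one_smul] at h
    linarith
  · refine (hvar f K hf hK).trans ?_
    rw [div_eq_mul_inv]
    refine mul_le_mul_of_nonneg_left ?_ (by positivity)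
    rw [inv_le_comm₀ (by have := hV.pos; positivity) ht]
    simp only [one_div]
    linarith [hV.pos]

omit [CompleteSpace F] [CompleteSpace G] in
/-- The Hessian of the smoothed potential. -/
lemma hessian_smoothPot (hU : Weight U) {t : ℝ} (ht : 0 < t) (y v : Euc d) :
    fderiv ℝ (fderiv ℝ (smoothPot U t)) y v v
      = postMean U t (fun z => fderiv ℝ (fderiv ℝ U) z v v) y
        - (postMean U t (fun z => fderiv ℝ U z v ^ 2) y
          - postMean U t (fun z => fderiv ℝ U z v) y ^ 2) := by
  have hg := temperate_fderiv hU.temperate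
  have hgv := temperate_clm hg (ContinuousLinearMap.apply ℝ ℝ v)
  have e : (fun x => fderiv ℝ (smoothPot U t) x v) = postMean U t fun z => fderiv ℝ U z v := by
    funext x
    rw [fderiv_smoothPot hU t x]
    exact postMean_clm hU hg (ContinuousLinearMap.apply ℝ ℝ v) t x
  have hd : DifferentiableAt ℝ (fderiv ℝ (smoothPot U t)) y := by
    have := (hU.smoothPot ht.le).temperate.1
    exact (this.fderiv_right (m := ∞) le_rfl).differentiable (by simp) y
  have e1 : fderiv ℝ (fderiv ℝ (smoothPot U t)) y v v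
      = fderiv ℝ (fun x => fderiv ℝ (smoothPot U t) x v) y v := by
    rw [fderiv_clm_apply hd (differentiableAt_const v)]
    simp
  rw [e1, e, fderiv_postMean_eq hU (by simpa using hgv) ht y v]
  have e2 : ∀ z, fderiv ℝ (fun x => fderiv ℝ U x v) z v = fderiv ℝ (fderiv ℝ U) z v v := fun z => by
    rw [fderiv_clm_apply ((hg.1.differentiable (by simp)) z) (differentiableAt_const v)]
    simp
  simp only [e2, smul_eq_mul, pow_two]

omit [CompleteSpace F] [CompleteSpace G] in
/-- Two-sided bounds on the Hessian of the smoothed potential. -/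
theorem hessianBound (h : PoincareStatement) : HessianBoundStatement := by
  obtain ⟨Cp, hCp, hP⟩ := h
  refine ⟨1 / (8 * Cp), by positivity, fun d V l L t hV hL ht hLt y v => ?_⟩
  rcases eq_or_ne v 0 with rfl | hv
  · simp
  have hW := hV.weight
  rw [hessian_smoothPot hW ht]
  set f : Euc d → ℝ := fun z => fderiv ℝ V z v
  have hfd : ∀ z, fderiv ℝ f z = (fderiv ℝ (fderiv ℝ V) z).flip v := fun z => by
    rw [fderiv_clm_apply (hV.contDiff_fderiv.differentiable (by simp) z) (differentiableAt_const v)]
    ext u; simp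
  have hf : ContDiff ℝ 1 f := (hV.contDiff_fderiv.clm_apply contDiff_const).of_le (by simp)
  have hL0 : 0 ≤ L := hV.pos.le.trans (hV.l_le_L hv)
  have hfK : ∀ z, ‖fderiv ℝ f z‖ ≤ L * ‖v‖ := fun z => by
    rw [hfd]
    refine ContinuousLinearMap.opNorm_le_bound _ (by positivity) fun u => ?_
    rw [Real.norm_eq_abs]
    simpa [mul_comm, mul_left_comm, mul_assoc] using hV.hessian_le z u v
  obtain ⟨hvar0, hvar1⟩ := post_variance_le hCp.le hP hV ht hf hfK y
  obtain ⟨hprob, hmom, -⟩ := hP d _ _ _ (hV.postPot ht y)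
  have hi : Integrable (fun z => fderiv ℝ (fderiv ℝ V) z v v) (gibbs (postPot V t y)) := by
    refine Integrable.mono' (integrable_const (L * ‖v‖ * ‖v‖)) ?_ (.of_forall fun z => ?_)
    · exact (((hV.contDiff_fderiv.fderiv_right (m := ∞) le_rfl).clm_apply contDiff_const).clm_apply
        contDiff_const).continuous.aestronglyMeasurable
    · rw [Real.norm_eq_abs]; exact hV.hessian_le z v v
  have hlo : l * ‖v‖ ^ 2 ≤ postMean V t (fun z => fderiv ℝ (fderiv ℝ V) z v v) y := by
    rw [postMean_eq_gibbs V _ ht]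
    simpa using integral_mono (integrable_const _) hi fun z => hV.hessian_lower z v
  have hhi : postMean V t (fun z => fderiv ℝ (fderiv ℝ V) z v v) y ≤ L * ‖v‖ ^ 2 := by
    rw [postMean_eq_gibbs V _ ht]
    simpa using integral_mono hi (integrable_const _) fun z => hV.hessian_upper z v
  refine ⟨?_, by linarith⟩
  have h2 : Cp * (L * ‖v‖) ^ 2 * t ≤ l / 2 * ‖v‖ ^ 2 := by
    rw [le_div_iff₀ (by positivity)] at hLt
    calc Cp * (L * ‖v‖) ^ 2 * t = L * t * (8 * Cp) * (L / 8) * ‖v‖ ^ 2 := by ring
      _ ≤ 1 * (L / 8) * ‖v‖ ^ 2 := by gcongr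
      _ ≤ l / 2 * ‖v‖ ^ 2 := mul_le_mul_of_nonneg_right (by linarith) (sq_nonneg _)
  linarith

end Vale.Agent.P347
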