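import Vale.Agent.P347.HeatPosterior

/-!
The posterior mean as an integral against a Gibbs measure.
-/

namespace Vale.Agent.P347

open MeasureTheory ProbabilityTheory Filter Set Complex
open scoped Gradient RealInnerProductSpace ContDiff Topology

variable {d : ℕ} {F : Type*} [NormedAddCommGroup F] [NormedSpace ℝ F]

lemma integrable_gauss_density (d : ℕ) :
    Integrable fun x : Euc d => Real.exp (-(‖x‖ ^ 2 / 2)) := by
  have h := (GaussianFourier.integrable_cexp_neg_mul_sq_norm_add (V := Euc d) (b := 1 / 2) (by norm_num) 0 0).re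
  refine h.congr (.of_forall fun x => ?_)
  simp [Complex.exp_re, pow_two]
  ring_nf

/-- The standard Gaussian is the Gibbs measure of `‖x‖²/2`. -/
lemma gauss_eq_gibbs (d : ℕ) : gauss d = gibbs fun x : Euc d => ‖x‖ ^ 2 / 2 := by
  have hint := integrable_gauss_density d
  have hp : IsProbabilityMeasure (gibbs fun x : Euc d => ‖x‖ ^ 2 / 2) :=
    isProbabilityMeasure_tilted hint
  apply Measure.ext_of_charFun
  funext t
  rw [charFun_stdGaussian, charFun_apply, gibbs, integral_tilted]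
  have h0 := GaussianFourier.integral_cexp_neg_mul_sq_norm_add (V := Euc d) (b := 1 / 2) (by norm_num) 0 (0 : Euc d)
  have h1 := GaussianFourier.integral_cexp_neg_mul_sq_norm_add (V := Euc d) (b := 1 / 2) (by norm_num) Complex.I t
  set Z := ∫ x : Euc d, Real.exp (-(‖x‖ ^ 2 / 2)) with hZ
  have hZc : (Z : ℂ) = (Real.pi / (1 / 2 : ℂ)) ^ (Module.finrank ℝ (Euc d) / 2 : ℂ) := by
    rw [hZ, ← integral_complex_ofReal]
    refine Eq.trans (integral_congr_ae (.of_forall fun x => ?_)) (h0.trans ?_)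
    · simp only [Complex.ofReal_exp]
      congr 1
      push_cast
      ring
    · simp
  have hZ0 : (Z : ℂ) ≠ 0 := by exact_mod_cast (integral_exp_pos hint).ne'
  calc cexp (-(‖t‖ : ℂ) ^ 2 / 2)
      = (Z : ℂ)⁻¹ * ∫ x : Euc d, cexp (-(1 / 2) * (‖x‖ : ℂ) ^ 2 + I * ⟪t, x⟫) := by
        rw [h1, ← hZc, ← mul_assoc, inv_mul_cancel₀ hZ0, one_mul]
        congr 1
        rw [Complex.I_sq]
        ring
    _ = _ := by
        rw [← integral_const_mul]
        refine integral_congr_ae (.of_forall fun x => ?_)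
        simp only [Complex.real_smul, Complex.ofReal_div, Complex.ofReal_exp,
          real_inner_comm t x]
        rw [div_eq_mul_inv (cexp _) (Z : ℂ), mul_comm (cexp _) (Z : ℂ)⁻¹, mul_assoc,
          ← Complex.exp_add]
        congr 2
        push_cast
        ring

/-- Gaussian expectations as Lebesgue integrals. -/
lemma gauss_integral_eq (g : Euc d → F) :
    ∫ η, g η ∂(gauss d) = (∫ x : Euc d, Real.exp (-(‖x‖ ^ 2 / 2)))⁻¹ •
      ∫ x : Euc d, Real.exp (-(‖x‖ ^ 2 / 2)) • g x := by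
  rw [gauss_eq_gibbs, gibbs, integral_tilted, ← integral_smul]
  refine integral_congr_ae (.of_forall fun x => ?_)
  simp [smul_smul, div_eq_inv_mul]

/-- The heat semigroup as a convolution. -/
lemma heat_eq_conv (f : Euc d → F) {t : ℝ} (ht : 0 < t) (y : Euc d) :
    heat t f y = ((∫ x : Euc d, Real.exp (-(‖x‖ ^ 2 / 2)))⁻¹ * (√t ^ d)⁻¹) •
      ∫ z : Euc d, Real.exp (-(‖z - y‖ ^ 2 / (2 * t))) • f z := by
  rw [heat, gauss_integral_eq, ← smul_smul]
  congr 1
  have hs : 0 < √t := Real.sqrt_pos.2 ht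
  have h := Measure.integral_comp_smul (volume : Measure (Euc d))
    (fun u => Real.exp (-(‖u‖ ^ 2 / (2 * t))) • f (y + u)) (√t)
  rw [finrank_euclideanSpace_fin, abs_of_pos (by positivity)] at h
  have e : ∫ u : Euc d, Real.exp (-(‖u‖ ^ 2 / (2 * t))) • f (y + u)
      = ∫ z : Euc d, Real.exp (-(‖z - y‖ ^ 2 / (2 * t))) • f z := by
    rw [← integral_add_left_eq_self (fun z => Real.exp (-(‖z - y‖ ^ 2 / (2 * t))) • f z) y]
    simp
  rw [← e, ← h]
  refine integral_congr_ae (.of_forall fun x => ?_)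
  simp only
  congr 2
  rw [norm_smul, Real.norm_eq_abs, abs_of_pos hs, mul_pow, Real.sq_sqrt ht.le]
  field_simp

/-- The inner product as a bilinear map. -/
noncomputable def innerForm (d : ℕ) : Euc d →L[ℝ] Euc d →L[ℝ] ℝ := innerSL ℝ

/-- The potential of the posterior law. -/
noncomputable def postPot (V : Euc d → ℝ) (t : ℝ) (y z : Euc d) : ℝ :=
  V z + ‖z - y‖ ^ 2 / (2 * t)

lemma postMean_eq_gibbs (U : Euc d → ℝ) (φ : Euc d → F) {t : ℝ} (ht : 0 < t) (y : Euc d) :
    postMean U t φ y = ∫ z, φ z ∂(gibbs (postPot U t y)) := by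
  set K := (∫ x : Euc d, Real.exp (-(‖x‖ ^ 2 / 2)))⁻¹ * (√t ^ d)⁻¹ with hK
  have hK0 : K ≠ 0 := by
    have := (integral_exp_pos (integrable_gauss_density d)).ne'
    have : 0 < √t := Real.sqrt_pos.2 ht
    positivity
  have e : ∀ z : Euc d, Real.exp (-(‖z - y‖ ^ 2 / (2 * t))) * Real.exp (-U z)
      = Real.exp (-postPot U t y z) := fun z => by
    rw [← Real.exp_add, postPot]; ring_nf
  rw [gibbs, integral_tilted, postMean, smoothDensity, heat_eq_conv _ ht, heat_eq_conv _ ht, ← hK]
  simp only [smul_smul, smul_eq_mul, e]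
  rw [mul_inv, mul_comm K⁻¹, mul_assoc, inv_mul_cancel₀ hK0, mul_one, ← integral_smul]
  refine integral_congr_ae (.of_forall fun z => ?_)
  simp [smul_smul, div_eq_inv_mul]

/-- Adding a Gaussian tilt to a nice potential. -/
lemma NicePot.postPot {V : Euc d → ℝ} {l L : ℝ} (hV : NicePot d V l L) {t : ℝ} (ht : 0 < t)
    (y : Euc d) : NicePot d (postPot V t y) (l + 1 / t) (L + 1 / t) := by
  set Q : Euc d → ℝ := fun z => ‖z - y‖ ^ 2 / (2 * t) with hQ
  have hQs : ContDiff ℝ ∞ Q := (((contDiff_id.sub contDiff_const).norm_sq ℝ)).div_const _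
  have hQ1 : ∀ z, HasFDerivAt Q ((1 / t : ℝ) • innerSL ℝ (z - y)) z := fun z => by
    have h := (((hasFDerivAt_id z).sub_const y).norm_sq).mul_const ((2 * t)⁻¹)
    refine (h.congr_of_eventuallyEq (.of_forall fun w => ?_)).congr_fderiv ?_
    · simp [hQ, div_eq_mul_inv]
    · ext v; simp; field_simp
  have hQd : fderiv ℝ Q = fun z => (1 / t : ℝ) • innerSL ℝ (z - y) := funext fun z => (hQ1 z).fderiv
  have hQ2 : fderiv ℝ (fderiv ℝ Q) = fun _ => (1 / t : ℝ) • innerSL ℝ := by
    funext z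
    rw [hQd]
    exact (((innerSL ℝ).hasFDerivAt.comp z ((hasFDerivAt_id z).sub_const y)).const_smul
      (1 / t : ℝ)).fderiv.trans (by ext u v; simp)
  have hsum : fderiv ℝ (Vale.Agent.P347.postPot V t y) = fun z => fderiv ℝ V z + fderiv ℝ Q z := by
    funext z
    exact fderiv_add (hV.smooth.differentiable (by simp) z) (hQ1 z).differentiableAt
  have hsum2 : ∀ z, fderiv ℝ (fderiv ℝ (Vale.Agent.P347.postPot V t y)) z
      = fderiv ℝ (fderiv ℝ V) z + (1 / t : ℝ) • innerForm d := fun z => by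
    rw [hsum]
    refine (fderiv_fun_add (hV.contDiff_fderiv.differentiable (by simp) z)
      ((hQs.fderiv_right (m := ∞) le_rfl).differentiable (by simp) z)).trans ?_
    rw [hQ2]
    rfl
  refine ⟨by have := hV.pos; positivity, hV.smooth.add hQs, fun x v => ?_, fun x v => ?_,
    fun n hn => ?_⟩
  · rw [hsum2]
    simp [innerForm]
    rw [add_mul]
    exact add_le_add (hV.hessian_lower x v) (le_of_eq (by rw [innerSL_apply_apply, real_inner_self_eq_norm_sq]))
  · rw [hsum2]
    simp [innerForm]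
    rw [add_mul]
    exact add_le_add (hV.hessian_upper x v) (le_of_eq (by rw [innerSL_apply_apply, real_inner_self_eq_norm_sq]))
  · obtain ⟨C, hC⟩ := hV.higher n hn
    refine ⟨C, fun x => ?_⟩
    have hQn : iteratedFDeriv ℝ n Q x = 0 := by
      obtain ⟨m, rfl⟩ : ∃ m, n = m + 3 := ⟨n - 3, by omega⟩
      rw [← norm_eq_zero, ← norm_iteratedFDeriv_fderiv, ← norm_iteratedFDeriv_fderiv, hQ2,
        iteratedFDeriv_const_of_ne (Nat.succ_ne_zero m)]
      simp
    rw [show Vale.Agent.P347.postPot V t y = V + Q from rfl,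
      iteratedFDeriv_add_apply (hV.smooth.of_le (by exact_mod_cast le_top)).contDiffAt
        (hQs.of_le (by exact_mod_cast le_top)).contDiffAt, hQn, add_zero]
    exact hC x

end Vale.Agent.P347
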