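import Vale.Agent.P347.Interfaces
import Vale.Agent.P347.PostGibbs
import Vale.Agent.P347.PostCov
import Vale.Agent.P347.Poincare

/-!
Gibbs laws of weights: integration by parts, second moments, and the Gaussian path identity.
-/

namespace Vale.Agent.P347

open MeasureTheory ProbabilityTheory Filter Set
open scoped Gradient RealInnerProductSpace ContDiff Topology ENNReal

variable {d : ℕ} {F : Type*} [NormedAddCommGroup F] [NormedSpace ℝ F] {U : Euc d → ℝ}

/-! ### Integrability under a weight -/

lemma Weight.integrable_exp_mul (hU : Weight U) (p : ℕ) :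
    Integrable fun x => Real.exp (-U x) * (1 + ‖x‖) ^ p := by
  obtain ⟨c, C, hc, h⟩ := hU.coercive
  have hU' : Weight fun x => U x - c / 2 * ‖x‖ ^ 2 :=
    ⟨hU.temperate.sub ((Function.HasTemperateGrowth.const (c / 2)).mul
      (Function.hasTemperateGrowth_norm_sq _)), c / 2, C, by positivity,
      fun x => by linarith [h x]⟩
  obtain ⟨M, hM⟩ := hU'.exp_mul_pow_le p
  have hg : Integrable (fun x : Euc d => Real.exp (-(c / 2) * ‖x‖ ^ 2)) := by
    have := GaussianFourier.integrable_cexp_neg_mul_sq_norm_add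
      (V := Euc d) (b := ((c / 2 : ℝ) : ℂ)) (by simpa using hc) 0 0
    refine this.norm.congr (.of_forall fun x => ?_)
    simp [Complex.norm_exp, ← Complex.ofReal_pow, Complex.mul_re]
  have hUc := hU.continuous
  refine (hg.const_mul M).mono' (by fun_prop) (.of_forall fun x => ?_)
  rw [Real.norm_eq_abs, abs_of_nonneg (by positivity)]
  calc Real.exp (-U x) * (1 + ‖x‖) ^ p
      = Real.exp (-(U x - c / 2 * ‖x‖ ^ 2)) * (1 + ‖x‖) ^ p * Real.exp (-(c / 2) * ‖x‖ ^ 2) := by
        rw [mul_right_comm, ← Real.exp_add]; ring_nf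
    _ ≤ M * Real.exp (-(c / 2) * ‖x‖ ^ 2) :=
        mul_le_mul_of_nonneg_right (hM x) (Real.exp_pos _).le

lemma Weight.integrable_exp (hU : Weight U) : Integrable fun x => Real.exp (-U x) := by
  simpa using hU.integrable_exp_mul 0

lemma Weight.integral_exp_pos (hU : Weight U) : 0 < ∫ x, Real.exp (-U x) :=
  MeasureTheory.integral_exp_pos hU.integrable_exp

lemma Weight.isProbabilityMeasure (hU : Weight U) : IsProbabilityMeasure (gibbs U) :=
  isProbabilityMeasure_tilted hU.integrable_exp

lemma Weight.integrable_exp_smul (hU : Weight U) {f : Euc d → F} (hf : Continuous f) {C : ℝ}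
    {p : ℕ} (h : ∀ x, ‖f x‖ ≤ C * (1 + ‖x‖) ^ p) :
    Integrable fun x => Real.exp (-U x) • f x := by
  have hUc := hU.continuous
  refine ((hU.integrable_exp_mul p).const_mul C).mono' (by fun_prop) (.of_forall fun x => ?_)
  rw [norm_smul, Real.norm_eq_abs, abs_of_pos (Real.exp_pos _), mul_left_comm]
  exact mul_le_mul_of_nonneg_left (h x) (Real.exp_pos _).le

lemma Weight.integrable_gibbs (hU : Weight U) {f : Euc d → F} (hf : Continuous f) {C : ℝ}
    {p : ℕ} (h : ∀ x, ‖f x‖ ≤ C * (1 + ‖x‖) ^ p) : Integrable f (gibbs U) :=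
  (integrable_tilted_iff hU.integrable_exp f).2 (hU.integrable_exp_smul hf h)

lemma Weight.integrable_temperate (hU : Weight U) {φ : Euc d → F}
    (hφ : Function.HasTemperateGrowth φ) : Integrable φ (gibbs U) := by
  obtain ⟨k, C, -, h⟩ := temperate_growth hφ
  exact hU.integrable_gibbs hφ.1.continuous h

lemma Weight.integrable_norm_moment (hU : Weight U) (p : ℕ) :
    Integrable (fun x => ‖x‖ ^ p) (gibbs U) := by
  refine hU.integrable_gibbs (by fun_prop) (C := 1) (p := p) fun x => ?_
  rw [Real.norm_eq_abs, abs_of_nonneg (by positivity), one_mul]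
  exact pow_le_pow_left₀ (norm_nonneg x) (by linarith) p

lemma Weight.integrable_norm (hU : Weight U) : Integrable (fun x => ‖x‖) (gibbs U) := by
  simpa using hU.integrable_norm_moment 1

lemma integral_gibbs_eq (W : Euc d → ℝ) (f : Euc d → ℝ) :
    ∫ x, f x ∂(gibbs W) = (∫ x, Real.exp (-W x))⁻¹ * ∫ x, Real.exp (-W x) * f x := by
  rw [gibbs, integral_tilted, ← integral_const_mul]
  refine integral_congr_ae (.of_forall fun x => ?_)
  simp only [smul_eq_mul]
  ring

/-- Adding a Gaussian tilt to a weight. -/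
lemma Weight.postPot (hU : Weight U) {t : ℝ} (ht : 0 < t) (y : Euc d) :
    Weight (postPot U t y) := by
  obtain ⟨c, C, hc, h⟩ := hU.coercive
  refine ⟨?_, c, C, hc, fun z => ?_⟩
  · have h1 : Function.HasTemperateGrowth fun z : Euc d => ‖z - y‖ ^ 2 :=
      (Function.hasTemperateGrowth_norm_sq (Euc d)).comp
        ((ContinuousLinearMap.id ℝ (Euc d)).hasTemperateGrowth.sub
          (Function.HasTemperateGrowth.const y))
    have h2 := hU.temperate.add (h1.mul (Function.HasTemperateGrowth.const ((2 * t)⁻¹)))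
    exact h2
  · have : 0 ≤ ‖z - y‖ ^ 2 / (2 * t) := by positivity
    unfold Vale.Agent.P347.postPot
    linarith [h z]

/-- Integration by parts under the Gibbs law of a weight. -/
lemma Weight.ibp (hU : Weight U) {φ : Euc d → ℝ} (hφ : Function.HasTemperateGrowth φ)
    (v : Euc d) :
    ∫ x, fderiv ℝ φ x v ∂(gibbs U) = ∫ x, φ x * fderiv ℝ U x v ∂(gibbs U) := by
  have he : ∀ x, HasFDerivAt (fun x => Real.exp (-U x))
      (Real.exp (-U x) • -fderiv ℝ U x) x := fun x => (hU.differentiable x).hasFDerivAt.neg.exp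
  have hd1 : Function.HasTemperateGrowth fun x => fderiv ℝ φ x v :=
    temperate_clm (temperate_fderiv hφ) (ContinuousLinearMap.apply ℝ ℝ v)
  have hd2 : Function.HasTemperateGrowth fun x => φ x * fderiv ℝ U x v :=
    hφ.mul (temperate_clm (temperate_fderiv hU.temperate) (ContinuousLinearMap.apply ℝ ℝ v))
  have key := integral_mul_fderiv_eq_neg_fderiv_mul_of_integrable (f := φ)
    (g := fun x => Real.exp (-U x)) (v := v) (μ := volume)
    (by
      obtain ⟨k, C, -, h⟩ := temperate_growth hd1
      simpa [mul_comm] using hU.integrable_exp_smul hd1.1.continuous h)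
    (by
      obtain ⟨k, C, -, h⟩ := temperate_growth hd2
      refine (hU.integrable_exp_smul hd2.1.continuous h).neg.congr (.of_forall fun x => ?_)
      simp [(he x).fderiv]
      ring)
    (by
      obtain ⟨k, C, -, h⟩ := temperate_growth hφ
      simpa [mul_comm] using hU.integrable_exp_smul hφ.1.continuous h)
    (fun x _ => hφ.1.differentiable (by simp) x) (fun x _ => (he x).differentiableAt)
  rw [integral_gibbs_eq, integral_gibbs_eq]
  congr 1
  calc ∫ x, Real.exp (-U x) * fderiv ℝ φ x v
      = ∫ x, fderiv ℝ φ x v * Real.exp (-U x) := by simp only [mul_comm]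
    _ = -∫ x, φ x * fderiv ℝ (fun x => Real.exp (-U x)) x v := by rw [key, neg_neg]
    _ = _ := by
        rw [← integral_neg]
        refine integral_congr_ae (.of_forall fun x => ?_)
        simp [(he x).fderiv]
        ring

/-! ### Gradients -/

lemma inner_gradient (U : Euc d → ℝ) (x v : Euc d) : ⟪∇ U x, v⟫ = fderiv ℝ U x v :=
  Poincare.inner_riesz (fderiv ℝ U x) v

lemma norm_gradient (U : Euc d → ℝ) (x : Euc d) : ‖∇ U x‖ = ‖fderiv ℝ U x‖ :=
  Poincare.norm_riesz (fderiv ℝ U x)

lemma Weight.gradient_temperate (hU : Weight U) : Function.HasTemperateGrowth (∇ U) :=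
  temperate_clm (temperate_fderiv hU.temperate) (Poincare.riesz d)

lemma Weight.hasFDerivAt_gradient (hU : Weight U) (x : Euc d) :
    HasFDerivAt (∇ U) ((Poincare.riesz d).comp (fderiv ℝ (fderiv ℝ U) x)) x :=
  (Poincare.riesz d).hasFDerivAt.comp x
    (((temperate_fderiv hU.temperate).1.differentiable (by simp)) x).hasFDerivAt

lemma Weight.inner_fderiv_gradient (hU : Weight U) (x u v : Euc d) :
    ⟪fderiv ℝ (∇ U) x u, v⟫ = fderiv ℝ (fderiv ℝ U) x u v := by
  rw [(hU.hasFDerivAt_gradient x).fderiv]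
  exact Poincare.inner_riesz _ v

/-- Coordinatewise integration by parts against the gradient. -/
lemma Weight.ibp_inner (hU : Weight U) {Φ : Euc d → Euc d}
    (hΦ : Function.HasTemperateGrowth Φ) :
    ∫ x, ⟪Φ x, ∇ U x⟫ ∂(gibbs U)
      = ∫ x, ∑ i, ⟪fderiv ℝ Φ x (unitVec i), unitVec i⟫ ∂(gibbs U) := by
  have hc : ∀ i, Function.HasTemperateGrowth fun x => ⟪unitVec i, Φ x⟫ := fun i =>
    temperate_clm hΦ (innerSL ℝ (unitVec i : Euc d))
  have hd : ∀ i x, fderiv ℝ (fun x => ⟪unitVec i, Φ x⟫) x (unitVec i)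
      = ⟪fderiv ℝ Φ x (unitVec i), unitVec i⟫ := fun i x => by
    have := ((innerSL ℝ (unitVec i : Euc d)).hasFDerivAt.comp x
      (hΦ.1.differentiable (by simp) x).hasFDerivAt).fderiv
    simp only [Function.comp_def, innerSL_apply_apply] at this
    rw [this]
    exact real_inner_comm (fderiv ℝ Φ x (unitVec i)) (unitVec i)
  have e : ∀ x, ⟪Φ x, ∇ U x⟫ = ∑ i, ⟪unitVec i, Φ x⟫ * fderiv ℝ U x (unitVec i) := fun x => by
    rw [real_inner_comm, inner_gradient]
    conv_lhs => rw [← sum_inner_smul_unitVec (Φ x)]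
    simp [map_sum]
  simp only [e]
  have hm : ∀ i, Integrable (fun x => ⟪unitVec i, Φ x⟫ * fderiv ℝ U x (unitVec i)) (gibbs U) :=
    fun i => hU.integrable_temperate ((hc i).mul
      (temperate_clm (temperate_fderiv hU.temperate) (ContinuousLinearMap.apply ℝ ℝ (unitVec i))))
  rw [integral_finsetSum _ fun i _ => hm i, integral_finsetSum _ fun i _ => ?_]
  · refine Finset.sum_congr rfl fun i _ => ?_
    rw [← hU.ibp (hc i) (unitVec i)]
    simp only [hd]
  · simp only [← hd]
    exact hU.integrable_temperate (temperate_clm (temperate_fderiv (hc i))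
      (ContinuousLinearMap.apply ℝ ℝ (unitVec i)))

lemma sum_inner_unitVec_self : ∑ i, ⟪(unitVec i : Euc d), unitVec i⟫ = (d : ℝ) := by
  simp

/-- Second moment of a weight with a radial lower bound on its gradient. -/
lemma Weight.integral_sq_le (hU : Weight U) {a b : ℝ}
    (h : ∀ x, a * ‖x‖ ^ 2 - b ≤ ⟪x, ∇ U x⟫) :
    a * ∫ x, ‖x‖ ^ 2 ∂(gibbs U) ≤ (d : ℝ) + b := by
  have := hU.isProbabilityMeasure
  have hid : Function.HasTemperateGrowth (fun x : Euc d => x) :=
    (ContinuousLinearMap.id ℝ (Euc d)).hasTemperateGrowth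
  have e := hU.ibp_inner hid
  simp only [fderiv_fun_id, ContinuousLinearMap.id_apply, sum_inner_unitVec_self,
    integral_const, probReal_univ, one_smul] at e
  have hi : Integrable (fun x => a * ‖x‖ ^ 2) (gibbs U) := (hU.integrable_norm_moment 2).const_mul a
  have hi2 : Integrable (fun x => ⟪x, ∇ U x⟫) (gibbs U) :=
    hU.integrable_temperate ((innerSL ℝ).bilinear_hasTemperateGrowth hid hU.gradient_temperate)
  have := integral_mono (hi.sub (integrable_const b)) hi2 h
  simp only [Pi.sub_apply] at this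
  rw [integral_sub hi (integrable_const b), integral_const_mul, e] at this
  simp at this
  linarith

/-! ### The Gaussian path identity -/

lemma lintegral_gauss_neg (g : Euc d → ℝ≥0∞) (hg : Measurable g) :
    ∫⁻ η, g (-η) ∂(gauss d) = ∫⁻ η, g η ∂(gauss d) := by
  have h : (gauss d).map (LinearIsometryEquiv.neg ℝ : Euc d ≃ₗᵢ[ℝ] Euc d) = gauss d :=
    stdGaussian_map _
  conv_rhs => rw [← h]
  rw [lintegral_map hg (LinearIsometryEquiv.continuous _).measurable]
  simp

lemma lintegral_gibbs (W : Euc d → ℝ) (g : Euc d → ℝ≥0∞) :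
    ∫⁻ x, g x ∂(gibbs W)
      = ∫⁻ x, ENNReal.ofReal (Real.exp (-W x) / ∫ z, Real.exp (-W z)) * g x := by
  rw [gibbs, lintegral_tilted]

/-- Moving forward by a Gaussian step, or backward from the endpoint. -/
lemma lintegral_path (hU : Weight U) (r : ℝ) {G : Euc d × Euc d → ℝ≥0∞} (hG : Measurable G) :
    ∫⁻ x, ∫⁻ η, ENNReal.ofReal (Real.exp (-U (x + r • η))) * G (x, x + r • η) ∂(gauss d)
      = ∫⁻ y, ENNReal.ofReal (Real.exp (-U y)) * ∫⁻ η, G (y + r • η, y) ∂(gauss d) := by
  have hUm := hU.continuous.measurable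
  rw [lintegral_lintegral_swap (by fun_prop)]
  have e : ∀ η, ∫⁻ x, ENNReal.ofReal (Real.exp (-U (x + r • η))) * G (x, x + r • η)
      = ∫⁻ y, ENNReal.ofReal (Real.exp (-U y)) * G (y + r • -η, y) := fun η => by
    rw [← lintegral_add_right_eq_self
      (fun y => ENNReal.ofReal (Real.exp (-U y)) * G (y + r • -η, y)) (r • η)]
    simp [smul_neg]
  simp only [e]
  rw [lintegral_gauss_neg (fun η => ∫⁻ y, ENNReal.ofReal (Real.exp (-U y)) * G (y + r • η, y))
    (Measurable.lintegral_prod_right'
      (f := fun p : Euc d × Euc d => ENNReal.ofReal (Real.exp (-U p.2)) * G (p.2 + r • p.1, p.2))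
      (by fun_prop)),
    lintegral_lintegral_swap (by fun_prop)]
  refine lintegral_congr fun y => ?_
  rw [lintegral_const_mul _ (by fun_prop)]

lemma lintegral_exp_smooth (hU : Weight U) (t : ℝ) (x : Euc d) :
    ∫⁻ η, ENNReal.ofReal (Real.exp (-U (x + √t • η))) ∂(gauss d)
      = ENNReal.ofReal (smoothDensity U t x) :=
  (ofReal_integral_eq_lintegral_ofReal (hU.exp_neg_pos_integrable t x)
    (.of_forall fun _ => (Real.exp_pos _).le)).symm

/-- Smoothing keeps the normalising constant. -/
lemma integral_exp_smoothPot (hU : Weight U) {t : ℝ} (ht : 0 ≤ t) :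
    ∫ x, Real.exp (-smoothPot U t x) = ∫ x, Real.exp (-U x) := by
  have h := lintegral_path hU (√t) (G := fun _ => 1) measurable_const
  simp only [mul_one, lintegral_one, measure_univ, lintegral_exp_smooth hU,
    ← exp_neg_smoothPot hU t] at h
  rw [← ofReal_integral_eq_lintegral_ofReal (hU.smoothPot ht).integrable_exp
      (.of_forall fun _ => (Real.exp_pos _).le),
    ← ofReal_integral_eq_lintegral_ofReal hU.integrable_exp
      (.of_forall fun _ => (Real.exp_pos _).le)] at h
  exact (ENNReal.ofReal_eq_ofReal_iff (hU.smoothPot ht).integral_exp_pos.le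
    hU.integral_exp_pos.le).1 h

/-- The Gibbs law moved by Gaussian noise is the Gibbs law of the smoothed potential. -/
lemma gibbs_map_noise (hU : Weight U) {t : ℝ} (ht : 0 ≤ t) :
    ((gibbs U).prod (gauss d)).map (fun p => p.1 + √t • p.2) = gibbs (smoothPot U t) := by
  have := hU.isProbabilityMeasure
  refine Measure.ext_of_lintegral _ fun g hg => ?_
  have hUm := hU.continuous.measurable
  rw [lintegral_map hg (by fun_prop), lintegral_prod _ (by fun_prop), lintegral_gibbs,
    lintegral_gibbs, integral_exp_smoothPot hU ht]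
  simp only [ENNReal.ofReal_div_of_pos hU.integral_exp_pos, ENNReal.div_eq_inv_mul, mul_assoc]
  rw [lintegral_const_mul' _ _ (by simp [hU.integral_exp_pos]),
    lintegral_const_mul' _ _ (by simp [hU.integral_exp_pos]),
    ← lintegral_path hU (√t) (G := fun p => g p.1) (by fun_prop)]
  congr 1
  refine lintegral_congr fun x => ?_
  dsimp only
  rw [lintegral_mul_const _ (by fun_prop), lintegral_exp_smooth hU, exp_neg_smoothPot hU]

lemma integral_gibbs_smoothPot (hU : Weight U) {t : ℝ} (ht : 0 ≤ t) {f : Euc d → F}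
    (hf : Continuous f) :
    ∫ y, f y ∂(gibbs (smoothPot U t))
      = ∫ p, f (p.1 + √t • p.2) ∂((gibbs U).prod (gauss d)) := by
  rw [← gibbs_map_noise hU ht]
  exact integral_map (by fun_prop) hf.aestronglyMeasurable

omit [NormedSpace ℝ F] in
lemma integrable_gibbs_smoothPot (hU : Weight U) {t : ℝ} (ht : 0 ≤ t) {f : Euc d → F}
    (hf : Continuous f) (hi : Integrable f (gibbs (smoothPot U t))) :
    Integrable (fun p => f (p.1 + √t • p.2)) ((gibbs U).prod (gauss d)) := by
  rw [← gibbs_map_noise hU ht] at hi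
  exact (integrable_map_measure hf.aestronglyMeasurable (by fun_prop)).1 hi

end Vale.Agent.P347
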