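import Vale.Agent.P347.LevelFamily
import Vale.Agent.P347.LevelBase
import Vale.Agent.P347.FlowPotential

/-!
The Gaussian family along a curve `λ ↦ (c + λ², y + λ ξ)` and its bounds.
-/

namespace Vale.Agent.P347

open MeasureTheory ProbabilityTheory Set
open scoped Gradient RealInnerProductSpace ContDiff

variable {d k : ℕ}

section CompTemperate

variable {ι κ : Type} [Fintype ι] [Fintype κ] {E : Type*} [NormedAddCommGroup E] [NormedSpace ℝ E]

/-- Tame functions composed with temperate changes of the variables. -/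
theorem Tame.comp_temperate {I O : Set ℝ} (hI : IsOpen I) (hO : IsOpen O) {f : ℝ → Sp ι → E}
    (hf : Tame I f) {g : ℝ × Sp κ → ℝ × Sp ι} (hg : Function.HasTemperateGrowth g) {φ : ℝ → ℝ}
    (hφ : Continuous φ) (h1 : ∀ q, (g q).1 = φ q.1) (hmaps : ∀ t ∈ O, φ t ∈ I) :
    Tame O fun t x => f (g (t, x)).1 (g (t, x)).2 := by
  have hU : IsOpen (I ×ˢ (univ : Set (Sp ι))) := hI.prod isOpen_univ
  have hU' : IsOpen (O ×ˢ (univ : Set (Sp κ))) := hO.prod isOpen_univ
  have hm : MapsTo g (O ×ˢ univ) (I ×ˢ univ) := fun q hq =>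
    ⟨by rw [h1]; exact hmaps _ hq.1, trivial⟩
  refine ⟨hf.1.comp hg.1.contDiffOn hm, fun n J hJ hJO => ?_⟩
  have hJ' : IsCompact (φ '' J) := hJ.image hφ
  have hJI' : φ '' J ⊆ I := by
    rintro _ ⟨t, ht, rfl⟩; exact hmaps t (hJO ht)
  obtain ⟨C, p, hC0, hC⟩ := hf.bound_upTo n hJ' hJI'
  obtain ⟨l, D, hD0, hD⟩ := hg.norm_iteratedFDeriv_le_uniform n
  obtain ⟨R, hR⟩ := hJ.isBounded.exists_norm_le
  set D' := (1 + D) * (1 + max R 0) ^ l with hD'
  have hD'1 : 1 ≤ D' := one_le_mul_of_one_le_of_one_le (by linarith)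
    (one_le_pow₀ (by linarith [le_max_right R 0]))
  refine ⟨n.factorial * (C * (1 + D') ^ p) * D' ^ n, l * p + l * n, fun t ht x => ?_⟩
  have hq : (t, x) ∈ O ×ˢ (univ : Set (Sp κ)) := ⟨hJO ht, trivial⟩
  have hgx : ∀ i ≤ n, ‖iteratedFDeriv ℝ i g (t, x)‖ ≤ D' * (1 + ‖x‖) ^ l := by
    intro i hi
    refine (hD i hi (t, x)).trans ?_
    rw [hD', mul_assoc, ← mul_pow]
    refine mul_le_mul (by linarith) (pow_le_pow_left₀ (by positivity) ?_ l) (by positivity)
      (by positivity)
    rw [Prod.norm_def]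
    have h1 : ‖t‖ ≤ max R 0 := (hR t ht).trans (le_max_left _ _)
    nlinarith [max_le_add_of_nonneg (norm_nonneg t) (norm_nonneg x), norm_nonneg x,
      le_max_right R 0]
  have hone : 1 ≤ D' * (1 + ‖x‖) ^ l :=
    one_le_mul_of_one_le_of_one_le hD'1 (one_le_pow₀ (by linarith [norm_nonneg x]))
  have key := norm_iteratedFDerivWithin_comp_le (g := fun q : ℝ × Sp ι => f q.1 q.2) (f := g)
    (N := ∞) (n := n) hf.1 hg.1.contDiffOn (by exact_mod_cast le_top) hU.uniqueDiffOn
    hU'.uniqueDiffOn hm hq (C := C * (1 + D') ^ p * (1 + ‖x‖) ^ (l * p))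
    (D := D' * (1 + ‖x‖) ^ l) (fun i hi => ?_) (fun i hi hin => ?_)
  · rw [iteratedFDerivWithin_of_isOpen n hU' hq] at key
    refine key.trans_eq ?_
    rw [mul_pow D', ← pow_mul, pow_add]
    ring
  · rw [iteratedFDerivWithin_of_isOpen i hU (hm hq), ← Prod.mk.eta (p := g (t, x))]
    refine (hC i hi _ ⟨t, ht, (h1 (t, x)).symm⟩ _).trans ?_
    rw [mul_assoc C, pow_mul, ← mul_pow]
    refine mul_le_mul_of_nonneg_left (pow_le_pow_left₀ (by positivity) ?_ p) hC0
    have h0 := hgx 0 (Nat.zero_le n)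
    rw [norm_iteratedFDeriv_zero, Prod.norm_def] at h0
    nlinarith [le_max_right ‖(g (t, x)).1‖ ‖(g (t, x)).2‖,
      one_le_pow₀ (n := l) (show (1 : ℝ) ≤ 1 + ‖x‖ by linarith [norm_nonneg x])]
  · rw [iteratedFDerivWithin_of_isOpen i hU' hq]
    exact (hgx i hin).trans (le_self_pow₀ hone (by omega))

end CompTemperate

/-- Half the squared norm. -/
noncomputable def sqHalf (d : ℕ) (x : Euc d) : ℝ := ‖x‖ ^ 2 / 2

lemma sqHalf_temperate : Function.HasTemperateGrowth (sqHalf d) := by
  show Function.HasTemperateGrowth fun x : Euc d => ‖x‖ ^ 2 / 2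
  simp only [div_eq_mul_inv]
  exact (Function.hasTemperateGrowth_norm_sq (Euc d)).mul
    (Function.HasTemperateGrowth.const (2⁻¹ : ℝ))

lemma sqHalf_weight : Weight (sqHalf d) :=
  ⟨sqHalf_temperate, 1 / 2, 0, by norm_num, fun x => by simp [sqHalf]; linarith⟩

lemma sqHalf_tame (I : Set ℝ) : Tame I fun (_ : ℝ) => sqHalf d := by
  have h : Function.HasTemperateGrowth fun q : ℝ × Euc d => sqHalf d q.2 :=
    sqHalf_temperate.comp (ContinuousLinearMap.snd ℝ ℝ (Euc d)).hasTemperateGrowth
  exact Tame.of_temperate h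

/-- The Gaussian family with trivial field. -/
noncomputable def curveFamily (d : ℕ) (O : Set ℝ) (hO : IsOpen O) : Family (Fin d) where
  dom := O
  isOpen_dom := hO
  μ _ := gauss d
  prob _ _ := inferInstance
  Ψ _ := sqHalf d
  b _ _ := 0
  tame_Ψ := sqHalf_tame O
  tame_b := Tame.const 0
  integrable_poly _ _ p := gauss_integrable_norm_pow p
  ibp t ht f hf i := by
    rw [gauss_eq_gibbs]
    exact sqHalf_weight.gibbs_ibp hO hf (sqHalf_tame O) ht rfl i
  continuity t ht x y := by
    have h : ∀ z, fderiv ℝ (fun q : ℝ × Euc d => sqHalf d q.2) (t, z) (1, 0) = 0 := fun z => by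
      have hd : HasFDerivAt (fun q : ℝ × Euc d => sqHalf d q.2)
          ((fderiv ℝ (sqHalf d) z).comp (ContinuousLinearMap.snd ℝ ℝ (Euc d))) (t, z) :=
        HasFDerivAt.comp (f := Prod.snd) (g := sqHalf d) (t, z)
          ((sqHalf_temperate.1.differentiable (by simp) z).hasFDerivAt) hasFDerivAt_snd
      rw [hd.fderiv]
      simp
    simp [h]

lemma pd_sqHalf (t : ℝ) (x : Euc d) (i : Fin d) :
    pd i (fun _ => sqHalf d) t x = x i := by
  rw [pd, show sqHalf d = fun y : Euc d => ‖y‖ ^ 2 / 2 from rfl]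
  simp only [div_eq_mul_inv]
  rw [fderiv_mul_const (show DifferentiableAt ℝ (fun y : Euc d => ‖y‖ ^ 2) x from
    differentiableAt_id.norm_sq ℝ), fderiv_norm_sq_apply]
  simp [EuclideanSpace.inner_single_right]

section Family

variable {O : Set ℝ} (hO : IsOpen O)

lemma curveFamily_gradB {t : ℝ} (x : Euc d) : (curveFamily d O hO).gradB t x = 0 := by
  ext α
  simp [Family.gradB, curveFamily]

lemma curveFamily_hess (hO : IsOpen O) {t : ℝ} (ht : t ∈ O) (x : Euc d) (i j : Fin d) :
    derivTen (sqHalf d) 2 x (pairIdx i j) = if i = j then 1 else 0 := by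
  refine ((curveFamily d O hO).hess_apply ht x i j).trans ?_
  show pd i (pd j fun _ => sqHalf d) t x = _
  rw [pd_congr (h := fun _ (y : Euc d) => y j) (fun y => pd_sqHalf t y j), pd,
    (show HasFDerivAt (fun y : Euc d => y j) (EuclideanSpace.proj (𝕜 := ℝ) j) x from
      (EuclideanSpace.proj (𝕜 := ℝ) j).hasFDerivAt).fderiv]
  simp [PiLp.single_apply, eq_comm]

/-- The identity tensor. -/
noncomputable def idTen (d : ℕ) : Ten (Fin d) 2 :=
  WithLp.toLp 2 fun α => if α 0 = α 1 then 1 else 0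

lemma allSplit_idTen : AllSplit 1 (idTen d) := by
  intro a b e ha hb A B
  obtain rfl : a = 1 := by have := Fintype.card_congr e; simp at this; omega
  obtain rfl : b = 1 := by have := Fintype.card_congr e; simp at this; omega
  have hv : ∀ α β : Fin 1 → Fin d,
      idTen d (joinIdx e α β) = if α = β then 1 else 0 := by
    intro α β
    have hl : joinIdx e α β (e (Sum.inl 0)) = α 0 := joinIdx_inl e α β 0
    have hr : joinIdx e α β (e (Sum.inr 0)) = β 0 := joinIdx_inr e α β 0
    have hne : e (Sum.inl 0) ≠ e (Sum.inr 0) := fun h => Sum.inl_ne_inr (e.injective h)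
    have hiff : (α = β) ↔ α 0 = β 0 :=
      ⟨fun h => by rw [h], fun h => funext fun s => by rw [Subsingleton.elim s 0, h]⟩
    show (if joinIdx e α β 0 = joinIdx e α β 1 then (1 : ℝ) else 0) = _
    simp only [hiff]
    rcases Fin.exists_fin_two.1 ⟨e (Sum.inl 0), rfl⟩ with h0 | h1
    · have hr1 : e (Sum.inr 0) = 1 := by
        rcases Fin.exists_fin_two.1 ⟨e (Sum.inr 0), rfl⟩ with h | h
        · exact absurd (h0.trans h.symm) hne
        · exact h
      rw [h0] at hl; rw [hr1] at hr; rw [hl, hr]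
    · have hr1 : e (Sum.inr 0) = 0 := by
        rcases Fin.exists_fin_two.1 ⟨e (Sum.inr 0), rfl⟩ with h | h
        · exact h
        · exact absurd (h1.trans h.symm) hne
      rw [h1] at hl; rw [hr1] at hr; rw [hl, hr]
      simp [eq_comm]
  simp only [hv, ite_mul, one_mul, zero_mul, Finset.sum_ite_eq, Finset.mem_univ, if_true]
  exact abs_real_inner_le_norm B A |>.trans_eq' (by rw [PiLp.inner_apply]; simp) |>.trans_eq
    (mul_comm _ _)

lemma curveFamily_derivTen_two (hO : IsOpen O) {t : ℝ} (ht : t ∈ O) (x : Euc d) :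
    derivTen (sqHalf d) 2 x = idTen d := by
  ext α
  have hα : α = pairIdx (α 0) (α 1) := by funext s; fin_cases s <;> rfl
  conv_lhs => rw [hα]
  rw [curveFamily_hess hO ht]
  rfl

lemma curveFamily_controlled {J : Set ℝ} (hJ : J ⊆ O) :
    (curveFamily d O hO).Controlled J fun _ => 1 := by
  refine ⟨hJ, fun N => ⟨?_, fun _ _ => 0, fun _ _ => 0,
    Family.good_const N (allSplit_zero zero_le_one) zero_le_one,
    Family.good_const N (allSplit_zero zero_le_one) zero_le_one, fun t _ x => ?_⟩⟩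
  · refine (Family.good_const (F := curveFamily d O hO) N allSplit_idTen zero_le_one).congr hJ
      fun t ht x => curveFamily_derivTen_two hO ht x
  · rw [curveFamily_gradB, (curveFamily d O hO).delta_zero, add_zero]

lemma curveFamily_D_eq {f : ℝ → Euc d → Ten (Fin d) k} (t : ℝ) (x : Euc d) :
    (curveFamily d O hO).D f t x = fderiv ℝ (fun q : ℝ × Euc d => f q.1 q.2) (t, x) (1, 0) := rfl

lemma curveFamily_hasDerivAt {f : ℝ → Euc d → Ten (Fin d) k} (hf : Tame O f) {t : ℝ} (ht : t ∈ O)
    (x : Euc d) : HasDerivAt (fun s => f s x) ((curveFamily d O hO).D f t x) t := by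
  simpa [Function.comp_def, curveFamily_D_eq] using
    (hf.differentiableAt hO ht x).hasFDerivAt.comp_hasDerivAt t
      ((hasDerivAt_id t).prodMk (hasDerivAt_const t x))

lemma curveFamily_integral_delta {f : ℝ → Euc d → Ten (Fin d) (k + 1)} (hf : Tame O f) {t : ℝ}
    (ht : t ∈ O) : ∫ x, (curveFamily d O hO).delta f t x ∂(gauss d) = 0 := by
  set F := curveFamily d O hO with hF
  have hint := (F.tame_delta hf).integrable ht (gauss d) (F.integrable_poly t ht)
  ext α
  rw [show (∫ x, F.delta f t x ∂(gauss d)) α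
      = ∫ x, F.delta f t x α ∂(gauss d) from
    ((EuclideanSpace.proj (𝕜 := ℝ) α).integral_comp_comm hint).symm]
  simp only [F.delta_apply hf ht]
  rw [integral_finsetSum _ fun i _ => ?_]
  · refine Finset.sum_eq_zero fun i _ => ?_
    have h := Family.integral_scalar_ibp (F := F) (hf.component hO (Fin.cons i α)) ht i
    rw [← neg_eq_zero, ← integral_neg]
    refine Eq.trans (integral_congr_ae (.of_forall fun x => ?_)) h
    ring
  · exact (((F.tame_Ψ.pd hO i).mul (hf.component hO _) hO).sub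
      ((hf.component hO (Fin.cons i α)).pd hO i) hO).integrable ht (gauss d)
        (F.integrable_poly t ht)

end Family

/-- A field pulled back to the curve through `y`. -/
noncomputable def curveField {G : Type*} (c : ℝ) (y : Euc d) (f : ℝ → Euc d → G) (lam : ℝ)
    (ξ : Euc d) : G :=
  f (c + lam ^ 2) (y + lam • ξ)

/-- The operator `∂ₜ + ½Δ`. -/
noncomputable def heatOp {E : Type*} [NormedAddCommGroup E] [NormedSpace ℝ E]
    (f : ℝ → Euc d → E) (t : ℝ) (x : Euc d) : E :=
  fderiv ℝ (fun q : ℝ × Euc d => f q.1 q.2) (t, x) (1, 0)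
    + (1 / 2 : ℝ) • ∑ i, fderiv ℝ (fun z => fderiv ℝ (f t) z (unitVec i)) x (unitVec i)

lemma Tame.heatOp {E : Type*} [NormedAddCommGroup E] [NormedSpace ℝ E] {I : Set ℝ}
    (hI : IsOpen I) {f : ℝ → Euc d → E} (hf : Tame I f) : Tame I (heatOp f) :=
  ((hf.fderiv_apply (Tame.const ((1 : ℝ), (0 : Euc d))) hI).add
    ((Tame.sum Finset.univ hI fun i _ =>
      (hf.fderiv_space_apply hI (unitVec i)).fderiv_space_apply hI (unitVec i)).const_smul hI
        (1 / 2 : ℝ)) hI).of_eq hI fun _ _ _ => rfl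

section CurveField

variable {I O : Set ℝ} (hI : IsOpen I) (hO : IsOpen O) {c : ℝ} {y : Euc d}
  {f : ℝ → Euc d → Ten (Fin d) k}

lemma Tame.curveField {E : Type*} [NormedAddCommGroup E] [NormedSpace ℝ E] (hI : IsOpen I)
    (hO : IsOpen O) {f : ℝ → Euc d → E} (hf : Tame I f) (hm : ∀ s ∈ O, c + s ^ 2 ∈ I) :
    Tame O (curveField c y f) := by
  refine hf.comp_temperate hI hO (g := fun q : ℝ × Euc d => (c + q.1 ^ 2, y + q.1 • q.2))
    (φ := fun s => c + s ^ 2) ?_ (by fun_prop) (fun _ => rfl) hm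
  have h1 : Function.HasTemperateGrowth fun q : ℝ × Euc d => q.1 :=
    (ContinuousLinearMap.fst ℝ ℝ (Euc d)).hasTemperateGrowth
  have h2 : Function.HasTemperateGrowth fun q : ℝ × Euc d => q.2 :=
    (ContinuousLinearMap.snd ℝ ℝ (Euc d)).hasTemperateGrowth
  have ha : Function.HasTemperateGrowth fun q : ℝ × Euc d => c + q.1 ^ 2 := by
    simpa [pow_two] using! (Function.HasTemperateGrowth.const c).add (h1.mul h1)
  have hb : Function.HasTemperateGrowth fun q : ℝ × Euc d => y + q.1 • q.2 :=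
    (Function.HasTemperateGrowth.const y).add (h1.smul h2)
  refine ((ContinuousLinearMap.inl ℝ ℝ (Euc d)).hasTemperateGrowth.comp ha).add
    ((ContinuousLinearMap.inr ℝ ℝ (Euc d)).hasTemperateGrowth.comp hb) |> fun h => ?_
  convert h using 1
  funext q
  simp

lemma nabla_curveField (hf : Tame I f) {lam : ℝ} (hm : c + lam ^ 2 ∈ I) (ξ : Euc d) :
    nabla (curveField c y f lam) ξ = lam • curveField c y (fun t => nabla (f t)) lam ξ := by
  ext α
  have h1 : HasFDerivAt (fun z : Euc d => y + lam • z) (lam • ContinuousLinearMap.id ℝ (Euc d)) ξ :=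
    ((hasFDerivAt_id ξ).const_smul lam).const_add y
  have h2 : HasFDerivAt (curveField c y f lam)
      ((fderiv ℝ (f (c + lam ^ 2)) (y + lam • ξ)).comp (lam • ContinuousLinearMap.id ℝ (Euc d))) ξ :=
    (hf.differentiableAt_space hm _).hasFDerivAt.comp ξ h1
  show fderiv ℝ (curveField c y f lam) ξ _ _ = lam * (fderiv ℝ (f (c + lam ^ 2)) (y + lam • ξ) _ _)
  rw [h2.fderiv]
  simp

lemma sum_coord_smul_unitVec (ξ : Euc d) : ∑ i, ξ i • unitVec i = ξ := by
  have h := sum_inner_smul_unitVec ξ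
  simpa [EuclideanSpace.inner_single_left] using h

lemma curveFamily_D_curveField (hI : IsOpen I) (hf : Tame I f) (hm : ∀ s ∈ O, c + s ^ 2 ∈ I)
    {lam : ℝ} (hl : lam ∈ O) (ξ : Euc d) :
    (curveFamily d O hO).D (curveField c y f) lam ξ
      = (curveFamily d O hO).delta (curveField c y fun t => nabla (f t)) lam ξ
        + (2 * lam) • curveField c y (heatOp f) lam ξ := by
  set F := curveFamily d O hO with hF
  have hs := hm lam hl
  set T := c + lam ^ 2 with hT
  set x := y + lam • ξ with hx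
  -- the left hand side
  have hc1 : HasDerivAt (fun s => (c + s ^ 2, y + s • ξ)) (2 * lam, ξ) lam := by
    refine (HasDerivAt.prodMk ?_ ?_)
    · simpa using (hasDerivAt_pow 2 lam).const_add c
    · simpa using ((hasDerivAt_id lam).smul_const ξ).const_add y
  have hl' : HasDerivAt (fun s => curveField c y f s ξ)
      (fderiv ℝ (fun q : ℝ × Euc d => f q.1 q.2) (T, x) (2 * lam, ξ)) lam :=
    HasFDerivAt.comp_hasDerivAt (l := fun q : ℝ × Euc d => f q.1 q.2)
      (f := fun s => (c + s ^ 2, y + s • ξ)) lam (hf.differentiableAt hI hs x).hasFDerivAt hc1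
  have hD := (curveFamily_hasDerivAt hO (hf.curveField hI hO hm) hl ξ).unique hl'
  rw [hD, show (((2 * lam, ξ) : ℝ × Euc d))
      = (2 * lam) • ((1, 0) : ℝ × Euc d) + (0, ξ) by simp, map_add, map_smul,
    ← hf.fderiv_space hI hs]
  have hfs : fderiv ℝ (f T) x ξ = ∑ i, ξ i • fderiv ℝ (f T) x (unitVec i) := by
    conv_lhs => rw [← sum_coord_smul_unitVec ξ]
    simp only [map_sum, map_smul]
  rw [hfs]
  simp only [curveField, heatOp, ← hT, ← hx, smul_add, smul_smul]
  -- the divergence, coordinate by coordinate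
  ext α
  have hn : Tame O (curveField c y fun t => nabla (f t)) := (hf.nabla hI).curveField hI hO hm
  rw [PiLp.add_apply, PiLp.add_apply, PiLp.add_apply, F.delta_apply hn hl]
  simp only [WithLp.ofLp_sum, WithLp.ofLp_smul, Finset.sum_apply, Pi.smul_apply, smul_eq_mul,
    Finset.mul_sum]
  rw [add_left_comm, ← Finset.sum_add_distrib]
  congr 1
  refine Finset.sum_congr rfl fun i _ => ?_
  have e1 : ∀ z, curveField c y (fun t => nabla (f t)) lam z (Fin.cons i α)
      = fderiv ℝ (f T) (y + lam • z) (unitVec i) α := fun z => by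
    show fderiv ℝ (f T) (y + lam • z) _ _ = _
    simp
  have e2 : pd i (fun s z => curveField c y (fun t => nabla (f t)) s z (Fin.cons i α)) lam ξ
      = lam * fderiv ℝ (fun z => fderiv ℝ (f T) z (unitVec i)) x (unitVec i) α := by
    have hg : DifferentiableAt ℝ (fun z => fderiv ℝ (f T) z (unitVec i)) x :=
      (hf.fderiv_space_apply hI (unitVec i)).differentiableAt_space hs x
    have h1 : HasFDerivAt (fun z : Euc d => y + lam • z) (lam • ContinuousLinearMap.id ℝ (Euc d))
        ξ := ((hasFDerivAt_id ξ).const_smul lam).const_add y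
    have h2 : HasFDerivAt (fun z => fderiv ℝ (f T) (y + lam • z) (unitVec i) α)
        ((EuclideanSpace.proj α).comp ((fderiv ℝ (fun z => fderiv ℝ (f T) z (unitVec i)) x).comp
          (lam • ContinuousLinearMap.id ℝ (Euc d)))) ξ :=
      (EuclideanSpace.proj (𝕜 := ℝ) α).hasFDerivAt.comp ξ
        (HasFDerivAt.comp (g := fun z => fderiv ℝ (f T) z (unitVec i))
          (f := fun z : Euc d => y + lam • z) ξ hg.hasFDerivAt h1)
    rw [pd, funext e1, h2.fderiv]
    simp
  rw [show F.Ψ = fun _ => sqHalf d from rfl, pd_sqHalf, e1, ← hx, e2]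
  ring

/-- Multiplication by the time variable, at a single time. -/
lemma reg_time_smul (j n : ℕ) : ∀ {O : Set ℝ} (hO : IsOpen O) {lam M : ℝ}
    {g : ℝ → Euc d → Ten (Fin d) k}, lam ∈ O → |lam| ≤ 1 → 0 ≤ M →
    (curveFamily d O hO).Reg {lam} j n M g →
    (curveFamily d O hO).Reg {lam} j n ((j + 1) * M) fun s x => s • g s x := by
  intro O hO lam M g hl hl1 hM hg
  set F := curveFamily d O hO with hF
  have hJ : ({lam} : Set ℝ) ⊆ F.dom := by simpa [hF, curveFamily] using hl
  have ht : Tame O fun (s : ℝ) (_ : Euc d) => s :=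
    (Tame.of_temperate (ContinuousLinearMap.fst ℝ ℝ (Euc d)).hasTemperateGrowth).of_eq hO
      fun _ _ _ => rfl
  have hT : Tame O fun s x => s • g s x := ht.bilin hg.1 hO (ContinuousLinearMap.lsmul ℝ ℝ)
  have base : ∀ {g : ℝ → Euc d → Ten (Fin d) k} {M : ℝ} {j : ℕ}, 0 ≤ M →
      F.Reg {lam} j n M g → F.Reg {lam} 0 n M fun s x => s • g s x := by
    intro g M j hM hg
    refine ⟨ht.bilin hg.1 hO (ContinuousLinearMap.lsmul ℝ ℝ), fun a ha i hi t htJ => ?_⟩
    obtain rfl : a = 0 := Nat.le_zero.1 ha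
    have ht' : t = lam := htJ
    subst ht'
    simp only [Function.iterate_zero, id_eq]
    have e : ∀ i, nablaIter (fun x => t • g t x) i = fun x => t • nablaIter (g t) i x := by
      intro i
      induction i with
      | zero => rfl
      | succ i ih =>
        show nabla (nablaIter (fun x => t • g t x) i) = _
        rw [ih]
        exact funext fun x => nabla_smul (hg.1.nablaIter F.isOpen_dom i) t hl x
    simp only [e, norm_smul, mul_pow, integral_const_mul, Real.norm_eq_abs]
    have h0 := hg.2 0 (Nat.zero_le _) i hi t rfl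
    simp only [Function.iterate_zero, id_eq] at h0
    refine (mul_le_mul (pow_le_pow_left₀ (abs_nonneg t) hl1 2) h0
      (integral_nonneg fun x => sq_nonneg _) (by norm_num)).trans_eq ?_
    ring
  induction j generalizing g M with
  | zero => simpa using base hM hg
  | succ j ih =>
    have h1 := base (j := j + 1) hM hg
    have h2 := ih hM hg.D ((ht.bilin hg.D.1 hO (ContinuousLinearMap.lsmul ℝ ℝ)))
    have hj : (0 : ℝ) ≤ ((j : ℝ) + 1) * M := by positivity
    have h3 := (hg.of_le (Nat.le_succ j) le_rfl).add h2 hJ hM hj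
    refine Family.Reg.of_D (h1.mono le_rfl le_rfl hM ?_) ((h3.congr hJ fun s hs x => ?_).mono
      le_rfl le_rfl (by positivity) ?_)
    · exact le_mul_of_one_le_left hM (by push_cast; linarith)
    · have h := ((hasDerivAt_id s).smul (curveFamily_hasDerivAt hO hg.1 hs x))
      refine ((curveFamily_hasDerivAt hO hT hs x).unique h).trans ?_
      simp [hF, add_comm]
    · push_cast; linarith

end CurveField

/-- The Gaussian mass of all words in gradient and heat operator up to length `m`. -/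
noncomputable def curveSum : (m : ℕ) → {k : ℕ} → (ℝ → Euc d → Ten (Fin d) k) → ℝ → Euc d → ℝ → ℝ
  | 0, _, f, c, y, lam => ∫ ξ, ‖curveField c y f lam ξ‖ ^ 2 ∂(gauss d)
  | m + 1, _, f, c, y, lam => curveSum m f c y lam + curveSum m (fun t => nabla (f t)) c y lam
      + curveSum m (heatOp f) c y lam

lemma curveSum_nonneg : ∀ (m : ℕ) {k : ℕ} (f : ℝ → Euc d → Ten (Fin d) k) (c : ℝ) (y : Euc d)
    (lam : ℝ), 0 ≤ curveSum m f c y lam
  | 0, _, f, c, y, lam => integral_nonneg fun ξ => sq_nonneg _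
  | m + 1, _, f, c, y, lam =>
    add_nonneg (add_nonneg (curveSum_nonneg m f c y lam) (curveSum_nonneg m _ c y lam))
      (curveSum_nonneg m _ c y lam)

lemma curveSum_mono {m m' : ℕ} (h : m ≤ m') (f : ℝ → Euc d → Ten (Fin d) k) (c : ℝ) (y : Euc d)
    (lam : ℝ) : curveSum m f c y lam ≤ curveSum m' f c y lam := by
  induction h with
  | refl => exact le_rfl
  | @step m'' _ ih =>
    have h1 := curveSum_nonneg m'' (fun t => nabla (f t)) c y lam
    have h2 := curveSum_nonneg m'' (heatOp f) c y lam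
    simp only [curveSum]
    linarith

lemma curveSum_nabla_le (m : ℕ) (f : ℝ → Euc d → Ten (Fin d) k) (c : ℝ) (y : Euc d) (lam : ℝ) :
    curveSum m (fun t => nabla (f t)) c y lam ≤ curveSum (m + 1) f c y lam := by
  have h1 := curveSum_nonneg m f c y lam
  have h2 := curveSum_nonneg m (heatOp f) c y lam
  simp only [curveSum]
  linarith

lemma curveSum_heatOp_le (m : ℕ) (f : ℝ → Euc d → Ten (Fin d) k) (c : ℝ) (y : Euc d) (lam : ℝ) :
    curveSum m (heatOp f) c y lam ≤ curveSum (m + 1) f c y lam := by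
  have h1 := curveSum_nonneg m f c y lam
  have h2 := curveSum_nonneg m (fun t => nabla (f t)) c y lam
  simp only [curveSum]
  linarith

/-- Bounds of the spatial derivatives along the curve. -/
lemma curve_reg_zero (n : ℕ) : ∀ {k : ℕ} {I O : Set ℝ}, IsOpen I → ∀ (hO : IsOpen O)
    {f : ℝ → Euc d → Ten (Fin d) k}, Tame I f → ∀ {c : ℝ}, (∀ s ∈ O, c + s ^ 2 ∈ I) →
    ∀ (y : Euc d) {lam : ℝ}, lam ∈ O → |lam| ≤ 1 →
      (curveFamily d O hO).Reg {lam} 0 n (√(curveSum n f c y lam)) (curveField c y f) := by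
  induction n with
  | zero =>
    intro k I O hI hO f hf c hm y lam hl hl1
    refine Family.reg_zero_zero (hf.curveField hI hO hm) fun t ht => ?_
    rw [Real.sq_sqrt (curveSum_nonneg _ _ _ _ _), show t = lam from ht]
    exact le_rfl
  | succ n ih =>
    intro k I O hI hO f hf c hm y lam hl hl1
    have hJ : ({lam} : Set ℝ) ⊆ (curveFamily d O hO).dom := by simpa [curveFamily] using hl
    have hg := ih hI hO (hf.nabla hI) hm y hl hl1
    refine Family.Reg.of_nabla ((ih hI hO hf hm y hl hl1).mono le_rfl (Nat.zero_le n)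
      (Real.sqrt_nonneg _) (Real.sqrt_le_sqrt (curveSum_mono n.le_succ _ _ _ _))) ?_ hJ
    refine ((reg_time_smul 0 n hO hl hl1 (Real.sqrt_nonneg _) hg).congr hJ fun s hs x =>
      nabla_curveField hf (hm s hs) x).mono le_rfl le_rfl (by positivity) ?_
    simpa using Real.sqrt_le_sqrt (curveSum_nabla_le n f c y lam)

/-- Dimension-free bounds of all derivatives along the curve. -/
theorem curve_reg (j n : ℕ) : ∃ (C : ℝ) (m : ℕ), 0 ≤ C ∧ ∀ (d k : ℕ) (I O : Set ℝ), IsOpen I →
    ∀ (hO : IsOpen O) (f : ℝ → Euc d → Ten (Fin d) k), Tame I f → ∀ (c : ℝ),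
    (∀ s ∈ O, c + s ^ 2 ∈ I) → ∀ (y : Euc d) (lam : ℝ), lam ∈ O → |lam| ≤ 1 →
      (curveFamily d O hO).Reg {lam} j n (C * √(curveSum m f c y lam)) (curveField c y f) := by
  induction j generalizing n with
  | zero =>
    exact ⟨1, n, zero_le_one, fun d k I O hI hO f hf c hm y lam hl hl1 => by
      simpa using curve_reg_zero n hI hO hf hm y hl hl1⟩
  | succ j ih =>
    obtain ⟨n₁, N₁, C₁, h₁⟩ := calc_closure (fun _ => 1) j n
    obtain ⟨Cg, mg, hCg, hg⟩ := ih n₁
    obtain ⟨Cl, ml, hCl, hl⟩ := ih n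
    obtain ⟨C₀, m₀, hC₀, h₀⟩ := ih n
    refine ⟨C₀ + |C₁| * Cg + 2 * (j + 1) * Cl, max m₀ (max mg ml) + 1, by positivity,
      fun d k I O hI hO f hf c hm y lam hlO hl1 => ?_⟩
    set F := curveFamily d O hO with hF
    set m := max m₀ (max mg ml) + 1 with hm'
    set S := √(curveSum m f c y lam) with hS
    have hS0 : 0 ≤ S := Real.sqrt_nonneg _
    have hJ : ({lam} : Set ℝ) ⊆ F.dom := by simpa [hF, curveFamily] using hlO
    have hb0 := ((h₀ d k I O hI hO f hf c hm y lam hlO hl1).of_le (Nat.zero_le j)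
      (le_refl n)).mono le_rfl le_rfl (by positivity) (mul_le_mul_of_nonneg_left
        (Real.sqrt_le_sqrt (curveSum_mono (show m₀ ≤ m by omega) f c y lam)) hC₀)
    have hgr : F.Reg {lam} j n₁ (Cg * S) (curveField c y fun t => nabla (f t)) :=
      (hg d _ I O hI hO _ (hf.nabla hI) c hm y lam hlO hl1).mono le_rfl le_rfl (by positivity)
        (mul_le_mul_of_nonneg_left (Real.sqrt_le_sqrt ((curveSum_nabla_le mg f c y lam).trans
          (curveSum_mono (show mg + 1 ≤ m by omega) f c y lam))) hCg)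
    have hδ := (h₁ _ F _ (curveFamily_controlled hO hJ) _ (mul_nonneg hCg hS0)).2.1 _ _ hgr
    have hδ' : F.Reg {lam} j n (|C₁| * (Cg * S)) (F.delta (curveField c y fun t => nabla (f t))) :=
      ⟨hδ.1, fun a ha i hi t ht => (hδ.2 a ha i hi t ht).trans_eq
        (by rw [mul_pow C₁, mul_pow |C₁|, sq_abs])⟩
    have hlr : F.Reg {lam} j n (Cl * S) (curveField c y (heatOp f)) :=
      (hl d _ I O hI hO _ (hf.heatOp hI) c hm y lam hlO hl1).mono le_rfl le_rfl (by positivity)
        (mul_le_mul_of_nonneg_left (Real.sqrt_le_sqrt ((curveSum_heatOp_le ml f c y lam).trans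
          (curveSum_mono (show ml + 1 ≤ m by omega) f c y lam))) hCl)
    have hls := (reg_time_smul j n hO hlO hl1 (mul_nonneg hCl hS0) hlr).smul hJ (2 : ℝ)
    rw [abs_two] at hls
    have hD := (hδ'.add hls hJ (by positivity) (by positivity)).congr hJ
      (g := F.D (curveField c y f)) fun s hs x => by
        rw [curveFamily_D_curveField hO hI hf hm hs x, mul_smul]
    refine Family.Reg.of_D (hb0.mono le_rfl le_rfl (by positivity) ?_)
      (hD.mono le_rfl le_rfl (by positivity) ?_)
    · refine mul_le_mul_of_nonneg_right ?_ hS0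
      have : (0 : ℝ) ≤ |C₁| * Cg + 2 * (j + 1) * Cl := by positivity
      linarith
    · have : 0 ≤ C₀ * S := by positivity
      nlinarith

end Vale.Agent.P347
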