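import Vale.Agent.P347.HeatPosterior

/-!
The heat semigroup on functions with bounded derivatives of all positive orders, and its
regularity in time and space.
-/

namespace Vale.Agent.P347

open MeasureTheory ProbabilityTheory Filter Set
open scoped Gradient RealInnerProductSpace ContDiff Topology

variable {d : ℕ} {F : Type*} [NormedAddCommGroup F] [NormedSpace ℝ F]

/-- Smooth with every derivative of positive order bounded. -/
structure SemiBdd (f : Euc d → F) : Prop where
  smooth : ContDiff ℝ ∞ f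
  fderiv : BddSmooth (fderiv ℝ f)

lemma BddSmooth.semiBdd {f : Euc d → F} (hf : BddSmooth f) : SemiBdd f :=
  ⟨hf.smooth, hf.fderiv⟩

namespace SemiBdd

variable {f : Euc d → F}

lemma continuous (hf : SemiBdd f) : Continuous f := hf.smooth.continuous

lemma differentiable (hf : SemiBdd f) : Differentiable ℝ f := hf.smooth.differentiable (by simp)

lemma growth (hf : SemiBdd f) : ∃ C : ℝ, 0 ≤ C ∧ ∀ x, ‖f x‖ ≤ C * (1 + ‖x‖) := by
  obtain ⟨D, hD0, hD⟩ := hf.fderiv.norm_le
  refine ⟨‖f 0‖ + D, by positivity, fun x => ?_⟩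
  have h := convex_univ.norm_image_sub_le_of_norm_fderiv_le (fun y _ => hf.differentiable y)
    (fun y _ => hD y) (mem_univ (0 : Euc d)) (mem_univ x)
  rw [sub_zero] at h
  nlinarith [norm_le_norm_add_norm_sub' (f x) (f 0), norm_nonneg (f 0), norm_nonneg x,
    mul_nonneg (norm_nonneg (f 0)) (norm_nonneg x)]

lemma heat_integrable (hf : SemiBdd f) (t : ℝ) (y : Euc d) :
    Integrable (fun η => f (y + √t • η)) (gauss d) := by
  obtain ⟨C, hC0, hC⟩ := hf.growth
  refine gauss_integrable_of_growth (hf.continuous.comp (by fun_prop)).aestronglyMeasurable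
    (C := C * (1 + ‖y‖ + √t)) (n := 1) fun η => (hC _).trans ?_
  rw [mul_assoc, pow_one]
  refine mul_le_mul_of_nonneg_left ?_ hC0
  refine (add_le_add le_rfl (norm_add_le _ _)).trans ?_
  rw [norm_smul, Real.norm_eq_abs, abs_of_nonneg (Real.sqrt_nonneg t)]
  nlinarith [norm_nonneg η, norm_nonneg y, Real.sqrt_nonneg t,
    mul_nonneg (norm_nonneg y) (norm_nonneg η)]

end SemiBdd

lemma semiBdd_heat_hasFDerivAt_joint [CompleteSpace F] {f : Euc d → F} (hf : SemiBdd f) {t : ℝ}
    (ht : 0 < t) (y : Euc d) :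
    HasFDerivAt (fun p : ℝ × Euc d => heat p.1 f p.2)
      ((ContinuousLinearMap.fst ℝ ℝ (Euc d)).smulRight ((1 / 2 : ℝ) • heat t (lapF f) y)
        + (heat t (fderiv ℝ f) y).comp (ContinuousLinearMap.snd ℝ ℝ (Euc d))) (t, y) := by
  obtain ⟨D, hD0, hD⟩ := hf.fderiv.norm_le
  have hc := hf.continuous
  have hc' := hf.fderiv.continuous
  set A : ℝ × Euc d → Euc d → (ℝ × Euc d →L[ℝ] Euc d) := fun p η =>
    ContinuousLinearMap.snd ℝ ℝ (Euc d)
      + (ContinuousLinearMap.fst ℝ ℝ (Euc d)).smulRight ((1 / (2 * √p.1)) • η) with hA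
  set B : ℝ × Euc d → Euc d → (ℝ × Euc d →L[ℝ] F) := fun p η =>
    (fderiv ℝ f (p.2 + √p.1 • η)).comp (A p η) with hB
  have hs : Set.Ioi (t / 2) ×ˢ (univ : Set (Euc d)) ∈ 𝓝 (t, y) :=
    (isOpen_Ioi.prod isOpen_univ).mem_nhds ⟨show t / 2 < t by linarith, trivial⟩
  have hAc : Continuous fun η => A (t, y) η := by
    simp only [hA]
    exact continuous_const.add ((ContinuousLinearMap.smulRightL ℝ (ℝ × Euc d) (Euc d)
      (ContinuousLinearMap.fst ℝ ℝ (Euc d))).continuous.comp (by fun_prop))
  have hBc : Continuous fun η => B (t, y) η := by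
    simp only [hB]
    exact (hc'.comp (by fun_prop)).clm_comp hAc
  have hbound : ∀ η, ∀ p ∈ Set.Ioi (t / 2) ×ˢ (univ : Set (Euc d)),
      ‖B p η‖ ≤ D * (1 + ‖η‖ / (2 * √(t / 2))) := by
    intro η p hp
    refine (ContinuousLinearMap.opNorm_comp_le _ _).trans (mul_le_mul (hD _) ?_ (norm_nonneg _) hD0)
    refine (norm_add_le _ _).trans (add_le_add (ContinuousLinearMap.norm_snd_le _ _ _) ?_)
    rw [ContinuousLinearMap.norm_smulRight_apply, norm_smul, Real.norm_eq_abs,
      abs_of_nonneg (by positivity)]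
    calc ‖ContinuousLinearMap.fst ℝ ℝ (Euc d)‖ * (1 / (2 * √p.1) * ‖η‖)
        ≤ 1 * (1 / (2 * √p.1) * ‖η‖) :=
          mul_le_mul_of_nonneg_right (ContinuousLinearMap.norm_fst_le _ _ _) (by positivity)
      _ ≤ ‖η‖ / (2 * √(t / 2)) := by
          rw [one_mul, one_div_mul_eq_div]
          have h2 : 0 < √(t / 2) := Real.sqrt_pos.2 (by linarith)
          have h3 : √(t / 2) ≤ √p.1 := Real.sqrt_le_sqrt (le_of_lt hp.1)
          gcongr
  have hint : Integrable (fun η : Euc d => D * (1 + ‖η‖ / (2 * √(t / 2)))) (gauss d) :=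
    (((integrable_const (1 : ℝ)).add
      ((by simpa using gauss_integrable_norm_pow (d := d) 1 : Integrable (fun η : Euc d => ‖η‖)
        (gauss d)).div_const _))).const_mul D
  have hBint : Integrable (fun η => B (t, y) η) (gauss d) :=
    Integrable.mono' hint hBc.aestronglyMeasurable
      (.of_forall fun η => hbound η _ ⟨show t / 2 < t by linarith, trivial⟩)
  have key := hasFDerivAt_integral_of_dominated_of_fderiv_le (μ := gauss d)
    (F := fun (p : ℝ × Euc d) η => f (p.2 + √p.1 • η)) (F' := B) hs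
    (.of_forall fun p => by fun_prop) (hf.heat_integrable t y) hBc.aestronglyMeasurable
    (.of_forall fun η p hp => hbound η p hp) hint
    (.of_forall fun η p hp => by
      have hp0 : 0 < p.1 := by
        have : t / 2 < p.1 := hp.1
        linarith
      have h1 : HasFDerivAt (fun p : ℝ × Euc d => p.2 + √p.1 • η) (A p η) p := by
        refine (hasFDerivAt_snd.add (((Real.hasDerivAt_sqrt hp0.ne').hasFDerivAt.comp p
          hasFDerivAt_fst).smul_const η)).congr_fderiv ?_
        simp only [hA]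
        ext q <;> simp [mul_smul]
      exact (hf.differentiable _).hasFDerivAt.comp p h1)
  refine key.congr_fderiv (ContinuousLinearMap.ext fun q => ?_)
  rw [ContinuousLinearMap.integral_apply hBint]
  have hI1 : Integrable (fun η => fderiv ℝ f (y + √t • η) q.2) (gauss d) :=
    (hf.fderiv.clm (ContinuousLinearMap.apply ℝ F q.2)).heat_integrable t y
  have hI2 : ∀ i : Fin d, Integrable
      (fun η => ⟪unitVec i, η⟫ • fderiv ℝ f (y + √t • η) (unitVec i)) (gauss d) := fun i => by
    obtain ⟨C, hC0, hC⟩ := (hf.fderiv.clm (ContinuousLinearMap.apply ℝ F (unitVec i))).norm_le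
    refine gauss_integrable_of_growth (by fun_prop) (C := C) (n := 1) fun x => ?_
    rw [norm_smul, Real.norm_eq_abs, pow_one]
    have h := abs_real_inner_le_norm (unitVec i) x
    simp only [unitVec, PiLp.norm_single, norm_one, one_mul] at h
    calc |⟪unitVec i, x⟫| * ‖fderiv ℝ f (y + √t • x) (unitVec i)‖ ≤ ‖x‖ * C :=
          mul_le_mul h (hC _) (norm_nonneg _) (norm_nonneg _)
      _ ≤ C * (1 + ‖x‖) := by nlinarith
  have hsplit : (fun η => B (t, y) η q) = fun η => fderiv ℝ f (y + √t • η) q.2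
      + (q.1 / (2 * √t)) • ∑ i, ⟪unitVec i, η⟫ • fderiv ℝ f (y + √t • η) (unitVec i) := by
    funext η
    have e : ∑ i, ⟪unitVec i, η⟫ • fderiv ℝ f (y + √t • η) (unitVec i)
        = fderiv ℝ f (y + √t • η) η := by
      simp only [← map_smul, ← map_sum, sum_inner_smul_unitVec]
    rw [e]
    simp only [hB, hA, ContinuousLinearMap.comp_apply, add_apply,
      ContinuousLinearMap.coe_snd', ContinuousLinearMap.smulRight_apply,
      ContinuousLinearMap.coe_fst', map_add, map_smul, smul_smul]
    congr 2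
    ring
  have hI3 : Integrable (fun η => (q.1 / (2 * √t)) •
      ∑ i, ⟪unitVec i, η⟫ • fderiv ℝ f (y + √t • η) (unitVec i)) (gauss d) :=
    Integrable.smul (q.1 / (2 * √t)) (integrable_finsetSum Finset.univ fun i _ => hI2 i)
  rw [hsplit, integral_add hI1 hI3, integral_smul, integral_finsetSum _ fun i _ => hI2 i]
  have hibp : ∀ i : Fin d, ∫ η, ⟪unitVec i, η⟫ • fderiv ℝ f (y + √t • η) (unitVec i) ∂(gauss d)
      = √t • heat t (fun z => fderiv ℝ (fderiv ℝ f) z (unitVec i) (unitVec i)) y := by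
    intro i
    have hg := hf.fderiv.clm (ContinuousLinearMap.apply ℝ F (unitVec i))
    have hcomp : BddSmooth fun η : Euc d => fderiv ℝ f (y + √t • η) (unitVec i) := by
      refine ⟨hg.smooth.comp (by fun_prop), fun n => ?_⟩
      obtain ⟨C, hC⟩ := hg.bdd n
      refine ⟨C * (∏ _i : Fin n, ‖(√t • ContinuousLinearMap.id ℝ (Euc d))‖), fun x => ?_⟩
      have e := (√t • ContinuousLinearMap.id ℝ (Euc d)).iteratedFDeriv_comp_right
        (f := fun z => fderiv ℝ f (y + z) (unitVec i)) (hg.smooth.comp (by fun_prop)) x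
        (i := n) (by exact_mod_cast le_top)
      have e' : ((fun z => fderiv ℝ f (y + z) (unitVec i)) ∘ ⇑(√t • ContinuousLinearMap.id ℝ (Euc d)))
          = fun η : Euc d => fderiv ℝ f (y + √t • η) (unitVec i) := by
        funext η; simp
      rw [e'] at e
      rw [e]
      refine (ContinuousMultilinearMap.norm_compContinuousLinearMap_le _ _).trans ?_
      gcongr
      rw [iteratedFDeriv_comp_add_left' (f := fun z => fderiv ℝ f z (unitVec i)) n y]
      exact hC _
    rw [gauss_ibp_vec hcomp, heat, ← integral_smul]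
    refine integral_congr_ae (.of_forall fun η => ?_)
    have h1 : HasFDerivAt (fun η : Euc d => y + √t • η) (√t • ContinuousLinearMap.id ℝ (Euc d)) η :=
      ((hasFDerivAt_id η).const_smul (√t)).const_add y
    have h2 := ((ContinuousLinearMap.apply ℝ F (unitVec i)).hasFDerivAt.comp η
      ((hf.fderiv.differentiable (y + √t • η)).hasFDerivAt.comp η h1)).fderiv
    simp only [Function.comp_def, ContinuousLinearMap.apply_apply] at h2
    simp only [h2]
    simp
  simp only [hibp, ← Finset.smul_sum, smul_smul]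
  have hlap : heat t (lapF f) y
      = ∑ i, heat t (fun z => fderiv ℝ (fderiv ℝ f) z (unitVec i) (unitVec i)) y :=
    integral_finsetSum _ fun i _ =>
      ((hf.fderiv.fderiv.clm (ContinuousLinearMap.apply ℝ (Euc d →L[ℝ] F) (unitVec i))).clm
        (ContinuousLinearMap.apply ℝ F (unitVec i))).heat_integrable t y
  rw [hlap]
  simp only [add_apply, ContinuousLinearMap.comp_apply,
    ContinuousLinearMap.coe_snd', ContinuousLinearMap.smulRight_apply,
    ContinuousLinearMap.coe_fst', smul_smul]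
  rw [show q.1 / (2 * √t) * √t = q.1 * (1 / 2) by field_simp,
    show (∫ η, fderiv ℝ f (y + √t • η) q.2 ∂(gauss d)) = heat t (fderiv ℝ f) y q.2 from
      (ContinuousLinearMap.apply ℝ F q.2).integral_comp_comm (hf.fderiv.heat_integrable t y)]
  abel

/-- The time reflection `(s, x) ↦ (T - s, x)`, linear part. -/
noncomputable def reflL (d : ℕ) : ℝ × Euc d →L[ℝ] ℝ × Euc d :=
  (-ContinuousLinearMap.id ℝ ℝ).prodMap (ContinuousLinearMap.id ℝ (Euc d))

lemma hasFDerivAt_heat_back [CompleteSpace F] {f : Euc d → F} (hf : SemiBdd f) {T : ℝ}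
    {p : ℝ × Euc d} (hp : p.1 < T) :
    HasFDerivAt (fun q : ℝ × Euc d => heat (T - q.1) f q.2)
      ((coprodL F d (heat (T - p.1) (lapF f) p.2, heat (T - p.1) (fderiv ℝ f) p.2)).comp (reflL d))
      p := by
  have h1 : HasFDerivAt (fun q : ℝ × Euc d => (T - q.1, q.2)) (reflL d) p := by
    refine ((hasFDerivAt_fst.const_sub T).prodMk hasFDerivAt_snd).congr_fderiv ?_
    ext q <;> simp [reflL]
  refine ((semiBdd_heat_hasFDerivAt_joint hf (sub_pos.2 hp) p.2).comp p h1).congr_fderiv ?_
  ext q <;> simp [coprodL, reflL, smul_smul]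

lemma heat_back_growth {f : Euc d → F} (hf : SemiBdd f) {T : ℝ} {J : Set ℝ} (hJ : IsCompact J) :
    ∃ (C : ℝ) (p : ℕ), ∀ t ∈ J, ∀ x : Euc d, ‖heat (T - t) f x‖ ≤ C * (1 + ‖x‖) ^ p := by
  obtain ⟨C, hC0, hC⟩ := hf.growth
  obtain ⟨R, hR⟩ := hJ.isBounded.exists_norm_le
  have hi : Integrable (fun η : Euc d => 1 + ‖η‖) (gauss d) :=
    (integrable_const 1).add (by simpa using gauss_integrable_norm_pow (d := d) 1)
  refine ⟨C * (1 + √(|T| + R)) * ∫ η : Euc d, (1 + ‖η‖) ∂(gauss d), 1, fun t ht x => ?_⟩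
  have ht' : √(T - t) ≤ √(|T| + R) := Real.sqrt_le_sqrt (by
    have := hR t ht
    rw [Real.norm_eq_abs] at this
    linarith [neg_abs_le t, le_abs_self T])
  refine (norm_integral_le_of_norm_le (hi.const_mul (C * (1 + √(|T| + R)) * (1 + ‖x‖)))
    (.of_forall fun η => ?_)).trans_eq (by rw [integral_const_mul, pow_one]; ring)
  refine (hC _).trans ?_
  rw [mul_assoc (C * (1 + √(|T| + R))), mul_assoc C]
  refine mul_le_mul_of_nonneg_left ?_ hC0
  refine (add_le_add le_rfl (norm_add_le _ _)).trans ?_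
  rw [norm_smul, Real.norm_eq_abs, abs_of_nonneg (Real.sqrt_nonneg _)]
  have hs : √(T - t) * ‖η‖ ≤ √(|T| + R) * ‖η‖ := mul_le_mul_of_nonneg_right ht' (norm_nonneg η)
  have h0 := Real.sqrt_nonneg (|T| + R)
  nlinarith [norm_nonneg x, norm_nonneg η, mul_nonneg (norm_nonneg x) (norm_nonneg η),
    mul_nonneg h0 (norm_nonneg x), mul_nonneg (mul_nonneg h0 (norm_nonneg x)) (norm_nonneg η)]

lemma continuousOn_heat_back [CompleteSpace F] {f : Euc d → F} (hf : SemiBdd f) {T : ℝ} :
    ContinuousOn (fun q : ℝ × Euc d => heat (T - q.1) f q.2) (Iio T ×ˢ univ) := fun p hp =>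
  (hasFDerivAt_heat_back hf hp.1).continuousAt.continuousWithinAt

lemma heat_back_tameN (n : ℕ) : ∀ {F : Type} [NormedAddCommGroup F] [NormedSpace ℝ F]
    [CompleteSpace F] {f : Euc d → F}, BddSmooth f → ∀ T : ℝ,
    TameN (Iio T) n fun q : ℝ × Euc d => heat (T - q.1) f q.2 := by
  induction n with
  | zero =>
    intro F _ _ _ f hf T
    exact TameN.of_base (continuousOn_heat_back hf.semiBdd)
      fun J hJ _ => heat_back_growth hf.semiBdd hJ
  | succ n ih =>
    intro F _ _ _ f hf T
    refine TameN.step isOpen_Iio (fun p hp =>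
      (hasFDerivAt_heat_back hf.semiBdd hp.1).differentiableAt.differentiableWithinAt)
      (fun J hJ _ => heat_back_growth hf.semiBdd hJ) ?_
    exact (((((ih hf.lapF T).clm isOpen_Iio (ContinuousLinearMap.inl ℝ F (Euc d →L[ℝ] F))).add
      isOpen_Iio ((ih hf.fderiv T).clm isOpen_Iio
        (ContinuousLinearMap.inr ℝ F (Euc d →L[ℝ] F)))).clm isOpen_Iio (coprodL F d)).clm
      isOpen_Iio ((ContinuousLinearMap.compL ℝ (ℝ × Euc d) (ℝ × Euc d) F).flip (reflL d))).congr
      isOpen_Iio fun p hp => by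
        rw [(hasFDerivAt_heat_back hf.semiBdd hp.1).fderiv]
        simp

/-- The backward heat evolution of a `SemiBdd` function is tame in time and space. -/
lemma SemiBdd.heat_back_tame {F : Type} [NormedAddCommGroup F] [NormedSpace ℝ F] [CompleteSpace F]
    {f : Euc d → F} (hf : SemiBdd f) (T : ℝ) :
    Tame (Iio T) fun s x => heat (T - s) f x := by
  refine tame_of_tameN fun n => ?_
  cases n with
  | zero =>
    exact TameN.of_base (continuousOn_heat_back hf) fun J hJ _ => heat_back_growth hf hJ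
  | succ n =>
    have hlap : BddSmooth (lapF f) :=
      BddSmooth.sum _ fun i _ => ((hf.fderiv.fderiv.clm
        (ContinuousLinearMap.apply ℝ (Euc d →L[ℝ] F) (unitVec i))).clm
          (ContinuousLinearMap.apply ℝ F (unitVec i)))
    refine TameN.step isOpen_Iio (fun p hp =>
      (hasFDerivAt_heat_back hf hp.1).differentiableAt.differentiableWithinAt)
      (fun J hJ _ => heat_back_growth hf hJ) ?_
    exact (((((heat_back_tameN n hlap T).clm isOpen_Iio
        (ContinuousLinearMap.inl ℝ F (Euc d →L[ℝ] F))).add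
      isOpen_Iio ((heat_back_tameN n hf.fderiv T).clm isOpen_Iio
        (ContinuousLinearMap.inr ℝ F (Euc d →L[ℝ] F)))).clm isOpen_Iio (coprodL F d)).clm
      isOpen_Iio ((ContinuousLinearMap.compL ℝ (ℝ × Euc d) (ℝ × Euc d) F).flip (reflL d))).congr
      isOpen_Iio fun p hp => by
        rw [(hasFDerivAt_heat_back hf hp.1).fderiv]
        simp

end Vale.Agent.P347
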