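import Vale.Agent.P347.CurveWords
import Vale.Agent.P347.GaussAvg
import Vale.Agent.P347.HeatSemi

/-!
Backward heat evolutions of fields with bounded derivatives: smoothness up to the final time and
the words along them.
-/

namespace Vale.Agent.P347

open MeasureTheory ProbabilityTheory Filter Set
open scoped Gradient RealInnerProductSpace ContDiff Topology

variable {d k : ℕ}

section General

variable {F : Type} [NormedAddCommGroup F] [NormedSpace ℝ F] [CompleteSpace F] {f : Euc d → F}

omit [CompleteSpace F] in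
lemma BddSmooth.temperate (hf : BddSmooth f) : Function.HasTemperateGrowth f :=
  ⟨hf.smooth, fun n => by
    obtain ⟨C, hC⟩ := hf.bdd n
    exact ⟨0, C, fun x => by simpa using hC x⟩⟩

omit [CompleteSpace F] in
lemma SemiBdd.temperate (hf : SemiBdd f) : Function.HasTemperateGrowth f := by
  obtain ⟨C, -, hC⟩ := hf.growth
  exact Function.HasTemperateGrowth.of_fderiv (k := 1) (C := C) hf.fderiv.temperate
    hf.differentiable fun x => by simpa using hC x

omit [CompleteSpace F] in
lemma continuous_heat_back (hf : Function.HasTemperateGrowth f) (T : ℝ) :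
    Continuous fun q : ℝ × Euc d => heat (T - q.1) f q.2 :=
  (avgAt_temperate hf).1.continuous.comp (f := fun q : ℝ × Euc d => (√(T - q.1), q.2))
    (by fun_prop)

omit [CompleteSpace F] in
lemma SemiBdd.lapF_bdd (hf : SemiBdd f) : BddSmooth (lapF f) :=
  BddSmooth.sum _ fun i _ => ((hf.fderiv.fderiv.clm
    (ContinuousLinearMap.apply ℝ (Euc d →L[ℝ] F) (unitVec i))).clm
      (ContinuousLinearMap.apply ℝ F (unitVec i)))

end General

/-- The backward heat evolution is smooth up to the final time. -/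
lemma contDiffOn_heat_back_closed (n : ℕ) : ∀ {F : Type} [NormedAddCommGroup F] [NormedSpace ℝ F]
    [CompleteSpace F] {f : Euc d → F}, SemiBdd f → ∀ T : ℝ,
    ContDiffOn ℝ n (fun q : ℝ × Euc d => heat (T - q.1) f q.2) (Iic T ×ˢ univ) := by
  induction n with
  | zero =>
    intro F _ _ _ f hf T
    exact contDiffOn_zero.2 (continuous_heat_back hf.temperate T).continuousOn
  | succ n ih =>
    intro F _ _ _ f hf T
    set f' : ℝ × Euc d → ℝ × Euc d →L[ℝ] F := fun q =>
      (coprodL F d (heat (T - q.1) (lapF f) q.2, heat (T - q.1) (fderiv ℝ f) q.2)).comp (reflL d)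
    have hc : Continuous f' := (((coprodL F d).continuous.comp
      ((continuous_heat_back hf.lapF_bdd.temperate T).prodMk
        (continuous_heat_back hf.fderiv.temperate T)))).clm_comp continuous_const
    have hd : ∀ p ∈ Iio T ×ˢ (univ : Set (Euc d)),
        HasFDerivAt (fun q : ℝ × Euc d => heat (T - q.1) f q.2) (f' p) p := fun p hp =>
      hasFDerivAt_heat_back hf hp.1
    have hcl : closure (Iio T ×ˢ (univ : Set (Euc d))) = Iic T ×ˢ univ := by
      rw [closure_prod_eq, closure_Iio, closure_univ]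
    have hu : UniqueDiffOn ℝ (Iic T ×ˢ (univ : Set (Euc d))) :=
      (uniqueDiffOn_Iic T).prod uniqueDiffOn_univ
    push_cast
    refine (contDiffOn_succ_iff_hasFDerivWithinAt_of_uniqueDiffOn hu).2
      ⟨fun h => absurd h (by simp), f', ?_, fun p hp => ?_⟩
    · exact ((ContinuousLinearMap.compL ℝ (ℝ × Euc d) (ℝ × Euc d) F).flip (reflL d)).contDiff
        |>.comp_contDiffOn ((coprodL F d).contDiff.comp_contDiffOn
          ((ih hf.lapF_bdd.semiBdd T).prodMk (ih hf.fderiv.semiBdd T)))
    · rw [← hcl]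
      refine hasFDerivWithinAt_closure_of_tendsto_fderiv
        (fun q hq => (hd q hq).differentiableAt.differentiableWithinAt)
        ((convex_Iio T).prod convex_univ) (isOpen_Iio.prod isOpen_univ)
        (fun q _ => (continuous_heat_back hf.temperate T).continuousWithinAt) ?_
      exact (hc.continuousWithinAt.tendsto).congr' (eventually_nhdsWithin_of_forall
        fun q hq => (hd q hq).fderiv.symm)

/-- The linear map turning a derivative into a gradient tensor. -/
noncomputable def nablaL (d k : ℕ) : (Euc d →L[ℝ] Ten (Fin d) k) →L[ℝ] Ten (Fin d) (k + 1) :=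
  LinearMap.toContinuousLinearMap
    { toFun := fun A => WithLp.toLp 2 fun α => A (EuclideanSpace.single (α 0) 1) (Fin.tail α)
      map_add' := fun A B => by ext α; simp
      map_smul' := fun c A => by ext α; simp }

lemma nabla_eq_nablaL (f : Euc d → Ten (Fin d) k) (x : Euc d) :
    nabla f x = nablaL d k (fderiv ℝ f x) := rfl

lemma SemiBdd.nabla_bdd {h : Euc d → Ten (Fin d) k} (hh : SemiBdd h) : BddSmooth (nabla h) := by
  rw [show nabla h = fun x => nablaL d k (_root_.fderiv ℝ h x) from funext (nabla_eq_nablaL h)]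
  exact hh.fderiv.clm (nablaL d k)

lemma fderiv_heat_back_space {F : Type} [NormedAddCommGroup F] [NormedSpace ℝ F] [CompleteSpace F]
    {h : Euc d → F} (hh : SemiBdd h) {T s : ℝ} (hs : s < T) (x : Euc d) :
    fderiv ℝ (fun z => heat (T - s) h z) x = heat (T - s) (fderiv ℝ h) x := by
  have hp : HasFDerivAt (fun z => heat (T - s) h z) _ x :=
    (hasFDerivAt_heat_back hh (p := (s, x)) hs).comp x (hasFDerivAt_prodMk_right (𝕜 := ℝ) s x)
  rw [hp.fderiv]
  ext v
  simp [coprodL, reflL]

lemma nabla_heat_back {h : Euc d → Ten (Fin d) k} (hh : SemiBdd h) {T s : ℝ} (hs : s < T) :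
    nabla (fun x => heat (T - s) h x) = fun x => heat (T - s) (nabla h) x := by
  funext x
  rw [nabla_eq_nablaL, fderiv_heat_back_space hh hs, heat,
    ← (nablaL d k).integral_comp_comm (hh.fderiv.heat_integrable _ x)]
  rfl

lemma heatOp_heat_back {h : Euc d → Ten (Fin d) k} (hh : SemiBdd h) {T s : ℝ} (hs : s < T)
    (x : Euc d) : heatOp (fun t y => heat (T - t) h y) s x = 0 := by
  have ht := (hasFDerivAt_heat_back hh (p := (s, x)) hs).fderiv
  have h1 : ∀ v, (fun z => fderiv ℝ (fun y => heat (T - s) h y) z v)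
      = fun z => heat (T - s) (fun y => fderiv ℝ h y v) z := fun v => funext fun z => by
    rw [fderiv_heat_back_space hh hs]
    exact ((ContinuousLinearMap.apply ℝ (Ten (Fin d) k) v).integral_comp_comm
      (hh.fderiv.heat_integrable _ z)).symm
  have h2 : ∀ i, fderiv ℝ (fun z => fderiv ℝ (fun y => heat (T - s) h y) z (unitVec i)) x
      (unitVec i) = heat (T - s) (fun y => fderiv ℝ (fderiv ℝ h) y (unitVec i) (unitVec i)) x := by
    intro i
    set A := ContinuousLinearMap.apply ℝ (Ten (Fin d) k) (unitVec i : Euc d)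
    have hb : BddSmooth (fun y => fderiv ℝ h y (unitVec i)) := hh.fderiv.clm A
    rw [h1, fderiv_heat_back_space hb.semiBdd hs, heat,
      ← ContinuousLinearMap.apply_apply (𝕜 := ℝ) (unitVec i)
        (∫ η, fderiv ℝ (fun y => fderiv ℝ h y (unitVec i)) (x + √(T - s) • η) ∂(gauss d)),
      ← A.integral_comp_comm (hb.fderiv.heat_integrable _ x)]
    refine integral_congr_ae (.of_forall fun η => ?_)
    have h3 := (A.hasFDerivAt.comp (x + √(T - s) • η)
      (hh.fderiv.differentiable (x + √(T - s) • η)).hasFDerivAt).fderiv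
    simp only [Function.comp_def, A, ContinuousLinearMap.apply_apply] at h3
    show fderiv ℝ (fun y => fderiv ℝ h y (unitVec i)) _ (unitVec i) = _
    rw [h3]
    rfl
  have hlap : heat (T - s) (lapF h) x
      = ∑ i, heat (T - s) (fun z => fderiv ℝ (fderiv ℝ h) z (unitVec i) (unitVec i)) x :=
    integral_finsetSum _ fun i _ =>
      ((hh.fderiv.fderiv.clm (ContinuousLinearMap.apply ℝ (Euc d →L[ℝ] Ten (Fin d) k)
        (unitVec i))).clm (ContinuousLinearMap.apply ℝ _ (unitVec i))).heat_integrable _ x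
  simp only [heatOp, ht, h2, ← hlap]
  simp [coprodL, reflL]

/-! ### Words along the evolution -/

/-- The mass in `L²` of a level of all iterated gradients up to order `m`. -/
noncomputable def gradSum (W : Euc d → ℝ) (T : ℝ) :
    (m : ℕ) → {k : ℕ} → (Euc d → Ten (Fin d) k) → ℝ
  | 0, _, h => ∫ x, ‖h x‖ ^ 2 ∂(levelLaw W T)
  | m + 1, _, h => gradSum W T m h + gradSum W T m (nabla h)

lemma gradSum_le_wordSum (W : Euc d → ℝ) (T : ℝ) (m : ℕ) :
    ∀ {k : ℕ} (f : ℝ → Euc d → Ten (Fin d) k), gradSum W T m (f T) ≤ wordSum W m f T := by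
  induction m with
  | zero => intro k f; exact le_rfl
  | succ m ih =>
    intro k f
    have h1 := wordSum_nonneg (W := W) m (heatOp f) T
    have h2 := ih (fun t => nabla (f t))
    simp only [gradSum, wordSum]
    linarith [ih f]

/-- The square of a Gaussian average at most the average of the square. -/
lemma SemiBdd.heat_sq_le {h : Euc d → Ten (Fin d) k} (hh : SemiBdd h) (r : ℝ) (x : Euc d) :
    ‖heat r h x‖ ^ 2 ≤ ∫ η, ‖h (x + √r • η)‖ ^ 2 ∂(gauss d) := by
  have hm : Continuous fun η => h (x + √r • η) := hh.continuous.comp (by fun_prop)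
  obtain ⟨C, hC0, hC⟩ := hh.growth
  have hi : Integrable (fun η => ‖h (x + √r • η)‖ ^ 2) (gauss d) := by
    refine gauss_integrable_of_growth (hm.norm.pow 2).aestronglyMeasurable
      (C := C ^ 2 * (1 + ‖x‖ + √r) ^ 2 * 2) (n := 2) fun η => ?_
    rw [Real.norm_eq_abs, abs_of_nonneg (by positivity)]
    have h1 : ‖h (x + √r • η)‖ ≤ C * ((1 + ‖x‖ + √r) * (1 + ‖η‖)) := by
      refine (hC _).trans (mul_le_mul_of_nonneg_left ?_ hC0)
      refine (add_le_add le_rfl (norm_add_le _ _)).trans ?_
      rw [norm_smul, Real.norm_eq_abs, abs_of_nonneg (Real.sqrt_nonneg _)]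
      nlinarith [norm_nonneg η, norm_nonneg x, Real.sqrt_nonneg r]
    have h2 : (1 + ‖η‖) ^ 2 ≤ 2 * (1 + ‖η‖ ^ 2) := by nlinarith [sq_nonneg (‖η‖ - 1)]
    calc ‖h (x + √r • η)‖ ^ 2 ≤ (C * ((1 + ‖x‖ + √r) * (1 + ‖η‖))) ^ 2 :=
          pow_le_pow_left₀ (norm_nonneg _) h1 2
      _ = C ^ 2 * (1 + ‖x‖ + √r) ^ 2 * (1 + ‖η‖) ^ 2 := by ring
      _ ≤ C ^ 2 * (1 + ‖x‖ + √r) ^ 2 * (2 * (1 + ‖η‖ ^ 2)) :=
          mul_le_mul_of_nonneg_left h2 (by positivity)
      _ = _ := by ring
  have h0 : 0 ≤ ∫ η, ‖h (x + √r • η)‖ ^ 2 ∂(gauss d) := integral_nonneg fun η => sq_nonneg _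
  have hb := (norm_le_of_sq_le hm.aestronglyMeasurable (Real.sqrt_nonneg _) hi
    (Real.sq_sqrt h0).ge).2
  refine (pow_le_pow_left₀ (norm_nonneg _) ((norm_integral_le_integral_norm _).trans hb) 2).trans
    (Real.sq_sqrt h0).le

/-- The words along a backward evolution are controlled by the final gradients. -/
lemma wordSum_heat_le {W : Euc d → ℝ} (hW : Weight W) {T s : ℝ} (hs0 : 0 ≤ s) (hs : s < T)
    (m : ℕ) : ∀ {k : ℕ} {h : Euc d → Ten (Fin d) k}, SemiBdd h →
      wordSum W m (fun t x => heat (T - t) h x) s ≤ gradSum W T m h := by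
  induction m with
  | zero =>
    intro k h hh
    have hU := hW.smoothPot (hs0.trans hs.le)
    obtain ⟨C, -, hC⟩ := hh.growth
    have hi : Integrable (fun x => ‖h x‖ ^ 2) (levelLaw W T) := by
      refine hU.integrable_gibbs (hh.continuous.norm.pow 2) (C := C ^ 2) (p := 2) fun x => ?_
      rw [Real.norm_eq_abs, abs_of_nonneg (by positivity), ← mul_pow]
      exact pow_le_pow_left₀ (norm_nonneg _) (hC x) 2
    have hT : s + √(T - s) ^ 2 = T := by rw [Real.sq_sqrt (by linarith)]; ring
    obtain ⟨i1, e1⟩ := level_conv hW hs0 (√(T - s)) (h := fun x => ‖h x‖ ^ 2)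
      (hh.continuous.norm.pow 2) (by rwa [hT])
    rw [hT] at e1
    simp only [wordSum, gradSum]
    rw [← e1]
    exact integral_mono_of_nonneg (.of_forall fun x => sq_nonneg _) i1
      (.of_forall fun x => hh.heat_sq_le _ x)
  | succ m ih =>
    intro k h hh
    simp only [wordSum, gradSum]
    rw [wordSum_congr m isOpen_Iio (f := fun t => nabla fun x => heat (T - t) h x)
        (g := fun t x => heat (T - t) (nabla h) x) (fun t ht => nabla_heat_back hh ht) hs,
      wordSum_congr m isOpen_Iio (f := heatOp fun t x => heat (T - t) h x)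
        (g := fun _ _ => (0 : Ten (Fin d) k)) (fun t ht => funext (heatOp_heat_back hh ht)) hs,
      wordSum_zero, add_zero]
    exact add_le_add (ih hh) (ih hh.nabla_bdd.semiBdd)

end Vale.Agent.P347
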