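import Vale.Agent.P347.CurveSeq

/-!
Scaling of a potential to unit time and the transport of curves.
-/

namespace Vale.Agent.P347

open MeasureTheory ProbabilityTheory Filter Set
open scoped Gradient RealInnerProductSpace ContDiff Topology ENNReal

variable {d k : ℕ} {V : Euc d → ℝ}

/-- The potential seen at unit time from time `σ`. -/
noncomputable def rescalePot (V : Euc d → ℝ) (σ : ℝ) (z : Euc d) : ℝ := V (√σ • z)

lemma NicePot.rescale {l L σ : ℝ} (hV : NicePot d V l L) (hσ : 0 < σ) :
    NicePot d (rescalePot V σ) (σ * l) (σ * L) := by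
  set A := √σ • ContinuousLinearMap.id ℝ (Euc d) with hA
  have hd : ∀ z, HasFDerivAt (fun z : Euc d => √σ • z) A z := fun z =>
    (hasFDerivAt_id z).const_smul √σ
  have h1 : fderiv ℝ (rescalePot V σ) = fun z => √σ • fderiv ℝ V (√σ • z) := funext fun z => by
    have h : HasFDerivAt (rescalePot V σ) _ z :=
      (hV.smooth.differentiable (by simp) _).hasFDerivAt.comp z (hd z)
    rw [h.fderiv]
    ext v; simp [hA]
  have h2 : ∀ z u v, fderiv ℝ (fderiv ℝ (rescalePot V σ)) z u v
      = σ * fderiv ℝ (fderiv ℝ V) (√σ • z) u v := fun z u v => by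
    have h : HasFDerivAt (fun z => √σ • fderiv ℝ V (√σ • z)) _ z :=
      ((hV.contDiff_fderiv.differentiable (by simp) _).hasFDerivAt.comp z (hd z)).const_smul √σ
    rw [h1, h.fderiv]
    simp [hA, ← mul_assoc, Real.mul_self_sqrt hσ.le]
  refine ⟨mul_pos hσ hV.pos, hV.smooth.comp A.contDiff, fun x v => ?_, fun x v => ?_,
    fun n hn => ?_⟩
  · rw [h2, mul_assoc]; exact mul_le_mul_of_nonneg_left (hV.hessian_lower _ v) hσ.le
  · rw [h2, mul_assoc]; exact mul_le_mul_of_nonneg_left (hV.hessian_upper _ v) hσ.le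
  · obtain ⟨C, hC⟩ := hV.higher n hn
    refine ⟨|C| * ‖A‖ ^ n, fun x => ?_⟩
    rw [show rescalePot V σ = V ∘ A from rfl,
      A.iteratedFDeriv_comp_right hV.smooth x (by exact_mod_cast le_top)]
    refine (ContinuousMultilinearMap.norm_compContinuousLinearMap_le _ _).trans ?_
    simp only [Finset.prod_const, Finset.card_univ, Fintype.card_fin]
    exact mul_le_mul_of_nonneg_right ((hC _).trans (le_abs_self C)) (by positivity)

lemma smoothPot_rescale (V : Euc d → ℝ) {σ : ℝ} (hσ : 0 ≤ σ) (s : ℝ) :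
    smoothPot (rescalePot V σ) s = fun w => smoothPot V (σ * s) (√σ • w) := by
  funext w
  simp only [smoothPot, smoothDensity, heat, rescalePot, smul_add, smul_smul, Real.sqrt_mul hσ]

lemma score_rescale (hV : Weight V) {σ s : ℝ} (hσ : 0 < σ) (hs : 0 < s) (w : Euc d) :
    score (rescalePot V σ) s w = √σ • score V (σ * s) (√σ • w) := by
  refine ext_inner_right ℝ fun v => ?_
  rw [score, inner_gradient, real_inner_smul_left, score, inner_gradient, smoothPot_rescale V hσ.le]
  have h : HasFDerivAt (fun w => smoothPot V (σ * s) (√σ • w)) _ w :=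
    ((hV.smoothPot (mul_pos hσ hs).le).differentiable _).hasFDerivAt.comp w
      ((hasFDerivAt_id w).const_smul √σ)
  rw [h.fderiv]
  simp

/-- Gibbs laws under a change of scale. -/
lemma gibbs_map_smul (U : Euc d → ℝ) (hU : Continuous U) {r : ℝ} (hr : 0 < r) :
    (gibbs fun z => U (r • z)).map (fun z => r • z) = gibbs U := by
  set S : Euc d → Euc d := fun z => r • z
  have hS : Measurable S := by fun_prop
  set c : ℝ := (r ^ d)⁻¹
  have hc : 0 < c := by positivity
  have hmap : (volume : Measure (Euc d)).map S = ENNReal.ofReal c • volume := by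
    have h := Measure.map_addHaar_smul (volume : Measure (Euc d)) hr.ne'
    rw [finrank_euclideanSpace_fin] at h
    rwa [abs_of_pos hc] at h
  have hZ : ∫ z, Real.exp (-U (r • z)) = c * ∫ z, Real.exp (-U z) := by
    have h := Measure.integral_comp_smul (volume : Measure (Euc d)) (fun u => Real.exp (-U u)) r
    rw [finrank_euclideanSpace_fin, abs_of_pos hc] at h
    exact h
  refine Measure.ext fun B hB => ?_
  rw [Measure.map_apply hS hB, gibbs, gibbs, tilted_apply' _ _ (hS hB), tilted_apply' _ _ hB, hZ]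
  have hm : Measurable fun y =>
      ENNReal.ofReal (Real.exp (-U y) / (c * ∫ z, Real.exp (-U z))) := by fun_prop
  calc ∫⁻ z in S ⁻¹' B, ENNReal.ofReal (Real.exp (-U (r • z)) / (c * ∫ z, Real.exp (-U z)))
      = ∫⁻ y in B, ENNReal.ofReal (Real.exp (-U y) / (c * ∫ z, Real.exp (-U z)))
          ∂((volume : Measure (Euc d)).map S) := (setLIntegral_map hB hm hS).symm
    _ = _ := by
        rw [hmap, Measure.restrict_smul, lintegral_smul_measure, smul_eq_mul,
          ← lintegral_const_mul _ hm]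
        refine lintegral_congr fun y => ?_
        rw [← ENNReal.ofReal_mul hc.le]
        congr 1
        field_simp

lemma levelLaw_rescale (hV : Weight V) {σ : ℝ} (hσ : 0 < σ) :
    (levelLaw V σ).map (fun y => (√σ)⁻¹ • y) = levelLaw (rescalePot V σ) 1 := by
  have hr : 0 < √σ := Real.sqrt_pos.2 hσ
  rw [levelLaw, levelLaw, smoothPot_rescale V hσ.le, mul_one,
    ← gibbs_map_smul _ (hV.smoothPot hσ.le).continuous hr,
    Measure.map_map (by fun_prop) (by fun_prop)]
  simp [Function.comp_def, smul_smul, inv_mul_cancel₀ hr.ne']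

/-- Transport of a curve along a change of scale. -/
lemma CurveMean.transport {Ω Ω' E : Type*} [TopologicalSpace Ω] [MeasurableSpace Ω]
    [OpensMeasurableSpace Ω] [TopologicalSpace Ω'] [MeasurableSpace Ω'] [BorelSpace Ω']
    [NormedAddCommGroup E] [NormedSpace ℝ E]
    {μ' : Measure Ω'} {a' b' : ℝ} {G' : ℝ → Ω' → E} {B : ℕ → ℝ}
    (h : CurveMean μ' a' b' G' B) (T : E →L[ℝ] Euc d) (hT : ∀ x, ‖T x‖ ≤ ‖x‖) {c r : ℝ}
    (hc : 0 ≤ c) (hr : 0 < r) {μ : Measure Ω} {S : Ω → Ω'} (hS : Continuous S)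
    (hSμ : μ.map S = μ') {a b : ℝ} (ha : a = r * a') (hb : b = r * b') {G : ℝ → Ω → Euc d}
    (hG : ∀ t ∈ Icc a b, ∀ w, G t w = c • T (G' (t / r) (S w))) {B' : ℕ → ℝ → ℝ}
    (hB : ∀ k t, c / r ^ k * B k ≤ B' k t) : CurveBound μ a b G B' := by
  obtain ⟨D, h0, hc', hd, hi⟩ := h
  have hmem : ∀ t ∈ Icc a b, t / r ∈ Icc a' b' := fun t ht =>
    ⟨by rw [le_div_iff₀ hr]; linarith [ht.1], by rw [div_le_iff₀ hr]; linarith [ht.2]⟩
  refine ⟨fun k t w => (c / r ^ k) • T (D k (t / r) (S w)), fun t ht w => ?_, fun k => ?_,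
    fun k t ht w => ?_, fun k t ht => ?_⟩
  · show (c / r ^ 0) • T (D 0 (t / r) (S w)) = G t w
    rw [hG t ht w, h0 _ (hmem t ht), pow_zero, div_one]
  · have hmaps : MapsTo (fun p : ℝ × Ω => (p.1 / r, S p.2)) (Icc a b ×ˢ univ)
        (Icc a' b' ×ˢ univ) := fun p hp => ⟨hmem p.1 hp.1, mem_univ _⟩
    have hDk : ContinuousOn (fun p : ℝ × Ω => D k (p.1 / r) (S p.2)) (Icc a b ×ˢ univ) :=
      (hc' k).comp (f := fun p : ℝ × Ω => (p.1 / r, S p.2)) (by fun_prop) hmaps
    exact (T.continuous.comp_continuousOn hDk).const_smul (c / r ^ k)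
  · have h1 := (hd k _ (hmem t ht) (S w)).scomp t
      ((hasDerivWithinAt_id t (Icc a b)).div_const r) fun u hu => hmem u hu
    refine ((T.hasFDerivAt.comp_hasDerivWithinAt t h1).const_smul (c / r ^ k)).congr_deriv ?_
    rw [map_smul, smul_smul]
    congr 1
    rw [pow_succ]
    field_simp
  · obtain ⟨hi1, hi2⟩ := hi k _ (hmem t ht)
    rw [← hSμ] at hi1 hi2
    have hcD : Continuous fun w' => D k (t / r) w' :=
      (hc' k).comp_continuous (f := fun w' : Ω' => (t / r, w')) (by fun_prop)
        fun w' => ⟨hmem t ht, mem_univ _⟩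
    have hm := hS.measurable
    rw [integrable_map_measure hcD.norm.aestronglyMeasurable hm.aemeasurable] at hi1
    rw [integral_map hm.aemeasurable hcD.norm.aestronglyMeasurable] at hi2
    have hle : ∀ w, ‖(c / r ^ k) • T (D k (t / r) (S w))‖ ≤ c / r ^ k * ‖D k (t / r) (S w)‖ := by
      intro w
      rw [norm_smul, Real.norm_eq_abs, abs_of_nonneg (by positivity)]
      exact mul_le_mul_of_nonneg_left (hT _) (by positivity)
    have hDS : Continuous fun w => D k (t / r) (S w) := hcD.comp hS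
    have hm' : Continuous fun w => ‖(c / r ^ k) • T (D k (t / r) (S w))‖ := by
      fun_prop
    have hi1' : Integrable (fun w => c / r ^ k * ‖D k (t / r) (S w)‖) μ := hi1.const_mul _
    refine ⟨hi1'.mono' hm'.aestronglyMeasurable (.of_forall fun w => by
      rw [norm_norm]; exact hle w), ?_⟩
    refine ((integral_mono_of_nonneg (.of_forall fun w => norm_nonneg _) hi1'
      (.of_forall hle)).trans ?_).trans (hB k t)
    rw [integral_const_mul]
    exact mul_le_mul_of_nonneg_left hi2 (by positivity)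

/-! ### The score as a tensor -/

/-- A covector as a rank one tensor. -/
noncomputable def covecL (d : ℕ) : (Euc d →L[ℝ] ℝ) →L[ℝ] Ten (Fin d) 1 :=
  LinearMap.toContinuousLinearMap
    { toFun := fun A => WithLp.toLp 2 fun α => A (EuclideanSpace.single (α 0) 1)
      map_add' := fun A B => by ext α; simp
      map_smul' := fun c A => by ext α; simp }

/-- A rank one tensor as a vector. -/
noncomputable def curveVecL (d : ℕ) : Ten (Fin d) 1 →L[ℝ] Euc d :=
  LinearMap.toContinuousLinearMap
    { toFun := fun T => WithLp.toLp 2 fun i => T fun _ => i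
      map_add' := fun A B => by ext α; simp
      map_smul' := fun c A => by ext α; simp }

lemma norm_curveVecL_le (T : Ten (Fin d) 1) : ‖curveVecL d T‖ ≤ ‖T‖ := by
  refine le_of_eq ?_
  rw [EuclideanSpace.norm_eq, EuclideanSpace.norm_eq, sum_pi_one]
  rfl

lemma derivTen_one {U : Euc d → ℝ} (hU : Differentiable ℝ U) (x : Euc d) :
    derivTen U 1 x = covecL d (fderiv ℝ U x) := by
  have e : derivTen U 0 = fun y => U y • (scalarTen 1 : Ten (Fin d) 0) := by
    funext y; ext α; simp [derivTen, scalarTen]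
  ext α
  show fderiv ℝ (derivTen U 0) x _ _ = fderiv ℝ U x _
  rw [e, ((hU x).hasFDerivAt.smul_const (scalarTen 1 : Ten (Fin d) 0)).fderiv]
  simp [scalarTen]

lemma curveVecL_derivTen {U : Euc d → ℝ} (hU : Differentiable ℝ U) (x : Euc d) :
    curveVecL d (derivTen U 1 x) = ∇ U x := by
  refine ext_inner_right ℝ fun v => ?_
  rw [inner_gradient, derivTen_one hU]
  conv_rhs => rw [← sum_coord_smul_unitVec v, map_sum]
  rw [PiLp.inner_apply]
  refine Finset.sum_congr rfl fun i _ => ?_
  rw [map_smul]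
  simp only [curveVecL, covecL, RCLike.inner_apply, conj_trivial, smul_eq_mul]
  rfl

lemma score_eq_curveVecL (hV : Weight V) {s : ℝ} (hs : 0 ≤ s) (x : Euc d) :
    score V s x = curveVecL d (derivTen (smoothPot V s) 1 x) :=
  (curveVecL_derivTen (hV.smoothPot hs).differentiable x).symm

lemma NicePot.semiBdd_derivTen {U : Euc d → ℝ} {l L : ℝ} (hU : NicePot d U l L) :
    SemiBdd (derivTen U 1) := by
  have h2 : BddSmooth (fderiv ℝ (fderiv ℝ U)) := by
    refine ⟨hU.contDiff_fderiv.fderiv_right le_rfl, fun n => ?_⟩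
    rcases Nat.eq_zero_or_pos n with rfl | hn
    · exact ⟨max L 0, fun x => by simpa using hU.hessian_norm_le x⟩
    · obtain ⟨C, hC⟩ := hU.higher (n + 2) (by omega)
      exact ⟨C, fun x => by
        rw [norm_iteratedFDeriv_fderiv, norm_iteratedFDeriv_fderiv]; exact hC x⟩
  rw [show derivTen U 1 = fun x => covecL d (fderiv ℝ U x) from
    funext (derivTen_one (hU.smooth.differentiable (by simp)))]
  refine ⟨(covecL d).contDiff.comp hU.contDiff_fderiv, ?_⟩
  rw [show fderiv ℝ (fun x => covecL d (fderiv ℝ U x))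
      = fun x => ContinuousLinearMap.compL ℝ (Euc d) _ _ (covecL d) (fderiv ℝ (fderiv ℝ U) x) from
    funext fun x => ((covecL d).hasFDerivAt.comp x
      (hU.contDiff_fderiv.differentiable (by simp) x).hasFDerivAt).fderiv]
  exact h2.clm _

lemma SemiBdd.clm_comp {F G : Type} [NormedAddCommGroup F] [NormedSpace ℝ F]
    [NormedAddCommGroup G] [NormedSpace ℝ G] {f : Euc d → F} (hf : SemiBdd f) (T : F →L[ℝ] G) :
    SemiBdd fun x => T (f x) := by
  refine ⟨T.contDiff.comp hf.smooth, ?_⟩
  rw [show _root_.fderiv ℝ (fun x => T (f x))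
      = fun x => ContinuousLinearMap.compL ℝ (Euc d) F G T (_root_.fderiv ℝ f x) from
    funext fun x => (T.hasFDerivAt.comp x (hf.differentiable x).hasFDerivAt).fderiv]
  exact hf.fderiv.clm _

lemma SemiBdd.heat_clm {F G : Type} [NormedAddCommGroup F] [NormedSpace ℝ F] [CompleteSpace F]
    [NormedAddCommGroup G] [NormedSpace ℝ G] [CompleteSpace G] {f : Euc d → F} (hf : SemiBdd f)
    (T : F →L[ℝ] G) (t : ℝ) (y : Euc d) : heat t (fun x => T (f x)) y = T (heat t f y) :=
  T.integral_comp_comm (hf.heat_integrable t y)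

end Vale.Agent.P347
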