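import Vale.Agent.P347.CurveHeat

/-!
Curves of successive derivatives on closed intervals with bounds in mean: the two shapes used for
cleaning and extraction at unit scale.
-/

namespace Vale.Agent.P347

open MeasureTheory ProbabilityTheory Filter Set
open scoped Gradient RealInnerProductSpace ContDiff Topology ENNReal

variable {d k : ℕ}

/-- A random curve on `[a, b]` with derivatives of every order bounded in mean. -/
def CurveMean {Ω E : Type*} [TopologicalSpace Ω] [MeasurableSpace Ω] [NormedAddCommGroup E]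
    [NormedSpace ℝ E] (μ : Measure Ω) (a b : ℝ) (G : ℝ → Ω → E) (B : ℕ → ℝ) : Prop :=
  ∃ D : ℕ → ℝ → Ω → E, (∀ t ∈ Icc a b, ∀ w, D 0 t w = G t w) ∧
    (∀ k, ContinuousOn (fun p : ℝ × Ω => D k p.1 p.2) (Icc a b ×ˢ univ)) ∧
    (∀ k, ∀ t ∈ Icc a b, ∀ w,
      HasDerivWithinAt (fun u => D k u w) (D (k + 1) t w) (Icc a b) t) ∧
    ∀ k, ∀ t ∈ Icc a b, Integrable (fun w => ‖D k t w‖) μ ∧ ∫ w, ‖D k t w‖ ∂μ ≤ B k

section Seq

variable {Ω E : Type*} [NormedAddCommGroup Ω] [NormedSpace ℝ Ω] [NormedAddCommGroup E]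
  [NormedSpace ℝ E]

/-- The successive partial derivatives in the first variable. -/
noncomputable def derivSeq (H : ℝ × Ω → E) (s : Set ℝ) : ℕ → ℝ × Ω → E
  | 0 => H
  | k + 1 => fun p => fderivWithin ℝ (derivSeq H s k) (s ×ˢ univ) p (1, 0)

lemma contDiffOn_derivSeq {H : ℝ × Ω → E} {s : Set ℝ} (hs : UniqueDiffOn ℝ s)
    (hH : ContDiffOn ℝ ∞ H (s ×ˢ univ)) (k : ℕ) :
    ContDiffOn ℝ ∞ (derivSeq H s k) (s ×ˢ univ) := by
  induction k with
  | zero => exact hH
  | succ k ih =>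
    exact (ih.fderivWithin (hs.prod uniqueDiffOn_univ) le_rfl).clm_apply contDiffOn_const

lemma derivSeq_hasDerivWithinAt {H : ℝ × Ω → E} {s : Set ℝ} (hs : UniqueDiffOn ℝ s)
    (hH : ContDiffOn ℝ ∞ H (s ×ˢ univ)) (k : ℕ) {t : ℝ} (ht : t ∈ s) (w : Ω) :
    HasDerivWithinAt (fun u => derivSeq H s k (u, w)) (derivSeq H s (k + 1) (t, w)) s t := by
  have h1 := ((contDiffOn_derivSeq hs hH k).differentiableOn (by simp) (t, w)
    ⟨ht, mem_univ _⟩).hasFDerivWithinAt
  exact HasFDerivWithinAt.comp_hasDerivWithinAt (f := fun u : ℝ => (u, w)) t h1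
    ((hasDerivWithinAt_id t s).prodMk (hasDerivWithinAt_const t s w)) fun u hu => ⟨hu, mem_univ _⟩

omit [NormedSpace ℝ Ω] [NormedSpace ℝ E] in
/-- Bounds in mean at interior times pass to the ends of the interval. -/
lemma mean_bound_closure [MeasurableSpace Ω] [BorelSpace Ω] [SecondCountableTopology Ω]
    {μ : Measure Ω} {a b B : ℝ} (hab : a < b) {D : ℝ → Ω → E}
    (hc : ContinuousOn (fun p : ℝ × Ω => D p.1 p.2) (Icc a b ×ˢ univ))
    (h : ∀ t ∈ Ioo a b, Integrable (fun w => ‖D t w‖) μ ∧ ∫ w, ‖D t w‖ ∂μ ≤ B) {t : ℝ}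
    (ht : t ∈ Icc a b) : Integrable (fun w => ‖D t w‖) μ ∧ ∫ w, ‖D t w‖ ∂μ ≤ B := by
  have hcw : ∀ u ∈ Icc a b, Continuous fun w => ‖D u w‖ := fun u hu =>
    (hc.comp_continuous (f := fun w : Ω => (u, w)) (by fun_prop) fun w => ⟨hu, mem_univ _⟩).norm
  obtain ⟨u, hu, hut⟩ := mem_closure_iff_seq_limit.1
    (show t ∈ closure (Ioo a b) by rwa [closure_Ioo hab.ne])
  have hB : 0 ≤ B := (integral_nonneg fun w => norm_nonneg _).trans (h _ (hu 0)).2
  have hle : ∫⁻ w, ENNReal.ofReal ‖D t w‖ ∂μ ≤ ENNReal.ofReal B := by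
    have hp : ∀ w, Tendsto (fun n => ENNReal.ofReal ‖D (u n) w‖) atTop
        (𝓝 (ENNReal.ofReal ‖D t w‖)) := fun w => by
      refine ENNReal.continuous_ofReal.tendsto _ |>.comp (Tendsto.norm ?_)
      have hh := (hc (t, w) ⟨ht, mem_univ _⟩).tendsto
      refine hh.comp (tendsto_nhdsWithin_iff.2 ⟨hut.prodMk_nhds tendsto_const_nhds,
        .of_forall fun n => ⟨Ioo_subset_Icc_self (hu n), mem_univ _⟩⟩)
    calc ∫⁻ w, ENNReal.ofReal ‖D t w‖ ∂μ
        = ∫⁻ w, liminf (fun n => ENNReal.ofReal ‖D (u n) w‖) atTop ∂μ :=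
          lintegral_congr fun w => (hp w).liminf_eq.symm
      _ ≤ liminf (fun n => ∫⁻ w, ENNReal.ofReal ‖D (u n) w‖ ∂μ) atTop :=
          lintegral_liminf_le fun n =>
            ENNReal.measurable_ofReal.comp (hcw _ (Ioo_subset_Icc_self (hu n))).measurable
      _ ≤ ENNReal.ofReal B := by
          refine liminf_le_of_le (by isBoundedDefault) fun c hc' => ?_
          obtain ⟨n, hn⟩ := hc'.exists
          refine hn.trans ?_
          rw [← ofReal_integral_eq_lintegral_ofReal (h _ (hu n)).1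
            (.of_forall fun w => norm_nonneg _)]
          exact ENNReal.ofReal_le_ofReal (h _ (hu n)).2
  have hm := (hcw t ht).aestronglyMeasurable (μ := μ)
  have hi : Integrable (fun w => ‖D t w‖) μ :=
    (lintegral_ofReal_ne_top_iff_integrable hm (.of_forall fun w => norm_nonneg _)).1
      (hle.trans_lt ENNReal.ofReal_lt_top).ne
  refine ⟨hi, (ENNReal.ofReal_le_ofReal_iff hB).1 ?_⟩
  rwa [ofReal_integral_eq_lintegral_ofReal hi (.of_forall fun w => norm_nonneg _)]

end Seq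

/-! ### Extraction -/

/-- The extraction curve of a tame field at unit scale. -/
theorem extract_bound : ∃ (C : ℕ → ℝ) (m : ℕ → ℕ), (∀ k, 0 ≤ C k) ∧
    ∀ (d : ℕ) (W : Euc d → ℝ), Weight W → ∀ (I : Set ℝ), IsOpen I →
      ∀ (f : ℝ → Euc d → Ten (Fin d) 1), Tame I f → ∀ r : ℝ, 0 < r → r ≤ 1 →
      (∀ s ∈ Ioo (-r) r, 1 + s ^ 2 ∈ I) →
      ContDiffOn ℝ ∞ (fun p : ℝ × (Euc d × Euc d) => f (1 + p.1 ^ 2) (p.2.1 + p.1 • p.2.2))
        (Icc (-r) r ×ˢ univ) →
      ∀ M : ℕ → ℝ, (∀ i, 0 ≤ M i) →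
        (∀ i, ∀ s ∈ Ioo (-r) r, wordSum W i f (1 + s ^ 2) ≤ M i ^ 2) →
        CurveMean ((levelLaw W 1).prod (gauss d)) (-r) r
          (fun lam p => f (1 + lam ^ 2) (p.1 + lam • p.2)) (fun k => C k * M (m k)) := by
  choose C m hC h using fun j => curve_reg j 0
  refine ⟨C, m, hC, fun d W hW I hI f hf r hr hr1 hmap hH M hM hb => ?_⟩
  have : IsProbabilityMeasure (levelLaw W 1) :=
    (hW.smoothPot zero_le_one).isProbabilityMeasure_gibbs
  set H := fun p : ℝ × (Euc d × Euc d) => f (1 + p.1 ^ 2) (p.2.1 + p.1 • p.2.2)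
  set D := fun (k : ℕ) (t : ℝ) (w : Euc d × Euc d) => derivSeq H (Icc (-r) r) k (t, w) with hD
  have hab : -r < r := by linarith
  have hu : UniqueDiffOn ℝ (Icc (-r) r) := uniqueDiffOn_Icc hab
  have hc : ∀ k, ContinuousOn (fun p : ℝ × (Euc d × Euc d) => D k p.1 p.2)
      (Icc (-r) r ×ˢ univ) := fun k => (contDiffOn_derivSeq hu hH k).continuousOn
  set F := curveFamily d (Ioo (-r) r) isOpen_Ioo with hF
  have hcf : ∀ y, Tame F.dom (curveField 1 y f) := fun y => hf.curveField hI isOpen_Ioo hmap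
  -- the interior values are the flow derivatives along the curve
  have heq : ∀ k, ∀ t ∈ Ioo (-r) r, ∀ y ξ,
      D k t (y, ξ) = (F.D^[k]) (curveField 1 y f) t ξ := by
    intro k
    induction k with
    | zero => intro t _ y ξ; rfl
    | succ k ih =>
      intro t ht y ξ
      have h1 := (derivSeq_hasDerivWithinAt hu hH k (Ioo_subset_Icc_self ht) (y, ξ)).hasDerivAt
        (Icc_mem_nhds ht.1 ht.2)
      have h2 := curveFamily_hasDerivAt isOpen_Ioo (Family.tame_iterD (hcf y) k) ht ξ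
      rw [Function.iterate_succ_apply']
      exact h1.unique (h2.congr_of_eventuallyEq (by
        filter_upwards [isOpen_Ioo.mem_nhds ht] with u hu' using ih u hu' y ξ))
  refine ⟨D, fun t _ w => rfl, hc,
    fun k t ht w => derivSeq_hasDerivWithinAt hu hH k ht w, fun k t ht => ?_⟩
  refine mean_bound_closure hab (hc k) (fun s hs => ?_) ht
  have hcs : Continuous fun w => D k s w :=
    (hc k).comp_continuous (f := fun w : Euc d × Euc d => (s, w)) (by fun_prop)
      fun w => ⟨Ioo_subset_Icc_self hs, mem_univ _⟩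
  have hs1 : |s| ≤ 1 := abs_le.2 ⟨by linarith [hs.1], by linarith [hs.2]⟩
  have hslice : ∀ y, Integrable (fun ξ => ‖D k s (y, ξ)‖ ^ 2) (gauss d) ∧
      ∫ ξ, ‖D k s (y, ξ)‖ ^ 2 ∂(gauss d) ≤ C k ^ 2 * curveSum (m k) f 1 y s := fun y => by
    have hr' := (h k d 1 I (Ioo (-r) r) hI isOpen_Ioo f hf 1 hmap y s hs hs1).2 k le_rfl 0 le_rfl
      s rfl
    have e : (fun ξ => ‖D k s (y, ξ)‖ ^ 2)
        = fun ξ => ‖(F.D^[k]) (curveField 1 y f) s ξ‖ ^ 2 := funext fun ξ => by
      rw [heq k s hs y ξ]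
    rw [e]
    refine ⟨Family.integrable_sq (Family.tame_iterD (hcf y) k) hs, le_of_le_of_eq hr' ?_⟩
    rw [mul_pow, Real.sq_sqrt (curveSum_nonneg _ _ _ _ _)]
  have hs0 : 1 + s ^ 2 ∈ I := hmap s hs
  obtain ⟨iS, eS⟩ := curveSum_average hW s (m k) hI hs0 hf
  have hsm : StronglyMeasurable fun w => ‖D k s w‖ ^ 2 := (hcs.norm.pow 2).stronglyMeasurable
  have hsq : Integrable (fun w => ‖D k s w‖ ^ 2) ((levelLaw W 1).prod (gauss d)) := by
    refine (integrable_prod_iff hsm.aestronglyMeasurable).2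
      ⟨.of_forall fun y => (hslice y).1, (iS.const_mul (C k ^ 2)).mono' ?_ (.of_forall fun y => ?_)⟩
    · exact (hsm.norm.integral_prod_right').aestronglyMeasurable
    · rw [Real.norm_eq_abs, abs_of_nonneg (integral_nonneg fun ξ => norm_nonneg _)]
      refine le_of_eq_of_le (integral_congr_ae (.of_forall fun ξ => ?_)) (hslice y).2
      simp
  refine norm_le_of_sq_le hcs.aestronglyMeasurable (mul_nonneg (hC k) (hM _)) hsq ?_
  rw [integral_prod _ hsq, mul_pow]
  refine (integral_mono hsq.integral_prod_left (iS.const_mul (C k ^ 2))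
    fun y => (hslice y).2).trans ?_
  rw [integral_const_mul, eS]
  exact mul_le_mul_of_nonneg_left (hb _ s hs) (sq_nonneg _)

/-! ### Cleaning -/

/-- The derivative of an average along the curves. -/
lemma hasDerivAt_curve_average {f : ℝ → Euc d → Ten (Fin d) k} (hf : Tame (Ioi 0) f) (y : Euc d)
    (lam : ℝ) :
    HasDerivAt (fun u : ℝ => ∫ ξ, f (1 + u ^ 2) (y + u • ξ) ∂(gauss d))
      ((2 * lam) • ∫ ξ, heatOp f (1 + lam ^ 2) (y + lam • ξ) ∂(gauss d)) lam := by
  set F := curveFamily d univ isOpen_univ with hF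
  have hmap : ∀ s ∈ (univ : Set ℝ), 1 + s ^ 2 ∈ Ioi (0 : ℝ) := fun s _ =>
    show (0 : ℝ) < 1 + s ^ 2 by positivity
  have hc : Tame F.dom (curveField 1 y f) := hf.curveField isOpen_Ioi isOpen_univ hmap
  have hh : Tame F.dom (curveField 1 y (heatOp f)) :=
    (Tame.heatOp isOpen_Ioi hf).curveField isOpen_Ioi isOpen_univ hmap
  have hn : Tame F.dom (curveField 1 y fun t => nabla (f t)) :=
    (hf.nabla isOpen_Ioi).curveField isOpen_Ioi isOpen_univ hmap
  obtain ⟨K, p, hK, hb⟩ := (Family.tame_iterD hc 1).bound_upTo 0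
    (J := Icc (lam - 1) (lam + 1)) isCompact_Icc (subset_univ _)
  have hi : Integrable (fun ξ : Euc d => K * (2 ^ (p - 1) * (1 + ‖ξ‖ ^ p))) (gauss d) :=
    (((integrable_const (1 : ℝ)).add (gauss_integrable_norm_pow p)).const_mul _).const_mul _
  have key := (hasDerivAt_integral_of_dominated_loc_of_deriv_le (μ := gauss d)
    (x₀ := lam) (s := Ioo (lam - 1) (lam + 1)) (F := fun u ξ => curveField 1 y f u ξ)
    (F' := fun u ξ => F.D (curveField 1 y f) u ξ)
    (bound := fun ξ => K * (2 ^ (p - 1) * (1 + ‖ξ‖ ^ p)))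
    (Ioo_mem_nhds (by linarith) (by linarith))
    (.of_forall fun u => ((hc.contDiff_space (mem_univ u)).continuous).aestronglyMeasurable)
    (hc.integrable (mem_univ lam) _ gauss_integrable_norm_pow)
    (((F.tame_D hc).contDiff_space (mem_univ lam)).continuous.aestronglyMeasurable)
    (.of_forall fun ξ u hu => ?_) hi
    (.of_forall fun ξ u _ => curveFamily_hasDerivAt isOpen_univ hc (mem_univ u) ξ)).2
  · have e : ∀ ξ, F.D (curveField 1 y f) lam ξ
        = F.delta (curveField 1 y fun t => nabla (f t)) lam ξ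
          + (2 * lam) • curveField 1 y (heatOp f) lam ξ :=
      curveFamily_D_curveField isOpen_univ isOpen_Ioi hf hmap (mem_univ lam)
    simp only [e] at key
    rw [integral_add ((F.tame_delta hn).integrable (mem_univ lam) _ gauss_integrable_norm_pow)
      ((hh.integrable (mem_univ lam) _ gauss_integrable_norm_pow).fun_smul (2 * lam)),
      curveFamily_integral_delta isOpen_univ hn (mem_univ lam), zero_add, integral_smul] at key
    exact key
  · have h0 := hb 0 le_rfl u (Ioo_subset_Icc_self hu) ξ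
    rw [norm_iteratedFDeriv_zero] at h0
    refine le_trans (by simpa using h0) (mul_le_mul_of_nonneg_left ?_ hK)
    simpa using add_pow_le (zero_le_one (α := ℝ)) (norm_nonneg ξ) p

/-- Averages along the curves depend continuously on the scale and the point. -/
lemma continuous_curve_average {f : ℝ → Euc d → Ten (Fin d) k} (hf : Tame (Ioi 0) f) :
    Continuous fun q : ℝ × Euc d => ∫ ξ, f (1 + q.1 ^ 2) (q.2 + q.1 • ξ) ∂(gauss d) := by
  have hpos : ∀ u : ℝ, 1 + u ^ 2 ∈ Ioi (0 : ℝ) := fun u => show (0 : ℝ) < 1 + u ^ 2 by positivity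
  have hc : Continuous fun p : (ℝ × Euc d) × Euc d =>
      f (1 + p.1.1 ^ 2) (p.1.2 + p.1.1 • p.2) :=
    hf.1.continuousOn.comp_continuous
      (f := fun p : (ℝ × Euc d) × Euc d => (1 + p.1.1 ^ 2, p.1.2 + p.1.1 • p.2)) (by fun_prop)
      fun p => ⟨hpos _, mem_univ _⟩
  refine continuous_iff_continuousAt.2 fun q₀ => ?_
  set R := ‖q₀‖ + 1 with hR
  have hR0 : 0 < R := by positivity
  obtain ⟨K, p, hK, hb⟩ := hf.bound_upTo 0 (J := (fun u : ℝ => 1 + u ^ 2) '' Icc (-R) R)
    (isCompact_Icc.image (by fun_prop)) (by rintro _ ⟨u, -, rfl⟩; exact hpos u)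
  refine continuousAt_of_dominated
    (bound := fun ξ : Euc d => K * (1 + R) ^ p * (2 ^ (p - 1) * (1 + ‖ξ‖ ^ p)))
    (.of_forall fun q => (hc.comp (by fun_prop :
      Continuous fun ξ : Euc d => (q, ξ))).aestronglyMeasurable) ?_
    ((((integrable_const (1 : ℝ)).add (gauss_integrable_norm_pow p)).const_mul _).const_mul _)
    (.of_forall fun ξ => (hc.comp (by fun_prop :
      Continuous fun q : ℝ × Euc d => (q, ξ))).continuousAt)
  filter_upwards [Metric.ball_mem_nhds q₀ one_pos] with q hq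
  refine .of_forall fun ξ => ?_
  have hqR : ‖q‖ ≤ R := by
    rw [Metric.mem_ball, dist_eq_norm] at hq
    linarith [norm_le_norm_add_norm_sub' q q₀]
  have h1 : |q.1| ≤ R := (norm_fst_le q).trans hqR
  have h0 := hb 0 le_rfl (1 + q.1 ^ 2) ⟨q.1, abs_le.1 h1, rfl⟩ (q.2 + q.1 • ξ)
  rw [norm_iteratedFDeriv_zero] at h0
  refine h0.trans ?_
  rw [mul_assoc K]
  refine mul_le_mul_of_nonneg_left ?_ hK
  calc (1 + ‖q.2 + q.1 • ξ‖) ^ p ≤ ((1 + R) * (1 + ‖ξ‖)) ^ p := by
        gcongr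
        refine (add_le_add le_rfl (norm_add_le _ _)).trans ?_
        rw [norm_smul, Real.norm_eq_abs]
        nlinarith [(norm_snd_le q).trans hqR, mul_le_mul_of_nonneg_right h1 (norm_nonneg ξ),
          norm_nonneg ξ]
    _ ≤ (1 + R) ^ p * (2 ^ (p - 1) * (1 + ‖ξ‖ ^ p)) := by
        rw [mul_pow]
        refine mul_le_mul_of_nonneg_left ?_ (by positivity)
        simpa using add_pow_le (zero_le_one (α := ℝ)) (norm_nonneg ξ) p

/-- The cleaning curve of a tame field at unit scale. -/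
theorem clean_bound {W : Euc d → ℝ} (hW : Weight W) {f : ℝ → Euc d → Ten (Fin d) 1}
    (hf : Tame (Ioi 0) f) {M : ℕ → ℝ} (hM : ∀ i, 0 ≤ M i)
    (hb : ∀ i, ∀ s ∈ Icc (1 : ℝ) 2, wordSum W i f s ≤ M i ^ 2) :
    CurveMean (levelLaw W 1) 0 1 (fun ν z => heat ν (f (1 + ν)) z) M := by
  have : IsProbabilityMeasure (levelLaw W 1) :=
    (hW.smoothPot zero_le_one).isProbabilityMeasure_gibbs
  set L := fun i : ℕ => (heatOp^[i]) f with hL
  have hLt : ∀ i, Tame (Ioi 0) (L i) := fun i => by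
    induction i with
    | zero => exact hf
    | succ i ih => simp only [hL, Function.iterate_succ_apply']; exact Tame.heatOp isOpen_Ioi ih
  set D := fun (i : ℕ) (ν : ℝ) (z : Euc d) => heat ν (L i (1 + ν)) z with hD
  -- the averages along the curves, in the variable `ν`
  have hDeq : ∀ i ν z, 0 ≤ ν →
      D i ν z = ∫ ξ, L i (1 + √ν ^ 2) (z + √ν • ξ) ∂(gauss d) := fun i ν z hν => by
    simp only [hD, heat, Real.sq_sqrt hν]
  have hc : ∀ i, ContinuousOn (fun p : ℝ × Euc d => D i p.1 p.2) (Icc 0 1 ×ˢ univ) := fun i =>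
    (((continuous_curve_average (hLt i)).comp
      (by fun_prop : Continuous fun p : ℝ × Euc d => (√p.1, p.2))).continuousOn).congr
        fun p hp => hDeq i p.1 p.2 hp.1.1
  have hd : ∀ i, ∀ ν ∈ Ioo (0 : ℝ) 1, ∀ z, HasDerivAt (fun u => D i u z) (D (i + 1) ν z) ν := by
    intro i ν hν z
    have h := (hasDerivAt_curve_average (hLt i) z (√ν)).scomp ν (Real.hasDerivAt_sqrt hν.1.ne')
    have hne : √ν ≠ 0 := (Real.sqrt_pos.2 hν.1).ne'
    rw [smul_smul, show 1 / (2 * √ν) * (2 * √ν) = 1 by field_simp, one_smul] at h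
    rw [hDeq (i + 1) ν z hν.1.le, show L (i + 1) = heatOp (L i) from Function.iterate_succ_apply' ..]
    refine h.congr_of_eventuallyEq ?_
    filter_upwards [Ioi_mem_nhds hν.1] with u hu using hDeq i u z (le_of_lt hu)
  refine ⟨D, fun t _ z => rfl, hc, fun i ν hν z => ?_, fun i ν hν => ?_⟩
  · have hp : ∀ i, ContinuousOn (fun u => D i u z) (Icc 0 1) := fun i =>
      (hc i).comp (f := fun u : ℝ => (u, z)) (by fun_prop) fun u hu => ⟨hu, mem_univ _⟩
    exact hasDerivWithinAt_Icc_of_continuousOn zero_le_one (hp i) (hp (i + 1))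
      (fun u hu => hd i u hu z) hν
  · have hs : 1 + ν ∈ Ioi (0 : ℝ) := show (0 : ℝ) < 1 + ν by linarith [hν.1]
    have := (hW.smoothPot (le_of_lt hs)).isProbabilityMeasure_gibbs
    have : IsProbabilityMeasure (levelLaw W (1 + ν)) := this
    have hcl : Continuous (L i (1 + ν)) := ((hLt i).contDiff_space hs).continuous
    obtain ⟨hi1, hle⟩ := norm_le_of_sq_le hcl.aestronglyMeasurable (hM i)
      (hW.integrable_level_sq isOpen_Ioi hs (le_of_lt hs) (hLt i))
      ((wordSum_iterate_le i f (1 + ν)).trans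
        (hb i _ ⟨by linarith [hν.1], by linarith [hν.2]⟩))
    obtain ⟨i1, e1⟩ := level_conv hW zero_le_one (√ν) hcl.norm (by rwa [Real.sq_sqrt hν.1])
    rw [Real.sq_sqrt hν.1] at e1
    have hcD : Continuous fun z => D i ν z :=
      (hc i).comp_continuous (f := fun z : Euc d => (ν, z)) (by fun_prop)
        fun z => ⟨hν, mem_univ _⟩
    refine ⟨i1.mono' hcD.norm.aestronglyMeasurable (.of_forall fun z => ?_), ?_⟩
    · rw [norm_norm]; exact norm_integral_le_integral_norm _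
    · refine (integral_mono_of_nonneg (.of_forall fun z => norm_nonneg _) i1
        (.of_forall fun z => norm_integral_le_integral_norm _)).trans ?_
      rw [e1]
      exact hle

end Vale.Agent.P347
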