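import Vale.Agent.P347.TensorBound

/-!
The tensor bounds in the form of the module specification, and the smoothed potential as a
potential of the same class.
-/

namespace Vale.Agent.P347

open Set Finset
open scoped ContDiff RealInnerProductSpace

variable {d : ℕ}

lemma derivTen_eq_pdl {I : Set ℝ} (hI : IsOpen I) {u : ℝ → Euc d → ℝ} (hu : Tame I u) :
    ∀ (n : ℕ) {t : ℝ}, t ∈ I → ∀ (x : Euc d) (α : Fin n → Fin d),
      derivTen (u t) n x α = pdl u (List.ofFn α) t x
  | 0, t, _, x, α => by simp [derivTen, scalarTen, pdl]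
  | n + 1, t, ht, x, α => by
    have h := nabla_apply (hu.derivTen hI n) ht x α
    refine h.trans ?_
    rw [List.ofFn_succ]
    show pd (α 0) _ t x = pd (α 0) (pdl u (List.ofFn fun i => α i.succ)) t x
    exact pd_congr (fun y => derivTen_eq_pdl hI hu n ht y (Fin.tail α)) _ x

lemma allSplit_of_symBound {u : ℝ → Euc d → ℝ} {I : Set ℝ} (hI : IsOpen I) (hu : Tame I u)
    {t : ℝ} (ht : t ∈ I) {x : Euc d} {n : ℕ} {C : ℝ} (h : SymBound u t x n C) :
    AllSplit C (derivTen (u t) n x) := by
  intro a b e ha hb A B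
  have hab : a + b = n := by simpa using Fintype.card_congr e
  have key := h (Fin a) (Fin b) (by simpa using hab) (by simpa using ha) (by simpa using hb)
    (fun α => A α) (fun β => B β)
  have he : ∀ α β, derivTen (u t) n x (joinIdx e α β) = pdm u (mOf α + mOf β) t x := fun α β => by
    rw [derivTen_eq_pdl hI hu n ht, ← pdm_coe hu hI _ ht, ← mOf_fin, joinIdx, mOf_comp e.symm,
      mOf_sum]
  simp only [he]
  simpa [EuclideanSpace.norm_eq] using key

/-- The module statement: bounds on all derivatives of the smoothed potential. -/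
theorem tensorBound (h : PoincareStatement) : TensorBoundStatement := by
  intro n hn
  obtain ⟨C, hC, hb⟩ := symBound h n
  refine ⟨C, fun d V l L t hV ht hLt y => ?_⟩
  rcases Nat.eq_zero_or_pos d with rfl | hd
  · intro a b e ha hb A B
    haveI : IsEmpty (Fin a → Fin 0) := Function.isEmpty (α := Fin a → Fin 0) fun f => f ⟨0, ha⟩
    simp [EuclideanSpace.norm_eq]
  haveI : Nonempty (Fin d) := ⟨⟨0, hd⟩⟩
  have hL : 0 ≤ L := by
    have hne : unitVec (d := d) ⟨0, hd⟩ ≠ 0 := fun h0 => by
      have := congrArg norm h0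
      simp at this
    exact hV.pos.le.trans (hV.l_le_L hne)
  exact allSplit_of_symBound isOpen_Ioi (smoothPot_tame hV.weight) ht
    (hb n hn le_rfl d V l L t hV hL ht (by nlinarith) y)

lemma abs_pdl_le {u : ℝ → Euc d → ℝ} {I : Set ℝ} (hI : IsOpen I) (hu : Tame I u) {t : ℝ}
    (ht : t ∈ I) {x : Euc d} {n : ℕ} {C : ℝ} (hn : 2 ≤ n) (h : SymBound u t x n C)
    (l : List (Fin d)) (hl : l.length = n) : |pdl u l t x| ≤ C := by
  match l, hl with
  | [], hl => simp at hl; omega
  | i :: l', hl =>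
    simp only [List.length_cons] at hl
    classical
    have key := h (Fin 1) (Fin l'.length) (by simp; omega) (by simp) (by simp; omega)
      (fun f => if f = (fun _ => i) then 1 else 0) (fun g => if g = l'.get then 1 else 0)
    simp only [mul_ite, mul_one, mul_zero, Finset.sum_ite_eq', Finset.mem_univ, if_true,
      ite_pow, one_pow, ne_eq, OfNat.ofNat_ne_zero, not_false_eq_true, zero_pow,
      Real.sqrt_one] at key
    refine le_of_eq_of_le ?_ key
    congr 1
    rw [mOf_unique, mOf_fin, List.ofFn_get, Multiset.singleton_add, Multiset.cons_coe,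
      pdm_coe hu hI _ ht]

lemma pdl_append_singleton (u : ℝ → Euc d → ℝ) (i : Fin d) :
    ∀ l : List (Fin d), pdl u (l ++ [i]) = pdl (pd i u) l
  | [] => rfl
  | j :: l => by simp [pdl, pdl_append_singleton u i l]

lemma norm_iteratedFDeriv_le_of_pdl {I : Set ℝ} (hI : IsOpen I) {t : ℝ} (ht : t ∈ I) :
    ∀ (n : ℕ) {u : ℝ → Euc d → ℝ}, Tame I u → ∀ {x : Euc d} {K : ℝ},
      (∀ l : List (Fin d), l.length = n → |pdl u l t x| ≤ K) →
      ‖iteratedFDeriv ℝ n (u t) x‖ ≤ (d : ℝ) ^ n * K
  | 0, u, hu, x, K, h => by simpa [pdl] using h [] rfl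
  | n + 1, u, hu, x, K, h => by
    set T : Fin d → ℝ →L[ℝ] (Euc d →L[ℝ] ℝ) := fun i =>
      (ContinuousLinearMap.id ℝ ℝ).smulRight (innerSL ℝ (unitVec i)) with hT
    have e : fderiv ℝ (u t) = fun y => ∑ i, T i (pd i u t y) := by
      funext y
      refine ContinuousLinearMap.ext fun v => ?_
      conv_lhs => rw [← sum_inner_smul_unitVec v, map_sum]
      simp [hT, pd, mul_comm]
    have hle : (n : WithTop ℕ∞) ≤ ∞ := mod_cast le_top
    have hs : ∀ i, ContDiff ℝ n fun y => T i (pd i u t y) := fun i =>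
      ((T i).contDiff.comp ((hu.pd hI i).contDiff_space ht)).of_le hle
    rw [← norm_iteratedFDeriv_fderiv, e, iteratedFDeriv_fun_sum_apply fun i _ => (hs i).contDiffAt]
    refine (norm_sum_le _ _).trans ?_
    have hone : ∀ i, ‖iteratedFDeriv ℝ n (fun y => T i (pd i u t y)) x‖ ≤ (d : ℝ) ^ n * K := by
      intro i
      refine ((T i).norm_iteratedFDeriv_comp_left ((hu.pd hI i).contDiff_space ht).contDiffAt
        hle).trans ?_
      have h1 : ‖T i‖ ≤ 1 := by
        simp [hT, ContinuousLinearMap.norm_smulRight_apply]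
      have h2 := norm_iteratedFDeriv_le_of_pdl hI ht n (hu.pd hI i) (x := x) (K := K) fun l hl => by
        rw [← pdl_append_singleton]
        exact h (l ++ [i]) (by simp [hl])
      exact (mul_le_of_le_one_left (norm_nonneg _) h1).trans h2
    calc ∑ i, ‖iteratedFDeriv ℝ n (fun y => T i (pd i u t y)) x‖
        ≤ ∑ _i : Fin d, (d : ℝ) ^ n * K := Finset.sum_le_sum fun i _ => hone i
      _ = _ := by simp [pow_succ]; ring

/-- The smoothed potential belongs to the class again. -/
theorem nicePot_smoothPot (h : PoincareStatement) : ∃ c₀ : ℝ, 0 < c₀ ∧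
    ∀ (d : ℕ) (V : Euc d → ℝ) (l L r : ℝ), NicePot d V l L → L ≤ 4 * l → 0 ≤ r → L * r ≤ c₀ →
      NicePot d (smoothPot V r) (l / 2) L := by
  obtain ⟨c₁, hc₁, hH⟩ := hessianBound h
  refine ⟨min c₁ 1, lt_min hc₁ one_pos, fun d V l L r hV hL4 hr hLr => ?_⟩
  rcases hr.eq_or_lt with rfl | hr0
  · rw [smoothPot_zero]
    refine ⟨by linarith [hV.pos], hV.smooth, fun x v => le_trans ?_ (hV.hessian_lower x v),
      hV.hessian_upper, hV.higher⟩
    exact mul_le_mul_of_nonneg_right (by linarith [hV.pos]) (sq_nonneg _)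
  have hW := hV.weight
  have hB := hH d V l L r hV hL4 hr0 (hLr.trans (min_le_left _ _))
  refine ⟨by linarith [hV.pos], smoothPot_smooth hW hr0, fun x v => (hB x v).1,
    fun x v => (hB x v).2, fun n hn => ?_⟩
  rcases Nat.eq_zero_or_pos d with rfl | hd
  · exact ⟨‖iteratedFDeriv ℝ n (smoothPot V r) 0‖, fun x => by rw [Subsingleton.elim x 0]⟩
  have hL : 0 ≤ L := by
    have hne : unitVec (d := d) ⟨0, hd⟩ ≠ 0 := fun h0 => by
      have := congrArg norm h0
      simp at this
    exact hV.pos.le.trans (hV.l_le_L hne)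
  obtain ⟨C, -, hb⟩ := symBound h n
  refine ⟨(d : ℝ) ^ n * (C * L / √r ^ (n - 2)), fun x => ?_⟩
  exact norm_iteratedFDeriv_le_of_pdl isOpen_Ioi hr0 n (smoothPot_tame hW) fun l' hl =>
    abs_pdl_le isOpen_Ioi (smoothPot_tame hW) hr0 (by omega)
      (hb n (by omega) le_rfl d V l L r hV hL hr0 (hLr.trans (min_le_right _ _)) x) l' hl

end Vale.Agent.P347
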