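import Vale.Agent.P347.CurveFamily
import Vale.Agent.P347.LevelBase
import Vale.Agent.P347.TensorFinal

/-!
Words in the gradient and the heat operator in `L²` of a level, and their averages along the
Gaussian curves.
-/

namespace Vale.Agent.P347

open MeasureTheory ProbabilityTheory Filter Set
open scoped Gradient RealInnerProductSpace ContDiff Topology

variable {d k : ℕ} {W : Euc d → ℝ}

/-- The mass in `L²` of a level of all words in gradient and heat operator up to length `m`. -/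
noncomputable def wordSum (W : Euc d → ℝ) :
    (m : ℕ) → {k : ℕ} → (ℝ → Euc d → Ten (Fin d) k) → ℝ → ℝ
  | 0, _, f, s => ∫ x, ‖f s x‖ ^ 2 ∂(levelLaw W s)
  | m + 1, _, f, s => wordSum W m f s + wordSum W m (fun t => nabla (f t)) s
      + wordSum W m (heatOp f) s

lemma wordSum_nonneg : ∀ (m : ℕ) {k : ℕ} (f : ℝ → Euc d → Ten (Fin d) k) (s : ℝ),
    0 ≤ wordSum W m f s
  | 0, _, _, _ => integral_nonneg fun _ => sq_nonneg _
  | m + 1, _, f, s =>
    add_nonneg (add_nonneg (wordSum_nonneg m f s) (wordSum_nonneg m _ s)) (wordSum_nonneg m _ s)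

lemma heatOp_congr {I : Set ℝ} (hI : IsOpen I) {f g : ℝ → Euc d → Ten (Fin d) k}
    (h : ∀ t ∈ I, f t = g t) {t : ℝ} (ht : t ∈ I) : heatOp f t = heatOp g t := by
  funext x
  have he : (fun q : ℝ × Euc d => f q.1 q.2) =ᶠ[𝓝 (t, x)] fun q => g q.1 q.2 := by
    filter_upwards [(hI.prod isOpen_univ).mem_nhds
      (show (t, x) ∈ I ×ˢ (univ : Set (Euc d)) from ⟨ht, mem_univ _⟩)] with q hq
    rw [h q.1 hq.1]
  simp only [heatOp, he.fderiv_eq, h t ht]

lemma wordSum_congr : ∀ (m : ℕ) {k : ℕ} {I : Set ℝ}, IsOpen I →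
    ∀ {f g : ℝ → Euc d → Ten (Fin d) k}, (∀ t ∈ I, f t = g t) → ∀ {s : ℝ}, s ∈ I →
      wordSum W m f s = wordSum W m g s
  | 0, _, _, _, f, g, h, s, hs => by simp only [wordSum, h s hs]
  | m + 1, _, _, hI, f, g, h, s, hs => by
    simp only [wordSum]
    rw [wordSum_congr m hI h hs,
      wordSum_congr m hI (g := fun t => nabla (g t)) (fun t ht => by rw [h t ht]) hs,
      wordSum_congr m hI (g := heatOp g) (fun t ht => heatOp_congr hI h ht) hs]

lemma wordSum_zero : ∀ (m k : ℕ) (s : ℝ),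
    wordSum W m (fun _ _ => (0 : Ten (Fin d) k)) s = 0
  | 0, k, s => by simp [wordSum]
  | m + 1, k, s => by
    have h1 : (fun (t : ℝ) => nabla fun _ : Euc d => (0 : Ten (Fin d) k))
        = fun _ _ => (0 : Ten (Fin d) (k + 1)) := funext fun _ => funext fun x => nabla_const 0 x
    have h2 : heatOp (fun (_ : ℝ) (_ : Euc d) => (0 : Ten (Fin d) k))
        = fun _ _ => (0 : Ten (Fin d) k) := by
      funext t x; simp [heatOp]
    simp only [wordSum, h1, h2, wordSum_zero m, add_zero]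

lemma wordSum_mono {m m' : ℕ} (h : m ≤ m') (f : ℝ → Euc d → Ten (Fin d) k) (s : ℝ) :
    wordSum W m f s ≤ wordSum W m' f s := by
  induction h with
  | refl => exact le_rfl
  | @step m'' _ ih =>
    have h1 := wordSum_nonneg (W := W) m'' (fun t => nabla (f t)) s
    have h2 := wordSum_nonneg (W := W) m'' (heatOp f) s
    simp only [wordSum]
    linarith

lemma wordSum_iterate_le : ∀ (m : ℕ) {k : ℕ} (f : ℝ → Euc d → Ten (Fin d) k) (s : ℝ),
    ∫ x, ‖(heatOp^[m]) f s x‖ ^ 2 ∂(levelLaw W s) ≤ wordSum W m f s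
  | 0, _, f, s => le_rfl
  | m + 1, _, f, s => by
    rw [Function.iterate_succ_apply]
    refine (wordSum_iterate_le m (heatOp f) s).trans ?_
    have h1 := wordSum_nonneg (W := W) m f s
    have h2 := wordSum_nonneg (W := W) m (fun t => nabla (f t)) s
    simp only [wordSum]
    linarith

/-- The heat operator is the flow derivative less half of the divergence of the gradient. -/
lemma levelFamily_heatOp (hW : Weight W) {f : ℝ → Euc d → Ten (Fin d) k} (hf : Tame (Ioi 0) f)
    {t : ℝ} (ht : 0 < t) (x : Euc d) :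
    heatOp f t x = (levelFamily hW).D f t x
      - (1 / 2 : ℝ) • (levelFamily hW).delta (fun s => nabla (f s)) t x := by
  set F := levelFamily hW with hF
  have hI : IsOpen (Ioi (0 : ℝ)) := isOpen_Ioi
  have hD : F.D f t x = fderiv ℝ (fun q : ℝ × Euc d => f q.1 q.2) (t, x) (1, 0)
      + (1 / 2 : ℝ) • ∑ i, score W t x i • fderiv ℝ (f t) x (unitVec i) := by
    show fderiv ℝ (fun q : ℝ × Euc d => f q.1 q.2) (t, x) (1, (1 / 2 : ℝ) • score W t x) = _
    have e : fderiv ℝ (f t) x ((1 / 2 : ℝ) • score W t x)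
        = (1 / 2 : ℝ) • ∑ i, score W t x i • fderiv ℝ (f t) x (unitVec i) := by
      rw [map_smul]
      conv_lhs => rw [← sum_coord_smul_unitVec (score W t x)]
      simp only [map_sum, map_smul]
    rw [← e, hf.fderiv_space hI ht, ← map_add]
    simp
  ext α
  simp only [hD, heatOp, PiLp.add_apply, PiLp.sub_apply, PiLp.smul_apply, smul_eq_mul,
    F.delta_apply (hf.nabla hI) ht, WithLp.ofLp_sum, Finset.sum_apply, Finset.mul_sum]
  rw [add_sub_assoc, ← Finset.sum_sub_distrib]
  congr 1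
  refine Finset.sum_congr rfl fun i _ => ?_
  have e1 : ∀ y, nabla (f t) y (Fin.cons i α) = fderiv ℝ (f t) y (unitVec i) α := fun y => by
    show fderiv ℝ (f t) y _ _ = _
    simp
  have e2 : pd i (fun s y => nabla (f s) y (Fin.cons i α)) t x
      = fderiv ℝ (fun z => fderiv ℝ (f t) z (unitVec i)) x (unitVec i) α := by
    have h := (EuclideanSpace.proj (𝕜 := ℝ) α).hasFDerivAt.comp x
      ((hf.fderiv_space_apply hI (unitVec i)).differentiableAt_space ht x).hasFDerivAt
    rw [pd, funext e1]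
    exact congrArg (fun L : Euc d →L[ℝ] ℝ => L (unitVec i)) h.fderiv
  rw [e1, e2, score_coord]
  simp only [hF, levelFamily]
  ring

/-- `L²` bounds of words from the regularity along the flow. -/
lemma wordSum_le (hT : TensorBoundStatement) (m : ℕ) : ∃ (j n : ℕ) (C : ℝ), 0 ≤ C ∧
    ∀ (d : ℕ) (W : Euc d → ℝ) (l L : ℝ) (hW : NicePot d W l L), 0 ≤ L → 200 * L ≤ 1 →
      ∀ (k : ℕ) (f : ℝ → Euc d → Ten (Fin d) k) (M : ℝ), 0 ≤ M →
        (levelFamily hW.weight).Reg (Icc (1 / 2 : ℝ) 2) j n M f →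
          ∀ s ∈ Icc (1 / 2 : ℝ) 2, wordSum W m f s ≤ (C * M) ^ 2 := by
  induction m with
  | zero =>
    refine ⟨0, 0, 1, zero_le_one, fun d W l L hW _ _ k f M _ hf s hs => ?_⟩
    have h := hf.2 0 le_rfl 0 le_rfl s hs
    simp only [Function.iterate_zero, id_eq] at h
    rw [one_mul]
    exact h
  | succ m ih =>
    obtain ⟨j, n, C, hC, h⟩ := ih
    obtain ⟨Cc, hCc⟩ := levelFamily_controlled hT
    obtain ⟨n₁, N₁, C₁, h₁⟩ := calc_closure Cc j n
    obtain ⟨n₂, N₂, C₂, h₂⟩ := calc_closure Cc j n₁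
    refine ⟨j + 1, max n (max n₁ n₂), C * (2 + |C₁| + |C₁| * |C₂|), by positivity,
      fun d W l L hW hL hL' k f M hM hf s hs => ?_⟩
    set F := levelFamily hW.weight with hF
    have hFC := hCc d W l L hW hL hL'
    have hJ := hFC.1
    have habs : ∀ {c M' : ℝ} {k' : ℕ} {g : ℝ → Euc d → Ten (Fin d) k'} {n' : ℕ},
        F.Reg (Icc (1 / 2 : ℝ) 2) j n' (c * M') g →
          F.Reg (Icc (1 / 2 : ℝ) 2) j n' (|c| * M') g := fun {c M' k' g n'} hg =>
      ⟨hg.1, fun a ha i hi t ht => (hg.2 a ha i hi t ht).trans_eq (by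
        rw [mul_pow c, mul_pow |c|, sq_abs])⟩
    have hn : F.Reg (Icc (1 / 2 : ℝ) 2) j n (|C₁| * M) fun t => nabla (f t) :=
      habs ((h₁ _ F _ hFC M hM).1 k f (hf.of_le (Nat.le_succ j) (by omega)))
    have hn₁ : F.Reg (Icc (1 / 2 : ℝ) 2) j n₁ (|C₂| * M) fun t => nabla (f t) :=
      habs ((h₂ _ F _ hFC M hM).1 k f (hf.of_le (Nat.le_succ j) (by omega)))
    have hδ : F.Reg (Icc (1 / 2 : ℝ) 2) j n (|C₁| * (|C₂| * M))
        (F.delta fun t => nabla (f t)) :=
      habs ((h₁ _ F _ hFC _ (by positivity)).2.1 k _ hn₁)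
    have hH : F.Reg (Icc (1 / 2 : ℝ) 2) j n (M + |C₁| * (|C₂| * M)) (heatOp f) := by
      have hs2 := (hδ.smul hJ (1 / 2 : ℝ)).mono (M' := |C₁| * (|C₂| * M)) le_rfl le_rfl
        (by positivity) (mul_le_of_le_one_left (by positivity) (by norm_num))
      exact ((hf.D.of_le le_rfl (by omega)).sub hs2 hJ hM (by positivity)).congr hJ
        fun t ht x => levelFamily_heatOp hW.weight hf.1 ht x
    have b1 := h d W l L hW hL hL' k f M hM (hf.of_le (Nat.le_succ j) (le_max_left _ _)) s hs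
    have b2 := h d W l L hW hL hL' (k + 1) _ _ (by positivity) hn s hs
    have b3 := h d W l L hW hL hL' k _ _ (by positivity) hH s hs
    simp only [wordSum]
    refine (add_le_add (add_le_add b1 b2) b3).trans ?_
    have e0 : 0 ≤ C * M := mul_nonneg hC hM
    have e1 : 0 ≤ C * (|C₁| * M) := by positivity
    have e2 : 0 ≤ C * (M + |C₁| * (|C₂| * M)) := by positivity
    rw [show C * (2 + |C₁| + |C₁| * |C₂|) * M
      = C * M + C * (|C₁| * M) + C * (M + |C₁| * (|C₂| * M)) by ring]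
    nlinarith [mul_nonneg e0 e1, mul_nonneg e0 e2, mul_nonneg e1 e2]

/-- The words of the score at unit scale. -/
lemma wordSum_score_le (hT : TensorBoundStatement) : ∃ K : ℕ → ℝ, (∀ m, 0 ≤ K m) ∧
    ∀ (d : ℕ) (W : Euc d → ℝ) (l L : ℝ), NicePot d W l L → 0 ≤ L → 200 * L ≤ 1 →
      ∀ m, ∀ s ∈ Icc (1 / 2 : ℝ) 2,
        wordSum W m (fun t => derivTen (smoothPot W t) 1) s ≤ (K m * √(L * d)) ^ 2 := by
  have h : ∀ m, ∃ K : ℝ, 0 ≤ K ∧ ∀ (d : ℕ) (W : Euc d → ℝ) (l L : ℝ), NicePot d W l L → 0 ≤ L →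
      200 * L ≤ 1 → ∀ s ∈ Icc (1 / 2 : ℝ) 2,
        wordSum W m (fun t => derivTen (smoothPot W t) 1) s ≤ (K * √(L * d)) ^ 2 := by
    intro m
    obtain ⟨j, n, C, hC, h⟩ := wordSum_le hT m
    obtain ⟨C', hC', h'⟩ := levelFamily_reg_score hT j n
    refine ⟨C * C', by positivity, fun d W l L hW hL hL' s hs => ?_⟩
    rw [mul_assoc C C']
    exact h d W l L hW hL hL' 1 _ _ (by positivity) (h' d W l L hW hL hL') s hs
  choose K hK hb using h
  exact ⟨K, hK, fun d W l L hW hL hL' m => hb m d W l L hW hL hL'⟩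

/-! ### Averages along the Gaussian curves -/

/-- The endpoint of a Gaussian segment from a level lies at a higher level. -/
lemma levelLaw_map_curve (hW : Weight W) {a : ℝ} (ha : 0 ≤ a) (lam : ℝ) :
    ((levelLaw W a).prod (gauss d)).map (fun p => p.1 + lam • p.2) = levelLaw W (a + lam ^ 2) := by
  have := (hW.smoothPot ha).isProbabilityMeasure_gibbs
  have key : ∀ r : ℝ, 0 ≤ r →
      ((levelLaw W a).prod (gauss d)).map (fun p => p.1 + r • p.2) = levelLaw W (a + r ^ 2) := by
    intro r hr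
    have h := gibbs_map_noise (hW.smoothPot ha) (sq_nonneg r)
    rw [smoothPot_semigroup hW ha (sq_nonneg r), Real.sqrt_sq hr] at h
    exact h
  rcases le_total 0 lam with hl | hl
  · exact key lam hl
  · rw [← neg_sq lam, ← key (-lam) (neg_nonneg.2 hl)]
    have hn : (gauss d).map (fun x => -x) = gauss d := by
      have h : (gauss d).map (LinearIsometryEquiv.neg ℝ : Euc d ≃ₗᵢ[ℝ] Euc d) = gauss d :=
        stdGaussian_map _
      simpa using! h
    have e : ((levelLaw W a).prod (gauss d)).map (Prod.map id fun x => -x)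
        = (levelLaw W a).prod (gauss d) := by
      have : IsProbabilityMeasure (levelLaw W a) := this
      rw [← Measure.map_prod_map _ _ measurable_id measurable_neg, Measure.map_id, hn]
    conv_rhs => rw [← e, Measure.map_map (by fun_prop) (by fun_prop)]
    refine congrArg (fun g => Measure.map g _) (funext fun p => ?_)
    simp

/-- Averages of a level function along Gaussian segments. -/
lemma level_conv (hW : Weight W) {a : ℝ} (ha : 0 ≤ a) (lam : ℝ) {h : Euc d → ℝ}
    (hc : Continuous h) (hi : Integrable h (levelLaw W (a + lam ^ 2))) :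
    Integrable (fun y => ∫ ξ, h (y + lam • ξ) ∂(gauss d)) (levelLaw W a) ∧
      ∫ y, ∫ ξ, h (y + lam • ξ) ∂(gauss d) ∂(levelLaw W a)
        = ∫ x, h x ∂(levelLaw W (a + lam ^ 2)) := by
  have : IsProbabilityMeasure (levelLaw W a) := (hW.smoothPot ha).isProbabilityMeasure_gibbs
  rw [← levelLaw_map_curve hW ha lam] at hi ⊢
  have hp : Integrable (fun p => h (p.1 + lam • p.2)) ((levelLaw W a).prod (gauss d)) :=
    (integrable_map_measure hc.aestronglyMeasurable (by fun_prop)).1 hi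
  refine ⟨hp.integral_prod_left, ?_⟩
  rw [integral_map (by fun_prop) hc.aestronglyMeasurable, integral_prod _ hp]

lemma Weight.integrable_level_sq (hW : Weight W) {I : Set ℝ} (hI : IsOpen I) {s : ℝ} (hs : s ∈ I)
    (hs0 : 0 ≤ s) {f : ℝ → Euc d → Ten (Fin d) k} (hf : Tame I f) :
    Integrable (fun x => ‖f s x‖ ^ 2) (levelLaw W s) :=
  have : IsProbabilityMeasure (levelLaw W s) := (hW.smoothPot hs0).isProbabilityMeasure_gibbs
  hf.integrable_norm_sq hI hs _ (hW.smoothPot hs0).integrable_norm_pow_gibbs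

/-- The mass of words along the curves through a level is the mass at the endpoint level. -/
lemma curveSum_average (hW : Weight W) (lam : ℝ) (m : ℕ) : ∀ {k : ℕ} {I : Set ℝ}, IsOpen I →
    1 + lam ^ 2 ∈ I → ∀ {f : ℝ → Euc d → Ten (Fin d) k}, Tame I f →
      Integrable (fun y => curveSum m f 1 y lam) (levelLaw W 1) ∧
        ∫ y, curveSum m f 1 y lam ∂(levelLaw W 1) = wordSum W m f (1 + lam ^ 2) := by
  induction m with
  | zero =>
    intro k I hI hs f hf
    have h := level_conv hW zero_le_one lam (h := fun x => ‖f (1 + lam ^ 2) x‖ ^ 2)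
      ((hf.contDiff_space hs).continuous.norm.pow 2)
      (hW.integrable_level_sq hI hs (by positivity) hf)
    simpa only [curveSum, wordSum, curveField] using h
  | succ m ih =>
    intro k I hI hs f hf
    obtain ⟨i1, e1⟩ := ih hI hs hf
    obtain ⟨i2, e2⟩ := ih hI hs (Tame.nabla hf hI)
    obtain ⟨i3, e3⟩ := ih hI hs (Tame.heatOp hI hf)
    simp only [curveSum, wordSum]
    refine ⟨(i1.fun_add i2).fun_add i3, ?_⟩
    rw [integral_add (i1.fun_add i2) i3, integral_add i1 i2, e1, e2, e3]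

/-! ### General facts -/

/-- A second moment bound gives a first moment bound. -/
lemma norm_le_of_sq_le {Ω E : Type*} [MeasurableSpace Ω] [NormedAddCommGroup E] {μ : Measure Ω}
    [IsProbabilityMeasure μ] {f : Ω → E} (hm : AEStronglyMeasurable f μ) {M : ℝ} (hM : 0 ≤ M)
    (hi : Integrable (fun x => ‖f x‖ ^ 2) μ) (h : ∫ x, ‖f x‖ ^ 2 ∂μ ≤ M ^ 2) :
    Integrable (fun x => ‖f x‖) μ ∧ ∫ x, ‖f x‖ ∂μ ≤ M := by
  have h1 : Integrable (fun x => ‖f x‖) μ :=
    ((integrable_const (1 : ℝ)).add hi).mono' hm.norm (.of_forall fun x => by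
      rw [norm_norm, Pi.add_apply]; nlinarith [sq_nonneg (‖f x‖ - 1), norm_nonneg (f x)])
  refine ⟨h1, ?_⟩
  set a := ∫ x, ‖f x‖ ∂μ
  have h2 : ∫ x, (2 * a * ‖f x‖ - a ^ 2) ∂μ ≤ ∫ x, ‖f x‖ ^ 2 ∂μ :=
    integral_mono ((h1.const_mul _).sub (integrable_const _)) hi
      fun x => by nlinarith [sq_nonneg (‖f x‖ - a)]
  rw [integral_sub (h1.const_mul _) (integrable_const _), integral_const_mul] at h2
  simp only [integral_const, probReal_univ, one_smul] at h2
  have : 0 ≤ a := integral_nonneg fun x => norm_nonneg _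
  nlinarith

/-- A derivative continuous up to the ends of an interval is the derivative at the ends. -/
lemma hasDerivWithinAt_Icc_of_continuousOn {E : Type*} [NormedAddCommGroup E] [NormedSpace ℝ E]
    [CompleteSpace E] {a b : ℝ} (hab : a ≤ b) {f f' : ℝ → E} (hf : ContinuousOn f (Icc a b))
    (hf' : ContinuousOn f' (Icc a b)) (hd : ∀ x ∈ Ioo a b, HasDerivAt f (f' x) x) {t : ℝ}
    (ht : t ∈ Icc a b) : HasDerivWithinAt f (f' t) (Icc a b) t := by
  set g := IccExtend hab ((Icc a b).domRestrict f')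
  have hg : Continuous g := hf'.domRestrict.Icc_extend'
  have hge : ∀ u ∈ Icc a b, g u = f' u := fun u hu => IccExtend_of_mem hab _ hu
  have he : ∀ u ∈ Icc a b, f u = f a + ∫ v in a..u, g v := fun u hu => by
    rw [intervalIntegral.integral_eq_sub_of_hasDerivAt_of_le (f := f) hu.1
      (hf.mono (Icc_subset_Icc le_rfl hu.2)) (fun x hx => ?_) (hg.intervalIntegrable _ _)]
    · abel
    · rw [hge x ⟨hx.1.le, hx.2.le.trans hu.2⟩]
      exact hd x ⟨hx.1, hx.2.trans_le hu.2⟩
  rw [← hge t ht]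
  exact ((hg.integral_hasStrictDerivAt a t).hasDerivAt.const_add (f a)).hasDerivWithinAt.congr
    he (he t ht)

end Vale.Agent.P347
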