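import Vale.Agent.P347.CurveScale

/-!
The cleaning and extraction curves.
-/

namespace Vale.Agent.P347

open MeasureTheory ProbabilityTheory Filter Set
open scoped Gradient RealInnerProductSpace ContDiff Topology

variable {d : ℕ}

/-- The score of the rescaled potential carries the bounds of the original one. -/
lemma curve_bound_arith {σ K : ℝ} (hσ : 0 < σ) (hK : 0 ≤ K) {den : ℝ} (hden : 0 < den) :
    (√σ)⁻¹ / den * (K * √(2 * σ * (d : ℝ))) ≤ 2 * K * ((d : ℝ) + 1) ^ 2 / den := by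
  have h1 : √(2 * σ * (d : ℝ)) = √σ * √(2 * d) := by
    rw [← Real.sqrt_mul hσ.le]; ring_nf
  have hd : (0 : ℝ) ≤ d := d.cast_nonneg
  have h2 : √(2 * (d : ℝ)) ≤ 2 * ((d : ℝ) + 1) ^ 2 := by
    rw [Real.sqrt_le_left (by positivity)]
    nlinarith [sq_nonneg ((d : ℝ) + 1), mul_nonneg hd hd]
  have h3 : 0 < √σ := Real.sqrt_pos.2 hσ
  calc (√σ)⁻¹ / den * (K * √(2 * σ * (d : ℝ))) = K * √(2 * d) / den := by rw [h1]; field_simp
    _ ≤ K * (2 * ((d : ℝ) + 1) ^ 2) / den := by gcongr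
    _ = _ := by ring

lemma scoreAvg_rescale {V : Euc d → ℝ} (hV : Weight V) {σ a b : ℝ} (hσ : 0 < σ) (hab : 0 < a + b)
    (hS : SemiBdd (derivTen (smoothPot (rescalePot V σ) (a + b)) 1))
    (hW : Weight (rescalePot V σ)) (w : Euc d) :
    scoreAvg V (σ * a) (σ * b) (√σ • w)
      = (√σ)⁻¹ • curveVecL d (heat b (derivTen (smoothPot (rescalePot V σ) (a + b)) 1) w) := by
  have h : ∀ z, score V (σ * (a + b)) (√σ • z)
      = (√σ)⁻¹ • curveVecL d (derivTen (smoothPot (rescalePot V σ) (a + b)) 1 z) := fun z => by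
    rw [← score_eq_curveVecL hW hab.le, score_rescale hV hσ hab, smul_smul,
      inv_mul_cancel₀ (Real.sqrt_pos.2 hσ).ne', one_smul]
  rw [← hS.heat_clm (curveVecL d), scoreAvg, ← mul_add, heat, heat, ← integral_smul]
  refine integral_congr_ae (.of_forall fun η => ?_)
  simp only [← h, smul_add, smul_smul, Real.sqrt_mul hσ.le]

/-- Uniform data at unit scale. -/
lemma unit_data (hT : TensorBoundStatement) : ∃ (c₀ : ℝ) (K : ℕ → ℝ), 0 < c₀ ∧ c₀ ≤ 1 ∧
    (∀ i, 0 ≤ K i) ∧ ∀ (d : ℕ) (V : Euc d → ℝ), NicePot d V 1 2 → ∀ σ : ℝ, 0 < σ → σ ≤ c₀ →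
      Weight (rescalePot V σ) ∧
      (∀ r : ℝ, 0 ≤ r → r ≤ 2 → SemiBdd (derivTen (smoothPot (rescalePot V σ) r) 1)) ∧
      (∀ T : ℝ, 0 < T → T ≤ 2 * σ → SemiBdd (score V T)) ∧
      ∀ i, ∀ s ∈ Icc (1 / 2 : ℝ) 2,
        wordSum (rescalePot V σ) i (fun u => derivTen (smoothPot (rescalePot V σ) u) 1) s
          ≤ (K i * √(2 * σ * d)) ^ 2 := by
  obtain ⟨c₁, hc₁, hN⟩ := nicePot_smoothPot poincare
  obtain ⟨K, hK, hb⟩ := wordSum_score_le hT
  refine ⟨min (1 / 400) (c₁ / 4), K, by positivity, (min_le_left _ _).trans (by norm_num), hK,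
    fun d V hV σ hσ hσc => ?_⟩
  have hσ1 : σ ≤ 1 / 400 := hσc.trans (min_le_left _ _)
  have hσ2 : σ ≤ c₁ / 4 := hσc.trans (min_le_right _ _)
  have hW := hV.rescale hσ
  refine ⟨hW.weight, fun r hr hr2 => ?_, fun T hT0 hT2 => ?_, fun i s hs => ?_⟩
  · exact (hN d _ _ _ r hW (by linarith) hr (by nlinarith)).semiBdd_derivTen
  · rw [show score V T = fun x => curveVecL d (derivTen (smoothPot V T) 1 x) from
      funext (score_eq_curveVecL hV.weight hT0.le)]
    exact (hN d _ _ _ T hV (by norm_num) hT0.le (by linarith)).semiBdd_derivTen.clm_comp _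
  · rw [mul_comm σ 1, one_mul, mul_comm σ 2] at hW
    exact hb d _ σ (2 * σ) hW (by positivity) (by linarith) i s hs

lemma map_scale_prod {V : Euc d → ℝ} (hV : Weight V) {σ : ℝ} (hσ : 0 < σ) :
    ((levelLaw V σ).prod (gauss d)).map (fun p => ((√σ)⁻¹ • p.1, p.2))
      = (levelLaw (rescalePot V σ) 1).prod (gauss d) := by
  have : IsProbabilityMeasure (levelLaw V σ) := (hV.smoothPot hσ.le).isProbabilityMeasure_gibbs
  conv_rhs => rw [← levelLaw_rescale hV hσ, ← Measure.map_id (μ := gauss d),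
    Measure.map_prod_map _ _ (by fun_prop) measurable_id]
  rfl

/-- The cleaning curve has derivatives of every order bounded in mean. -/
theorem cleanCurves (hT : TensorBoundStatement) : CleanCurveStatement := by
  obtain ⟨c₀, K, hc₀, -, hK, hdata⟩ := unit_data hT
  refine ⟨c₀, hc₀, fun k => 2 * K k, fun d V hV _ t ht htc => ?_⟩
  obtain ⟨hW, hSB, -, hb⟩ := hdata d V hV t ht htc
  set W := rescalePot V t
  have hcl := clean_bound (W := W) hW (f := fun u => derivTen (smoothPot W u) 1)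
    ((smoothPot_tame hW).derivTen isOpen_Ioi 1) (M := fun i => K i * √(2 * t * d))
    (fun i => mul_nonneg (hK i) (Real.sqrt_nonneg _))
    fun i s hs => hb i s ⟨by linarith [hs.1], hs.2⟩
  refine hcl.transport (curveVecL d) norm_curveVecL_le (c := (√t)⁻¹) (r := t) (by positivity) ht
    (S := fun z => (√t)⁻¹ • z) (by fun_prop) (levelLaw_rescale hV.weight ht) (by simp) (by simp)
    (fun ν hν z => ?_) (fun k _ => ?_)
  · have hν1 : ν / t ∈ Icc (0 : ℝ) 1 :=
      ⟨div_nonneg hν.1 ht.le, by rw [div_le_one ht]; exact hν.2⟩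
    have h := scoreAvg_rescale hV.weight ht (a := 1) (b := ν / t) (by linarith [hν1.1])
      (hSB _ (by linarith [hν1.1]) (by linarith [hν1.2])) hW ((√t)⁻¹ • z)
    rw [mul_one, mul_div_cancel₀ _ ht.ne', smul_smul,
      mul_inv_cancel₀ (Real.sqrt_pos.2 ht).ne', one_smul] at h
    exact h
  · exact curve_bound_arith ht (hK k) (pow_pos ht k)

/-- The extraction curves have derivatives of every order bounded in mean. -/
theorem extractCurves (hT : TensorBoundStatement) : ExtractCurveStatement := by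
  obtain ⟨c₀, K, hc₀, -, hK, hdata⟩ := unit_data hT
  obtain ⟨C, m, hC, hex⟩ := extract_bound
  refine ⟨c₀, hc₀, fun k => 2 * (C k * K (m k)), fun d V hV _ => ⟨fun t ht htc => ?_,
    fun t ρ ht hρ hρt htc => ?_⟩⟩
  · obtain ⟨hW, hSB, -, hb⟩ := hdata d V hV t ht htc
    set W := rescalePot V t
    have hst : 0 < √t := Real.sqrt_pos.2 ht
    set f : ℝ → Euc d → Ten (Fin d) 1 := fun u => derivTen (smoothPot W u) 1
    have hf : Tame (Ioi 0) f := (smoothPot_tame hW).derivTen isOpen_Ioi 1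
    have hH : ContDiffOn ℝ ∞
        (fun p : ℝ × (Euc d × Euc d) => f (1 + p.1 ^ 2) (p.2.1 + p.1 • p.2.2))
        (Icc (-1) 1 ×ˢ univ) :=
      ContDiffOn.comp (g := fun q : ℝ × Euc d => f q.1 q.2)
        (f := fun p : ℝ × (Euc d × Euc d) => (1 + p.1 ^ 2, p.2.1 + p.1 • p.2.2)) hf.1
        (ContDiff.contDiffOn (by fun_prop))
        fun p _ => ⟨show (0 : ℝ) < 1 + p.1 ^ 2 by positivity, mem_univ _⟩
    have hcur := hex d W hW (Ioi 0) isOpen_Ioi f hf 1 one_pos le_rfl
      (fun s _ => show (0 : ℝ) < 1 + s ^ 2 by positivity) hH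
      (fun i => K i * √(2 * t * d)) (fun i => mul_nonneg (hK i) (Real.sqrt_nonneg _))
      fun i s hs => hb i _ ⟨by nlinarith [sq_nonneg s], by nlinarith [hs.1, hs.2]⟩
    refine ⟨hcur.transport (curveVecL d) norm_curveVecL_le (c := (√t)⁻¹) (r := √t) (by positivity) hst
      (S := fun p => ((√t)⁻¹ • p.1, p.2)) (by fun_prop) (map_scale_prod hV.weight ht) (by simp)
      (by simp) (fun lam _ p => ?_) (fun k _ => ?_), fun p => ?_⟩
    · have hs : (0 : ℝ) < 1 + (lam / √t) ^ 2 := by positivity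
      have h := score_rescale hV.weight ht hs ((√t)⁻¹ • p.1 + (lam / √t) • p.2)
      rw [score_eq_curveVecL hW hs.le] at h
      rw [h, smul_smul, inv_mul_cancel₀ hst.ne', one_smul, smul_add, smul_smul, smul_smul,
        mul_inv_cancel₀ hst.ne', one_smul, mul_div_cancel₀ _ hst.ne', mul_add, mul_one, div_pow,
        Real.sq_sqrt ht.le, mul_div_cancel₀ _ ht.ne']
    · refine le_of_eq_of_le ?_ (curve_bound_arith ht (mul_nonneg (hC k) (hK (m k)))
        (pow_pos hst k))
      ring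
    · have hT' := tame_score hV.weight
      have hcurve : HasDerivAt (fun lam : ℝ => (t + lam ^ 2, p.1 + lam • p.2)) ((0 : ℝ), p.2) 0 := by
        refine HasDerivAt.prodMk ?_ ?_
        · simpa using (hasDerivAt_pow 2 (0 : ℝ)).const_add t
        · simpa using ((hasDerivAt_id (0 : ℝ)).smul_const p.2).const_add p.1
      have hd := (hT'.differentiableAt isOpen_Ioi (show t ∈ Ioi (0 : ℝ) from ht) p.1).hasFDerivAt
      have h := HasFDerivAt.comp_hasDerivAt
        (f := fun lam : ℝ => (t + lam ^ 2, p.1 + lam • p.2)) (0 : ℝ)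
        (show HasFDerivAt (fun q : ℝ × Euc d => score V q.1 q.2) _
          (t + (0 : ℝ) ^ 2, p.1 + (0 : ℝ) • p.2) by simpa using hd) hcurve
      refine h.congr_deriv ?_
      rw [← hT'.fderiv_space isOpen_Ioi (show t ∈ Ioi (0 : ℝ) from ht), hessAvg,
        show scoreAvg V t 0 = score V t from funext fun y => by simp [scoreAvg]]
  · obtain ⟨hW, hSB, hSV, hb⟩ := hdata d V hV t ht htc
    set W := rescalePot V t
    have hst : 0 < √t := Real.sqrt_pos.2 ht
    have hρ' : ρ / t ∈ Ioc (0 : ℝ) 1 := ⟨div_pos hρ ht, by rw [div_le_one ht]; exact hρt⟩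
    set T := 1 + ρ / t with hTd
    set r := √(ρ / t) with hr
    have hr0 : 0 < r := Real.sqrt_pos.2 hρ'.1
    have hr1 : r ≤ 1 := Real.sqrt_le_one.2 hρ'.2
    have hr2 : r ^ 2 = ρ / t := Real.sq_sqrt hρ'.1.le
    set h₀ := derivTen (smoothPot W T) 1
    have hh : SemiBdd h₀ := hSB T (by linarith [hρ'.1]) (by linarith [hρ'.2])
    set f : ℝ → Euc d → Ten (Fin d) 1 := fun s x => heat (T - s) h₀ x
    have hmap : ∀ s ∈ Ioo (-r) r, 1 + s ^ 2 ∈ Iio T := fun s hs => by
      show 1 + s ^ 2 < 1 + ρ / t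
      nlinarith [hs.1, hs.2]
    have hH : ContDiffOn ℝ ∞
        (fun p : ℝ × (Euc d × Euc d) => f (1 + p.1 ^ 2) (p.2.1 + p.1 • p.2.2))
        (Icc (-r) r ×ˢ univ) :=
      contDiffOn_infty.2 fun n =>
        ContDiffOn.comp (g := fun q : ℝ × Euc d => heat (T - q.1) h₀ q.2)
          (f := fun p : ℝ × (Euc d × Euc d) => (1 + p.1 ^ 2, p.2.1 + p.1 • p.2.2))
          (contDiffOn_heat_back_closed n hh T) (ContDiff.contDiffOn (by fun_prop))
          fun p hp => ⟨show 1 + p.1 ^ 2 ≤ 1 + ρ / t by nlinarith [hp.1.1, hp.1.2], mem_univ _⟩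
    have hcur := hex d W hW (Iio T) isOpen_Iio f (hh.heat_back_tame T) r hr0 hr1 hmap hH
      (fun i => K i * √(2 * t * d)) (fun i => mul_nonneg (hK i) (Real.sqrt_nonneg _))
      fun i s hs => (wordSum_heat_le hW (by positivity) (hmap s hs) i hh).trans
        ((gradSum_le_wordSum W T i fun u => derivTen (smoothPot W u) 1).trans
          (hb i T ⟨by linarith [hρ'.1], by linarith [hρ'.2]⟩))
    have hρr : √ρ = √t * r := by
      rw [hr, ← Real.sqrt_mul ht.le, mul_div_cancel₀ _ ht.ne']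
    refine ⟨hcur.transport (curveVecL d) norm_curveVecL_le (c := (√t)⁻¹) (r := √t) (by positivity) hst
      (S := fun p => ((√t)⁻¹ • p.1, p.2)) (by fun_prop) (map_scale_prod hV.weight ht)
      (by rw [hρr]; ring) hρr (fun lam _ p => ?_) (fun k _ => ?_), fun p => ?_⟩
    · have hsum : 1 + (lam / √t) ^ 2 + (ρ / t - (lam / √t) ^ 2) = T := by rw [hTd]; ring
      have h := scoreAvg_rescale hV.weight ht (a := 1 + (lam / √t) ^ 2)
        (b := ρ / t - (lam / √t) ^ 2) (by rw [hsum]; linarith [hρ'.1]) (by rw [hsum]; exact hh) hW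
        ((√t)⁻¹ • p.1 + (lam / √t) • p.2)
      rw [hsum, smul_add, smul_smul, smul_smul, mul_inv_cancel₀ hst.ne', one_smul,
        mul_div_cancel₀ _ hst.ne', mul_add, mul_one, mul_sub, mul_div_cancel₀ _ ht.ne',
        div_pow, Real.sq_sqrt ht.le, mul_div_cancel₀ _ ht.ne'] at h
      rw [h]
      simp only [f]
      rw [show T - (1 + (lam / √t) ^ 2) = ρ / t - lam ^ 2 / t by
        rw [hTd, div_pow, Real.sq_sqrt ht.le]; ring]
    · refine le_of_eq_of_le ?_ (curve_bound_arith ht (mul_nonneg (hC k) (hK (m k)))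
        (pow_pos hst k))
      ring
    · have hg : SemiBdd (score V (t + ρ)) := hSV (t + ρ) (by positivity) (by linarith)
      have hlt : t < t + ρ := by linarith
      have e : ∀ (lam : ℝ) (x : Euc d), scoreAvg V (t + lam ^ 2) (ρ - lam ^ 2) x
          = heat (t + ρ - (t + lam ^ 2)) (score V (t + ρ)) x := fun lam x => by
        rw [scoreAvg]; ring_nf
      have hcurve : HasDerivAt (fun lam : ℝ => (t + lam ^ 2, p.1 + lam • p.2)) ((0 : ℝ), p.2) 0 := by
        refine HasDerivAt.prodMk ?_ ?_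
        · simpa using (hasDerivAt_pow 2 (0 : ℝ)).const_add t
        · simpa using ((hasDerivAt_id (0 : ℝ)).smul_const p.2).const_add p.1
      have hd := hasFDerivAt_heat_back hg (p := (t, p.1)) hlt
      have h := HasFDerivAt.comp_hasDerivAt
        (f := fun lam : ℝ => (t + lam ^ 2, p.1 + lam • p.2)) (0 : ℝ)
        (show HasFDerivAt (fun q : ℝ × Euc d => heat (t + ρ - q.1) (score V (t + ρ)) q.2) _
          (t + (0 : ℝ) ^ 2, p.1 + (0 : ℝ) • p.2) by simpa using hd) hcurve
      rw [show (fun lam : ℝ => scoreAvg V (t + lam ^ 2) (ρ - lam ^ 2) (p.1 + lam • p.2))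
          = fun lam : ℝ => heat (t + ρ - (t + lam ^ 2)) (score V (t + ρ)) (p.1 + lam • p.2) from
        funext fun lam => e lam _]
      refine h.congr_deriv ?_
      have hh' := fderiv_heat_back_space hg hlt p.1
      rw [add_sub_cancel_left] at hh'
      rw [hessAvg, show scoreAvg V t ρ = fun z => heat ρ (score V (t + ρ)) z from rfl, hh']
      simp [coprodL, reflL]

end Vale.Agent.P347
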