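import Mathlib

/-!
Definitions for P347: first-order query algorithms for well-conditioned log-concave sampling.
-/

namespace Vale.Agent.P347

open MeasureTheory ProbabilityTheory
open scoped Gradient RealInnerProductSpace

/-- Euclidean space of dimension `d`. -/
abbrev Euc (d : ℕ) : Type := EuclideanSpace ℝ (Fin d)

/-- The potential class: `V ∈ C²`, `V 0 = 0`, `∇V 0 = 0`, `I ≤ ∇²V ≤ 2I`. -/
structure Admissible (d : ℕ) (V : Euc d → ℝ) : Prop where
  smooth : ContDiff ℝ 2 V
  value_zero : V 0 = 0
  grad_zero : ∇ V 0 = 0
  hessian_lower : ∀ x v : Euc d, ‖v‖ ^ 2 ≤ iteratedFDeriv ℝ 2 V x (fun _ => v)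
  hessian_upper : ∀ x v : Euc d, iteratedFDeriv ℝ 2 V x (fun _ => v) ≤ 2 * ‖v‖ ^ 2

/-- The normalised Gibbs measure with density proportional to `exp (-V)`. -/
noncomputable def gibbs {d : ℕ} (V : Euc d → ℝ) : Measure (Euc d) :=
  volume.tilted fun x => -V x

/-- The random seed: an i.i.d. sequence of standard Gaussian reals. -/
abbrev Seed : Type := ℕ → ℝ

/-- The law of the random seed. -/
noncomputable def seedLaw : Measure Seed :=
  Measure.infinitePi fun _ : ℕ => gaussianReal 0 1

/-- An adaptive randomised algorithm making `q` queries to the first-order oracle: the point of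
query `k` is a measurable function of the seed and of the first `k` answers; the output is a
measurable function of the seed and of all `q` answers. -/
structure Algorithm (d q : ℕ) where
  query : (k : Fin q) → Seed × (Fin (k : ℕ) → ℝ × Euc d) → Euc d
  measurable_query : ∀ k, Measurable (query k)
  output : Seed × (Fin q → ℝ × Euc d) → Euc d
  measurable_output : Measurable output

/-- The first `k` oracle answers seen by the algorithm when run on `V` with seed `w`. -/
noncomputable def Algorithm.answers {d q : ℕ} (A : Algorithm d q) (V : Euc d → ℝ) (w : Seed) :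
    (k : ℕ) → k ≤ q → Fin k → ℝ × Euc d
  | 0, _ => Fin.elim0
  | k + 1, h =>
      let prev := A.answers V w k (Nat.le_of_succ_le h)
      let x := A.query ⟨k, h⟩ (w, prev)
      Fin.snoc prev (V x, ∇ V x)

/-- The output of the algorithm run on `V` with seed `w`. -/
noncomputable def Algorithm.run {d q : ℕ} (A : Algorithm d q) (V : Euc d → ℝ) (w : Seed) :
    Euc d :=
  A.output (w, A.answers V w q le_rfl)

/-- The algorithm samples every admissible target within total variation `1/10`. -/
def Algorithm.Samples {d q : ℕ} (A : Algorithm d q) : Prop :=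
  ∀ V : Euc d → ℝ, Admissible d V → ∀ B : Set (Euc d), MeasurableSet B →
    |(seedLaw.map (A.run V)).real B - (gibbs V).real B| ≤ 1 / 10

/-- The query complexity `Q(d)`: the least worst-case query budget of a sampler. -/
noncomputable def queryComplexity (d : ℕ) : ℕ :=
  sInf {q : ℕ | ∃ A : Algorithm d q, A.Samples}

/-- The dimension exponent `limsup log Q(d) / log d`. -/
noncomputable def dimensionExponent : ℝ :=
  Filter.limsup (fun d : ℕ => Real.log (queryComplexity d) / Real.log d) Filter.atTop

end Vale.Agent.P347
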