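import Vale.Agent.P347.Approx

/-!
The bookkeeping engine: operators and bodies on expressions, with rules for cost, stability and
closeness to Gaussian laws.
-/

namespace Vale.Agent.P347

open MeasureTheory ProbabilityTheory
open scoped NNReal

variable {d : ℕ}

/-- The gradient oracles of the class: close to `3/2` times the identity in Lipschitz sense. -/
structure Oracle (G : Euc d → Euc d) : Prop where
  continuous : Continuous G
  near : ∀ a b, ‖G a - G b - (3 / 2 : ℝ) • (a - b)‖ ≤ 1 / 2 * ‖a - b‖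

lemma Oracle.lip {G : Euc d → Euc d} (hG : Oracle G) (a b : Euc d) :
    ‖G a - G b‖ ≤ 2 * ‖a - b‖ := by
  have h := hG.near a b
  have h2 := norm_le_norm_add_norm_sub' (G a - G b) ((3 / 2 : ℝ) • (a - b))
  rw [norm_smul, Real.norm_eq_abs, abs_of_pos (by norm_num : (0 : ℝ) < 3 / 2)] at h2
  linarith

namespace Expr

variable {n k m : ℕ}

/-- Queries of an expression when input `i` costs `w i`. -/
def cost (w : Fin n → ℕ) : Expr n → ℕ
  | inp i => w i
  | noise _ => 0
  | zero => 0
  | add a b => a.cost w + b.cost w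
  | smul _ a => a.cost w
  | grad a => a.cost w + 1

lemma queries_eq_cost (e : Expr n) : e.queries = e.cost 0 := by
  induction e <;> simp_all [queries, cost]

lemma cost_rename (w : Fin n → ℕ) (ρ : ℕ → ℕ) (e : Expr n) :
    (e.rename ρ).cost w = e.cost w := by
  induction e <;> simp_all [rename, cost]

lemma cost_subst (w : Fin k → ℕ) (e : Expr n) (f : Fin n → Expr k) :
    (e.subst f).cost w = e.cost fun i => (f i).cost w := by
  induction e <;> simp_all [subst, cost]

lemma cost_bind (w : Fin k → ℕ) (e : Expr n) (f : Fin n → Expr k) :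
    (e.bind f).cost w = e.cost fun i => (f i).cost w := by
  simp [bind, cost_subst, cost_rename]

/-- An expression with more inputs, ignoring the new ones. -/
def lift (m : ℕ) (p : Expr k) : Expr (k + m) := p.subst fun i => inp (Fin.castAdd m i)

/-- `√s • noise + ∑ c i • f i` with independent randomness. -/
noncomputable def comb {k : ℕ} : (n : ℕ) → (Fin n → ℝ) → (Fin n → Expr k) → ℝ → Expr k
  | 0, _, _, s => smul √s (noise 0)
  | n + 1, c, f, s => lin2 (c 0) 1 (f 0) (comb n (fun i => c i.succ) (fun i => f i.succ) s)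

lemma cost_lin2 (w : Fin k → ℕ) (a b : ℝ) (e₁ e₂ : Expr k) :
    (lin2 a b e₁ e₂).cost w = e₁.cost w + e₂.cost w := by
  simp [lin2, cost_bind, cost]

lemma cost_comb (w : Fin k → ℕ) : ∀ (n : ℕ) (c : Fin n → ℝ) (f : Fin n → Expr k) (s : ℝ),
    (comb n c f s).cost w = ∑ i, (f i).cost w
  | 0, _, _, _ => by simp [comb, cost]
  | n + 1, c, f, s => by
      simp [comb, cost_lin2, cost_comb w n, Fin.sum_univ_succ]

lemma cost_lift (w : Fin k → ℕ) (u : Fin m → ℕ) (p : Expr k) :
    (p.lift m).cost (Fin.append w u) = p.cost w := by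
  simp [lift, cost_subst, cost]

variable {G : Euc d → Euc d}

lemma eval_lift (p : Expr k) (x : Fin k → Euc d) (u : Fin m → Euc d) (ω : ℕ → Euc d) :
    (p.lift m).eval G (Fin.append x u) ω = p.eval G x ω := by
  simp [lift, eval_subst, eval]

lemma law_lift (p : Expr k) (x : Fin k → Euc d) (u : Fin m → Euc d) :
    (p.lift m).law G (Fin.append x u) = p.law G x := by
  simp [Expr.law, eval_lift]

lemma law_scaled_noise (s : ℝ) (x : Fin k → Euc d) :
    (smul √s (noise 0) : Expr k).law G x = gN 0 s := by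
  have h : (fun ω : ℕ → Euc d => (smul √s (noise 0) : Expr k).eval G x ω)
      = (fun η : Euc d => (0 : Euc d) + √s • η) ∘ fun ω => ω 0 := by
    funext ω; simp [eval]
  rw [Expr.law, h, ← Measure.map_map (g := fun η : Euc d => (0 : Euc d) + √s • η)
    (f := fun ω : ℕ → Euc d => ω 0) (by fun_prop) (measurable_pi_apply 0), gN, noiseLaw]
  congr 1
  exact Measure.infinitePi_map_eval _ 0

lemma law_inp (i : Fin k) (x : Fin k → Euc d) : (inp i : Expr k).law G x = gN (x i) 0 := by
  simp [Expr.law, eval, gN]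

lemma dualClose_comb {L : ℝ} (hL : 0 ≤ L) (hG : Continuous G)
    (hGL : ∀ a b, ‖G a - G b‖ ≤ L * ‖a - b‖) (x : Fin k → Euc d) {s : ℝ} (hs : 0 ≤ s) :
    ∀ (n : ℕ) (c : Fin n → ℝ) (f : Fin n → Expr k) (μ : Fin n → Euc d) (v E : Fin n → ℝ),
      (∀ i, 0 ≤ v i) → (∀ i, DualClose ((f i).law G x) (gN (μ i) (v i)) (E i)) →
      DualClose ((comb n c f s).law G x) (gN (∑ i, c i • μ i) (s + ∑ i, c i ^ 2 * v i))
        (∑ i, |c i| * E i)
  | 0, _, f, μ, v, E, _, _ => by
      simpa [comb, law_scaled_noise] using DualClose.refl (gN (0 : Euc d) s)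
  | n + 1, c, f, μ, v, E, hv, h => by
      have ih := dualClose_comb hL hG hGL x hs n (fun i => c i.succ) (fun i => f i.succ)
        (fun i => μ i.succ) (fun i => v i.succ) (fun i => E i.succ) (fun i => hv _) (fun i => h _)
      have h2 := dualClose_lin2 hL hG hGL (c 0) 1 (hv 0)
        (add_nonneg hs (Finset.sum_nonneg fun i _ => mul_nonneg (sq_nonneg _) (hv _))) (h 0) ih
      rw [Fin.sum_univ_succ, Fin.sum_univ_succ, Fin.sum_univ_succ]
      simp only [comb]
      convert h2 using 2
      · simp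
      · ring
      · simp

/-- The two evaluations differ by `D` up to `B`, for every noise. -/
def Shift (G : Euc d → Euc d) (e : Expr n) (x y : Fin n → Euc d) (D : Euc d) (B : ℝ) : Prop :=
  ∀ ω : ℕ → Euc d, ‖e.eval G x ω - e.eval G y ω - D‖ ≤ B

lemma Shift.nonneg {e : Expr n} {x y : Fin n → Euc d} {D : Euc d} {B : ℝ}
    (h : e.Shift G x y D B) : 0 ≤ B := (norm_nonneg _).trans (h 0)

lemma Shift.mono {e : Expr n} {x y : Fin n → Euc d} {D : Euc d} {B B' : ℝ}
    (h : e.Shift G x y D B) (hB : B ≤ B') : e.Shift G x y D B' := fun ω => (h ω).trans hB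

lemma Shift.recentre {e : Expr n} {x y : Fin n → Euc d} {D : Euc d} {B : ℝ}
    (h : e.Shift G x y D B) (D' : Euc d) : e.Shift G x y D' (B + ‖D - D'‖) := fun ω => by
  refine le_trans ?_ (add_le_add (h ω) le_rfl)
  have e1 : e.eval G x ω - e.eval G y ω - D'
      = (e.eval G x ω - e.eval G y ω - D) + (D - D') := by abel
  rw [e1]
  exact norm_add_le _ _

lemma shift_lift {p : Expr k} {x y : Fin k → Euc d} {D : Euc d} {B : ℝ}
    (h : p.Shift G x y D B) (u v : Fin m → Euc d) :
    (p.lift m).Shift G (Fin.append x u) (Fin.append y v) D B := fun ω => by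
  simp only [eval_lift]; exact h ω

lemma Shift.grad (hG : Oracle G) {e : Expr n} {x y : Fin n → Euc d} {D : Euc d} {B : ℝ}
    (h : e.Shift G x y D B) :
    (Expr.grad e).Shift G x y ((3 / 2 : ℝ) • D) (1 / 2 * ‖D‖ + 2 * B) := fun ω => by
  set a := e.eval G x ω
  set b := e.eval G y ω
  have h1 := hG.near a b
  have h2 : ‖(3 / 2 : ℝ) • (a - b - D)‖ ≤ 3 / 2 * B := by
    rw [norm_smul, Real.norm_eq_abs, abs_of_pos (by norm_num : (0 : ℝ) < 3 / 2)]
    exact mul_le_mul_of_nonneg_left (h ω) (by norm_num)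
  have h3 : ‖a - b‖ ≤ ‖D‖ + B :=
    (norm_le_norm_add_norm_sub' (a - b) D).trans (by linarith [h ω])
  have e1 : G a - G b - (3 / 2 : ℝ) • D
      = (G a - G b - (3 / 2 : ℝ) • (a - b)) + (3 / 2 : ℝ) • (a - b - D) := by
    rw [smul_sub _ (a - b) D]; abel
  simp only [eval]
  rw [e1]
  refine (norm_add_le _ _).trans ?_
  linarith

lemma Shift.lin2 {a b : ℝ} {e₁ e₂ : Expr n} {x y : Fin n → Euc d} {D₁ D₂ : Euc d} {B₁ B₂ : ℝ}
    (h₁ : e₁.Shift G x y D₁ B₁) (h₂ : e₂.Shift G x y D₂ B₂) :
    (Expr.lin2 a b e₁ e₂).Shift G x y (a • D₁ + b • D₂) (|a| * B₁ + |b| * B₂) := fun ω => by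
  simp only [Expr.lin2, eval_bind, eval, Matrix.cons_val_zero, Matrix.cons_val_one]
  set f := fun j => ω (Nat.pair (((0 : Fin 2) : ℕ) + 1) j)
  set g := fun j => ω (Nat.pair (((1 : Fin 2) : ℕ) + 1) j)
  calc _ = ‖a • (e₁.eval G x f - e₁.eval G y f - D₁)
        + b • (e₂.eval G x g - e₂.eval G y g - D₂)‖ := by
        congr 1; simp only [smul_sub]; abel
    _ ≤ _ := by
        refine (norm_add_le _ _).trans ?_
        simp only [norm_smul, Real.norm_eq_abs]
        gcongr
        · exact h₁ _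
        · exact h₂ _

lemma shift_comb {s : ℝ} {x y : Fin k → Euc d} :
    ∀ (n : ℕ) (c : Fin n → ℝ) (f : Fin n → Expr k) (D : Fin n → Euc d) (B : Fin n → ℝ),
      (∀ i, (f i).Shift G x y (D i) (B i)) →
      (comb n c f s).Shift G x y (∑ i, c i • D i) (∑ i, |c i| * B i)
  | 0, _, f, D, B, _ => fun ω => by simp [comb, eval]
  | n + 1, c, f, D, B, h => by
      have ih := shift_comb (s := s) n (fun i => c i.succ) (fun i => f i.succ)
        (fun i => D i.succ) (fun i => B i.succ) (fun i => h _)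
      have h2 := (h 0).lin2 (a := c 0) (b := 1) ih
      rw [Fin.sum_univ_succ, Fin.sum_univ_succ]
      simpa [comb] using h2

lemma dualClose_bind' {L : ℝ} (hL : 0 ≤ L) (hG : Continuous G)
    (hGL : ∀ a b, ‖G a - G b‖ ≤ L * ‖a - b‖) (e : Expr n) (g : Fin n → Expr k)
    (x : Fin k → Euc d) {ν : Fin n → Measure (Euc d)} [∀ i, IsProbabilityMeasure (ν i)]
    (hν : ∀ i, Integrable (fun y => ‖y‖) (ν i)) {E : Fin n → ℝ}
    (hg : ∀ i, DualClose ((g i).law G x) (ν i) (E i)) {K : Fin n → ℝ} (hK : ∀ i, 0 ≤ K i)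
    (hlip : ∀ z w ω, ‖e.eval G z ω - e.eval G w ω‖ ≤ ∑ i, K i * ‖z i - w i‖)
    {T : Measure (Euc d)} {E₀ : ℝ}
    (he : ∀ f : Euc d → ℝ, LipschitzWith 1 f →
      |∫ z, ∫ y, f y ∂(e.law G z) ∂(Measure.pi ν) - ∫ y, f y ∂T| ≤ E₀) :
    DualClose ((e.bind g).law G x) T (∑ i, K i * E i + E₀) := by
  intro f hf
  have : ∀ i, IsProbabilityMeasure ((g i).law G x) := fun i =>
    Measure.isProbabilityMeasure_map (continuous_eval_noise hG (g i) x).aemeasurable
  have hν' : ∀ i, Integrable (fun y => ‖y‖) ((g i).law G x) := fun i =>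
    law_integrable_norm hL hG hGL (g i) x
  have hint : Integrable (fun p : (ℕ → Euc d) × (Fin n → Euc d) => f (e.eval G p.2 p.1))
      ((noiseLaw d).prod (Measure.pi fun i => (g i).law G x)) := by
    refine Integrable.mono' (g := fun p => |f 0| + ‖e.eval G 0 p.1‖ + ∑ i, K i * ‖p.2 i‖)
      ?_ (hf.continuous.comp ((continuous_eval hG e).comp
        (continuous_snd.prodMk continuous_fst))).aestronglyMeasurable (.of_forall fun p => ?_)
    · refine ((integrable_const _).add ((integrable_norm_eval hL hG hGL e 0).comp_fst _)).add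
        (integrable_finsetSum _ fun i _ => Integrable.const_mul ?_ _)
      exact (((measurePreserving_eval _ i).integrable_comp (hν' i).aestronglyMeasurable).2
        (hν' i)).comp_snd _
    · have h1 := hlip p.2 0 p.1
      simp only [Pi.zero_apply, sub_zero] at h1
      have h2 := abs_le_of_lipschitz (lipschitz_abs_sub hf) (e.eval G p.2 p.1)
      rw [Real.norm_eq_abs]
      linarith [norm_le_norm_add_norm_sub' (e.eval G p.2 p.1) (e.eval G 0 p.1)]
  rw [integral_bind hG e g x hf.continuous hint]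
  refine (abs_sub_le _ (∫ z, ∫ y, f y ∂(e.law G z) ∂(Measure.pi ν)) _).trans
    (add_le_add ?_ (he f hf))
  refine DualClose.pi hν' hν hg hK fun z w => ?_
  have hi : ∀ u, Integrable (fun ω => f (e.eval G u ω)) (noiseLaw d) := fun u => by
    have : IsProbabilityMeasure (e.law G u) :=
      Measure.isProbabilityMeasure_map (continuous_eval_noise hG e u).aemeasurable
    have h := integrable_of_lipschitzWith (ν := e.law G u)
      (law_integrable_norm hL hG hGL e u) hf
    rwa [Expr.law, integrable_map_measure hf.continuous.aestronglyMeasurable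
      (continuous_eval_noise hG e u).aemeasurable] at h
  rw [integral_law hG e z hf.continuous, integral_law hG e w hf.continuous,
    ← integral_sub (hi z) (hi w)]
  refine abs_integral_le_integral_abs.trans ?_
  refine (integral_mono ((hi z).sub (hi w)).abs (integrable_const _) fun ω => ?_).trans
    (le_of_eq (by simp : ∫ _, (∑ i, K i * ‖z i - w i‖) ∂(noiseLaw d) = _))
  refine (lipschitz_abs_sub hf _ _).trans ?_
  rw [one_mul]
  exact hlip z w ω

end Expr

/-- An operator on samplers. -/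
structure Op where
  /-- the action on expressions -/
  run : ∀ {k : ℕ}, Expr k → Expr k

/-- A body: an operator producing expressions with three further shared inputs. -/
structure Body where
  /-- the action on expressions -/
  run : ∀ {k : ℕ}, Expr k → Expr (k + 3)

/-- Stability coefficients of a body: centre and spread for the anchor (`c`, `β`, `Λ`), centre and
spread for the first slot (`c₀`, `β₀`), spread for the other two slots (`σ`). -/
structure Coef where
  /-- centre, anchor -/
  c : ℝ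
  /-- spread, anchor -/
  β : ℝ
  /-- Lipschitz bound, anchor -/
  Λ : ℝ
  /-- centre, first slot -/
  c₀ : ℝ
  /-- spread, first slot -/
  β₀ : ℝ
  /-- spread, other slots -/
  σ : ℝ

namespace Op

/-- `Q` bounds the query blow-up of the operator. -/
def Cost (op : Op) (Q : ℕ) : Prop :=
  ∀ (k : ℕ) (w : Fin k → ℕ) (p : Expr k), (op.run p).cost w ≤ Q * (1 + p.cost w)

/-- Stability of the operator. -/
def Stable (d : ℕ) (op : Op) (c β Λ : ℝ) : Prop :=
  ∀ G : Euc d → Euc d, Oracle G → ∀ (k : ℕ) (p : Expr k) (x y : Fin k → Euc d) (D : Euc d)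
    (B : ℝ), p.Shift G x y D B → (op.run p).Shift G x y (c • D) (β * ‖D‖ + Λ * B)

/-- Given samples of `N(y, v)` the operator outputs samples of `N(u y, δ)`, up to an error whose
`μ`-mean is at most `E`. -/
def Evals (G : Euc d → Euc d) (op : Op) (u : Euc d → Euc d) (μ : Measure (Euc d))
    (v δ Λ E : ℝ) : Prop :=
  0 ≤ Λ ∧ ∃ err : Euc d → ℝ, (∀ y, 0 ≤ err y) ∧ Integrable err μ ∧ ∫ y, err y ∂μ ≤ E ∧
    ∀ᵐ y ∂μ, ∀ (k : ℕ) (p : Expr k) (x : Fin k → Euc d) (e : ℝ),
      DualClose (p.law G x) (gN y v) e →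
        DualClose ((op.run p).law G x) (gN (u y) δ) (Λ * e + err y)

/-- Composition. -/
def comp (op₂ op₁ : Op) : Op := ⟨fun p => op₂.run (op₁.run p)⟩

/-- The gradient query followed by noise of variance `δ`. -/
noncomputable def base (δ : ℝ) : Op := ⟨fun p => Expr.comb 1 ![1] ![Expr.grad p] δ⟩

/-- Replace the sampler by centred noise. -/
noncomputable def noiseOp (v : ℝ) : Op := ⟨fun _ => Expr.smul √v (Expr.noise 0)⟩

/-- The identity operator. -/
def idOp : Op := ⟨fun p => p⟩

/-- Padding by independent noise. -/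
noncomputable def pad (s : ℝ) : Op := ⟨fun p => Expr.comb 1 ![1] ![p] s⟩

/-- Linear combination of operators applied to independent copies. -/
noncomputable def comb (n : ℕ) (c : Fin n → ℝ) (ops : Fin n → Op) (s : ℝ) : Op :=
  ⟨fun p => Expr.comb n c (fun i => (ops i).run p) s⟩

end Op

namespace Body

/-- The anchor. -/
def anchor : Body := ⟨fun p => p.lift 3⟩

/-- A slot. -/
def slot (i : Fin 3) : Body := ⟨fun {k} _ => Expr.inp (Fin.natAdd k i)⟩

/-- Centred noise of variance `v`. -/
noncomputable def noise (v : ℝ) : Body := ⟨fun _ => Expr.smul √v (Expr.noise 0)⟩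

/-- An operator applied to a body. -/
def app (op : Op) (T : Body) : Body := ⟨fun p => op.run (T.run p)⟩

/-- Linear combination of bodies with independent randomness, plus noise of variance `s`. -/
noncomputable def comb (n : ℕ) (c : Fin n → ℝ) (Ts : Fin n → Body) (s : ℝ) : Body :=
  ⟨fun p => Expr.comb n c (fun i => (Ts i).run p) s⟩

/-- Fill the slots, giving an operator. -/
def close (T : Body) (fill : Fin 3 → Op) : Op :=
  ⟨fun {k} p => (T.run p).bind (Fin.append (fun i : Fin k => Expr.inp i) fun j => (fill j).run p)⟩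

/-- `Q` bounds the query blow-up of the body. -/
def Cost (T : Body) (Q : ℕ) : Prop :=
  ∀ (k : ℕ) (w : Fin k → ℕ) (u : Fin 3 → ℕ) (p : Expr k),
    (T.run p).cost (Fin.append w u) ≤ Q * (1 + p.cost w + ∑ j, u j)

/-- Stability of the body. -/
def Stable (d : ℕ) (T : Body) (P : Coef) : Prop :=
  ∀ G : Euc d → Euc d, Oracle G → ∀ (k : ℕ) (p : Expr k) (x y : Fin k → Euc d)
    (u v : Fin 3 → Euc d) (D : Euc d) (B : ℝ), p.Shift G x y D B →
      (T.run p).Shift G (Fin.append x u) (Fin.append y v) (P.c • D + P.c₀ • (u 0 - v 0))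
        (P.β * ‖D‖ + P.Λ * B + P.β₀ * ‖u 0 - v 0‖ + P.σ * (‖u 1 - v 1‖ + ‖u 2 - v 2‖))

end Body

/-- A random setting: the anchor point, its sampling variance and the slot values. -/
structure Ctx (d : ℕ) (Ω : Type*) [MeasurableSpace Ω] where
  /-- the law of the randomness -/
  P : Measure Ω
  /-- the anchor point -/
  z : Ω → Euc d
  /-- variance of the anchor sampler -/
  ν : ℝ
  /-- the slot values -/
  sl : Ω → Fin 3 → Euc d

/-- The body samples `N(X ω, v)` up to an error of mean at most `E`, plus `Λ` times the error of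
the anchor sampler. -/
def Track {Ω : Type*} [MeasurableSpace Ω] (G : Euc d → Euc d) (C : Ctx d Ω) (T : Body)
    (X : Ω → Euc d) (v Λ E : ℝ) : Prop :=
  0 ≤ Λ ∧ 0 ≤ v ∧ ∃ err : Ω → ℝ, (∀ ω, 0 ≤ err ω) ∧ Integrable err C.P ∧ ∫ ω, err ω ∂C.P ≤ E ∧
    ∀ᵐ ω ∂C.P, ∀ (k : ℕ) (p : Expr k) (x : Fin k → Euc d) (e : ℝ),
      DualClose (p.law G x) (gN (C.z ω) C.ν) e →
        DualClose ((T.run p).law G (Fin.append x (C.sl ω))) (gN (X ω) v) (Λ * e + err ω)

end Vale.Agent.P347
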