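import Vale.Agent.P347.EngineRules

/-!
Filling the slots of a body.
-/

namespace Vale.Agent.P347

open MeasureTheory ProbabilityTheory
open scoped NNReal

variable {d : ℕ} {G : Euc d → Euc d}

/-- The measure `P` on anchor and slots disintegrates as `μ` times the product of the kernels. -/
def Disint {β : Type*} [MeasurableSpace β] (P : Measure (Euc d × β)) (μ : Measure (Euc d))
    (K : Euc d → Measure β) : Prop :=
  ∀ F : Euc d × β → ℝ, Integrable F P →
    (∀ᵐ y ∂μ, Integrable (fun s => F (y, s)) (K y)) ∧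
      Integrable (fun y => ∫ s, F (y, s) ∂(K y)) μ ∧
        ∫ y, ∫ s, F (y, s) ∂(K y) ∂μ = ∫ p, F p ∂P

lemma Disint.ae {β : Type*} [MeasurableSpace β] {P : Measure (Euc d × β)} [IsFiniteMeasure P]
    {μ : Measure (Euc d)} {K : Euc d → Measure β} [∀ y, IsProbabilityMeasure (K y)]
    (h : Disint P μ K) {q : Euc d × β → Prop} (hq : ∀ᵐ p ∂P, q p) :
    ∀ᵐ y ∂μ, ∀ᵐ s ∂(K y), q (y, s) := by
  set N := toMeasurable P {p | ¬q p}
  have hNm : MeasurableSet N := measurableSet_toMeasurable _ _
  have hN0 : P N = 0 := by rw [measure_toMeasurable]; exact hq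
  set F : Euc d × β → ℝ := N.indicator fun _ => 1
  obtain ⟨-, hi, heq⟩ := h F ((integrable_const (1 : ℝ)).indicator hNm)
  have h0 : ∫ p, F p ∂P = 0 := by
    simp [F, integral_indicator hNm, Measure.real, hN0]
  rw [h0] at heq
  have hnn : ∀ y, 0 ≤ ∫ s, F (y, s) ∂(K y) := fun y =>
    integral_nonneg fun s => Set.indicator_nonneg (fun _ _ => zero_le_one) _
  filter_upwards [(integral_eq_zero_iff_of_nonneg hnn hi).1 heq] with y hy
  have hsec : MeasurableSet (Prod.mk y ⁻¹' N) := measurable_prodMk_left hNm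
  have e1 : (fun s => F (y, s)) = (Prod.mk y ⁻¹' N).indicator fun _ => (1 : ℝ) := by
    funext s; classical simp only [F, Set.indicator_apply, Set.mem_preimage]
  simp only [Pi.zero_apply, e1, integral_indicator hsec, integral_const, smul_eq_mul, mul_one,
    measureReal_restrict_apply_univ] at hy
  rw [ae_iff]
  refine measure_mono_null (t := Prod.mk y ⁻¹' N)
    (fun s hs => subset_toMeasurable P {p | ¬q p} hs) ?_
  exact (measureReal_eq_zero_iff (measure_ne_top _ _)).1 hy

lemma map_append_pi {k m : ℕ} (a : Fin k → Euc d) (ν : Fin m → Measure (Euc d))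
    [∀ j, IsProbabilityMeasure (ν j)] :
    (Measure.pi ν).map (fun s => Fin.append a s)
      = Measure.pi (Fin.append (fun i => gN (a i) 0) ν) := by
  have hp : ∀ i, IsProbabilityMeasure (Fin.append (fun i => gN (a i) 0) ν i) := fun i => by
    refine Fin.addCases (fun j => ?_) (fun j => ?_) i <;> simp <;> infer_instance
  have hm : Measurable fun s : Fin m → Euc d => Fin.append a s :=
    measurable_pi_lambda _ fun i => Fin.addCases
      (fun j => by simp only [Fin.append_left]; exact measurable_const)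
      (fun j => by simp only [Fin.append_right]; exact measurable_pi_apply j) i
  refine (Measure.pi_eq fun S hS => ?_).symm
  rw [Measure.map_apply hm (MeasurableSet.univ_pi hS), Fin.prod_univ_add]
  simp only [Fin.append_left, Fin.append_right, gN_zero_var, Measure.dirac_apply' _ (hS _)]
  by_cases ha : ∀ i, a i ∈ S (Fin.castAdd m i)
  · have hpre : (fun s => Fin.append a s) ⁻¹' Set.univ.pi S
        = Set.univ.pi fun j => S (Fin.natAdd k j) := by
      ext s
      simp only [Set.mem_preimage, Set.mem_univ_pi]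
      exact ⟨fun hs j => by simpa using hs (Fin.natAdd k j), fun hs i =>
        Fin.addCases (fun j => by simpa using ha j) (fun j => by simpa using hs j) i⟩
    rw [hpre, Measure.pi_pi]
    simp [ha]
  · obtain ⟨i, hi⟩ := not_forall.1 ha
    have hpre : (fun s => Fin.append a s) ⁻¹' Set.univ.pi S = ∅ := by
      ext s
      simp only [Set.mem_preimage, Set.mem_univ_pi, Set.mem_empty_iff_false, iff_false]
      exact fun hs => hi (by simpa using hs (Fin.castAdd m i))
    rw [hpre, measure_empty, Finset.prod_eq_zero (Finset.mem_univ i)]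
    · simp
    · simp [hi]

namespace Body

variable {T : Body} {fill : Fin 3 → Op} {Q : ℕ} {P : Coef}

lemma Cost.close {Qf : Fin 3 → ℕ} (h : T.Cost Q) (hf : ∀ j, (fill j).Cost (Qf j)) :
    (Body.close T fill).Cost (Q * (1 + ∑ j, Qf j)) := fun k w p => by
  simp only [Body.close, Expr.cost_bind]
  have e1 : (fun i => (Fin.append (fun i : Fin k => Expr.inp i)
      (fun j => (fill j).run p) i).cost w) = Fin.append w fun j => ((fill j).run p).cost w := by
    funext i
    refine Fin.addCases (fun j => ?_) (fun j => ?_) i <;> simp [Expr.cost]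
  rw [e1]
  refine (h k w _ p).trans ?_
  rw [mul_assoc, add_mul, one_mul, Finset.sum_mul]
  gcongr with j
  exact hf j k w p

lemma Stable.close {cf βf Λf : ℝ} (h : T.Stable d P) (hβ₀ : 0 ≤ P.β₀)
    (hf0 : (fill 0).Stable d cf βf Λf) (hf1 : (fill 1).Stable d 0 0 0)
    (hf2 : (fill 2).Stable d 0 0 0) :
    (Body.close T fill).Stable d (P.c + P.c₀ * cf)
      (P.β + P.β₀ * |cf| + (P.β₀ + |P.c₀|) * βf) (P.Λ + (P.β₀ + |P.c₀|) * Λf) :=
  fun G hG k p x y D B hp ω => by
  simp only [Body.close, Expr.eval_bind]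
  set g := Fin.append (fun i : Fin k => Expr.inp i) fun j => (fill j).run p with hg
  set ω₀ := fun j => ω (Nat.pair 0 j)
  set U : (Fin k → Euc d) → Fin 3 → Euc d := fun z j => ((fill j).run p).eval G z
    fun l => ω (Nat.pair (((Fin.natAdd k j : Fin (k + 3)) : ℕ) + 1) l) with hU
  have e1 : ∀ z : Fin k → Euc d, (fun i => (g i).eval G z fun l => ω (Nat.pair ((i : ℕ) + 1) l))
      = Fin.append z (U z) := fun z => by
    funext i
    refine Fin.addCases (fun j => ?_) (fun j => ?_) i <;> simp [hg, hU, Expr.eval]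
  rw [e1 x, e1 y]
  have hu1 : ∀ j : Fin 3, (fill j).Stable d 0 0 0 → ‖U x j - U y j‖ ≤ 0 := fun j hj => by
    simpa [hU] using hj G hG k p x y D B hp _
  have h1 := le_antisymm (hu1 1 hf1) (norm_nonneg _)
  have h2 := le_antisymm (hu1 2 hf2) (norm_nonneg _)
  have h0 : ‖U x 0 - U y 0 - cf • D‖ ≤ βf * ‖D‖ + Λf * B := hf0 G hG k p x y D B hp _
  have hn : ‖U x 0 - U y 0‖ ≤ |cf| * ‖D‖ + (βf * ‖D‖ + Λf * B) := by
    have h3 := norm_le_norm_add_norm_sub' (U x 0 - U y 0) (cf • D)
    rw [norm_smul, Real.norm_eq_abs] at h3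
    linarith
  have h4 := h G hG k p x y (U x) (U y) D B hp ω₀
  rw [h1, h2] at h4
  set W := (T.run p).eval G (Fin.append x (U x)) ω₀ - (T.run p).eval G (Fin.append y (U y)) ω₀
  have e2 : W - (P.c + P.c₀ * cf) • D
      = (W - (P.c • D + P.c₀ • (U x 0 - U y 0))) + P.c₀ • (U x 0 - U y 0 - cf • D) := by
    simp only [add_smul, mul_smul, smul_sub]; abel
  rw [e2]
  refine (norm_add_le _ _).trans ?_
  rw [norm_smul, Real.norm_eq_abs]
  calc _ ≤ P.β * ‖D‖ + P.Λ * B + P.β₀ * (|cf| * ‖D‖ + (βf * ‖D‖ + Λf * B)) + P.σ * (0 + 0)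
        + |P.c₀| * (βf * ‖D‖ + Λf * B) := by
        refine add_le_add (h4.trans ?_) (mul_le_mul_of_nonneg_left h0 (abs_nonneg _))
        gcongr
    _ = _ := by ring

/-- Closing a tracked body gives an evaluation property. -/
lemma evals_close (hG : Oracle G) (hT : T.Stable d P) (hβ₀ : 0 ≤ P.β₀) (hσ : 0 ≤ P.σ)
    {μ : Measure (Euc d)} {νs : Euc d → Fin 3 → Measure (Euc d)}
    [∀ y j, IsProbabilityMeasure (νs y j)] (hνs : ∀ y j, Integrable (fun s => ‖s‖) (νs y j))
    {C : Ctx d (Euc d × (Fin 3 → Euc d))} [IsFiniteMeasure C.P] (hz : C.z = Prod.fst)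
    (hsl : C.sl = Prod.snd) (hdis : Disint C.P μ fun y => Measure.pi (νs y))
    {X : Euc d × (Fin 3 → Euc d) → Euc d} {v Λ E : ℝ} (htr : Track G C T X v Λ E)
    (hXm : Measurable X) (hXi : Integrable (fun ω => ‖X ω‖) C.P)
    {a : Fin 3 → ℝ} {b : Fin 3 → Euc d → ℝ} (ha : ∀ j, 0 ≤ a j) (hb : ∀ j y, 0 ≤ b j y)
    (hbi : ∀ j, Integrable (b j) μ)
    (hfill : ∀ j, ∀ᵐ y ∂μ, ∀ (k : ℕ) (p : Expr k) (x : Fin k → Euc d) (e : ℝ),
      DualClose (p.law G x) (gN y C.ν) e →
        DualClose (((fill j).run p).law G x) (νs y j) (a j * e + b j y))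
    {u : Euc d → Euc d} {δ : ℝ} {t : Euc d → ℝ} (ht0 : ∀ y, 0 ≤ t y) (hti : Integrable t μ)
    (htarget : ∀ᵐ y ∂μ, ∀ f : Euc d → ℝ, LipschitzWith 1 f →
      |∫ s, ∫ w, f w ∂(gN (X (y, s)) v) ∂(Measure.pi (νs y)) - ∫ w, f w ∂(gN (u y) δ)| ≤ t y)
    {K₀ : ℝ} (hK₀ : P.β₀ + |P.c₀| ≤ K₀) :
    (Body.close T fill).Evals G u μ C.ν δ (Λ + (K₀ * a 0 + P.σ * a 1 + P.σ * a 2))
      ((K₀ * ∫ y, b 0 y ∂μ + P.σ * ∫ y, b 1 y ∂μ + P.σ * ∫ y, b 2 y ∂μ)
        + E + ∫ y, t y ∂μ) := by
  obtain ⟨hΛ, hv, err, he0, hei, hele, heae⟩ := htr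
  have hK₀0 : 0 ≤ K₀ := le_trans (by positivity) hK₀
  obtain ⟨heint, hemi, heeq⟩ := hdis err hei
  obtain ⟨hXint, -, -⟩ := hdis (fun ω => ‖X ω‖) hXi
  refine ⟨?_, fun y => (K₀ * b 0 y + P.σ * b 1 y + P.σ * b 2 y)
      + (∫ s, err (y, s) ∂(Measure.pi (νs y))) + t y, ?_, ?_, ?_, ?_⟩
  · have := ha 0; have := ha 1; have := ha 2; positivity
  · intro y
    have := hb 0 y; have := hb 1 y; have := hb 2 y
    have := ht0 y
    have h5 : 0 ≤ ∫ s, err (y, s) ∂(Measure.pi (νs y)) := integral_nonneg fun s => he0 _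
    positivity
  · exact (((((hbi 0).const_mul _).add ((hbi 1).const_mul _)).add
      ((hbi 2).const_mul _)).add hemi).add hti
  · have i1 := (hbi 0).const_mul K₀
    have i2 := (hbi 1).const_mul P.σ
    have i3 := (hbi 2).const_mul P.σ
    have i12 := i1.add i2
    have i123 := i12.add i3
    have iall := i123.add hemi
    simp only [Pi.add_def] at i12 i123 iall
    rw [integral_add iall hti, integral_add i123 hemi, integral_add i12 i3, integral_add i1 i2,
      integral_const_mul, integral_const_mul, integral_const_mul, heeq]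
    linarith
  · filter_upwards [hdis.ae heae, ae_all_iff.2 hfill, htarget, heint, hXint]
      with y hy hfl htg hey hXy k p x e hp
    set π := Measure.pi (νs y) with hπ
    have he : 0 ≤ e := hp.nonneg
    have hlip : ∀ z w ω, ‖(T.run p).eval G z ω - (T.run p).eval G w ω‖
        ≤ ∑ i, Fin.append (fun i : Fin k => (T.run p).lip 2 (Fin.castAdd 3 i)) ![K₀, P.σ, P.σ] i
            * ‖z i - w i‖ := by
      intro z w ω
      set z₁ : Fin k → Euc d := fun i => z (Fin.castAdd 3 i)
      set z₂ : Fin 3 → Euc d := fun j => z (Fin.natAdd k j)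
      set w₁ : Fin k → Euc d := fun i => w (Fin.castAdd 3 i)
      set w₂ : Fin 3 → Euc d := fun j => w (Fin.natAdd k j)
      have ez : z = Fin.append z₁ z₂ := (Fin.append_castAdd_natAdd).symm
      have ew : w = Fin.append w₁ w₂ := (Fin.append_castAdd_natAdd).symm
      have hA := Expr.norm_eval_sub_le (by norm_num : (0 : ℝ) ≤ 2) hG.lip (T.run p)
        (Fin.append z₁ z₂) (Fin.append w₁ z₂) ω
      have hp0 : p.Shift G w₁ w₁ (0 : Euc d) 0 := fun ω' => by simp
      have hB := hT G hG k p w₁ w₁ z₂ w₂ 0 0 hp0 ω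
      simp only [smul_zero, zero_add, norm_zero, mul_zero] at hB
      have hB' : ‖(T.run p).eval G (Fin.append w₁ z₂) ω - (T.run p).eval G (Fin.append w₁ w₂) ω‖
          ≤ K₀ * ‖z₂ 0 - w₂ 0‖ + P.σ * ‖z₂ 1 - w₂ 1‖ + P.σ * ‖z₂ 2 - w₂ 2‖ := by
        refine (norm_le_norm_add_norm_sub' _ (P.c₀ • (z₂ 0 - w₂ 0))).trans ?_
        rw [norm_smul, Real.norm_eq_abs]
        nlinarith [mul_le_mul_of_nonneg_right hK₀ (norm_nonneg (z₂ 0 - w₂ 0))]
      rw [ez, ew, Fin.sum_univ_add]
      simp only [Fin.append_left, Fin.append_right, Fin.sum_univ_three, Matrix.cons_val_zero,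
        Matrix.cons_val_one, Matrix.cons_val_two, Matrix.head_cons, Matrix.tail_cons]
      rw [Fin.sum_univ_add] at hA
      simp only [Fin.append_left, Fin.append_right, sub_self, norm_zero, mul_zero,
        Finset.sum_const_zero, add_zero] at hA
      exact (norm_sub_le_norm_sub_add_norm_sub _ _ _).trans (add_le_add hA hB')
    set νall := Fin.append (fun i => gN (x i) 0) (νs y) with hνall
    have hprob : ∀ i, IsProbabilityMeasure (νall i) := fun i => by
      refine Fin.addCases (fun j => ?_) (fun j => ?_) i <;> simp [hνall] <;> infer_instance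
    have hmom : ∀ i, Integrable (fun y => ‖y‖) (νall i) := fun i => by
      refine Fin.addCases (fun j => ?_) (fun j => ?_) i
      · simpa [hνall] using gN_integrable_norm (x j) 0
      · simpa [hνall] using hνs y j
    have hclose : ∀ i, DualClose
        ((Fin.append (fun i : Fin k => Expr.inp i) (fun j => (fill j).run p) i).law G x) (νall i)
        (Fin.append (fun _ : Fin k => (0 : ℝ)) (fun j => a j * e + b j y) i) := fun i => by
      refine Fin.addCases (fun j => ?_) (fun j => ?_) i
      · simpa [hνall, Expr.law_inp] using DualClose.refl (gN (x j) 0)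
      · simpa [hνall] using hfl j k p x e hp
    have hK : ∀ i, 0 ≤ Fin.append (fun i : Fin k => (T.run p).lip 2 (Fin.castAdd 3 i))
        ![K₀, P.σ, P.σ] i := fun i => by
      refine Fin.addCases (fun j => ?_) (fun j => ?_) i
      · simpa using Expr.lip_nonneg (by norm_num) _ _
      · simp only [Fin.append_right]; fin_cases j <;> simp [hK₀0, hσ]
    have htot := Expr.dualClose_bind' (by norm_num : (0 : ℝ) ≤ 2) hG.continuous hG.lip (T.run p)
      (Fin.append (fun i : Fin k => Expr.inp i) fun j => (fill j).run p) x hmom hclose hK hlip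
      (T := gN (u y) δ) (E₀ := Λ * e + ∫ s, err (y, s) ∂π + t y) ?_
    · refine htot.mono (le_of_eq ?_)
      simp only [Fin.sum_univ_add, Fin.append_left, Fin.append_right, Fin.sum_univ_three,
        mul_zero, Finset.sum_const_zero, zero_add, Matrix.cons_val_zero, Matrix.cons_val_one,
        Matrix.cons_val_two, Matrix.head_cons, Matrix.tail_cons]
      ring
    intro f hf
    have hmeas : Measurable fun s : Fin 3 → Euc d => Fin.append x s :=
      measurable_pi_lambda _ fun i => Fin.addCases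
        (fun j => by simp only [Fin.append_left]; exact measurable_const)
        (fun j => by simp only [Fin.append_right]; exact measurable_pi_apply j) i
    have hφ : ∀ z w, |∫ q, f q ∂((T.run p).law G z) - ∫ q, f q ∂((T.run p).law G w)|
        ≤ ∑ i, (T.run p).lip 2 i * ‖z i - w i‖ := fun z w =>
      Expr.mix_lipschitz (by norm_num) hG.continuous hG.lip _ hf z w
    rw [hνall, ← map_append_pi, integral_map hmeas.aemeasurable
      (continuous_of_coord_lipschitz hφ).aestronglyMeasurable]
    refine (abs_sub_le _ (∫ s, ∫ q, f q ∂(gN (X (y, s)) v) ∂π) _).trans (add_le_add ?_ (htg f hf))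
    have hi1 : Integrable (fun s => ∫ q, f q ∂((T.run p).law G (Fin.append x s))) π := by
      refine integrable_pi_coord_lipschitz (hνs y)
        (K := fun j => (T.run p).lip 2 (Fin.natAdd k j)) fun z w => ?_
      refine (hφ _ _).trans (le_of_eq ?_)
      simp [Fin.sum_univ_add]
    have hX' : Measurable fun s => X (y, s) := hXm.comp measurable_prodMk_left
    have hcont : ∀ m m' : Euc d, |∫ q, f q ∂(gN m v) - ∫ q, f q ∂(gN m' v)| ≤ 1 * ‖m - m'‖ :=
      fun m m' => by rw [one_mul]; exact dualClose_gN_shift m m' v f hf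
    have hcf : Continuous fun m : Euc d => ∫ q, f q ∂(gN m v) :=
      (LipschitzWith.of_dist_le_mul (K := 1) fun m m' => by
        simpa [Real.dist_eq, dist_eq_norm] using hcont m m').continuous
    have hi2 : Integrable (fun s => ∫ q, f q ∂(gN (X (y, s)) v)) π :=
      Integrable.mono' ((integrable_const |∫ q, f q ∂(gN (0 : Euc d) v)|).add (hXy.const_mul 1))
        (hcf.measurable.comp hX').aestronglyMeasurable
        (.of_forall fun s => abs_le_of_lipschitz hcont _)
    rw [← integral_sub hi1 hi2]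
    refine abs_integral_le_integral_abs.trans ?_
    refine (integral_mono_ae (hi1.sub hi2).abs ((integrable_const (Λ * e)).add hey) ?_).trans ?_
    · filter_upwards [hy] with s hs
      have h6 := hs k p x e (by rw [hz]; exact hp)
      rw [hsl] at h6
      exact h6 f hf
    · rw [Pi.add_def, integral_add (integrable_const _) hey]
      simp

end Body

end Vale.Agent.P347
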