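import Vale.Agent.P347.Engine

/-!
Rules of the engine for operators and bodies.
-/

namespace Vale.Agent.P347

open MeasureTheory ProbabilityTheory
open scoped NNReal

variable {d : ℕ} {G : Euc d → Euc d}

lemma DualClose.of_eq {ν ν' : Measure (Euc d)} (h : ν = ν') : DualClose ν ν' 0 := h ▸ .refl ν

lemma gN_zero_var (μ : Euc d) : gN μ 0 = Measure.dirac μ := by
  simp [gN, Measure.map_const]

/-! ## Expressions -/

lemma dualClose_comb' (hG : Oracle G) {k n : ℕ} (c : Fin n → ℝ) (f : Fin n → Expr k)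
    (x : Fin k → Euc d) (μ : Fin n → Euc d) (v E : Fin n → ℝ) {s : ℝ} (hs : 0 ≤ s)
    (hv : ∀ i, 0 ≤ v i) (h : ∀ i, DualClose ((f i).law G x) (gN (μ i) (v i)) (E i)) :
    DualClose ((Expr.comb n c f s).law G x) (gN (∑ i, c i • μ i) (s + ∑ i, c i ^ 2 * v i))
      (∑ i, |c i| * E i) :=
  Expr.dualClose_comb (by norm_num : (0 : ℝ) ≤ 2) hG.continuous hG.lip x hs n c f μ v E hv h

lemma Expr.shift_scaled_noise {k : ℕ} (s : ℝ) (x y : Fin k → Euc d) :
    (Expr.smul √s (Expr.noise 0) : Expr k).Shift G x y 0 0 := fun ω => by simp [Expr.eval]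

lemma sum_mul_le_of_abs {n : ℕ} (c a : Fin n → ℝ) {b : ℝ} :
    ∑ i, |c i| * (a i * b) = (∑ i, |c i| * a i) * b := by
  rw [Finset.sum_mul]; exact Finset.sum_congr rfl fun i _ => by ring

/-! ## Operators -/

namespace Op

variable {op op₁ op₂ : Op} {Q Q₁ Q₂ : ℕ} {c β Λ c₁ β₁ Λ₁ c₂ β₂ Λ₂ : ℝ}
  {u u₁ u₂ : Euc d → Euc d} {μ : Measure (Euc d)} {v δ δ' E E₁ E₂ : ℝ}

lemma Cost.mono (h : op.Cost Q) {Q' : ℕ} (hQ : Q ≤ Q') : op.Cost Q' := fun k w p =>
  (h k w p).trans (by gcongr)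

lemma Stable.mono (h : op.Stable d c β Λ) {β' Λ' : ℝ} (hβ : β ≤ β') (hΛ : Λ ≤ Λ') :
    op.Stable d c β' Λ' := fun G hG k p x y D B hp =>
  (h G hG k p x y D B hp).mono (by have := hp.nonneg; gcongr)

lemma Stable.recentre (h : op.Stable d c β Λ) (c' : ℝ) :
    op.Stable d c' (β + |c - c'|) Λ := fun G hG k p x y D B hp => by
  refine ((h G hG k p x y D B hp).recentre (c' • D)).mono (le_of_eq ?_)
  rw [← sub_smul, norm_smul, Real.norm_eq_abs]
  ring

lemma cost_base : (base δ).Cost 1 := fun k w p => by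
  simp [base, Expr.cost_comb, Expr.cost]

lemma stable_base : (base δ).Stable d (3 / 2) (1 / 2) 2 := fun G hG k p x y D B hp => by
  have h := Expr.shift_comb (s := δ) 1 ![(1 : ℝ)] ![Expr.grad p] ![(3 / 2 : ℝ) • D]
    ![1 / 2 * ‖D‖ + 2 * B] (Fin.forall_fin_one.2 (hp.grad hG))
  simpa [base] using h

lemma dualClose_grad (hG : Oracle G) {k : ℕ} {p : Expr k} {x : Fin k → Euc d} {y : Euc d} {e : ℝ}
    (h : DualClose (p.law G x) (gN y 0) e) :
    DualClose ((Expr.grad p).law G x) (gN (G y) 0) (2 * e) := by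
  intro f hf
  have : IsProbabilityMeasure (p.law G x) :=
    Measure.isProbabilityMeasure_map (Expr.continuous_eval_noise hG.continuous p x).aemeasurable
  have h2 := h.lipschitz (K := 2) (by norm_num) (f := fun z => f (G z)) fun a b => by
    have h3 := hf.dist_le_mul (G a) (G b)
    rw [NNReal.coe_one, one_mul, Real.dist_eq, dist_eq_norm] at h3
    exact h3.trans (hG.lip a b)
  rw [Expr.integral_law hG.continuous p x (f := fun z => f (G z))
    (hf.continuous.comp hG.continuous)] at h2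
  rw [Expr.integral_law hG.continuous (Expr.grad p) x hf.continuous]
  rw [gN_zero_var, integral_dirac] at h2 ⊢
  simpa [Expr.eval] using h2

lemma evals_base (hG : Oracle G) (hδ : 0 ≤ δ) : (base δ).Evals G G μ 0 δ 2 0 := by
  refine ⟨by norm_num, fun _ => 0, fun _ => le_rfl, integrable_zero _ _ _, by simp,
    .of_forall fun y k p x e h => ?_⟩
  have h2 := dualClose_comb' hG ![(1 : ℝ)] ![Expr.grad p] x ![G y] ![0] ![2 * e] hδ
    (Fin.forall_fin_one.2 le_rfl) (Fin.forall_fin_one.2 (dualClose_grad hG h))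
  simpa [base] using h2

lemma Evals.mono (h : op.Evals G u μ v δ Λ E) {Λ' E' : ℝ} (hΛ : Λ ≤ Λ') (hE : E ≤ E') :
    op.Evals G u μ v δ Λ' E' := by
  obtain ⟨hΛ0, err, h0, hi, hle, hae⟩ := h
  refine ⟨hΛ0.trans hΛ, err, h0, hi, hle.trans hE, hae.mono fun y hy k p x e hp => ?_⟩
  exact (hy k p x e hp).mono (by have := hp.nonneg; gcongr)

lemma Evals.shift (h : op.Evals G u μ v δ Λ E) {u' : Euc d → Euc d}
    (hi : Integrable (fun y => ‖u y - u' y‖) μ) {E' : ℝ} (hE : ∫ y, ‖u y - u' y‖ ∂μ ≤ E') :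
    op.Evals G u' μ v δ Λ (E + E') := by
  obtain ⟨hΛ0, err, h0, hie, hle, hae⟩ := h
  refine ⟨hΛ0, fun y => err y + ‖u y - u' y‖, fun y => add_nonneg (h0 y) (norm_nonneg _),
    hie.add hi, ?_, hae.mono fun y hy k p x e hp => ?_⟩
  · rw [integral_add hie hi]; linarith
  · exact ((hy k p x e hp).trans (dualClose_gN_shift (u y) (u' y) δ)).mono (by linarith)

lemma cost_noiseOp : (noiseOp v).Cost 0 := fun k w p => by simp [noiseOp, Expr.cost]

lemma stable_noiseOp : (noiseOp v).Stable d 0 0 0 := fun G _ k p x y D B _ => by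
  simpa [noiseOp] using Expr.shift_scaled_noise (G := G) v x y

lemma cost_idOp : idOp.Cost 1 := fun k w p => by simp [idOp]

lemma stable_idOp : idOp.Stable d 1 0 1 := fun G _ k p x y D B h => by simpa [idOp] using h

lemma cost_pad : (pad δ).Cost 1 := fun k w p => by simp [pad, Expr.cost_comb]

lemma stable_pad : (pad δ).Stable d 1 0 1 := fun G _ k p x y D B h => by
  have h2 := Expr.shift_comb (s := δ) 1 ![(1 : ℝ)] ![p] ![D] ![B] (Fin.forall_fin_one.2 h)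
  simpa [pad] using h2

lemma evals_pad (hG : Oracle G) {s : ℝ} (hs : 0 ≤ s) (hv : 0 ≤ v) :
    (pad s).Evals G id μ v (v + s) 1 0 := by
  refine ⟨zero_le_one, fun _ => 0, fun _ => le_rfl, integrable_zero _ _ _, by simp,
    .of_forall fun y k p x e h => ?_⟩
  have h2 := dualClose_comb' hG ![(1 : ℝ)] ![p] x ![y] ![v] ![e] hs
    (Fin.forall_fin_one.2 hv) (Fin.forall_fin_one.2 h)
  simpa [pad, add_comm] using h2

lemma Cost.comp (h₂ : op₂.Cost Q₂) (h₁ : op₁.Cost Q₁) :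
    (Op.comp op₂ op₁).Cost (Q₂ * (1 + Q₁)) := fun k w p => by
  refine (h₂ k w (op₁.run p)).trans ?_
  rw [mul_assoc]
  gcongr
  have := h₁ k w p
  nlinarith

lemma Stable.comp (h₂ : op₂.Stable d c₂ β₂ Λ₂) (h₁ : op₁.Stable d c₁ β₁ Λ₁) :
    (Op.comp op₂ op₁).Stable d (c₂ * c₁) (β₂ * |c₁| + Λ₂ * β₁) (Λ₂ * Λ₁) :=
  fun G hG k p x y D B hp => by
  have h := h₂ G hG k _ x y _ _ (h₁ G hG k p x y D B hp)
  rw [smul_smul, norm_smul, Real.norm_eq_abs] at h
  exact h.mono (le_of_eq (by ring))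

lemma Evals.comp {δ₁ : ℝ} (h₂ : op₂.Evals G u₂ (μ.map u₁) δ₁ δ Λ₂ E₂)
    (h₁ : op₁.Evals G u₁ μ v δ₁ Λ₁ E₁) (hu : AEMeasurable u₁ μ) :
    (Op.comp op₂ op₁).Evals G (u₂ ∘ u₁) μ v δ (Λ₂ * Λ₁) (Λ₂ * E₁ + E₂) := by
  obtain ⟨hΛ₂, e₂, h20, h2i, h2le, h2ae⟩ := h₂
  obtain ⟨hΛ₁, e₁, h10, h1i, h1le, h1ae⟩ := h₁
  have h2c : Integrable (fun y => e₂ (u₁ y)) μ :=
    (integrable_map_measure h2i.aestronglyMeasurable hu).1 h2i
  refine ⟨mul_nonneg hΛ₂ hΛ₁, fun y => Λ₂ * e₁ y + e₂ (u₁ y),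
    fun y => add_nonneg (mul_nonneg hΛ₂ (h10 y)) (h20 _), (h1i.const_mul _).add h2c, ?_, ?_⟩
  · rw [integral_add (h1i.const_mul _) h2c, integral_const_mul,
      ← integral_map hu h2i.aestronglyMeasurable]
    gcongr
  · filter_upwards [h1ae, ae_of_ae_map hu h2ae] with y hy1 hy2 k p x e hp
    exact (hy2 k _ x _ (hy1 k p x e hp)).mono (le_of_eq (by ring))

lemma Cost.comb {n : ℕ} {c : Fin n → ℝ} {ops : Fin n → Op} {Q : Fin n → ℕ}
    (h : ∀ i, (ops i).Cost (Q i)) : (Op.comb n c ops δ).Cost (∑ i, Q i) := fun k w p => by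
  simp only [Op.comb, Expr.cost_comb, Finset.sum_mul]
  exact Finset.sum_le_sum fun i _ => h i k w p

lemma Stable.comb {n : ℕ} {c : Fin n → ℝ} {ops : Fin n → Op} {cs βs Λs : Fin n → ℝ}
    (h : ∀ i, (ops i).Stable d (cs i) (βs i) (Λs i)) :
    (Op.comb n c ops δ).Stable d (∑ i, c i * cs i) (∑ i, |c i| * βs i) (∑ i, |c i| * Λs i) :=
  fun G hG k p x y D B hp => by
  have h2 := Expr.shift_comb (s := δ) n c (fun i => (ops i).run p) (fun i => cs i • D)
    (fun i => βs i * ‖D‖ + Λs i * B) fun i => h i G hG k p x y D B hp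
  simp only [smul_smul, ← Finset.sum_smul, mul_add, Finset.sum_add_distrib,
    sum_mul_le_of_abs] at h2
  exact h2

lemma Evals.comb (hG : Oracle G) {n : ℕ} {c : Fin n → ℝ} {ops : Fin n → Op}
    {us : Fin n → Euc d → Euc d} {δs Λs Es : Fin n → ℝ} {s : ℝ} (hs : 0 ≤ s)
    (hδs : ∀ i, 0 ≤ δs i) (h : ∀ i, (ops i).Evals G (us i) μ v (δs i) (Λs i) (Es i)) :
    (Op.comb n c ops s).Evals G (fun y => ∑ i, c i • us i y) μ v
      (s + ∑ i, c i ^ 2 * δs i) (∑ i, |c i| * Λs i) (∑ i, |c i| * Es i) := by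
  choose hΛ err h0 hi hle hae using h
  refine ⟨Finset.sum_nonneg fun i _ => mul_nonneg (abs_nonneg _) (hΛ i),
    fun y => ∑ i, |c i| * err i y,
    fun y => Finset.sum_nonneg fun i _ => mul_nonneg (abs_nonneg _) (h0 i y),
    integrable_finsetSum _ fun i _ => (hi i).const_mul _, ?_, ?_⟩
  · rw [integral_finsetSum _ fun i _ => (hi i).const_mul _]
    simp only [integral_const_mul]
    exact Finset.sum_le_sum fun i _ => mul_le_mul_of_nonneg_left (hle i) (abs_nonneg _)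
  · filter_upwards [ae_all_iff.2 hae] with y hy k p x e hp
    have h2 := dualClose_comb' hG c (fun i => (ops i).run p) x (fun i => us i y) δs
      (fun i => Λs i * e + err i y) hs hδs fun i => hy i k p x e hp
    simp only [mul_add, Finset.sum_add_distrib, sum_mul_le_of_abs] at h2
    exact h2

end Op

/-! ## Bodies -/

namespace Body

variable {op : Op} {T : Body} {Q Q₂ : ℕ} {P : Coef} {c β Λ : ℝ}

lemma Cost.mono (h : T.Cost Q) {Q' : ℕ} (hQ : Q ≤ Q') : T.Cost Q' := fun k w u p =>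
  (h k w u p).trans (by gcongr)

lemma Stable.mono (h : T.Stable d P) {β' Λ' β₀' σ' : ℝ} (hβ : P.β ≤ β') (hΛ : P.Λ ≤ Λ')
    (hβ₀ : P.β₀ ≤ β₀') (hσ : P.σ ≤ σ') : T.Stable d ⟨P.c, β', Λ', P.c₀, β₀', σ'⟩ :=
  fun G hG k p x y u v D B hp =>
    (h G hG k p x y u v D B hp).mono (by have := hp.nonneg; gcongr)

lemma Stable.recentre (h : T.Stable d P) (c' c₀' : ℝ) :
    T.Stable d ⟨c', P.β + |P.c - c'|, P.Λ, c₀', P.β₀ + |P.c₀ - c₀'|, P.σ⟩ :=
  fun G hG k p x y u v D B hp => by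
  refine ((h G hG k p x y u v D B hp).recentre (c' • D + c₀' • (u 0 - v 0))).mono ?_
  rw [add_sub_add_comm, ← sub_smul, ← sub_smul]
  have h3 := norm_add_le ((P.c - c') • D) ((P.c₀ - c₀') • (u 0 - v 0))
  simp only [norm_smul, Real.norm_eq_abs] at h3
  linarith

lemma cost_anchor : anchor.Cost 1 := fun k w u p => by simp [anchor, Expr.cost_lift]; omega

lemma stable_anchor : anchor.Stable d ⟨1, 0, 1, 0, 0, 0⟩ := fun G _ k p x y u v D B hp => by
  simpa [anchor] using Expr.shift_lift (m := 3) hp u v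

lemma cost_slot (i : Fin 3) : (slot i).Cost 1 := fun k w u p => by
  have h := Finset.single_le_sum (f := u) (fun j _ => Nat.zero_le _) (Finset.mem_univ i)
  simp [slot, Expr.cost]; omega

lemma stable_slot_zero : (slot 0).Stable d ⟨0, 0, 0, 1, 0, 0⟩ :=
  fun G _ k p x y u v D B _ ω => by simp [slot, Expr.eval]

lemma stable_slot_one : (slot 1).Stable d ⟨0, 0, 0, 0, 0, 1⟩ :=
  fun G _ k p x y u v D B _ ω => by simp [slot, Expr.eval]

lemma stable_slot_two : (slot 2).Stable d ⟨0, 0, 0, 0, 0, 1⟩ :=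
  fun G _ k p x y u v D B _ ω => by simp [slot, Expr.eval]

lemma cost_noise {s : ℝ} : (noise s).Cost 0 := fun k w u p => by simp [noise, Expr.cost]

lemma stable_noise {s : ℝ} : (noise s).Stable d ⟨0, 0, 0, 0, 0, 0⟩ :=
  fun G _ k p x y u v D B _ ω => by simp [noise, Expr.eval]

lemma Cost.app (ho : op.Cost Q₂) (h : T.Cost Q) : (Body.app op T).Cost (Q₂ * (1 + Q)) :=
  fun k w u p => by
  refine (ho (k + 3) _ (T.run p)).trans ?_
  rw [mul_assoc]
  gcongr
  have := h k w u p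
  nlinarith [Nat.zero_le (p.cost w), Nat.zero_le (∑ j, u j)]

lemma Stable.app (ho : op.Stable d c β Λ) (hβ : 0 ≤ β) (h : T.Stable d P) :
    (Body.app op T).Stable d ⟨c * P.c, β * |P.c| + Λ * P.β, Λ * P.Λ,
      c * P.c₀, β * |P.c₀| + Λ * P.β₀, Λ * P.σ⟩ :=
  fun G hG k p x y u v D B hp => by
  have h2 := ho G hG (k + 3) _ _ _ _ _ (h G hG k p x y u v D B hp)
  rw [smul_add, smul_smul, smul_smul] at h2
  refine h2.mono ?_
  have h3 := norm_add_le (P.c • D) (P.c₀ • (u 0 - v 0))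
  simp only [norm_smul, Real.norm_eq_abs] at h3
  calc _ ≤ β * (|P.c| * ‖D‖ + |P.c₀| * ‖u 0 - v 0‖) + Λ * (P.β * ‖D‖ + P.Λ * B
        + P.β₀ * ‖u 0 - v 0‖ + P.σ * (‖u 1 - v 1‖ + ‖u 2 - v 2‖)) := by gcongr
    _ = _ := by ring

lemma Cost.comb {n : ℕ} {c : Fin n → ℝ} {Ts : Fin n → Body} {Q : Fin n → ℕ} {s : ℝ}
    (h : ∀ i, (Ts i).Cost (Q i)) : (Body.comb n c Ts s).Cost (∑ i, Q i) := fun k w u p => by
  simp only [Body.comb, Expr.cost_comb, Finset.sum_mul]
  exact Finset.sum_le_sum fun i _ => h i k w u p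

lemma Stable.comb {n : ℕ} {c : Fin n → ℝ} {Ts : Fin n → Body} {Ps : Fin n → Coef} {s : ℝ}
    (h : ∀ i, (Ts i).Stable d (Ps i)) :
    (Body.comb n c Ts s).Stable d ⟨∑ i, c i * (Ps i).c, ∑ i, |c i| * (Ps i).β,
      ∑ i, |c i| * (Ps i).Λ, ∑ i, c i * (Ps i).c₀, ∑ i, |c i| * (Ps i).β₀,
      ∑ i, |c i| * (Ps i).σ⟩ :=
  fun G hG k p x y u v D B hp => by
  have h2 := Expr.shift_comb (s := s) n c (fun i => (Ts i).run p) _ _
    fun i => h i G hG k p x y u v D B hp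
  simp only [smul_add, smul_smul, Finset.sum_add_distrib, ← Finset.sum_smul, mul_add,
    sum_mul_le_of_abs] at h2
  simpa only [Body.comb, mul_add, add_assoc] using h2

end Body

/-! ## Tracking -/

namespace Track

variable {Ω : Type*} [MeasurableSpace Ω] {C : Ctx d Ω} {T : Body} {X : Ω → Euc d} {v Λ E : ℝ}

lemma mono (h : Track G C T X v Λ E) {Λ' E' : ℝ} (hΛ : Λ ≤ Λ') (hE : E ≤ E') :
    Track G C T X v Λ' E' := by
  obtain ⟨h1, h2, err, h0, hi, hle, hae⟩ := h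
  refine ⟨h1.trans hΛ, h2, err, h0, hi, hle.trans hE, hae.mono fun y hy k p x e hp => ?_⟩
  exact (hy k p x e hp).mono (by have := hp.nonneg; gcongr)

lemma shift (h : Track G C T X v Λ E) {X' : Ω → Euc d}
    (hi : Integrable (fun ω => ‖X ω - X' ω‖) C.P) {E' : ℝ}
    (hE : ∫ ω, ‖X ω - X' ω‖ ∂C.P ≤ E') : Track G C T X' v Λ (E + E') := by
  obtain ⟨h1, h2, err, h0, hie, hle, hae⟩ := h
  refine ⟨h1, h2, fun y => err y + ‖X y - X' y‖, fun y => add_nonneg (h0 y) (norm_nonneg _),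
    hie.add hi, ?_, hae.mono fun y hy k p x e hp => ?_⟩
  · rw [integral_add hie hi]; linarith
  · exact ((hy k p x e hp).trans (dualClose_gN_shift (X y) (X' y) v)).mono (by linarith)

lemma anchor (hν : 0 ≤ C.ν) : Track G C Body.anchor C.z C.ν 1 0 := by
  refine ⟨zero_le_one, hν, fun _ => 0, fun _ => le_rfl, integrable_zero _ _ _, by simp,
    .of_forall fun ω k p x e hp => ?_⟩
  simpa [Body.anchor, Expr.law_lift] using hp

lemma slot (i : Fin 3) : Track G C (Body.slot i) (fun ω => C.sl ω i) 0 0 0 := by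
  refine ⟨le_rfl, le_rfl, fun _ => 0, fun _ => le_rfl, integrable_zero _ _ _, by simp,
    .of_forall fun ω k p x e _ => ?_⟩
  simpa [Body.slot, Expr.law_inp] using DualClose.refl (gN (C.sl ω i) 0)

lemma noise {s : ℝ} (hs : 0 ≤ s) : Track G C (Body.noise s) (fun _ => 0) s 0 0 := by
  refine ⟨le_rfl, hs, fun _ => 0, fun _ => le_rfl, integrable_zero _ _ _, by simp,
    .of_forall fun ω k p x e _ => ?_⟩
  simpa [Body.noise, Expr.law_scaled_noise] using DualClose.refl (gN (0 : Euc d) s)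

lemma app {op : Op} {u : Euc d → Euc d} {μ : Measure (Euc d)} {δ Λ₂ E₂ : ℝ} (hδ : 0 ≤ δ)
    (ho : op.Evals G u μ v δ Λ₂ E₂) (h : Track G C T X v Λ E) (hX : AEMeasurable X C.P)
    (hμ : C.P.map X = μ) :
    Track G C (Body.app op T) (fun ω => u (X ω)) δ (Λ₂ * Λ) (Λ₂ * E + E₂) := by
  subst hμ
  obtain ⟨hΛ₂, e₂, h20, h2i, h2le, h2ae⟩ := ho
  obtain ⟨hΛ, hv, e₁, h10, h1i, h1le, h1ae⟩ := h
  have h2c : Integrable (fun ω => e₂ (X ω)) C.P :=
    (integrable_map_measure h2i.aestronglyMeasurable hX).1 h2i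
  refine ⟨mul_nonneg hΛ₂ hΛ, hδ, fun ω => Λ₂ * e₁ ω + e₂ (X ω),
    fun ω => add_nonneg (mul_nonneg hΛ₂ (h10 ω)) (h20 _), (h1i.const_mul _).add h2c, ?_, ?_⟩
  · rw [integral_add (h1i.const_mul _) h2c, integral_const_mul,
      ← integral_map hX h2i.aestronglyMeasurable]
    gcongr
  · filter_upwards [h1ae, ae_of_ae_map hX h2ae] with ω hω1 hω2 k p x e hp
    exact (hω2 (k + 3) _ _ _ (hω1 k p x e hp)).mono (le_of_eq (by ring))

lemma comb (hG : Oracle G) {n : ℕ} {c : Fin n → ℝ} {Ts : Fin n → Body}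
    {Xs : Fin n → Ω → Euc d} {vs Λs Es : Fin n → ℝ} {s : ℝ} (hs : 0 ≤ s)
    (h : ∀ i, Track G C (Ts i) (Xs i) (vs i) (Λs i) (Es i)) :
    Track G C (Body.comb n c Ts s) (fun ω => ∑ i, c i • Xs i ω) (s + ∑ i, c i ^ 2 * vs i)
      (∑ i, |c i| * Λs i) (∑ i, |c i| * Es i) := by
  choose hΛ hv err h0 hi hle hae using h
  refine ⟨Finset.sum_nonneg fun i _ => mul_nonneg (abs_nonneg _) (hΛ i),
    add_nonneg hs (Finset.sum_nonneg fun i _ => mul_nonneg (sq_nonneg _) (hv i)),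
    fun y => ∑ i, |c i| * err i y,
    fun y => Finset.sum_nonneg fun i _ => mul_nonneg (abs_nonneg _) (h0 i y),
    integrable_finsetSum _ fun i _ => (hi i).const_mul _, ?_, ?_⟩
  · rw [integral_finsetSum _ fun i _ => (hi i).const_mul _]
    simp only [integral_const_mul]
    exact Finset.sum_le_sum fun i _ => mul_le_mul_of_nonneg_left (hle i) (abs_nonneg _)
  · filter_upwards [ae_all_iff.2 hae] with ω hω k p x e hp
    have h2 := dualClose_comb' hG c (fun i => (Ts i).run p) (Fin.append x (C.sl ω))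
      (fun i => Xs i ω) vs (fun i => Λs i * e + err i ω) hs hv fun i => hω i k p x e hp
    simp only [mul_add, Finset.sum_add_distrib, sum_mul_le_of_abs] at h2
    exact h2

end Track

end Vale.Agent.P347
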