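import Vale.Agent.P347.Gauss

/-!
Syntax of the algorithms: linear combinations of inputs, Gaussian noises and gradient queries.
-/

namespace Vale.Agent.P347

open MeasureTheory ProbabilityTheory
open scoped NNReal

/-- An expression with `n` vector inputs. `noise i` is the `i`-th Gaussian vector of the seed and
`grad e` is a gradient query at the point computed by `e`. -/
inductive Expr (n : ℕ) : Type
  | inp (i : Fin n) : Expr n
  | noise (i : ℕ) : Expr n
  | zero : Expr n
  | add (a b : Expr n) : Expr n
  | smul (c : ℝ) (a : Expr n) : Expr n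
  | grad (a : Expr n) : Expr n

namespace Expr

variable {d n k : ℕ}

/-- The value of an expression for the gradient oracle `G`, inputs `x` and noises `ω`. -/
noncomputable def eval (G : Euc d → Euc d) :
    Expr n → (Fin n → Euc d) → (ℕ → Euc d) → Euc d
  | inp i, x, _ => x i
  | noise i, _, ω => ω i
  | zero, _, _ => 0
  | add a b, x, ω => a.eval G x ω + b.eval G x ω
  | smul c a, x, ω => c • a.eval G x ω
  | grad a, x, ω => G (a.eval G x ω)

/-- The number of gradient queries. -/
def queries : Expr n → ℕ
  | inp _ => 0
  | noise _ => 0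
  | zero => 0
  | add a b => a.queries + b.queries
  | smul _ a => a.queries
  | grad a => a.queries + 1

/-- A Lipschitz constant in input `i` when the oracle is `L`-Lipschitz. -/
noncomputable def lip (L : ℝ) : Expr n → Fin n → ℝ
  | inp j, i => if i = j then 1 else 0
  | noise _, _ => 0
  | zero, _ => 0
  | add a b, i => a.lip L i + b.lip L i
  | smul c a, i => |c| * a.lip L i
  | grad a, i => L * a.lip L i

/-- Renaming of the noise indices. -/
def rename (ρ : ℕ → ℕ) : Expr n → Expr n
  | inp i => inp i
  | noise i => noise (ρ i)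
  | zero => zero
  | add a b => add (a.rename ρ) (b.rename ρ)
  | smul c a => smul c (a.rename ρ)
  | grad a => grad (a.rename ρ)

/-- Substitution of expressions for the inputs. -/
def subst : Expr n → (Fin n → Expr k) → Expr k
  | inp i, f => f i
  | noise i, _ => noise i
  | zero, _ => zero
  | add a b, f => add (a.subst f) (b.subst f)
  | smul c a, f => smul c (a.subst f)
  | grad a, f => grad (a.subst f)

/-- The number of occurrences of input `i`. -/
def occ : Expr n → Fin n → ℕ
  | inp j, i => if i = j then 1 else 0
  | noise _, _ => 0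
  | zero, _ => 0
  | add a b, i => a.occ i + b.occ i
  | smul _ a, i => a.occ i
  | grad a, i => a.occ i

/-- Sum of a finite family of expressions. -/
def sum : {k : ℕ} → (Fin k → Expr n) → Expr n
  | 0, _ => zero
  | _ + 1, f => add (f 0) (sum fun i => f i.succ)

/-- `e` applied to independent copies of the argument expressions. -/
def bind (e : Expr n) (f : Fin n → Expr k) : Expr k :=
  (e.rename (Nat.pair 0)).subst fun i => (f i).rename (Nat.pair ((i : ℕ) + 1))

variable (G : Euc d → Euc d)

lemma eval_rename (ρ : ℕ → ℕ) (e : Expr n) (x : Fin n → Euc d) (ω : ℕ → Euc d) :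
    (e.rename ρ).eval G x ω = e.eval G x (fun i => ω (ρ i)) := by
  induction e <;> simp_all [rename, eval]

lemma eval_subst (e : Expr n) (f : Fin n → Expr k) (x : Fin k → Euc d) (ω : ℕ → Euc d) :
    (e.subst f).eval G x ω = e.eval G (fun i => (f i).eval G x ω) ω := by
  induction e <;> simp_all [subst, eval]

lemma eval_bind (e : Expr n) (f : Fin n → Expr k) (x : Fin k → Euc d) (ω : ℕ → Euc d) :
    (e.bind f).eval G x ω = e.eval G
      (fun i => (f i).eval G x fun j => ω (Nat.pair ((i : ℕ) + 1) j))
      fun j => ω (Nat.pair 0 j) := by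
  simp [bind, eval_subst, eval_rename]

lemma eval_sum {k : ℕ} (f : Fin k → Expr n) (x : Fin n → Euc d) (ω : ℕ → Euc d) :
    (sum f).eval G x ω = ∑ i, (f i).eval G x ω := by
  induction k with
  | zero => simp [sum, eval]
  | succ k ih => simp [sum, eval, ih, Fin.sum_univ_succ]

lemma queries_rename (ρ : ℕ → ℕ) (e : Expr n) : (e.rename ρ).queries = e.queries := by
  induction e <;> simp_all [rename, queries]

lemma queries_sum {k : ℕ} (f : Fin k → Expr n) :
    (sum f).queries = ∑ i, (f i).queries := by
  induction k with
  | zero => simp [sum, queries]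
  | succ k ih => simp [sum, queries, ih, Fin.sum_univ_succ]

lemma queries_subst (e : Expr n) (f : Fin n → Expr k) :
    (e.subst f).queries = e.queries + ∑ i, e.occ i * (f i).queries := by
  induction e with
  | inp j => simp [subst, occ, queries]
  | noise j => simp [subst, occ, queries]
  | zero => simp [subst, occ, queries]
  | add a b iha ihb =>
      simp only [subst, occ, queries, iha, ihb, add_mul, Finset.sum_add_distrib]
      ring
  | smul c a ih => simp [subst, occ, queries, ih]
  | grad a ih =>
      simp only [subst, occ, queries, ih]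
      ring

lemma queries_bind (e : Expr n) (f : Fin n → Expr k) :
    (e.bind f).queries = e.queries + ∑ i, e.occ i * (f i).queries := by
  have h : ∀ (e : Expr n) (ρ : ℕ → ℕ) i, (e.rename ρ).occ i = e.occ i := fun e ρ i => by
    induction e <;> simp_all [rename, occ]
  simp [bind, queries_subst, queries_rename, h]

lemma continuous_eval {G : Euc d → Euc d} (hG : Continuous G) (e : Expr n) :
    Continuous fun p : (Fin n → Euc d) × (ℕ → Euc d) => e.eval G p.1 p.2 := by
  induction e with
  | inp i => simp only [eval]; fun_prop
  | noise i => simp only [eval]; fun_prop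
  | zero => simp only [eval]; fun_prop
  | add a b iha ihb => simp only [eval]; exact iha.add ihb
  | smul c a ih => simp only [eval]; exact ih.const_smul c
  | grad a ih => simp only [eval]; exact hG.comp ih

lemma lip_nonneg {L : ℝ} (hL : 0 ≤ L) (e : Expr n) (i : Fin n) : 0 ≤ e.lip L i := by
  induction e with
  | inp j => simp only [lip]; split <;> norm_num
  | noise j => simp [lip]
  | zero => simp [lip]
  | add a b iha ihb => simp only [lip]; positivity
  | smul c a ih => simp only [lip]; positivity
  | grad a ih => simp only [lip]; positivity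

lemma norm_eval_sub_le {G : Euc d → Euc d} {L : ℝ} (hL : 0 ≤ L)
    (hG : ∀ a b, ‖G a - G b‖ ≤ L * ‖a - b‖) (e : Expr n) (x y : Fin n → Euc d) (ω : ℕ → Euc d) :
    ‖e.eval G x ω - e.eval G y ω‖ ≤ ∑ i, e.lip L i * ‖x i - y i‖ := by
  induction e with
  | inp j => simp [eval, lip]
  | noise j => simp [eval, lip]
  | zero => simp [eval, lip]
  | add a b iha ihb =>
      simp only [eval, lip, add_mul, Finset.sum_add_distrib]
      rw [add_sub_add_comm]
      exact (norm_add_le _ _).trans (add_le_add iha ihb)
  | smul c a ih =>
      simp only [eval, lip, ← smul_sub, norm_smul, Real.norm_eq_abs, mul_assoc, ← Finset.mul_sum]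
      gcongr
  | grad a ih =>
      simp only [eval, lip, mul_assoc, ← Finset.mul_sum]
      exact (hG _ _).trans (by gcongr)

lemma lip_rename (L : ℝ) (ρ : ℕ → ℕ) (e : Expr n) : (e.rename ρ).lip L = e.lip L := by
  funext i
  induction e <;> simp_all [rename, lip]

lemma lip_subst (L : ℝ) (e : Expr n) (f : Fin n → Expr k) (i : Fin k) :
    (e.subst f).lip L i = ∑ j, e.lip L j * (f j).lip L i := by
  induction e with
  | inp j => simp [subst, lip]
  | noise j => simp [subst, lip]
  | zero => simp [subst, lip]
  | add a b iha ihb => simp [subst, lip, iha, ihb, add_mul, Finset.sum_add_distrib]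
  | smul c a ih => simp [subst, lip, ih, Finset.mul_sum, mul_assoc]
  | grad a ih => simp [subst, lip, ih, Finset.mul_sum, mul_assoc]

lemma lip_bind (L : ℝ) (e : Expr n) (f : Fin n → Expr k) (i : Fin k) :
    (e.bind f).lip L i = ∑ j, e.lip L j * (f j).lip L i := by
  simp [bind, lip_subst, lip_rename]

lemma lip_sum (L : ℝ) {k : ℕ} (f : Fin k → Expr n) (i : Fin n) :
    (sum f).lip L i = ∑ j, (f j).lip L i := by
  induction k with
  | zero => simp [sum, lip]
  | succ k ih => simp [sum, lip, ih, Fin.sum_univ_succ]

end Expr

/-- The law of the noise vectors. -/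
noncomputable def noiseLaw (d : ℕ) : Measure (ℕ → Euc d) :=
  Measure.infinitePi fun _ : ℕ => gauss d

instance isProbabilityMeasure_noiseLaw (d : ℕ) : IsProbabilityMeasure (noiseLaw d) := by
  unfold noiseLaw; infer_instance

lemma infinitePi_map_comp {ι κ X : Type*} [MeasurableSpace X] (μ : Measure X)
    [IsProbabilityMeasure μ] {g : κ → ι} (hg : Function.Injective g) :
    (Measure.infinitePi fun _ : ι => μ).map (fun ω i => ω (g i))
      = Measure.infinitePi fun _ : κ => μ := by
  classical
  refine Measure.eq_infinitePi _ fun s t ht => ?_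
  rw [Measure.map_apply (by fun_prop) (.pi s.countable_toSet fun i _ => ht i)]
  set t' : ι → Set X := fun j => if h : ∃ i, g i = j then t h.choose else Set.univ with ht'
  have hval : ∀ i, t' (g i) = t i := fun i => by
    have h : ∃ i', g i' = g i := ⟨i, rfl⟩
    simp [ht', hg h.choose_spec]
  have hpre : (fun (ω : ι → X) i => ω (g i)) ⁻¹' (s : Set κ).pi t
      = ((s.image g : Finset ι) : Set ι).pi t' := by
    ext ω
    simp [Set.mem_pi, hval]
  have hmeas : ∀ j ∈ s.image g, MeasurableSet (t' j) := fun j hj => by
    obtain ⟨i, _, rfl⟩ := Finset.mem_image.1 hj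
    rw [hval]; exact ht i
  rw [hpre, Measure.infinitePi_pi _ hmeas, Finset.prod_image fun a _ b _ h => hg h]
  simp [hval]

lemma noiseLaw_map_rename (d : ℕ) {ρ : ℕ → ℕ} (hρ : Function.Injective ρ) :
    (noiseLaw d).map (fun ω i => ω (ρ i)) = noiseLaw d :=
  infinitePi_map_comp (gauss d) hρ

lemma noiseLaw_map_blocks (d n : ℕ) :
    (noiseLaw d).map
        (fun ω => ((fun j => ω (Nat.pair 0 j)),
          fun (i : Fin n) j => ω (Nat.pair ((i : ℕ) + 1) j)))
      = (noiseLaw d).prod (Measure.pi fun _ : Fin n => noiseLaw d) := by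
  have hg : Function.Injective fun p : Fin (n + 1) × ℕ => Nat.pair (p.1 : ℕ) p.2 := by
    intro p q h
    obtain ⟨h1, h2⟩ := Nat.pair_eq_pair.1 h
    exact Prod.ext (Fin.ext h1) h2
  have h1 := infinitePi_map_comp (gauss d) hg
  have h2 : (Measure.infinitePi fun _ : Fin (n + 1) × ℕ => gauss d).map
      (MeasurableEquiv.curry (Fin (n + 1)) ℕ (Euc d))
      = Measure.pi fun _ : Fin (n + 1) => noiseLaw d := by
    rw [Measure.infinitePi_map_curry (fun (_ : Fin (n + 1)) (_ : ℕ) => gauss d),
      Measure.infinitePi_eq_pi]
    rfl
  have h3 := (measurePreserving_piFinSuccAbove (fun _ : Fin (n + 1) => noiseLaw d) 0).map_eq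
  rw [← h2, ← h1, noiseLaw, Measure.map_map (by fun_prop) (by fun_prop),
    Measure.map_map (by fun_prop) (by fun_prop)] at h3
  exact h3

end Vale.Agent.P347
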