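import Vale.Agent.P347.Asymp

/-!
Extraction of a Hessian applied to a random vector from evaluations at shifted points.
-/

namespace Vale.Agent.P347

open MeasureTheory ProbabilityTheory
open scoped Gradient

/-- An operator field for each dimension and potential. -/
abbrev HessFam : Type := (d : ℕ) → (Euc d → ℝ) → Euc d → Euc d →L[ℝ] Euc d

/-- Equally spaced nodes on `[-1, 1]`. -/
noncomputable def eqNode {P : ℕ} (l : Fin P) : ℝ := -1 + 2 * (l : ℝ) / ((P : ℝ) - 1)

/-- The differentiation weights at the middle. -/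
noncomputable def diffW {P : ℕ} (l : Fin P) : ℝ := deriv (lag (eqNode (P := P)) l) 0

/-- The size of the differentiation weights. -/
noncomputable def diffSize (P : ℕ) : ℝ := 1 + ∑ l : Fin P, |diffW l|

lemma eqNode_injective {P : ℕ} (hP : 2 ≤ P) : Function.Injective (eqNode (P := P)) := by
  intro i j h
  have hP1 : ((P : ℝ) - 1) ≠ 0 := by
    have : (2 : ℝ) ≤ P := by exact_mod_cast hP
    linarith
  simp only [eqNode, add_right_inj, div_left_inj' hP1, mul_right_inj' (two_ne_zero (α := ℝ)),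
    Nat.cast_inj] at h
  exact Fin.ext h

lemma abs_eqNode_le {P : ℕ} (hP : 2 ≤ P) (l : Fin P) : |eqNode l| ≤ 1 := by
  have h1 : (2 : ℝ) ≤ P := by exact_mod_cast hP
  have h2 : (l : ℝ) ≤ (P : ℝ) - 1 := by
    have h3 : (l : ℝ) + 1 ≤ (P : ℝ) := by exact_mod_cast l.2
    linarith
  have h4 : 0 ≤ 2 * (l : ℝ) / ((P : ℝ) - 1) := div_nonneg (by positivity) (by linarith)
  have h5 : 2 * (l : ℝ) / ((P : ℝ) - 1) ≤ 2 := by rw [div_le_iff₀ (by linarith)]; linarith
  rw [eqNode, abs_le]
  constructor <;> linarith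

lemma one_le_diffSize (P : ℕ) : 1 ≤ diffSize P :=
  le_add_of_nonneg_right (Finset.sum_nonneg fun _ _ => abs_nonneg _)

lemma sum_diffW_mul_pow {P : ℕ} (hP : 2 ≤ P) {k : ℕ} (hk : k < P) :
    ∑ l : Fin P, diffW l * eqNode l ^ k = if k = 1 then 1 else 0 := by
  have h := deriv_lag_exact (eqNode_injective hP) hk 0 0
  simp only [sub_zero] at h
  simp only [diffW, h]
  rcases k with _ | _ | k <;> simp

/-- Operators at the shifted levels from which `H y ζ` can be extracted. -/
def Extractor (P : ℕ) (μ₀ : MeasFam) (H : HessFam) (lam v₀ δ : ℝ) (Q : ℕ) (ε E : ℝ) : Prop :=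
  ∃ (ops : Fin P → Op) (us : Fin P → FieldFam) (μs : Fin P → MeasFam),
    (∀ l, OpOK (ops l) Q ε (us l) (μs l) v₀ δ E) ∧
    ∀ d V, Nice d V →
      (∀ l, ((μ₀ d V).prod (gauss d)).map (fun p => p.1 + (lam * eqNode l) • p.2) = μs l d V) ∧
      Continuous (H d V) ∧ (∀ l, Continuous (us l d V)) ∧
      Integrable (fun p => ‖∑ l, diffW l • us l d V (p.1 + (lam * eqNode l) • p.2)
        - lam • H d V p.1 p.2‖) ((μ₀ d V).prod (gauss d)) ∧
      ∫ p, ‖∑ l, diffW l • us l d V (p.1 + (lam * eqNode l) • p.2) - lam • H d V p.1 p.2‖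
        ∂((μ₀ d V).prod (gauss d)) ≤ E * dimFac d

/-- From a position and a Gaussian vector, a body for the Hessian applied to the vector. -/
lemma Node.hess {Pr : RandFam} {ν : ℝ} {P : ℕ} (hP : 2 ≤ P) {μ₀ : MeasFam} {H : HessFam}
    {lam v₀ δ : ℝ} {Q : ℕ} {ε E : ℝ} (hε : 0 ≤ ε) (hlam : 0 < lam) (hδ : 0 ≤ δ)
    (hx : Extractor P μ₀ H lam v₀ δ Q ε E)
    {T : Body} {QT : ℕ} {c c₀ S S₀ : ℝ} {X : VarFam} {vy Ey : ℝ}
    (hT : Node Pr ν T QT c c₀ S S₀ X vy Ey)
    {Z : Body} {QZ : ℕ} {Sz Sz₀ : ℝ} {ζ : VarFam} {vz Ez : ℝ}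
    (hZ : Node Pr ν Z QZ 0 0 Sz Sz₀ ζ vz Ez)
    (hEy : 0 ≤ Ey) (hvz : 0 ≤ vz) (hv : vy + lam ^ 2 * vz ≤ v₀)
    (hlaw : ∀ d V, Nice d V → AEMeasurable (fun ω => (X d V ω, ζ d V ω)) (Pr d V) ∧
      (Pr d V).map (fun ω => (X d V ω, ζ d V ω)) = (μ₀ d V).prod (gauss d))
    {v' : ℝ} (hv' : (diffSize P / lam) ^ 2 * δ ≤ v') :
    ∃ T', Node Pr ν T' (P * (Q * (1 + (QT + QZ)))) 0 0
      (diffSize P / lam * (2 + ε) * (|c| + S + lam * Sz))
      (diffSize P / lam * (2 + ε) * (|c₀| + S₀ + lam * Sz₀))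
      (fun d V ω => H d V (X d V ω) (ζ d V ω)) v'
      (diffSize P / lam * ((2 + ε) * (Ey + lam * |Ez|) + 2 * |E|)) := by
  obtain ⟨ops, us, μs, hops, hres⟩ := hx
  have hD := one_le_diffSize P
  have hmain : ∀ l, ∃ T', Node Pr ν T' (Q * (1 + (QT + QZ))) 0 0
      ((2 + ε) * (|c| + S + lam * Sz)) ((2 + ε) * (|c₀| + S₀ + lam * Sz₀))
      (fun d V ω => us l d V (X d V ω + (lam * eqNode l) • ζ d V ω)) δ
      ((2 + ε) * (Ey + lam * |Ez|) + E) := by
    intro l
    have hsz := hZ.spread_nonneg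
    have hl : |lam * eqNode l| ≤ lam := by
      rw [abs_mul, abs_of_pos hlam]
      exact mul_le_of_le_one_right hlam.le (abs_eqNode_le hP l)
    have h1 := Node.comb (n := 2) (a := ![1, lam * eqNode l]) (Ts := ![T, Z]) (Qs := ![QT, QZ])
      (cs := ![c, 0]) (cs₀ := ![c₀, 0]) (Ss := ![S, Sz]) (Ss₀ := ![S₀, Sz₀]) (Xs := ![X, ζ])
      (vs := ![vy, vz]) (Es := ![Ey, Ez]) (Fin.forall_fin_two.2 ⟨hT, hZ⟩)
      (X' := fun d V ω => X d V ω + (lam * eqNode l) • ζ d V ω)
      (fun d V _ ω => by simp [Fin.sum_univ_two]) (c' := c) (c₀' := c₀) (x := 0) (v' := v₀)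
      (by simp [Fin.sum_univ_two]) (by simp [Fin.sum_univ_two]) le_rfl
      (by simp [Fin.sum_univ_two]) (by
        have h2 : (lam * eqNode l) ^ 2 ≤ lam ^ 2 := by
          rw [← sq_abs]; exact pow_le_pow_left₀ (abs_nonneg _) hl 2
        simp [Fin.sum_univ_two]
        nlinarith [mul_le_mul_of_nonneg_right h2 hvz])
    simp only [Fin.sum_univ_two, Matrix.cons_val_zero, Matrix.cons_val_one, abs_one, one_mul,
      add_zero] at h1
    have h2 := (h1.app hε (hops l) hδ fun d V hV => by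
      obtain ⟨hm, hmap⟩ := hlaw d V hV
      have hg : Measurable fun p : Euc d × Euc d => p.1 + (lam * eqNode l) • p.2 := by fun_prop
      have hm' : AEMeasurable (fun ω => X d V ω + (lam * eqNode l) • ζ d V ω) (Pr d V) :=
        hg.comp_aemeasurable hm
      refine ⟨hm', ?_⟩
      have h3 := AEMeasurable.map_map_of_aemeasurable (g := fun p : Euc d × Euc d =>
        p.1 + (lam * eqNode l) • p.2) hg.aemeasurable hm
      rw [hmap] at h3
      rw [← (hres d V hV).1 l, h3]
      rfl).recentre0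
    refine ⟨_, h2.mono le_rfl ?_ ?_ ?_⟩
    · rw [abs_mul, abs_of_pos (by norm_num : (0 : ℝ) < 3 / 2)]
      have h4 : (2 + ε) * (|lam * eqNode l| * Sz) ≤ (2 + ε) * (lam * Sz) := by
        have := hsz.1; gcongr
      nlinarith [abs_nonneg c]
    · rw [abs_mul, abs_of_pos (by norm_num : (0 : ℝ) < 3 / 2)]
      have h4 : (2 + ε) * (|lam * eqNode l| * Sz₀) ≤ (2 + ε) * (lam * Sz₀) := by
        have := hsz.2; gcongr
      nlinarith [abs_nonneg c₀]
    · have h8 : |lam * eqNode l| * Ez ≤ lam * |Ez| :=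
        (mul_le_mul_of_nonneg_left (le_abs_self Ez) (abs_nonneg _)).trans
          (mul_le_mul_of_nonneg_right hl (abs_nonneg _))
      nlinarith [mul_le_mul_of_nonneg_left h8 (by linarith : (0 : ℝ) ≤ 2 + ε)]
  choose Ts hTs using hmain
  have hsum : ∑ l : Fin P, |diffW l / lam| ≤ diffSize P / lam := by
    simp only [abs_div, abs_of_pos hlam, ← Finset.sum_div, diffSize]
    gcongr
    linarith
  have h4 := Node.comb0 (a := fun l => diffW l / lam) hTs
    (X' := fun d V ω => ∑ l, (diffW l / lam) • us l d V (X d V ω + (lam * eqNode l) • ζ d V ω))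
    (fun d V _ ω => rfl) (v' := v') (by
      refine le_trans ?_ hv'
      rw [← Finset.sum_mul]
      gcongr
      calc ∑ l : Fin P, (diffW l / lam) ^ 2 = ∑ l : Fin P, |diffW l / lam| ^ 2 := by
            simp only [sq_abs]
        _ ≤ (∑ l : Fin P, |diffW l / lam|) ^ 2 :=
            Finset.sum_sq_le_sq_sum_of_nonneg fun l _ => abs_nonneg _
        _ ≤ _ := pow_le_pow_left₀ (Finset.sum_nonneg fun l _ => abs_nonneg _) hsum 2)
  simp only [← Finset.sum_mul] at h4
  have h5 := h4.shift (X' := fun d V ω => H d V (X d V ω) (ζ d V ω)) (E' := lam⁻¹ * E) ?_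
  · refine ⟨_, h5.mono (by simp [mul_assoc]) ?_ ?_ ?_⟩
    · rw [mul_assoc (diffSize P / lam)]
      exact mul_le_mul_of_nonneg_right hsum
        (mul_nonneg (by linarith) (by
          have := hT.spread_nonneg.1; have := hZ.spread_nonneg.1; positivity))
    · rw [mul_assoc (diffSize P / lam)]
      exact mul_le_mul_of_nonneg_right hsum
        (mul_nonneg (by linarith) (by
          have := hT.spread_nonneg.2; have := hZ.spread_nonneg.2; positivity))
    · set A := (2 + ε) * (Ey + lam * |Ez|)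
      have h6 : lam⁻¹ * E ≤ diffSize P / lam * |E| := by
        rw [inv_eq_one_div]
        refine (mul_le_mul_of_nonneg_left (le_abs_self E) (by positivity)).trans ?_
        gcongr
      have hA : 0 ≤ A := by positivity
      have h7 : (∑ l : Fin P, |diffW l / lam|) * (A + E) ≤ diffSize P / lam * (A + |E|) :=
        (mul_le_mul_of_nonneg_left (by linarith [le_abs_self E])
          (Finset.sum_nonneg fun l _ => abs_nonneg _)).trans
          (mul_le_mul_of_nonneg_right hsum (by positivity))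
      linarith
  · intro d V hV
    obtain ⟨hm, hmap⟩ := hlaw d V hV
    obtain ⟨-, hHc, huc, hi, hle⟩ := hres d V hV
    set F : Euc d × Euc d → ℝ := fun p => ‖∑ l, diffW l • us l d V (p.1 + (lam * eqNode l) • p.2)
        - lam • H d V p.1 p.2‖ with hF
    have heq : ∀ ω, ‖∑ l, (diffW l / lam) • us l d V (X d V ω + (lam * eqNode l) • ζ d V ω)
        - H d V (X d V ω) (ζ d V ω)‖ = lam⁻¹ * F (X d V ω, ζ d V ω) := fun ω => by
      simp only [hF]
      rw [← abs_of_pos (inv_pos.2 hlam), ← Real.norm_eq_abs, ← norm_smul, smul_sub,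
        Finset.smul_sum]
      congr 2
      · exact Finset.sum_congr rfl fun l _ => by rw [smul_smul, inv_mul_eq_div]
      · rw [inv_smul_smul₀ hlam.ne']
    simp only [heq]
    rw [← hmap] at hi hle
    have hiF := (integrable_map_measure hi.aestronglyMeasurable hm).1 hi
    refine ⟨hiF.const_mul _, ?_⟩
    rw [integral_const_mul, mul_assoc]
    refine mul_le_mul_of_nonneg_left (le_trans (le_of_eq ?_) hle) (by positivity)
    exact (integral_map hm hi.aestronglyMeasurable).symm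

end Vale.Agent.P347
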