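import Vale.Agent.P347.CalcDefs

/-!
Closure properties of `Tame`: linear and bilinear operations, derivatives, components, and
integrability against measures with all polynomial moments.
-/

namespace Vale.Agent.P347

open MeasureTheory
open scoped RealInnerProductSpace ContDiff

variable {ι : Type} [Fintype ι] [DecidableEq ι]
variable {E G H : Type*} [NormedAddCommGroup E] [NormedSpace ℝ E]
  [NormedAddCommGroup G] [NormedSpace ℝ G] [NormedAddCommGroup H] [NormedSpace ℝ H]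
variable {I : Set ℝ}

namespace Tame

omit [DecidableEq ι] in
theorem contDiffAt {f : ℝ → Sp ι → E} (hf : Tame I f) (hI : IsOpen I) {t : ℝ} (ht : t ∈ I)
    (x : Sp ι) : ContDiffAt ℝ ∞ (fun p : ℝ × Sp ι => f p.1 p.2) (t, x) :=
  hf.1.contDiffAt ((hI.prod isOpen_univ).mem_nhds ⟨ht, Set.mem_univ _⟩)

omit [DecidableEq ι] in
theorem differentiableAt {f : ℝ → Sp ι → E} (hf : Tame I f) (hI : IsOpen I) {t : ℝ} (ht : t ∈ I)
    (x : Sp ι) : DifferentiableAt ℝ (fun p : ℝ × Sp ι => f p.1 p.2) (t, x) :=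
  (hf.contDiffAt hI ht x).differentiableAt (by simp)

omit [DecidableEq ι] in
theorem contDiff_space {f : ℝ → Sp ι → E} (hf : Tame I f) {t : ℝ} (ht : t ∈ I) :
    ContDiff ℝ ∞ (f t) := by
  have h := hf.1.comp_contDiff (f := fun y : Sp ι => (t, y))
    (contDiff_const.prodMk contDiff_id) (fun y => ⟨ht, Set.mem_univ _⟩)
  exact h

omit [DecidableEq ι] in
theorem differentiableAt_space {f : ℝ → Sp ι → E} (hf : Tame I f) {t : ℝ} (ht : t ∈ I)
    (x : Sp ι) : DifferentiableAt ℝ (f t) x :=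
  (hf.contDiff_space ht).differentiable (by simp) x

omit [DecidableEq ι] in
theorem fderiv_space {f : ℝ → Sp ι → E} (hf : Tame I f) (hI : IsOpen I) {t : ℝ} (ht : t ∈ I)
    (x v : Sp ι) :
    fderiv ℝ (f t) x v = fderiv ℝ (fun p : ℝ × Sp ι => f p.1 p.2) (t, x) (0, v) := by
  have h := (hf.differentiableAt hI ht x).hasFDerivAt.comp x
    (hasFDerivAt_prodMk_right (𝕜 := ℝ) t x)
  have h' : HasFDerivAt (f t)
      ((fderiv ℝ (fun p : ℝ × Sp ι => f p.1 p.2) (t, x)).comp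
        (ContinuousLinearMap.inr ℝ ℝ (Sp ι))) x := h
  rw [h'.fderiv]
  rfl

omit [DecidableEq ι] in
/-- One bound for all derivatives up to order `n`. -/
theorem bound_upTo {f : ℝ → Sp ι → E} (hf : Tame I f) (n : ℕ) {J : Set ℝ} (hJ : IsCompact J)
    (hJI : J ⊆ I) : ∃ (C : ℝ) (p : ℕ), 0 ≤ C ∧ ∀ i ≤ n, ∀ t ∈ J, ∀ x : Sp ι,
      ‖iteratedFDeriv ℝ i (fun q : ℝ × Sp ι => f q.1 q.2) (t, x)‖ ≤ C * (1 + ‖x‖) ^ p := by
  induction n with
  | zero =>
    obtain ⟨C, p, h⟩ := hf.2 0 J hJ hJI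
    refine ⟨max C 0, p, le_max_right _ _, fun i hi t ht x => ?_⟩
    obtain rfl : i = 0 := by omega
    exact (h t ht x).trans (mul_le_mul_of_nonneg_right (le_max_left _ _) (by positivity))
  | succ n ih =>
    obtain ⟨C, p, hC, h⟩ := ih
    obtain ⟨C', p', h'⟩ := hf.2 (n + 1) J hJ hJI
    refine ⟨max C C', max p p', le_trans hC (le_max_left _ _), fun i hi t ht x => ?_⟩
    have h1 : (1 : ℝ) ≤ 1 + ‖x‖ := le_add_of_nonneg_right (norm_nonneg x)
    rcases Nat.lt_or_ge i (n + 1) with hlt | hge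
    · refine (h i (by omega) t ht x).trans ?_
      exact mul_le_mul (le_max_left _ _) (pow_le_pow_right₀ h1 (le_max_left _ _)) (by positivity)
        (le_trans hC (le_max_left _ _))
    · obtain rfl : i = n + 1 := by omega
      refine (h' t ht x).trans ?_
      calc C' * (1 + ‖x‖) ^ p' ≤ max C C' * (1 + ‖x‖) ^ p' := by
            gcongr; exact le_max_right _ _
        _ ≤ max C C' * (1 + ‖x‖) ^ max p p' := by
            refine mul_le_mul_of_nonneg_left ?_ (le_trans hC (le_max_left _ _))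
            exact pow_le_pow_right₀ h1 (le_max_right _ _)

omit [DecidableEq ι] in
theorem of_eq {f g : ℝ → Sp ι → E} (hf : Tame I f) (hI : IsOpen I)
    (h : ∀ t ∈ I, ∀ x, g t x = f t x) : Tame I g := by
  refine ⟨hf.1.congr fun p hp => h p.1 hp.1 p.2, fun n J hJ hJI => ?_⟩
  obtain ⟨C, p, hC⟩ := hf.2 n J hJ hJI
  refine ⟨C, p, fun t ht x => ?_⟩
  have he : (fun q : ℝ × Sp ι => g q.1 q.2) =ᶠ[nhds (t, x)] fun q => f q.1 q.2 := by
    filter_upwards [(hI.prod isOpen_univ).mem_nhds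
      (show (t, x) ∈ I ×ˢ (Set.univ : Set (Sp ι)) from ⟨hJI ht, Set.mem_univ _⟩)] with q hq
    exact h q.1 hq.1 q.2
  rw [(he.iteratedFDeriv ℝ n).eq_of_nhds]
  exact hC t ht x

omit [DecidableEq ι] in
theorem const (c : E) : Tame I fun _ (_ : Sp ι) => c := by
  refine ⟨contDiffOn_const, fun n J _ _ => ⟨‖c‖, 0, fun t _ x => ?_⟩⟩
  rcases n with - | n
  · simp
  · rw [iteratedFDeriv_const_of_ne (Nat.succ_ne_zero n)]
    simp

omit [DecidableEq ι] in
theorem add {f g : ℝ → Sp ι → E} (hf : Tame I f) (hg : Tame I g) (hI : IsOpen I) :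
    Tame I fun t x => f t x + g t x := by
  refine ⟨hf.1.add hg.1, fun n J hJ hJI => ?_⟩
  obtain ⟨C, p, hC, h⟩ := hf.bound_upTo n hJ hJI
  obtain ⟨C', p', hC', h'⟩ := hg.bound_upTo n hJ hJI
  refine ⟨C + C', p + p', fun t ht x => ?_⟩
  have hle : (n : WithTop ℕ∞) ≤ ∞ := mod_cast le_top
  rw [fun_iteratedFDeriv_add_apply ((hf.contDiffAt hI (hJI ht) x).of_le hle)
    ((hg.contDiffAt hI (hJI ht) x).of_le hle)]
  refine (norm_add_le _ _).trans ?_
  have h1 : (1 : ℝ) ≤ 1 + ‖x‖ := le_add_of_nonneg_right (norm_nonneg x)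
  rw [add_mul]
  gcongr ?_ + ?_
  · exact (h n le_rfl t ht x).trans
      (mul_le_mul_of_nonneg_left (pow_le_pow_right₀ h1 (by omega)) hC)
  · exact (h' n le_rfl t ht x).trans
      (mul_le_mul_of_nonneg_left (pow_le_pow_right₀ h1 (by omega)) hC')

omit [DecidableEq ι] in
theorem clm {f : ℝ → Sp ι → E} (hf : Tame I f) (hI : IsOpen I) (L : E →L[ℝ] G) :
    Tame I fun t x => L (f t x) := by
  refine ⟨L.contDiff.comp_contDiffOn hf.1, fun n J hJ hJI => ?_⟩
  obtain ⟨C, p, h⟩ := hf.2 n J hJ hJI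
  refine ⟨‖L‖ * C, p, fun t ht x => ?_⟩
  have hle : (n : WithTop ℕ∞) ≤ ∞ := mod_cast le_top
  have h2 := L.norm_iteratedFDeriv_comp_left (hf.contDiffAt hI (hJI ht) x) hle
  refine le_trans h2 ?_
  rw [mul_assoc]
  exact mul_le_mul_of_nonneg_left (h t ht x) (norm_nonneg L)

omit [DecidableEq ι] in
theorem neg {f : ℝ → Sp ι → E} (hf : Tame I f) (hI : IsOpen I) :
    Tame I fun t x => -(f t x) :=
  hf.clm hI (-(ContinuousLinearMap.id ℝ E))

omit [DecidableEq ι] in
theorem sub {f g : ℝ → Sp ι → E} (hf : Tame I f) (hg : Tame I g) (hI : IsOpen I) :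
    Tame I fun t x => f t x - g t x := by
  simpa only [sub_eq_add_neg] using hf.add (hg.neg hI) hI

omit [DecidableEq ι] in
theorem const_smul {f : ℝ → Sp ι → E} (hf : Tame I f) (hI : IsOpen I) (c : ℝ) :
    Tame I fun t x => c • f t x :=
  hf.clm hI (c • ContinuousLinearMap.id ℝ E)

omit [DecidableEq ι] in
theorem bilin {f : ℝ → Sp ι → E} {g : ℝ → Sp ι → G} (hf : Tame I f) (hg : Tame I g)
    (hI : IsOpen I) (B : E →L[ℝ] G →L[ℝ] H) : Tame I fun t x => B (f t x) (g t x) := by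
  refine ⟨(B.contDiff.comp_contDiffOn hf.1).clm_apply hg.1, fun n J hJ hJI => ?_⟩
  obtain ⟨C, p, hC, h⟩ := hf.bound_upTo n hJ hJI
  obtain ⟨C', p', hC', h'⟩ := hg.bound_upTo n hJ hJI
  refine ⟨‖B‖ * ∑ i ∈ Finset.range (n + 1), (n.choose i : ℝ) * C * C', p + p', fun t ht x => ?_⟩
  have hU : IsOpen (I ×ˢ (Set.univ : Set (Sp ι))) := hI.prod isOpen_univ
  have hx : (t, x) ∈ I ×ˢ (Set.univ : Set (Sp ι)) := ⟨hJI ht, Set.mem_univ _⟩
  have hle : (n : WithTop ℕ∞) ≤ ∞ := mod_cast le_top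
  have h2 := B.norm_iteratedFDerivWithin_le_of_bilinear hf.1 hg.1 hU.uniqueDiffOn hx hle
  simp only [iteratedFDerivWithin_of_isOpen _ hU hx] at h2
  refine le_trans h2 ?_
  rw [mul_assoc]
  refine mul_le_mul_of_nonneg_left ?_ (norm_nonneg B)
  rw [Finset.sum_mul]
  refine Finset.sum_le_sum fun i hi => ?_
  rw [Finset.mem_range] at hi
  have hi1 := h i (by omega) t ht x
  have hi2 := h' (n - i) (by omega) t ht x
  calc _ ≤ (n.choose i : ℝ) * (C * (1 + ‖x‖) ^ p) * (C' * (1 + ‖x‖) ^ p') := by gcongr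
    _ = (n.choose i : ℝ) * C * C' * (1 + ‖x‖) ^ (p + p') := by rw [pow_add]; ring

omit [DecidableEq ι] in
theorem mul {f g : ℝ → Sp ι → ℝ} (hf : Tame I f) (hg : Tame I g) (hI : IsOpen I) :
    Tame I fun t x => f t x * g t x :=
  hf.bilin hg hI (ContinuousLinearMap.mul ℝ ℝ)

omit [DecidableEq ι] in
theorem sum {κ : Type*} (s : Finset κ) {f : κ → ℝ → Sp ι → E} (hI : IsOpen I)
    (hf : ∀ k ∈ s, Tame I (f k)) : Tame I fun t x => ∑ k ∈ s, f k t x := by
  classical
  induction s using Finset.induction_on with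
  | empty => simpa using Tame.const (ι := ι) (I := I) (0 : E)
  | @insert a s ha ih =>
    simp only [Finset.sum_insert ha]
    exact (hf a (Finset.mem_insert_self a s)).add
      (ih fun k hk => hf k (Finset.mem_insert_of_mem hk)) hI

omit [DecidableEq ι] in
theorem prodMk {f : ℝ → Sp ι → E} {g : ℝ → Sp ι → G} (hf : Tame I f) (hg : Tame I g)
    (hI : IsOpen I) : Tame I fun t x => (f t x, g t x) := by
  have h := (hf.clm hI (ContinuousLinearMap.inl ℝ E G)).add
    (hg.clm hI (ContinuousLinearMap.inr ℝ E G)) hI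
  simpa using h

omit [DecidableEq ι] in
theorem fderiv_joint {f : ℝ → Sp ι → E} (hf : Tame I f) (hI : IsOpen I) :
    Tame I fun t x => fderiv ℝ (fun q : ℝ × Sp ι => f q.1 q.2) (t, x) := by
  refine ⟨?_, fun n J hJ hJI => ?_⟩
  · exact hf.1.fderiv_of_isOpen (hI.prod isOpen_univ) le_rfl
  · obtain ⟨C, p, h⟩ := hf.2 (n + 1) J hJ hJI
    refine ⟨C, p, fun t ht x => ?_⟩
    refine le_of_eq_of_le ?_ (h t ht x)
    exact norm_iteratedFDeriv_fderiv

omit [DecidableEq ι] in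
theorem fderiv_apply {f : ℝ → Sp ι → E} {v : ℝ → Sp ι → ℝ × Sp ι} (hf : Tame I f)
    (hv : Tame I v) (hI : IsOpen I) :
    Tame I fun t x => fderiv ℝ (fun q : ℝ × Sp ι => f q.1 q.2) (t, x) (v t x) :=
  (hf.fderiv_joint hI).bilin hv hI (ContinuousLinearMap.id ℝ ((ℝ × Sp ι) →L[ℝ] E))

omit [DecidableEq ι] in
theorem fderiv_space_apply {f : ℝ → Sp ι → E} (hf : Tame I f) (hI : IsOpen I) (v : Sp ι) :
    Tame I fun t x => fderiv ℝ (f t) x v :=
  (hf.fderiv_apply (Tame.const ((0 : ℝ), v)) hI).of_eq hI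
    fun _ ht x => hf.fderiv_space hI ht x v

omit [DecidableEq ι] in
theorem component {κ : Type} [Fintype κ] {f : ℝ → Sp ι → EuclideanSpace ℝ κ} (hf : Tame I f)
    (hI : IsOpen I) (k : κ) : Tame I fun t x => f t x k :=
  hf.clm hI (EuclideanSpace.proj k)

omit [DecidableEq ι] in
theorem euclidean {κ : Type} [Fintype κ] {f : ℝ → Sp ι → EuclideanSpace ℝ κ} (hI : IsOpen I)
    (h : ∀ k, Tame I fun t x => f t x k) : Tame I f := by
  classical
  refine (Tame.sum Finset.univ hI (f := fun k t x => f t x k • EuclideanSpace.single k (1 : ℝ))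
    fun k _ => ?_).of_eq hI fun t _ x => ?_
  · exact (h k).clm hI
      ((ContinuousLinearMap.id ℝ ℝ).smulRight (EuclideanSpace.single k (1 : ℝ)))
  · have := (EuclideanSpace.basisFun κ ℝ).sum_repr (f t x)
    simpa using this.symm

omit [DecidableEq ι] in
/-- Tame functions are integrable against measures with all polynomial moments. -/
theorem integrable {f : ℝ → Sp ι → E} (hf : Tame I f) {t : ℝ} (ht : t ∈ I)
    (μ : Measure (Sp ι)) [IsFiniteMeasure μ]
    (hμ : ∀ p : ℕ, Integrable (fun x => ‖x‖ ^ p) μ) : Integrable (f t) μ := by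
  obtain ⟨C, p, hC, h⟩ := hf.bound_upTo 0 (J := {t}) isCompact_singleton (by simpa using ht)
  have hm : Integrable (fun x : Sp ι => C * 2 ^ (p - 1) * (1 + ‖x‖ ^ p)) μ :=
    ((integrable_const (1 : ℝ)).add (hμ p)).const_mul _
  refine hm.mono' (hf.contDiff_space ht).continuous.aestronglyMeasurable
    (ae_of_all _ fun x => ?_)
  have h0 := h 0 le_rfl t rfl x
  rw [norm_iteratedFDeriv_zero] at h0
  refine h0.trans ?_
  rw [mul_assoc]
  refine mul_le_mul_of_nonneg_left ?_ hC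
  simpa using add_pow_le (zero_le_one (α := ℝ)) (norm_nonneg x) p

omit [DecidableEq ι] in
theorem inner {κ : Type} [Fintype κ] {f g : ℝ → Sp ι → EuclideanSpace ℝ κ} (hf : Tame I f)
    (hg : Tame I g) (hI : IsOpen I) : Tame I fun t x => ⟪f t x, g t x⟫ :=
  hf.bilin hg hI (innerSL ℝ)

omit [DecidableEq ι] in
theorem norm_sq {κ : Type} [Fintype κ] {f : ℝ → Sp ι → EuclideanSpace ℝ κ} (hf : Tame I f)
    (hI : IsOpen I) : Tame I fun t x => ‖f t x‖ ^ 2 :=
  (hf.inner hf hI).of_eq hI fun t _ x => by simp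

omit [DecidableEq ι] in
theorem integrable_inner {κ : Type} [Fintype κ] {f g : ℝ → Sp ι → EuclideanSpace ℝ κ}
    (hf : Tame I f) (hg : Tame I g) (hI : IsOpen I) {t : ℝ} (ht : t ∈ I) (μ : Measure (Sp ι))
    [IsFiniteMeasure μ] (hμ : ∀ p : ℕ, Integrable (fun x => ‖x‖ ^ p) μ) :
    Integrable (fun x => ⟪f t x, g t x⟫) μ :=
  (hf.inner hg hI).integrable ht μ hμ

omit [DecidableEq ι] in
theorem integrable_norm_sq {κ : Type} [Fintype κ] {f : ℝ → Sp ι → EuclideanSpace ℝ κ}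
    (hf : Tame I f) (hI : IsOpen I) {t : ℝ} (ht : t ∈ I) (μ : Measure (Sp ι))
    [IsFiniteMeasure μ] (hμ : ∀ p : ℕ, Integrable (fun x => ‖x‖ ^ p) μ) :
    Integrable (fun x => ‖f t x‖ ^ 2) μ :=
  (hf.norm_sq hI).integrable ht μ hμ

end Tame

end Vale.Agent.P347
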