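import Vale.Agent.P347.FlowTransport
import Vale.Agent.P347.Specs
import Vale.Agent.P347.Tame

/-!
Flows of vector fields of linear growth transport solutions of the continuity equation.
-/

namespace Vale.Agent.P347

open Set MeasureTheory Filter
open scoped NNReal ENNReal Topology ContDiff

namespace Flow

variable {ι : Type} [Fintype ι] [DecidableEq ι]

omit [DecidableEq ι] in
lemma integrable_poly_gauss {c : ℝ} (hc : 0 < c) (q : ℕ) :
    Integrable fun x : Sp ι => (1 + ‖x‖) ^ q * Real.exp (-c * ‖x‖ ^ 2) := by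
  set d := Module.finrank ℝ (Sp ι) + 1 with hd
  set k := q + d with hk
  refine ((integrable_one_add_norm (E := Sp ι) (μ := volume) (r := (d : ℝ))
    (by rw [hd]; push_cast; linarith)).const_mul
      ((k.factorial : ℝ) * Real.exp (1 + 1 / (4 * c)))).mono'
    (by fun_prop) (ae_of_all _ fun x => ?_)
  have h0 : 0 < 1 + ‖x‖ := by positivity
  have h1 := Real.pow_div_factorial_le_exp (1 + ‖x‖) h0.le k
  rw [div_le_iff₀ (by positivity)] at h1
  have h2 : 1 + ‖x‖ + -c * ‖x‖ ^ 2 ≤ 1 + 1 / (4 * c) := by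
    have : 0 ≤ (2 * c * ‖x‖ - 1) ^ 2 / (4 * c) := by positivity
    have e : (2 * c * ‖x‖ - 1) ^ 2 / (4 * c) = c * ‖x‖ ^ 2 - ‖x‖ + 1 / (4 * c) := by
      field_simp; ring
    linarith
  rw [Real.norm_eq_abs, abs_of_nonneg (by positivity), Real.rpow_neg h0.le, Real.rpow_natCast,
    ← div_eq_mul_inv, le_div_iff₀ (pow_pos h0 _)]
  calc (1 + ‖x‖) ^ q * Real.exp (-c * ‖x‖ ^ 2) * (1 + ‖x‖) ^ d
      = (1 + ‖x‖) ^ k * Real.exp (-c * ‖x‖ ^ 2) := by rw [hk, pow_add]; ring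
    _ ≤ Real.exp (1 + ‖x‖) * k.factorial * Real.exp (-c * ‖x‖ ^ 2) :=
        mul_le_mul_of_nonneg_right h1 (Real.exp_nonneg _)
    _ = k.factorial * Real.exp (1 + ‖x‖ + -c * ‖x‖ ^ 2) := by rw [Real.exp_add (1 + ‖x‖)]; ring
    _ ≤ _ := mul_le_mul_of_nonneg_left (Real.exp_le_exp.2 h2) (by positivity)

/-- The fixed bump used for the cutoffs. -/
noncomputable def bump (ι : Type) [Fintype ι] : ContDiffBump (0 : Sp ι) :=
  ⟨1, 2, one_pos, by norm_num⟩

/-- The cutoff at scale `n + 1`. -/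
noncomputable def cutoff (n : ℕ) (x : Sp ι) : ℝ := bump ι (((n : ℝ) + 1)⁻¹ • x)

omit [DecidableEq ι] in
lemma cutoff_smooth (n : ℕ) : ContDiff ℝ ∞ (cutoff (ι := ι) n) :=
  (bump ι).contDiff.comp (contDiff_const_smul _)

omit [DecidableEq ι] in
lemma cutoff_supp (n : ℕ) : HasCompactSupport (cutoff (ι := ι) n) :=
  (bump ι).hasCompactSupport.comp_homeomorph
    (Homeomorph.smulOfNeZero (((n : ℝ) + 1)⁻¹) (by positivity))

omit [DecidableEq ι] in
lemma cutoff_mem (n : ℕ) (x : Sp ι) : 0 ≤ cutoff n x ∧ cutoff n x ≤ 1 :=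
  ⟨(bump ι).nonneg, (bump ι).le_one⟩

omit [DecidableEq ι] in
lemma cutoff_one {n : ℕ} {x : Sp ι} (h : ‖x‖ ≤ n + 1) : cutoff n x = 1 := by
  refine (bump ι).one_of_mem_closedBall (mem_closedBall_zero_iff.2 ?_)
  rw [norm_smul, norm_inv, Real.norm_eq_abs, abs_of_nonneg (by positivity), ← div_eq_inv_mul]
  exact (div_le_one (by positivity)).2 h

omit [DecidableEq ι] in
lemma cutoff_fderiv_zero {n : ℕ} {x : Sp ι} (h : ‖x‖ < n + 1) :
    fderiv ℝ (cutoff n) x = 0 := by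
  have : cutoff n =ᶠ[𝓝 x] fun _ => (1 : ℝ) := by
    filter_upwards [Metric.isOpen_ball.mem_nhds (mem_ball_zero_iff.2 h)] with y hy
    exact cutoff_one (mem_ball_zero_iff.1 hy).le
  rw [this.fderiv_eq]
  simp

omit [DecidableEq ι] in
lemma cutoff_fderiv_bdd :
    ∃ M : ℝ, 0 ≤ M ∧ ∀ (n : ℕ) (x : Sp ι), ‖fderiv ℝ (cutoff n) x‖ ≤ M := by
  obtain ⟨M, hM⟩ := (((bump ι).contDiff (n := ⊤)).continuous_fderiv (by simp)
    ).bounded_above_of_compact_support ((bump ι).hasCompactSupport.fderiv (𝕜 := ℝ))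
  refine ⟨M, (norm_nonneg _).trans (hM 0), fun n x => ?_⟩
  have h1 : HasFDerivAt (fun y : Sp ι => ((n : ℝ) + 1)⁻¹ • y)
      (((n : ℝ) + 1)⁻¹ • ContinuousLinearMap.id ℝ (Sp ι)) x := by
    exact (hasFDerivAt_id (𝕜 := ℝ) x).const_smul (((n : ℝ) + 1)⁻¹)
  have hd : Differentiable ℝ (bump ι : Sp ι → ℝ) :=
    ((bump ι).contDiff (n := ⊤)).differentiable (by simp)
  have h2 : HasFDerivAt (cutoff (ι := ι) n)
      ((fderiv ℝ (bump ι : Sp ι → ℝ) (((n : ℝ) + 1)⁻¹ • x)).comp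
        (((n : ℝ) + 1)⁻¹ • ContinuousLinearMap.id ℝ (Sp ι))) x :=
    (hd _).hasFDerivAt.comp x h1
  rw [h2.fderiv]
  refine (ContinuousLinearMap.opNorm_comp_le _ _).trans ?_
  refine (mul_le_mul (hM _) ?_ (norm_nonneg _) ((norm_nonneg _).trans (hM 0))).trans (mul_one M).le
  rw [norm_smul, norm_inv, Real.norm_eq_abs, abs_of_nonneg (by positivity)]
  refine mul_le_one₀ ?_ (norm_nonneg _) ContinuousLinearMap.norm_id_le
  exact inv_le_one_of_one_le₀ (le_add_of_nonneg_left n.cast_nonneg)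

/-- The standing hypotheses on the field and the densities. -/
structure Hyp (I : Set ℝ) (a₀ a₁ : ℝ) (b : ℝ → Sp ι → Sp ι) (m : ℝ → Sp ι → ℝ)
    (C c Cg : ℝ) (p : ℕ) : Prop where
  open_dom : IsOpen I
  subset : Icc a₀ a₁ ⊆ I
  tame_b : Tame I b
  tame_m : Tame I m
  nonneg : 0 ≤ C
  growth : ∀ t ∈ Icc a₀ a₁, ∀ x, ‖b t x‖ ≤ C * (1 + ‖x‖)
  m_nonneg : ∀ t ∈ Icc a₀ a₁, ∀ x, 0 ≤ m t x
  c_pos : 0 < c
  decay : ∀ n ≤ 2, ∀ t ∈ Icc a₀ a₁, ∀ x : Sp ι,
    ‖iteratedFDeriv ℝ n (fun q : ℝ × Sp ι => m q.1 q.2) (t, x)‖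
      ≤ Cg * (1 + ‖x‖) ^ p * Real.exp (-c * ‖x‖ ^ 2)
  conteq : ∀ t ∈ Icc a₀ a₁, ∀ x, deriv (fun s => m s x) t
    + ∑ i, fderiv ℝ (fun y => m t y * b t y i) x (EuclideanSpace.single i 1) = 0

/-- The dominating function of the densities and their first two derivatives. -/
noncomputable def dom (c Cg : ℝ) (p : ℕ) (x : Sp ι) : ℝ :=
  Cg * (1 + ‖x‖) ^ p * Real.exp (-c * ‖x‖ ^ 2)

/-- The time derivative of the densities. -/
noncomputable def mdot (m : ℝ → Sp ι → ℝ) (t : ℝ) (x : Sp ι) : ℝ :=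
  fderiv ℝ (fun q : ℝ × Sp ι => m q.1 q.2) (t, x) (1, 0)

/-- The cut off field. -/
noncomputable def field (b : ℝ → Sp ι → Sp ι) (n : ℕ) (t : ℝ) (x : Sp ι) : Sp ι :=
  cutoff n x • b t x

/-- The measure with density `m t`. -/
noncomputable def law (m : ℝ → Sp ι → ℝ) (t : ℝ) : Measure (Sp ι) :=
  volume.withDensity fun x => ENNReal.ofReal (m t x)

variable {I : Set ℝ} {a₀ a₁ : ℝ} {b : ℝ → Sp ι → Sp ι} {m : ℝ → Sp ι → ℝ} {C c Cg : ℝ} {p : ℕ}

lemma Hyp.dom_int (H : Hyp I a₀ a₁ b m C c Cg p) : Integrable (dom (ι := ι) c Cg p) := by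
  have := (integrable_poly_gauss (ι := ι) H.c_pos p).const_mul Cg
  exact this.congr (ae_of_all _ fun x => (mul_assoc _ _ _).symm)

lemma Hyp.hasDerivAt_time (H : Hyp I a₀ a₁ b m C c Cg p) {t : ℝ} (ht : t ∈ Icc a₀ a₁)
    (x : Sp ι) : HasDerivAt (fun s => m s x) (mdot m t x) t := by
  have h1 : HasDerivAt (fun s : ℝ => (s, x)) ((1 : ℝ), (0 : Sp ι)) t :=
    (hasDerivAt_id t).prodMk (hasDerivAt_const t x)
  have h2 := (H.tame_m.differentiableAt H.open_dom (H.subset ht) x).hasFDerivAt.comp_hasDerivAt t h1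
  exact h2

lemma Hyp.m_le (H : Hyp I a₀ a₁ b m C c Cg p) {t : ℝ} (ht : t ∈ Icc a₀ a₁) (x : Sp ι) :
    |m t x| ≤ dom c Cg p x := by
  have := H.decay 0 (by norm_num) t ht x
  rwa [norm_iteratedFDeriv_zero, Real.norm_eq_abs] at this

lemma Hyp.mdot_le (H : Hyp I a₀ a₁ b m C c Cg p) {t : ℝ} (ht : t ∈ Icc a₀ a₁) (x : Sp ι) :
    |mdot m t x| ≤ dom c Cg p x := by
  have := H.decay 1 (by norm_num) t ht x
  rw [norm_iteratedFDeriv_one] at this
  refine le_trans ?_ this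
  rw [← Real.norm_eq_abs]
  refine (ContinuousLinearMap.le_opNorm _ _).trans (mul_le_of_le_one_right (norm_nonneg _) ?_)
  simp [Prod.norm_def]

lemma Hyp.taylor (H : Hyp I a₀ a₁ b m C c Cg p) {s t : ℝ} (hs : s ∈ Icc a₀ a₁)
    (ht : t ∈ Icc a₀ a₁) (x : Sp ι) :
    |m t x - m s x - (t - s) * mdot m s x| ≤ dom c Cg p x * (t - s) ^ 2 := by
  set M := fun q : ℝ × Sp ι => m q.1 q.2 with hM
  have hU : IsOpen (I ×ˢ (univ : Set (Sp ι))) := H.open_dom.prod isOpen_univ
  have hD : ∀ r ∈ Icc a₀ a₁, HasDerivAt (fun u => mdot m u x)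
      (fderiv ℝ (fderiv ℝ M) (r, x) (1, 0) (1, 0)) r := fun r hr => by
    have h1 : HasDerivAt (fun s : ℝ => (s, x)) ((1 : ℝ), (0 : Sp ι)) r :=
      (hasDerivAt_id r).prodMk (hasDerivAt_const r x)
    have h3 : DifferentiableAt ℝ (fderiv ℝ M) (r, x) :=
      ((H.tame_m.1.fderiv_of_isOpen hU (m := ∞) le_rfl).differentiableOn (by simp)).differentiableAt
        (hU.mem_nhds ⟨H.subset hr, mem_univ _⟩)
    exact ((ContinuousLinearMap.apply ℝ ℝ ((1 : ℝ), (0 : Sp ι))).hasFDerivAt.comp_hasDerivAt r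
      (h3.hasFDerivAt.comp_hasDerivAt r h1))
  have hnn : ‖((1 : ℝ), (0 : Sp ι))‖ ≤ 1 := by simp [Prod.norm_def]
  have hD2 : ∀ r ∈ Icc a₀ a₁, ‖fderiv ℝ (fderiv ℝ M) (r, x) (1, 0) (1, 0)‖ ≤ dom c Cg p x :=
    fun r hr => by
    have h2 := H.decay 2 le_rfl r hr x
    rw [← norm_iteratedFDeriv_fderiv, norm_iteratedFDeriv_one] at h2
    refine le_trans ?_ h2
    refine (ContinuousLinearMap.le_opNorm _ _).trans ?_
    refine (mul_le_mul (ContinuousLinearMap.le_opNorm _ _) hnn (norm_nonneg _) (by positivity)).trans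
      ?_
    rw [mul_one]
    exact mul_le_of_le_one_right (norm_nonneg _) hnn
  have hsub : uIcc s t ⊆ Icc a₀ a₁ := uIcc_subset_Icc hs ht
  have hG : 0 ≤ dom c Cg p x := (abs_nonneg _).trans (H.m_le hs x)
  have hlip : ∀ r ∈ uIcc s t, ‖mdot m r x - (1 : ℝ) * mdot m s x‖ ≤ dom c Cg p x * |t - s| :=
    fun r hr => by
    rw [one_mul]
    refine ((convex_Icc a₀ a₁).norm_image_sub_le_of_norm_hasDerivWithin_le
      (fun u hu => (hD u hu).hasDerivWithinAt) hD2 hs (hsub hr)).trans ?_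
    exact mul_le_mul_of_nonneg_left (abs_sub_left_of_mem_uIcc hr) hG
  have := (convex_uIcc s t).norm_image_sub_le_of_norm_hasDerivWithin_le
    (f := fun r => m r x - (r - s) * mdot m s x)
    (fun r hr => ((H.hasDerivAt_time (hsub hr) x).sub
      (((hasDerivAt_id r).sub_const s).mul_const _)).hasDerivWithinAt) hlip
    left_mem_uIcc right_mem_uIcc
  simp only [sub_self, zero_mul, sub_zero, Real.norm_eq_abs] at this
  rw [sub_right_comm] at this
  refine this.trans (le_of_eq ?_)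
  rw [mul_assoc, ← abs_mul, abs_mul_self, sq]

omit [Fintype ι] [DecidableEq ι] in
lemma bound_of_supp {G : Type*} [NormedAddCommGroup G] {F : ℝ × Sp ι → G} {K : Set (Sp ι)}
    (hK : IsCompact K) (hF : ContinuousOn F (Icc a₀ a₁ ×ˢ univ))
    (h0 : ∀ t ∈ Icc a₀ a₁, ∀ x, x ∉ K → F (t, x) = 0) :
    ∃ M, 0 ≤ M ∧ ∀ q ∈ Icc a₀ a₁ ×ˢ (univ : Set (Sp ι)), ‖F q‖ ≤ M := by
  obtain ⟨M, hM⟩ := (isCompact_Icc.prod hK).exists_bound_of_continuousOn
    (hF.mono (prod_mono_right (subset_univ _)))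
  refine ⟨max M 0, le_max_right _ _, fun q hq => ?_⟩
  by_cases h : q.2 ∈ K
  · exact (hM q ⟨hq.1, h⟩).trans (le_max_left _ _)
  · rw [show F q = 0 from h0 q.1 hq.1 q.2 h]
    simp

lemma Hyp.field_bounds (H : Hyp I a₀ a₁ b m C c Cg p) (n : ℕ) :
    ∃ B L κ : ℝ, 0 ≤ B ∧ 0 ≤ L ∧ 0 ≤ κ ∧ BLField a₀ a₁ (field b n) B L ∧
      (∀ t ∈ Icc a₀ a₁, ∀ x, ‖fderiv ℝ (field b n t) x‖ ≤ L) ∧
      ∀ t ∈ Icc a₀ a₁, ∀ x y,
        ‖fderiv ℝ (field b n t) x - fderiv ℝ (field b n t) y‖ ≤ κ * ‖x - y‖ := by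
  set W := fun q : ℝ × Sp ι => field b n q.1 q.2 with hW
  have hU : IsOpen (I ×ˢ (univ : Set (Sp ι))) := H.open_dom.prod isOpen_univ
  have hW1 : ContDiffOn ℝ ∞ W (I ×ˢ univ) :=
    ((cutoff_smooth n).comp contDiff_snd).contDiffOn.smul H.tame_b.1
  have hW2 := hW1.fderiv_of_isOpen hU (m := ∞) le_rfl
  have hW3 := hW2.fderiv_of_isOpen hU (m := ∞) le_rfl
  have hsub : Icc a₀ a₁ ×ˢ (univ : Set (Sp ι)) ⊆ I ×ˢ univ := prod_mono_left H.subset
  have hev : ∀ t x, x ∉ tsupport (cutoff (ι := ι) n) → W =ᶠ[𝓝 (t, x)] fun _ => (0 : Sp ι) :=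
    fun t x hx => by
    filter_upwards [(continuous_snd.tendsto (t, x)).eventually
      (notMem_tsupport_iff_eventuallyEq.1 hx)] with q hq
    simp [hW, field, hq]
  have hev1 : ∀ t x, x ∉ tsupport (cutoff (ι := ι) n) →
      fderiv ℝ W =ᶠ[𝓝 (t, x)] fun _ => (0 : ℝ × Sp ι →L[ℝ] Sp ι) :=
    fun t x hx => by
    filter_upwards [(hev t x hx).fderiv (𝕜 := ℝ)] with q hq
    rw [hq]; simp
  obtain ⟨B, hB0, hB⟩ := bound_of_supp (cutoff_supp (ι := ι) n) (hW1.continuousOn.mono hsub)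
    fun t _ x hx => (hev t x hx).eq_of_nhds
  obtain ⟨M1, hM10, hM1⟩ := bound_of_supp (cutoff_supp (ι := ι) n) (hW2.continuousOn.mono hsub)
    fun t _ x hx => (hev1 t x hx).eq_of_nhds
  obtain ⟨M2, hM20, hM2⟩ := bound_of_supp (cutoff_supp (ι := ι) n) (hW3.continuousOn.mono hsub)
    fun t _ x hx => by rw [(hev1 t x hx).fderiv_eq]; simp
  have hconv : Convex ℝ (Icc a₀ a₁ ×ˢ (univ : Set (Sp ι))) := (convex_Icc _ _).prod convex_univ
  have hWd : ∀ q ∈ Icc a₀ a₁ ×ˢ (univ : Set (Sp ι)), DifferentiableAt ℝ W q := fun q hq =>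
    (hW1.differentiableOn (by simp)).differentiableAt (hU.mem_nhds (hsub hq))
  have hW'd : ∀ q ∈ Icc a₀ a₁ ×ˢ (univ : Set (Sp ι)), DifferentiableAt ℝ (fderiv ℝ W) q :=
    fun q hq => (hW2.differentiableOn (by simp)).differentiableAt (hU.mem_nhds (hsub hq))
  have hsp : ∀ t ∈ Icc a₀ a₁, ∀ x, fderiv ℝ (field b n t) x
      = (fderiv ℝ W (t, x)).comp (ContinuousLinearMap.inr ℝ ℝ (Sp ι)) := fun t ht x =>
    ((hWd (t, x) ⟨ht, mem_univ _⟩).hasFDerivAt.comp x
      (hasFDerivAt_prodMk_right (𝕜 := ℝ) t x)).fderiv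
  have hinr : ‖ContinuousLinearMap.inr ℝ ℝ (Sp ι)‖ ≤ 1 :=
    ContinuousLinearMap.opNorm_le_bound _ zero_le_one fun w => by simp [Prod.norm_def]
  refine ⟨B, M1, M2, hB0, hM10, hM20,
    ⟨fun t ht x => hB (t, x) ⟨ht, mem_univ _⟩, fun s hs t ht x y => ?_⟩, fun t ht x => ?_,
    fun t ht x y => ?_⟩
  · refine (hconv.norm_image_sub_le_of_norm_fderiv_le (𝕜 := ℝ) hWd hM1
      (mk_mem_prod ht (mem_univ y)) (mk_mem_prod hs (mem_univ x))).trans ?_
    refine mul_le_mul_of_nonneg_left ?_ hM10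
    rw [Prod.norm_def]
    simp only [Prod.fst_sub, Prod.snd_sub, Real.norm_eq_abs]
    exact max_le (le_add_of_nonneg_right (norm_nonneg _)) (le_add_of_nonneg_left (abs_nonneg _))
  · rw [hsp t ht x]
    exact (ContinuousLinearMap.opNorm_comp_le _ _).trans
      ((mul_le_mul (hM1 (t, x) ⟨ht, mem_univ _⟩) hinr (norm_nonneg _) hM10).trans (mul_one M1).le)
  · rw [hsp t ht x, hsp t ht y, ← ContinuousLinearMap.sub_comp]
    refine (ContinuousLinearMap.opNorm_comp_le _ _).trans ?_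
    refine (mul_le_mul (hconv.norm_image_sub_le_of_norm_fderiv_le (𝕜 := ℝ) hW'd hM2
      (mk_mem_prod ht (mem_univ y)) (mk_mem_prod ht (mem_univ x))) hinr (norm_nonneg _)
      (by positivity)).trans ?_
    simp [Prod.norm_def]

lemma Hyp.approx (H : Hyp I a₀ a₁ b m C c Cg p) : Approx a₀ a₁ b C (field b) where
  nonneg := H.nonneg
  growth := H.growth
  growth_v n t ht x := by
    obtain ⟨h0, h1⟩ := cutoff_mem n x
    rw [field, norm_smul, Real.norm_eq_abs, abs_of_nonneg h0]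
    exact (mul_le_of_le_one_left (norm_nonneg _) h1).trans (H.growth t ht x)
  blField n := by
    obtain ⟨B, L, κ, -, -, -, h, -⟩ := H.field_bounds n
    exact ⟨B, L, h⟩
  agree n t _ x hx := by
    rw [field, cutoff_one (by linarith), one_smul]

/-- The bound on the defect produced by the cutoff at scale `n + 1`. -/
noncomputable def tail (C c Cg M : ℝ) (p n : ℕ) (x : Sp ι) : ℝ :=
  {y : Sp ι | (n : ℝ) + 1 ≤ ‖y‖}.indicator
    (fun y => dom c Cg p y * (1 + M * (C * (1 + ‖y‖)))) x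

lemma Hyp.tail_int (H : Hyp I a₀ a₁ b m C c Cg p) (M : ℝ) :
    Integrable (fun y : Sp ι => dom c Cg p y * (1 + M * (C * (1 + ‖y‖)))) := by
  have h := H.dom_int.add ((integrable_poly_gauss (ι := ι) H.c_pos (p + 1)).const_mul (M * C * Cg))
  refine h.congr (ae_of_all _ fun y => ?_)
  simp only [dom, Pi.add_apply, pow_succ]
  ring

lemma Hyp.defect_le (H : Hyp I a₀ a₁ b m C c Cg p) {M : ℝ}
    (hM : ∀ (n : ℕ) (x : Sp ι), ‖fderiv ℝ (cutoff n) x‖ ≤ M) {n : ℕ} {t : ℝ}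
    (ht : t ∈ Icc a₀ a₁) (x : Sp ι) :
    |mdot m t x + ∑ i, fderiv ℝ (fun y => m t y * field b n t y i) x (EuclideanSpace.single i 1)|
      ≤ tail C c Cg M p n x := by
  have hM0 : 0 ≤ M := (norm_nonneg _).trans (hM 0 0)
  have hm := (H.tame_m.contDiff_space (H.subset ht)).differentiable (by simp) x
  have hb : ∀ i, DifferentiableAt ℝ (fun y => b t y i) x := fun i =>
    ((H.tame_b.component H.open_dom i).contDiff_space (H.subset ht)).differentiable (by simp) x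
  have hχ := (cutoff_smooth (ι := ι) n).differentiable (by simp) x
  have e : ∀ i, fderiv ℝ (fun y => m t y * field b n t y i) x (EuclideanSpace.single i 1)
      = cutoff n x * fderiv ℝ (fun y => m t y * b t y i) x (EuclideanSpace.single i 1)
        + m t x * (b t x i * fderiv ℝ (cutoff n) x (EuclideanSpace.single i 1)) := by
    intro i
    have : (fun y => m t y * field b n t y i) = fun y => cutoff n y * (m t y * b t y i) := by
      funext y
      simp [field]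
      ring
    rw [this, fderiv_fun_mul hχ (hm.fun_mul (hb i))]
    simp only [add_apply, smul_apply, smul_eq_mul]
    ring
  have hlin : ∑ i, b t x i * fderiv ℝ (cutoff n) x (EuclideanSpace.single i 1)
      = fderiv ℝ (cutoff n) x (b t x) := by
    conv_rhs => rw [← (EuclideanSpace.basisFun ι ℝ).sum_repr (b t x)]
    simp only [map_sum, map_smul, smul_eq_mul, EuclideanSpace.basisFun_repr,
      EuclideanSpace.basisFun_apply]
  have hce := H.conteq t ht x
  rw [(H.hasDerivAt_time ht x).deriv] at hce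
  rw [Finset.sum_congr rfl fun i _ => e i, Finset.sum_add_distrib, ← Finset.mul_sum,
    ← Finset.mul_sum, hlin, eq_neg_of_add_eq_zero_right hce, tail]
  by_cases h : (n : ℝ) + 1 ≤ ‖x‖
  · rw [indicator_of_mem (show x ∈ {y : Sp ι | (n : ℝ) + 1 ≤ ‖y‖} from h)]
    have hG : 0 ≤ dom c Cg p x := (abs_nonneg _).trans (H.m_le ht x)
    obtain ⟨h0, h1⟩ := cutoff_mem n x
    calc |mdot m t x + (cutoff n x * -mdot m t x + m t x * fderiv ℝ (cutoff n) x (b t x))|
        = |(1 - cutoff n x) * mdot m t x + m t x * fderiv ℝ (cutoff n) x (b t x)| := by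
          congr 1; ring
      _ ≤ 1 * dom c Cg p x + dom c Cg p x * (M * (C * (1 + ‖x‖))) := by
          refine (abs_add_le _ _).trans (add_le_add ?_ ?_) <;> rw [abs_mul]
          · exact mul_le_mul (abs_le.2 ⟨by linarith, by linarith⟩) (H.mdot_le ht x) (abs_nonneg _)
              zero_le_one
          · refine mul_le_mul (H.m_le ht x) ?_ (abs_nonneg _) hG
            rw [← Real.norm_eq_abs]
            exact (ContinuousLinearMap.le_opNorm _ _).trans
              (mul_le_mul (hM n x) (H.growth t ht x) (norm_nonneg _) hM0)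
      _ = _ := by ring
  · rw [indicator_of_notMem (show x ∉ {y : Sp ι | (n : ℝ) + 1 ≤ ‖y‖} from h),
      cutoff_one (not_le.1 h).le, cutoff_fderiv_zero (not_le.1 h)]
    simp

lemma Hyp.setting (H : Hyp I a₀ a₁ b m C c Cg p) {M : ℝ}
    (hM : ∀ (n : ℕ) (x : Sp ι), ‖fderiv ℝ (cutoff n) x‖ ≤ M) (n : ℕ) :
    ∃ B L κ, 0 ≤ B ∧ 0 ≤ L ∧ 0 ≤ κ ∧ BLField a₀ a₁ (field b n) B L ∧
      Setting a₀ a₁ m (mdot m) (dom c Cg p) (field b n) B L κ (∫ x, tail (ι := ι) C c Cg M p n x) := by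
  obtain ⟨B, L, κ, hB, hL, hκ, hBL, hd, hdl⟩ := H.field_bounds n
  have hmt : ∀ t ∈ Icc a₀ a₁, Continuous (mdot m t) := fun t ht =>
    ((H.tame_m.fderiv_apply (Tame.const ((1 : ℝ), (0 : Sp ι))) H.open_dom).contDiff_space
      (H.subset ht)).continuous
  have hsm : ∀ t ∈ Icc a₀ a₁, ContDiff ℝ 1 (field b n t) := fun t ht =>
    ((cutoff_smooth n).smul (H.tame_b.contDiff_space (H.subset ht))).of_le (by simp)
  have hsc : ∀ t ∈ Icc a₀ a₁, HasCompactSupport (field b n t) := fun t _ =>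
    (cutoff_supp (ι := ι) n).smul_right
  refine ⟨B, L, κ, hB, hL, hκ, hBL, H.dom_int,
    fun t ht => (H.tame_m.contDiff_space (H.subset ht)).of_le (by simp), hmt,
    fun t ht => H.m_le ht, fun t ht => H.mdot_le ht, fun s hs t ht x => H.taylor hs ht x,
    hsm, hsc, fun t ht => hBL.bdd t ht, hL, hκ, hd, hdl, fun t ht => ?_⟩
  refine integral_mono_of_nonneg (ae_of_all _ fun x => abs_nonneg _)
    ((H.tail_int M).indicator (measurableSet_le measurable_const measurable_norm))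
    (ae_of_all _ fun x => H.defect_le hM ht x)

lemma Hyp.isFiniteMeasure (H : Hyp I a₀ a₁ b m C c Cg p) {t : ℝ} (ht : t ∈ Icc a₀ a₁) :
    IsFiniteMeasure (law m t) :=
  isFiniteMeasure_withDensity_ofReal (H.dom_int.mono'
    (H.tame_m.contDiff_space (H.subset ht)).continuous.aestronglyMeasurable
    (ae_of_all _ fun x => (Real.norm_eq_abs _).trans_le (H.m_le ht x))).hasFiniteIntegral

lemma Hyp.integral_law (H : Hyp I a₀ a₁ b m C c Cg p) {t : ℝ} (ht : t ∈ Icc a₀ a₁)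
    (f : Sp ι → ℝ) : ∫ x, f x ∂(law m t) = ∫ x, f x * m t x := by
  rw [law, integral_withDensity_eq_integral_toReal_smul
    (H.tame_m.contDiff_space (H.subset ht)).continuous.measurable.ennreal_ofReal
    (ae_of_all _ fun x => ENNReal.ofReal_lt_top)]
  congr 1
  funext x
  rw [ENNReal.toReal_ofReal (H.m_nonneg t ht x), smul_eq_mul, mul_comm]

/-- Transport of the densities forward in time. -/
lemma Hyp.forward (H : Hyp I a₀ a₁ b m C c Cg p) {t₀ t : ℝ} (ht₀ : t₀ ∈ Icc a₀ a₁)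
    (ht : t ∈ Icc a₀ a₁) (hle : t₀ ≤ t) {Φ : ℝ → Sp ι → Sp ι}
    (hc : Continuous (Φ t)) (h0 : ∀ x, Φ t₀ x = x)
    (hsol : ∀ x, IsSol a₀ a₁ b fun s => Φ s x) :
    (law m t₀).map (Φ t) = law m t := by
  have := H.isFiniteMeasure ht₀
  have := H.isFiniteMeasure ht
  refine ext_of_test fun f hf hfs => ?_
  obtain ⟨B, L, K, hK, hfB⟩ := exists_cbd hf hfs
  rw [integral_map hc.measurable.aemeasurable hf.continuous.aestronglyMeasurable,
    H.integral_law ht₀, H.integral_law ht]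
  obtain ⟨M, -, hM⟩ := cutoff_fderiv_bdd (ι := ι)
  choose Bv Λ κ hBv hΛ hκ hBL hS using H.setting hM
  set T := t - t₀ with hT
  set ε := fun n : ℕ => ∫ x, tail (ι := ι) C c Cg M p n x with hε
  set A := fun n => Λ n * (1 + Bv n) * T ^ 2 * Real.exp (Λ n * T)
    + T ^ 2 * ((B + (K + T * κ n * L) * Real.exp (2 * (Λ n * T)) * Bv n ^ 2)
        * ∫ x : Sp ι, dom c Cg p x) with hA
  set N := fun n : ℕ => ⌈((n : ℝ) + 1) * A n⌉₊ + 1 with hN
  set S := fun n => euler (field b n) t₀ (T / N n) (N n) with hS'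
  have hB := hfB.bdd_nonneg
  have hL := hfB.grad_nonneg
  have hT0 : 0 ≤ T := sub_nonneg.2 hle
  have hIG : 0 ≤ ∫ x : Sp ι, dom c Cg p x :=
    integral_nonneg fun x => (abs_nonneg _).trans (H.m_le ht₀ x)
  have hA1 : ∀ n, Λ n * (1 + Bv n) * T ^ 2 * Real.exp (Λ n * T) ≤ A n := fun n => by
    refine le_add_of_nonneg_right ?_
    have := hκ n; positivity
  have hA2 : ∀ n, T ^ 2 * ((B + (K + T * κ n * L) * Real.exp (2 * (Λ n * T)) * Bv n ^ 2)
      * ∫ x : Sp ι, dom c Cg p x) ≤ A n := fun n => by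
    refine le_add_of_nonneg_left ?_
    have := hΛ n; have := hBv n; positivity
  have hsmall : ∀ n (X : ℝ), X ≤ A n → X / N n ≤ 1 / ((n : ℝ) + 1) := fun n X hX => by
    have hN0 : (0 : ℝ) < N n := Nat.cast_pos.2 (Nat.succ_pos _)
    rw [div_le_div_iff₀ hN0 (by positivity), one_mul]
    have h1 : ((n : ℝ) + 1) * A n ≤ ⌈((n : ℝ) + 1) * A n⌉₊ := Nat.le_ceil _
    calc X * ((n : ℝ) + 1) ≤ A n * ((n : ℝ) + 1) :=
          mul_le_mul_of_nonneg_right hX (by positivity)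
      _ ≤ N n := by simp only [hN]; push_cast; linarith
  have hlim : ∀ x, Tendsto (fun n => S n x) atTop (𝓝 (Φ t x)) := fun x => by
    rw [tendsto_iff_norm_sub_tendsto_zero]
    refine squeeze_zero' (Eventually.of_forall fun n => norm_nonneg _) ?_
      (tendsto_one_div_add_atTop_nhds_zero_nat (𝕜 := ℝ))
    obtain ⟨k, hk⟩ := exists_nat_ge (reach C a₀ a₁ (Φ t₀ x))
    filter_upwards [eventually_ge_atTop k] with n hn
    have hz := H.approx.isSol_approx (hsol x) ht₀ (hk.trans (Nat.cast_le.2 hn))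
    have := (hBL n).euler_error_unif (hBv n) (hΛ n) hz ht₀.1 hle ht.2 (N := N n) (Nat.succ_pos _)
    rw [h0] at this
    exact this.trans (hsmall n _ (hA1 n))
  have hcS : ∀ n, Continuous (S n) := fun n => by
    have : ∀ k, k ≤ N n → Continuous (euler (field b n) t₀ (T / N n) k) := by
      intro k
      induction k with
      | zero => intro _; exact continuous_id
      | succ k ih =>
        intro hk
        have hk' : k ≤ N n := Nat.le_of_succ_le hk
        have hN0 : (0 : ℝ) < N n := Nat.cast_pos.2 (Nat.succ_pos _)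
        have hmul : (k : ℝ) * (T / N n) ≤ T := by
          rw [← mul_div_assoc, div_le_iff₀ hN0, mul_comm]
          exact mul_le_mul_of_nonneg_left (Nat.cast_le.2 hk') hT0
        have hmem : t₀ + k * (T / N n) ∈ Icc a₀ a₁ :=
          ⟨le_add_of_le_of_nonneg ht₀.1 (by positivity), by linarith [ht.2]⟩
        exact (ih hk').add ((((hS n).smooth_v _ hmem).continuous.comp (ih hk')).const_smul (T / N n))
    exact this _ le_rfl
  have hmc := (H.tame_m.contDiff_space (H.subset ht₀)).continuous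
  have h1 : Tendsto (fun n => ∫ x, f (S n x) * m t₀ x) atTop
      (𝓝 (∫ x, f (Φ t x) * m t₀ x)) := by
    refine tendsto_integral_of_dominated_convergence (fun x => B * dom c Cg p x)
      (fun n => ((hf.continuous.comp (hcS n)).mul hmc).aestronglyMeasurable)
      (H.dom_int.const_mul B) (fun n => ae_of_all _ fun x => ?_)
      (ae_of_all _ fun x => ((hf.continuous.tendsto _).comp (hlim x)).mul_const _)
    rw [Real.norm_eq_abs, abs_mul]
    exact mul_le_mul (hfB.bdd _) (H.m_le ht₀ x) (abs_nonneg _) hB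
  have hε0 : Tendsto ε atTop (𝓝 0) := by
    have := tendsto_integral_of_dominated_convergence (μ := volume)
      (F := fun n => tail (ι := ι) C c Cg M p n) (f := fun _ => (0 : ℝ))
      (fun x : Sp ι => |dom c Cg p x * (1 + M * (C * (1 + ‖x‖)))|)
      (fun n => ((H.tail_int M).indicator
        (measurableSet_le measurable_const measurable_norm)).aestronglyMeasurable)
      (H.tail_int M).abs (fun n => ae_of_all _ fun x => norm_indicator_le_norm_self _ x)
      (ae_of_all _ fun x => ?_)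
    · simpa [hε] using this
    · obtain ⟨k, hk⟩ := exists_nat_ge ‖x‖
      refine tendsto_const_nhds.congr' ?_
      filter_upwards [eventually_ge_atTop k] with n hn
      refine (indicator_of_notMem ?_ _).symm
      simp only [mem_ofPred_eq, not_le]
      have : (k : ℝ) ≤ n := Nat.cast_le.2 hn
      linarith
  have h2 : Tendsto (fun n => ∫ x, f (S n x) * m t₀ x) atTop (𝓝 (∫ x, f x * m t x)) := by
    rw [tendsto_iff_norm_sub_tendsto_zero]
    refine squeeze_zero (fun n => norm_nonneg _)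
      (g := fun n : ℕ => T * (B * ε n) + 1 / ((n : ℝ) + 1)) (fun n => ?_) ?_
    · rw [Real.norm_eq_abs, abs_sub_comm]
      refine ((hS n).transport ht₀.1 hle ht.2 hfB hK (N := N n) (Nat.succ_pos _)).trans ?_
      rw [div_mul_eq_mul_div]
      exact add_le_add le_rfl (hsmall n _ (hA2 n))
    · simpa using ((hε0.const_mul B).const_mul T).add
        (tendsto_one_div_add_atTop_nhds_zero_nat (𝕜 := ℝ))
  exact tendsto_nhds_unique h1 h2

end Flow

open Vale.Agent.P347.Flow in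
/-- Flows of a vector field satisfying the continuity equation transport the densities. -/
theorem flow_invariance : FlowStatement := by
  intro ι _ _ I a₀ a₁ b m hI hsub hle hb hm ⟨C, hC⟩ hmn ⟨c, Cg, p, hc, hdec⟩ hce t₀ ht₀
  have hC0 : 0 ≤ C := by
    have := (norm_nonneg _).trans (hC a₀ (left_mem_Icc.2 hle) 0)
    simpa using this
  have H : Hyp I a₀ a₁ b m C c Cg p := ⟨hI, hsub, hb, hm, hC0, hC, hmn, hc, hdec, hce⟩
  obtain ⟨Φ, hcont, h0, hsol⟩ := H.approx.exists_flow ht₀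
  have hslice : ∀ {Ψ : ℝ → Sp ι → Sp ι},
      ContinuousOn (fun q : ℝ × Sp ι => Ψ q.1 q.2) (Icc a₀ a₁ ×ˢ univ) →
      ∀ t ∈ Icc a₀ a₁, Continuous (Ψ t) := fun hΨ t ht =>
    hΨ.comp_continuous (continuous_const.prodMk continuous_id) fun x => ⟨ht, mem_univ _⟩
  refine ⟨Φ, hcont, h0, hsol, fun t ht => ?_⟩
  rcases le_total t₀ t with h | h
  · exact H.forward ht₀ ht h (hslice hcont t ht) h0 hsol
  · obtain ⟨Ψ, hcont', h0', hsol'⟩ := H.approx.exists_flow ht
    have hback := H.forward ht ht₀ h (hslice hcont' t₀ ht₀) h0' hsol'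
    have hinv : Φ t ∘ Ψ t₀ = id := funext fun x => by
      have := H.approx.eqOn (hsol (Ψ t₀ x)) (hsol' x) ht₀ (h0 (Ψ t₀ x)) ht
      simpa [h0'] using this
    show (law m t₀).map (Φ t) = law m t
    rw [← hback, Measure.map_map (hslice hcont t ht).measurable
      (hslice hcont' t₀ ht₀).measurable, hinv, Measure.map_id]

end Vale.Agent.P347
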