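import Mathlib

/-!
Flows of time dependent vector fields of linear growth on a compact time interval, and the
convergence of the explicit Euler scheme for bounded Lipschitz fields.
-/

namespace Vale.Agent.P347.Flow

open Set Metric
open scoped NNReal Topology

variable {E : Type*} [NormedAddCommGroup E] [NormedSpace ℝ E] {a₀ a₁ : ℝ}

/-- A time dependent field on `[a₀, a₁]`, bounded by `B` and jointly `L`-Lipschitz. -/
structure BLField (a₀ a₁ : ℝ) (v : ℝ → E → E) (B L : ℝ) : Prop where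
  bdd : ∀ t ∈ Icc a₀ a₁, ∀ x, ‖v t x‖ ≤ B
  lip : ∀ s ∈ Icc a₀ a₁, ∀ t ∈ Icc a₀ a₁, ∀ x y, ‖v s x - v t y‖ ≤ L * (|s - t| + ‖x - y‖)

/-- `z` solves the equation of `v` on `[a₀, a₁]`. -/
def IsSol (a₀ a₁ : ℝ) (v : ℝ → E → E) (z : ℝ → E) : Prop :=
  ∀ t ∈ Icc a₀ a₁, HasDerivWithinAt z (v t (z t)) (Icc a₀ a₁) t

omit [NormedSpace ℝ E] in
lemma BLField.lipschitzWith {v : ℝ → E → E} {B L : ℝ} (hv : BLField a₀ a₁ v B L) {t : ℝ}
    (ht : t ∈ Icc a₀ a₁) : LipschitzWith L.toNNReal (v t) := by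
  refine LipschitzWith.of_dist_le_mul fun x y => ?_
  rw [dist_eq_norm, dist_eq_norm]
  refine (hv.lip t ht t ht x y).trans ?_
  simp only [sub_self, abs_zero, zero_add]
  gcongr
  exact Real.le_coe_toNNReal L

omit [NormedSpace ℝ E] in
lemma BLField.picard {v : ℝ → E → E} {B L : ℝ} (hv : BLField a₀ a₁ v B L) (t₀ : Icc a₀ a₁)
    (x₀ : E) (r : ℝ≥0) :
    IsPicardLindelof v t₀ x₀ (r + B.toNNReal * (a₁ - a₀).toNNReal) r B.toNNReal L.toNNReal where
  lipschitzOnWith t ht := (hv.lipschitzWith ht).lipschitzOnWith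
  continuousOn x _ := by
    refine (LipschitzOnWith.of_dist_le_mul (K := L.toNNReal) fun s hs t ht => ?_).continuousOn
    rw [dist_eq_norm, Real.dist_eq]
    refine (hv.lip s hs t ht x x).trans ?_
    simp only [sub_self, norm_zero, add_zero]
    gcongr
    exact Real.le_coe_toNNReal L
  norm_le t ht x _ := (hv.bdd t ht x).trans (Real.le_coe_toNNReal B)
  mul_max_le := by
    have h1 := t₀.2.1
    have h2 := t₀.2.2
    push_cast
    rw [Real.coe_toNNReal (a₁ - a₀) (by linarith), add_sub_cancel_left]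
    exact mul_le_mul_of_nonneg_left (max_le (by linarith) (by linarith)) (le_max_right _ _)

lemma IsSol.continuousOn {v : ℝ → E → E} {z : ℝ → E} (h : IsSol a₀ a₁ v z) :
    ContinuousOn z (Icc a₀ a₁) :=
  fun t ht => (h t ht).continuousWithinAt

/-- Two solutions of a spatially Lipschitz equation which agree at one time agree everywhere. -/
lemma IsSol.eqOn {v : ℝ → E → E} {K : ℝ≥0} {f g : ℝ → E}
    (hv : ∀ t ∈ Icc a₀ a₁, LipschitzWith K (v t)) (hf : IsSol a₀ a₁ v f) (hg : IsSol a₀ a₁ v g)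
    {t₀ : ℝ} (ht₀ : t₀ ∈ Icc a₀ a₁) (h : f t₀ = g t₀) : EqOn f g (Icc a₀ a₁) := by
  rw [← Icc_union_Icc_eq_Icc ht₀.1 ht₀.2]
  have hl : Icc a₀ t₀ ⊆ Icc a₀ a₁ := Icc_subset_Icc_right ht₀.2
  have hr : Icc t₀ a₁ ⊆ Icc a₀ a₁ := Icc_subset_Icc_left ht₀.1
  refine EqOn.union ?_ ?_
  · refine ODE_solution_unique_of_mem_Icc_left (s := fun _ => univ)
      (fun t ht => (hv t (hl (Ioc_subset_Icc_self ht))).lipschitzOnWith) (hf.continuousOn.mono hl)
      (fun t ht => ?_) (fun _ _ => mem_univ _) (hg.continuousOn.mono hl) (fun t ht => ?_)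
      (fun _ _ => mem_univ _) h
    · exact (hf t (hl (Ioc_subset_Icc_self ht))).mono_of_mem_nhdsWithin
        (Icc_mem_nhdsLE_of_mem ⟨ht.1, ht.2.trans ht₀.2⟩)
    · exact (hg t (hl (Ioc_subset_Icc_self ht))).mono_of_mem_nhdsWithin
        (Icc_mem_nhdsLE_of_mem ⟨ht.1, ht.2.trans ht₀.2⟩)
  · refine ODE_solution_unique_of_mem_Icc_right (s := fun _ => univ)
      (fun t ht => (hv t (hr (Ico_subset_Icc_self ht))).lipschitzOnWith) (hf.continuousOn.mono hr)
      (fun t ht => ?_) (fun _ _ => mem_univ _) (hg.continuousOn.mono hr) (fun t ht => ?_)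
      (fun _ _ => mem_univ _) h
    · exact (hf t (hr (Ico_subset_Icc_self ht))).mono_of_mem_nhdsWithin
        (Icc_mem_nhdsGE_of_mem ⟨ht₀.1.trans ht.1, ht.2⟩)
    · exact (hg t (hr (Ico_subset_Icc_self ht))).mono_of_mem_nhdsWithin
        (Icc_mem_nhdsGE_of_mem ⟨ht₀.1.trans ht.1, ht.2⟩)

/-- Radius bounding the solutions starting at `x` of a field of linear growth `C`. -/
noncomputable def reach (C a₀ a₁ : ℝ) (x : E) : ℝ := (‖x‖ + 1) * Real.exp (C * (a₁ - a₀))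

lemma gronwallBound_le {δ C : ℝ} (hC : 0 ≤ C) {x : ℝ} :
    gronwallBound δ C C x ≤ (δ + 1) * Real.exp (C * x) := by
  rcases hC.eq_or_lt with rfl | h
  · simp [gronwallBound_K0]
  · rw [gronwallBound_of_K_ne_0 h.ne']
    simp only [div_self h.ne', one_mul]
    nlinarith [Real.exp_pos (C * x)]

/-- A priori bound for solutions of fields of linear growth. -/
lemma IsSol.norm_le {v : ℝ → E → E} {z : ℝ → E} {C : ℝ} (hC : 0 ≤ C)
    (hv : ∀ t ∈ Icc a₀ a₁, ∀ x, ‖v t x‖ ≤ C * (1 + ‖x‖)) (hz : IsSol a₀ a₁ v z)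
    {t₀ : ℝ} (ht₀ : t₀ ∈ Icc a₀ a₁) {t : ℝ} (ht : t ∈ Icc a₀ a₁) :
    ‖z t‖ ≤ reach C a₀ a₁ (z t₀) := by
  suffices h : ‖z t‖ ≤ (‖z t₀‖ + 1) * Real.exp (C * |t - t₀|) by
    refine h.trans (mul_le_mul_of_nonneg_left (Real.exp_le_exp.2
      (mul_le_mul_of_nonneg_left ?_ hC)) (by positivity))
    exact abs_sub_le_iff.2 ⟨by linarith [ht.2, ht₀.1], by linarith [ht.1, ht₀.2]⟩
  rcases le_total t₀ t with hle | hle
  · rw [abs_of_nonneg (sub_nonneg.2 hle)]
    refine le_trans ?_ (gronwallBound_le hC)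
    refine norm_le_gronwallBound_of_norm_deriv_right_le (f := z) (f' := fun s => v s (z s))
      (hz.continuousOn.mono (Icc_subset_Icc ht₀.1 ht.2)) (fun s hs => ?_) le_rfl
      (fun s hs => ?_) t (right_mem_Icc.2 hle)
    · exact (hz s ⟨ht₀.1.trans hs.1, hs.2.le.trans ht.2⟩).mono_of_mem_nhdsWithin
        (Icc_mem_nhdsGE_of_mem ⟨ht₀.1.trans hs.1, hs.2.trans_le ht.2⟩)
    · linarith [hv s ⟨ht₀.1.trans hs.1, hs.2.le.trans ht.2⟩ (z s)]
  · rw [abs_of_nonpos (sub_nonpos.2 hle)]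
    have hm : MapsTo (fun s : ℝ => -s) (Icc (-t₀) (-t)) (Icc a₀ a₁) :=
      fun s hs => ⟨by linarith [hs.2, ht.1], by linarith [hs.1, ht₀.2]⟩
    have hg := norm_le_gronwallBound_of_norm_deriv_right_le (f := fun s => z (-s))
      (f' := fun s => -(v (-s) (z (-s)))) (δ := ‖z t₀‖) (K := C) (ε := C) (a := -t₀) (b := -t)
      (hz.continuousOn.comp continuousOn_neg hm) (fun s hs => ?_) (by simp) (fun s hs => ?_) (-t)
      (right_mem_Icc.2 (neg_le_neg hle))
    · simp only [neg_neg] at hg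
      refine hg.trans ((gronwallBound_le hC).trans (le_of_eq ?_))
      congr 3
      ring
    · have hs' : -s ∈ Ioc a₀ a₁ := ⟨by linarith [hs.2, ht.1], by linarith [hs.1, ht₀.2]⟩
      have h1 : HasDerivWithinAt z (v (-s) (z (-s))) (Iic (-s)) (-s) :=
        (hz _ (Ioc_subset_Icc_self hs')).mono_of_mem_nhdsWithin (Icc_mem_nhdsLE_of_mem hs')
      have := h1.scomp s (hasDerivAt_neg s).hasDerivWithinAt
        (fun u (hu : u ∈ Ici s) => mem_Iic.2 (neg_le_neg (mem_Ici.1 hu)))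
      simpa [Function.comp_def] using this
    · rw [norm_neg]
      linarith [hv _ (hm (Ico_subset_Icc_self hs)) (z (-s))]

/-- Solutions of `b` and of `v` agree in a ball where the fields agree. -/
lemma IsSol.congr {v w : ℝ → E → E} {z : ℝ → E} (hz : IsSol a₀ a₁ v z)
    (h : ∀ t ∈ Icc a₀ a₁, w t (z t) = v t (z t)) : IsSol a₀ a₁ w z :=
  fun t ht => by rw [h t ht]; exact hz t ht

/-- Bounded Lipschitz approximations `v n` of a field `b` of linear growth. -/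
structure Approx (a₀ a₁ : ℝ) (b : ℝ → E → E) (C : ℝ) (v : ℕ → ℝ → E → E) : Prop where
  nonneg : 0 ≤ C
  growth : ∀ t ∈ Icc a₀ a₁, ∀ x, ‖b t x‖ ≤ C * (1 + ‖x‖)
  growth_v : ∀ n, ∀ t ∈ Icc a₀ a₁, ∀ x, ‖v n t x‖ ≤ C * (1 + ‖x‖)
  blField : ∀ n, ∃ B L, BLField a₀ a₁ (v n) B L
  agree : ∀ n : ℕ, ∀ t ∈ Icc a₀ a₁, ∀ x, ‖x‖ ≤ n → v n t x = b t x

variable {b : ℝ → E → E} {C : ℝ} {v : ℕ → ℝ → E → E}

lemma Approx.isSol_approx (h : Approx a₀ a₁ b C v) {z : ℝ → E} (hz : IsSol a₀ a₁ b z) {t₀ : ℝ}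
    (ht₀ : t₀ ∈ Icc a₀ a₁) {n : ℕ} (hn : reach C a₀ a₁ (z t₀) ≤ n) : IsSol a₀ a₁ (v n) z :=
  hz.congr fun t ht => h.agree n t ht _ ((hz.norm_le h.nonneg h.growth ht₀ ht).trans hn)

lemma Approx.isSol_of_approx (h : Approx a₀ a₁ b C v) {z : ℝ → E} {n : ℕ}
    (hz : IsSol a₀ a₁ (v n) z) {t₀ : ℝ}
    (ht₀ : t₀ ∈ Icc a₀ a₁) (hn : reach C a₀ a₁ (z t₀) ≤ n) : IsSol a₀ a₁ b z :=
  hz.congr fun t ht =>
    (h.agree n t ht _ ((hz.norm_le h.nonneg (h.growth_v n) ht₀ ht).trans hn)).symm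

lemma Approx.eqOn (h : Approx a₀ a₁ b C v) {f g : ℝ → E} (hf : IsSol a₀ a₁ b f)
    (hg : IsSol a₀ a₁ b g) {t₀ : ℝ} (ht₀ : t₀ ∈ Icc a₀ a₁) (he : f t₀ = g t₀) :
    EqOn f g (Icc a₀ a₁) := by
  obtain ⟨n, hn⟩ := exists_nat_ge (reach C a₀ a₁ (f t₀))
  obtain ⟨B, L, hv⟩ := h.blField n
  exact (h.isSol_approx hf ht₀ hn).eqOn (fun t ht => hv.lipschitzWith ht)
    (h.isSol_approx hg ht₀ (he ▸ hn)) ht₀ he

/-- The flow from time `t₀`, with its continuity. -/
lemma Approx.exists_flow [CompleteSpace E] (h : Approx a₀ a₁ b C v) {t₀ : ℝ}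
    (ht₀ : t₀ ∈ Icc a₀ a₁) :
    ∃ Φ : ℝ → E → E, ContinuousOn (fun q : ℝ × E => Φ q.1 q.2) (Icc a₀ a₁ ×ˢ univ) ∧
      (∀ x, Φ t₀ x = x) ∧ ∀ x, IsSol a₀ a₁ b (fun t => Φ t x) := by
  have loc : ∀ r : ℕ, ∃ α : E × ℝ → E,
      (∀ x ∈ closedBall (0 : E) r, α (x, t₀) = x ∧ IsSol a₀ a₁ b (fun t => α (x, t))) ∧
      ContinuousOn α (closedBall (0 : E) r ×ˢ Icc a₀ a₁) := by
    intro r
    obtain ⟨n, hn⟩ := exists_nat_ge ((r + 1) * Real.exp (C * (a₁ - a₀)))
    obtain ⟨B, L, hv⟩ := h.blField n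
    obtain ⟨α, hα, hc⟩ :=
      (hv.picard ⟨t₀, ht₀⟩ 0 r).exists_forall_mem_closedBall_eq_hasDerivWithinAt_continuousOn
    refine ⟨α, fun x hx => ⟨(hα x (by simpa using hx)).1, ?_⟩, by simpa using hc⟩
    obtain ⟨h1, h2⟩ := hα x (by simpa using hx)
    have hs : IsSol a₀ a₁ (v n) (fun t => α (x, t)) := h2
    refine h.isSol_of_approx hs ht₀ (le_trans ?_ hn)
    simp only [h1]
    have hx' : ‖x‖ ≤ r := by simpa using hx
    exact mul_le_mul_of_nonneg_right (by linarith) (Real.exp_nonneg _)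
  choose α hα hc using loc
  have hk : ∀ x : E, ∃ r : ℕ, x ∈ closedBall (0 : E) r := fun x => by
    obtain ⟨r, hr⟩ := exists_nat_ge ‖x‖
    exact ⟨r, by simpa using hr⟩
  choose k hk using hk
  have heq : ∀ (r : ℕ) (x : E), x ∈ closedBall (0 : E) r → ∀ t ∈ Icc a₀ a₁,
      α (k x) (x, t) = α r (x, t) := fun r x hx t ht =>
    h.eqOn (hα _ x (hk x)).2 (hα r x hx).2 ht₀
      (by simp only [(hα _ x (hk x)).1, (hα r x hx).1]) ht
  refine ⟨fun t x => α (k x) (x, t), ?_, fun x => (hα _ x (hk x)).1, fun x => (hα _ x (hk x)).2⟩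
  rintro ⟨t, x⟩ ⟨ht, -⟩
  obtain ⟨r, hr⟩ := exists_nat_gt ‖x‖
  have hmem : (univ : Set ℝ) ×ˢ ball (0 : E) r ∈ 𝓝 (t, x) :=
    (isOpen_univ.prod isOpen_ball).mem_nhds ⟨mem_univ _, by simpa using hr⟩
  rw [← continuousWithinAt_inter hmem, prod_inter_prod, inter_univ, univ_inter]
  refine (ContinuousOn.congr ?_ fun q hq => heq r q.2 (ball_subset_closedBall hq.2) q.1 hq.1)
    (t, x) ⟨ht, by simpa using hr⟩
  exact (hc r).comp continuous_swap.continuousOn
    fun q hq => ⟨ball_subset_closedBall hq.2, hq.1⟩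

/-- The explicit Euler scheme with step `h` started at time `t₀`. -/
def euler (v : ℝ → E → E) (t₀ h : ℝ) : ℕ → E → E
  | 0, x => x
  | k + 1, x => euler v t₀ h k x + h • v (t₀ + k * h) (euler v t₀ h k x)

/-- Global error of the Euler scheme. -/
lemma BLField.euler_error {v : ℝ → E → E} {B L : ℝ} (hv : BLField a₀ a₁ v B L) (hB : 0 ≤ B)
    (hL : 0 ≤ L) {z : ℝ → E} (hz : IsSol a₀ a₁ v z) {t₀ h : ℝ} (ht₀ : a₀ ≤ t₀) (hh : 0 ≤ h) :
    ∀ k : ℕ, t₀ + k * h ≤ a₁ → ‖euler v t₀ h k (z t₀) - z (t₀ + k * h)‖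
      ≤ k * (L * (1 + B) * h ^ 2) * Real.exp (L * h * k) := by
  intro k
  induction k with
  | zero => intro _; simp [euler]
  | succ k ih =>
    intro hk
    push_cast at hk ⊢
    set s := t₀ + k * h with hs
    have hks : t₀ + (k + 1) * h = s + h := by rw [hs]; ring
    rw [hks] at hk ⊢
    have hk0 : (0 : ℝ) ≤ k * h := by positivity
    have hsI : s ∈ Icc a₀ a₁ := ⟨by linarith, by linarith⟩
    have hsub : Icc s (s + h) ⊆ Icc a₀ a₁ := Icc_subset_Icc hsI.1 hk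
    have hmove : ∀ r ∈ Icc s (s + h), ‖z r - z s‖ ≤ B * h := fun r hr => by
      refine ((convex_Icc s (s + h)).norm_image_sub_le_of_norm_hasDerivWithin_le
        (fun u hu => (hz u (hsub hu)).mono hsub) (fun u hu => hv.bdd u (hsub hu) _)
        (left_mem_Icc.2 (by linarith)) hr).trans ?_
      rw [Real.norm_eq_abs, abs_of_nonneg (sub_nonneg.2 hr.1)]
      exact mul_le_mul_of_nonneg_left (by linarith [hr.2]) hB
    have hloc : ‖z (s + h) - z s - h • v s (z s)‖ ≤ L * (1 + B) * h * h := by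
      have := (convex_Icc s (s + h)).norm_image_sub_le_of_norm_hasDerivWithin_le
        (f := fun r => z r - (r - s) • v s (z s))
        (f' := fun r => v r (z r) - (1 : ℝ) • v s (z s)) (C := L * (1 + B) * h)
        (fun u hu => ((hz u (hsub hu)).mono hsub).sub
          (((hasDerivWithinAt_id u _).sub_const s).smul_const _)) (fun u hu => ?_)
        (left_mem_Icc.2 (by linarith)) (right_mem_Icc.2 (by linarith : s ≤ s + h))
      · simpa [abs_of_nonneg hh, sub_right_comm] using this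
      · rw [one_smul]
        refine (hv.lip u (hsub hu) s hsI _ _).trans ?_
        rw [abs_of_nonneg (sub_nonneg.2 hu.1), mul_assoc L]
        refine mul_le_mul_of_nonneg_left ?_ hL
        linarith [hu.2, hmove u hu]
    have ih' := ih (by linarith)
    set e := euler v t₀ h k (z t₀) with he
    have hstep : euler v t₀ h (k + 1) (z t₀) = e + h • v s e := rfl
    rw [hstep]
    have hsplit : e + h • v s e - z (s + h)
        = (e - z s) + h • (v s e - v s (z s)) - (z (s + h) - z s - h • v s (z s)) := by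
      rw [smul_sub]; abel
    have hlip := hv.lip s hsI s hsI e (z s)
    simp only [sub_self, abs_zero, zero_add] at hlip
    calc ‖e + h • v s e - z (s + h)‖
        ≤ ‖e - z s‖ + h * (L * ‖e - z s‖) + L * (1 + B) * h * h := by
          rw [hsplit]
          refine (norm_sub_le _ _).trans (add_le_add ((norm_add_le _ _).trans
            (add_le_add le_rfl ?_)) hloc)
          rw [norm_smul, Real.norm_eq_abs, abs_of_nonneg hh]
          exact mul_le_mul_of_nonneg_left hlip hh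
      _ = (1 + L * h) * ‖e - z s‖ + L * (1 + B) * h ^ 2 := by ring
      _ ≤ Real.exp (L * h) * (k * (L * (1 + B) * h ^ 2) * Real.exp (L * h * k))
            + L * (1 + B) * h ^ 2 * Real.exp (L * h * (k + 1)) := by
          refine add_le_add (mul_le_mul ?_ ih' (norm_nonneg _) (Real.exp_nonneg _)) ?_
          · linarith [Real.add_one_le_exp (L * h)]
          · exact le_mul_of_one_le_right (by positivity) (Real.one_le_exp (by positivity))
      _ = _ := by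
          rw [show L * h * ((k : ℝ) + 1) = L * h + L * h * k by ring, Real.exp_add]
          ring

/-- With `N` equal steps the error is of order `1 / N`, uniformly in the starting point. -/
lemma BLField.euler_error_unif {v : ℝ → E → E} {B L : ℝ} (hv : BLField a₀ a₁ v B L) (hB : 0 ≤ B)
    (hL : 0 ≤ L) {z : ℝ → E} (hz : IsSol a₀ a₁ v z) {t₀ t : ℝ} (ht₀ : a₀ ≤ t₀) (hle : t₀ ≤ t)
    (ht : t ≤ a₁) {N : ℕ} (hN : 0 < N) :
    ‖euler v t₀ ((t - t₀) / N) N (z t₀) - z t‖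
      ≤ L * (1 + B) * (t - t₀) ^ 2 * Real.exp (L * (t - t₀)) / N := by
  have hN' : (N : ℝ) ≠ 0 := Nat.cast_ne_zero.2 hN.ne'
  have h1 : t₀ + N * ((t - t₀) / N) = t := by field_simp; ring
  have := hv.euler_error hB hL hz ht₀ (h := (t - t₀) / N)
    (div_nonneg (sub_nonneg.2 hle) (Nat.cast_nonneg _)) N (h1.le.trans ht)
  rw [h1] at this
  refine this.trans (le_of_eq ?_)
  rw [show L * ((t - t₀) / N) * N = L * (t - t₀) by field_simp]
  field_simp

end Vale.Agent.P347.Flow
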