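import Mathlib

/-!
Bounded functions with bounded and Lipschitz derivative, and their behaviour under composition.
-/

namespace Vale.Agent.P347

open scoped NNReal

/-- `f` is bounded by `B`, its derivative by `L`, and the derivative is `K`-Lipschitz. -/
structure CBd {E : Type*} [NormedAddCommGroup E] [NormedSpace ℝ E] (f : E → ℝ) (B L K : ℝ) :
    Prop where
  diff : Differentiable ℝ f
  bdd : ∀ x, |f x| ≤ B
  grad_bdd : ∀ x, ‖fderiv ℝ f x‖ ≤ L
  grad_lip : ∀ x y, ‖fderiv ℝ f x - fderiv ℝ f y‖ ≤ K * ‖x - y‖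

variable {E : Type*} [NormedAddCommGroup E] [NormedSpace ℝ E] {f : E → ℝ} {B L K : ℝ}

lemma CBd.bdd_nonneg (h : CBd f B L K) : 0 ≤ B := (abs_nonneg _).trans (h.bdd 0)

lemma CBd.grad_nonneg (h : CBd f B L K) : 0 ≤ L := (norm_nonneg _).trans (h.grad_bdd 0)

lemma CBd.continuous (h : CBd f B L K) : Continuous f := h.diff.continuous

lemma CBd.continuous_fderiv (h : CBd f B L K) : Continuous (fderiv ℝ f) := by
  refine (LipschitzWith.of_dist_le_mul (K := Real.toNNReal K) fun x y => ?_).continuous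
  rw [dist_eq_norm, dist_eq_norm]
  refine (h.grad_lip x y).trans ?_
  gcongr
  exact Real.le_coe_toNNReal K

lemma CBd.contDiff (h : CBd f B L K) : ContDiff ℝ 1 f :=
  contDiff_one_iff_fderiv.mpr ⟨h.diff, h.continuous_fderiv⟩

lemma CBd.lip (h : CBd f B L K) (x y : E) : |f x - f y| ≤ L * ‖x - y‖ := by
  have := Convex.norm_image_sub_le_of_norm_fderiv_le (𝕜 := ℝ) (fun z _ => h.diff z)
    (fun z _ => h.grad_bdd z) convex_univ (Set.mem_univ y) (Set.mem_univ x)
  rwa [Real.norm_eq_abs] at this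

/-- First order Taylor formula with quadratic remainder. -/
lemma CBd.taylor (h : CBd f B L K) (hK : 0 ≤ K) (x w : E) :
    |f (x + w) - f x - fderiv ℝ f x w| ≤ K * ‖w‖ ^ 2 := by
  have hs : ∀ z ∈ segment ℝ x (x + w), ‖fderiv ℝ f z - fderiv ℝ f x‖ ≤ K * ‖w‖ := by
    intro z hz
    refine (h.grad_lip z x).trans (mul_le_mul_of_nonneg_left ?_ hK)
    have := norm_sub_le_of_mem_segment hz
    simpa using this
  have := Convex.norm_image_sub_le_of_norm_fderiv_le' (𝕜 := ℝ) (fun z _ => h.diff z) hs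
    (convex_segment x (x + w)) (left_mem_segment ℝ x (x + w)) (right_mem_segment ℝ x (x + w))
  simp only [add_sub_cancel_left, Real.norm_eq_abs] at this
  refine this.trans (le_of_eq ?_)
  ring

lemma CBd.mono (h : CBd f B L K) {B' L' K' : ℝ} (hB : B ≤ B') (hL : L ≤ L') (hK : K ≤ K') :
    CBd f B' L' K' where
  diff := h.diff
  bdd x := (h.bdd x).trans hB
  grad_bdd x := (h.grad_bdd x).trans hL
  grad_lip x y := (h.grad_lip x y).trans (by gcongr)

/-- Composition with a map whose derivative is bounded by `ρ` and is `KT`-Lipschitz. -/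
lemma CBd.comp {G : Type*} [NormedAddCommGroup G] [NormedSpace ℝ G] {T : G → E} {ρ KT : ℝ}
    (h : CBd f B L K) (hK : 0 ≤ K) (hT : Differentiable ℝ T) (hρ : ∀ x, ‖fderiv ℝ T x‖ ≤ ρ)
    (hTl : ∀ x y, ‖fderiv ℝ T x - fderiv ℝ T y‖ ≤ KT * ‖x - y‖) :
    CBd (fun x => f (T x)) B (L * ρ) (K * ρ ^ 2 + L * KT) := by
  have hρ0 : 0 ≤ ρ := (norm_nonneg _).trans (hρ 0)
  have hd : ∀ x, fderiv ℝ (fun x => f (T x)) x = (fderiv ℝ f (T x)).comp (fderiv ℝ T x) :=
    fun x => fderiv_comp x (h.diff (T x)) (hT x)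
  refine ⟨h.diff.comp hT, fun x => h.bdd _, fun x => ?_, fun x y => ?_⟩
  · rw [hd]
    exact (ContinuousLinearMap.opNorm_comp_le _ _).trans
      (mul_le_mul (h.grad_bdd _) (hρ x) (norm_nonneg _) h.grad_nonneg)
  · rw [hd, hd]
    have hTd : ‖T x - T y‖ ≤ ρ * ‖x - y‖ :=
      Convex.norm_image_sub_le_of_norm_fderiv_le (𝕜 := ℝ) (fun z _ => hT z)
        (fun z _ => hρ z) convex_univ (Set.mem_univ y) (Set.mem_univ x)
    calc ‖(fderiv ℝ f (T x)).comp (fderiv ℝ T x) - (fderiv ℝ f (T y)).comp (fderiv ℝ T y)‖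
        = ‖(fderiv ℝ f (T x) - fderiv ℝ f (T y)).comp (fderiv ℝ T x)
            + (fderiv ℝ f (T y)).comp (fderiv ℝ T x - fderiv ℝ T y)‖ := by
          congr 1; ext v; simp
      _ ≤ ‖fderiv ℝ f (T x) - fderiv ℝ f (T y)‖ * ‖fderiv ℝ T x‖
            + ‖fderiv ℝ f (T y)‖ * ‖fderiv ℝ T x - fderiv ℝ T y‖ :=
          (norm_add_le _ _).trans (add_le_add (ContinuousLinearMap.opNorm_comp_le _ _)
            (ContinuousLinearMap.opNorm_comp_le _ _))
      _ ≤ K * (ρ * ‖x - y‖) * ρ + L * (KT * ‖x - y‖) :=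
          add_le_add (mul_le_mul ((h.grad_lip _ _).trans (mul_le_mul_of_nonneg_left hTd hK)) (hρ x)
              (norm_nonneg _) (by positivity))
            (mul_le_mul (h.grad_bdd _) (hTl x y) (norm_nonneg _) h.grad_nonneg)
      _ = _ := by ring

/-- Squares. -/
lemma CBd.sq (h : CBd f B L K) :
    CBd (fun x => f x ^ 2) (B ^ 2) (2 * B * L) (2 * (L ^ 2 + B * K)) := by
  have hB := h.bdd_nonneg
  have hL := h.grad_nonneg
  have hd : ∀ x, fderiv ℝ (fun x => f x ^ 2) x = (2 * f x) • fderiv ℝ f x := fun x => by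
    simpa using ((h.diff x).hasFDerivAt.pow 2).fderiv
  refine ⟨h.diff.pow 2, fun x => ?_, fun x => ?_, fun x y => ?_⟩
  · rw [abs_pow]; exact pow_le_pow_left₀ (abs_nonneg _) (h.bdd x) 2
  · rw [hd, norm_smul, Real.norm_eq_abs, abs_mul, abs_two]
    exact mul_le_mul (mul_le_mul_of_nonneg_left (h.bdd x) two_pos.le) (h.grad_bdd x)
      (norm_nonneg _) (by positivity)
  · rw [hd, hd]
    calc ‖(2 * f x) • fderiv ℝ f x - (2 * f y) • fderiv ℝ f y‖
        = ‖(2 * (f x - f y)) • fderiv ℝ f x + (2 * f y) • (fderiv ℝ f x - fderiv ℝ f y)‖ := by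
          congr 1; ext v; simp; ring
      _ ≤ |2 * (f x - f y)| * ‖fderiv ℝ f x‖ + |2 * f y| * ‖fderiv ℝ f x - fderiv ℝ f y‖ := by
          refine (norm_add_le _ _).trans ?_
          simp [norm_smul, abs_mul]
      _ ≤ (2 * (L * ‖x - y‖)) * L + (2 * B) * (K * ‖x - y‖) := by
          simp only [abs_mul, abs_two]
          exact add_le_add (mul_le_mul (mul_le_mul_of_nonneg_left (h.lip x y) two_pos.le)
            (h.grad_bdd x) (norm_nonneg _) (by positivity))
            (mul_le_mul (mul_le_mul_of_nonneg_left (h.bdd y) two_pos.le) (h.grad_lip x y)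
              (norm_nonneg _) (by positivity))
      _ = _ := by ring

end Vale.Agent.P347
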