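import Vale.Agent.P347.FlowODE
import Vale.Agent.P347.SmoothBounded

/-!
Weak transport of densities by the Euler scheme, and measures determined by test functions.
-/

namespace Vale.Agent.P347.Flow

open Set MeasureTheory Filter
open scoped NNReal ENNReal Topology ContDiff

section Ext

variable {E : Type*} [NormedAddCommGroup E] [NormedSpace ℝ E] [FiniteDimensional ℝ E]
  [MeasurableSpace E] [BorelSpace E]

omit [MeasurableSpace E] [BorelSpace E] in
/-- Test functions increasing to the indicator of an open set. -/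
lemma exists_test_seq {U : Set E} (hU : IsOpen U) :
    ∃ f : ℕ → E → ℝ, (∀ n, ContDiff ℝ ∞ (f n)) ∧ (∀ n, HasCompactSupport (f n)) ∧
      (∀ n x, |f n x| ≤ 1) ∧
      ∀ x, Tendsto (fun n => f n x) atTop (𝓝 (U.indicator (fun _ => (1 : ℝ)) x)) := by
  obtain ⟨g, hsupp, hg, hrange⟩ := hU.exists_contDiff_support_eq (n := ⊤)
  let ψ : ContDiffBump (0 : E) := ⟨1, 2, one_pos, by norm_num⟩
  refine ⟨fun n x => (1 - (1 - g x) ^ n) * ψ (((n : ℝ) + 1)⁻¹ • x), fun n => ?_, fun n => ?_,
    fun n x => ?_, fun x => ?_⟩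
  · exact (contDiff_const.sub ((contDiff_const.sub (hg.of_le (by simp))).pow n)).mul
      (ψ.contDiff.comp (contDiff_const_smul _))
  · exact (ψ.hasCompactSupport.comp_homeomorph
      (Homeomorph.smulOfNeZero (((n : ℝ) + 1)⁻¹) (by positivity))).mul_left
  · have h0 := (hrange (mem_range_self x)).1
    have h1 := (hrange (mem_range_self x)).2
    have hp : (1 - g x) ^ n ≤ 1 := pow_le_one₀ (by linarith) (by linarith)
    have hp0 : 0 ≤ (1 - g x) ^ n := pow_nonneg (by linarith) n
    rw [abs_of_nonneg (mul_nonneg (by linarith) ψ.nonneg)]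
    exact mul_le_one₀ (by linarith) ψ.nonneg ψ.le_one
  · have hone : ∀ᶠ n : ℕ in atTop, ψ (((n : ℝ) + 1)⁻¹ • x) = 1 := by
      obtain ⟨m, hm⟩ := exists_nat_ge ‖x‖
      filter_upwards [eventually_ge_atTop m] with n hn
      refine ψ.one_of_mem_closedBall (mem_closedBall_zero_iff.2 ?_)
      rw [norm_smul, norm_inv, Real.norm_eq_abs, abs_of_nonneg (by positivity), ← div_eq_inv_mul,
        div_le_one (by positivity)]
      have : (m : ℝ) ≤ n := Nat.cast_le.2 hn
      linarith
    have hlim : Tendsto (fun n : ℕ => 1 - (1 - g x) ^ n) atTop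
        (𝓝 (U.indicator (fun _ => (1 : ℝ)) x)) := by
      by_cases hx : x ∈ U
      · rw [indicator_of_mem hx]
        have h0 : 0 < g x := (hrange (mem_range_self x)).1.lt_of_ne
          (Ne.symm (by rw [← Function.mem_support, hsupp]; exact hx))
        have h1 := (hrange (mem_range_self x)).2
        simpa using (tendsto_pow_atTop_nhds_zero_of_lt_one (by linarith : 0 ≤ 1 - g x)
          (by linarith)).const_sub 1
      · rw [indicator_of_notMem hx]
        have : g x = 0 := Function.notMem_support.1 (hsupp ▸ hx)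
        simp [this]
    refine hlim.congr' ?_
    filter_upwards [hone] with n hn
    rw [hn, mul_one]

/-- Finite measures with the same integrals of smooth compactly supported functions are equal. -/
lemma ext_of_test {μ ν : Measure E} [IsFiniteMeasure μ] [IsFiniteMeasure ν]
    (h : ∀ f : E → ℝ, ContDiff ℝ ∞ f → HasCompactSupport f → ∫ x, f x ∂μ = ∫ x, f x ∂ν) :
    μ = ν := by
  have hopen : ∀ U : Set E, IsOpen U → μ U = ν U := by
    intro U hU
    obtain ⟨f, hf, hfc, hfb, hlim⟩ := exists_test_seq hU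
    have key : ∀ (ρ : Measure E) [IsFiniteMeasure ρ],
        Tendsto (fun n => ∫ x, f n x ∂ρ) atTop (𝓝 (ρ.real U)) := by
      intro ρ _
      rw [← integral_indicator_one hU.measurableSet]
      exact tendsto_integral_of_dominated_convergence (fun _ => (1 : ℝ))
        (fun n => (hf n).continuous.aestronglyMeasurable) (integrable_const _)
        (fun n => ae_of_all _ fun x => by simpa using hfb n x) (ae_of_all _ hlim)
    have h2 : μ.real U = ν.real U :=
      tendsto_nhds_unique (key μ) ((key ν).congr fun n => (h _ (hf n) (hfc n)).symm)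
    exact (measureReal_eq_measureReal_iff (measure_ne_top _ _) (measure_ne_top _ _)).1 h2
  exact ext_of_generate_finite {s | IsOpen s} BorelSpace.measurable_eq isPiSystem_isOpen
    (fun s hs => hopen s hs) (hopen univ isOpen_univ)

omit [FiniteDimensional ℝ E] [MeasurableSpace E] [BorelSpace E] in
/-- Smooth compactly supported functions are bounded with bounded Lipschitz derivative. -/
lemma exists_cbd {f : E → ℝ} (hf : ContDiff ℝ ∞ f) (hc : HasCompactSupport f) :
    ∃ B L K, 0 ≤ K ∧ CBd f B L K := by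
  obtain ⟨B, hB⟩ := hf.continuous.bounded_above_of_compact_support hc
  have h1 : ContDiff ℝ ∞ (fderiv ℝ f) := hf.fderiv_right le_rfl
  obtain ⟨L, hL⟩ := h1.continuous.bounded_above_of_compact_support (hc.fderiv (𝕜 := ℝ))
  obtain ⟨K, hK⟩ := (h1.continuous_fderiv (by simp)).bounded_above_of_compact_support
    ((hc.fderiv (𝕜 := ℝ)).fderiv (𝕜 := ℝ))
  refine ⟨B, L, K, (norm_nonneg _).trans (hK 0), hf.differentiable (by simp),
    fun x => by simpa using hB x, hL, fun x y => ?_⟩
  exact Convex.norm_image_sub_le_of_norm_fderiv_le (𝕜 := ℝ)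
    (fun z _ => h1.differentiable (by simp) z) (fun z _ => hK z) convex_univ (mem_univ y)
    (mem_univ x)

end Ext

variable {ι : Type} [Fintype ι] [DecidableEq ι] {a₀ a₁ : ℝ}

/-- Data for the transport estimate: densities `m` with time derivative `mt`, a smooth compactly
supported field `v` and a bound `ε` on the defect in the continuity equation. -/
structure Setting (a₀ a₁ : ℝ) (m mt : ℝ → EuclideanSpace ℝ ι → ℝ)
    (G : EuclideanSpace ℝ ι → ℝ) (v : ℝ → EuclideanSpace ℝ ι → EuclideanSpace ℝ ι)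
    (Bv Λ κ ε : ℝ) : Prop where
  G_int : Integrable G
  smooth_m : ∀ t ∈ Icc a₀ a₁, ContDiff ℝ 1 (m t)
  cont_mt : ∀ t ∈ Icc a₀ a₁, Continuous (mt t)
  m_le : ∀ t ∈ Icc a₀ a₁, ∀ x, |m t x| ≤ G x
  mt_le : ∀ t ∈ Icc a₀ a₁, ∀ x, |mt t x| ≤ G x
  taylor : ∀ s ∈ Icc a₀ a₁, ∀ t ∈ Icc a₀ a₁, ∀ x,
    |m t x - m s x - (t - s) * mt s x| ≤ G x * (t - s) ^ 2
  smooth_v : ∀ t ∈ Icc a₀ a₁, ContDiff ℝ 1 (v t)
  supp_v : ∀ t ∈ Icc a₀ a₁, HasCompactSupport (v t)
  bdd_v : ∀ t ∈ Icc a₀ a₁, ∀ x, ‖v t x‖ ≤ Bv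
  Λ_nonneg : 0 ≤ Λ
  κ_nonneg : 0 ≤ κ
  dv_le : ∀ t ∈ Icc a₀ a₁, ∀ x, ‖fderiv ℝ (v t) x‖ ≤ Λ
  dv_lip : ∀ t ∈ Icc a₀ a₁, ∀ x y, ‖fderiv ℝ (v t) x - fderiv ℝ (v t) y‖ ≤ κ * ‖x - y‖
  defect : ∀ t ∈ Icc a₀ a₁, ∫ x, |mt t x
    + ∑ i, fderiv ℝ (fun y => m t y * v t y i) x (EuclideanSpace.single i 1)| ≤ ε

variable {m mt : ℝ → EuclideanSpace ℝ ι → ℝ} {G : EuclideanSpace ℝ ι → ℝ}
  {v : ℝ → EuclideanSpace ℝ ι → EuclideanSpace ℝ ι} {Bv Λ κ ε : ℝ}

/-- Integration by parts against the flux `m v`. -/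
lemma Setting.ibp (S : Setting a₀ a₁ m mt G v Bv Λ κ ε) {t : ℝ} (ht : t ∈ Icc a₀ a₁)
    {φ : EuclideanSpace ℝ ι → ℝ} (hφ : ContDiff ℝ 1 φ) :
    ∫ x, φ x * ∑ i, fderiv ℝ (fun y => m t y * v t y i) x (EuclideanSpace.single i 1)
      = -∫ x, m t x * fderiv ℝ φ x (v t x) := by
  have hg : ∀ i, ContDiff ℝ 1 fun y => m t y * v t y i := fun i =>
    (S.smooth_m t ht).mul ((contDiff_euclidean.1 (S.smooth_v t ht)) i)
  have hgc : ∀ i, HasCompactSupport fun y => m t y * v t y i := fun i =>
    ((S.supp_v t ht).comp_left (g := fun z : EuclideanSpace ℝ ι => z i) rfl).mul_left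
  have hdg : ∀ i, Continuous fun x =>
      fderiv ℝ (fun y => m t y * v t y i) x (EuclideanSpace.single i 1) :=
    fun i => ((hg i).continuous_fderiv (by simp)).clm_apply continuous_const
  have hdφ : ∀ i, Continuous fun x => fderiv ℝ φ x (EuclideanSpace.single i (1 : ℝ)) :=
    fun i => (hφ.continuous_fderiv (by simp)).clm_apply continuous_const
  have i1 : ∀ i, Integrable fun x =>
      φ x * fderiv ℝ (fun y => m t y * v t y i) x (EuclideanSpace.single i 1) := fun i =>
    (hφ.continuous.mul (hdg i)).integrable_of_hasCompactSupport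
      (((hgc i).fderiv_apply (𝕜 := ℝ) _).mul_left)
  have i2 : ∀ i, Integrable fun x =>
      fderiv ℝ φ x (EuclideanSpace.single i 1) * (m t x * v t x i) := fun i =>
    ((hdφ i).mul (hg i).continuous).integrable_of_hasCompactSupport (hgc i).mul_left
  simp only [Finset.mul_sum]
  rw [integral_finsetSum _ fun i _ => i1 i]
  have hsum : (fun x => m t x * fderiv ℝ φ x (v t x))
      = fun x => ∑ i, fderiv ℝ φ x (EuclideanSpace.single i 1) * (m t x * v t x i) := by
    funext x
    conv_lhs => rw [← (EuclideanSpace.basisFun ι ℝ).sum_repr (v t x)]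
    simp only [map_sum, map_smul, Finset.mul_sum, smul_eq_mul, EuclideanSpace.basisFun_repr,
      EuclideanSpace.basisFun_apply]
    exact Finset.sum_congr rfl fun i _ => by ring
  rw [hsum, integral_finsetSum _ fun i _ => i2 i, ← Finset.sum_neg_distrib]
  refine Finset.sum_congr rfl fun i _ => ?_
  exact integral_mul_fderiv_eq_neg_fderiv_mul_of_integrable (i2 i) (i1 i)
    ((hφ.continuous.mul (hg i).continuous).integrable_of_hasCompactSupport (hgc i).mul_left)
    (fun x _ => hφ.differentiable (by simp) x) fun x _ => (hg i).differentiable (by simp) x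

/-- One step of the weak transport estimate. -/
lemma Setting.step (S : Setting a₀ a₁ m mt G v Bv Λ κ ε) {s h : ℝ} (hs : s ∈ Icc a₀ a₁)
    (hsh : s + h ∈ Icc a₀ a₁) (hh : 0 ≤ h) {φ : EuclideanSpace ℝ ι → ℝ} {B L K : ℝ}
    (hφ : CBd φ B L K) (hK : 0 ≤ K) :
    |(∫ x, φ x * m (s + h) x) - ∫ x, φ (x + h • v s x) * m s x|
      ≤ h * (B * ε) + h ^ 2 * ((B + K * Bv ^ 2) * ∫ x, G x) := by
  set D := fun x => ∑ i, fderiv ℝ (fun y => m s y * v s y i) x (EuclideanSpace.single i 1)
    with hD
  set P := fun x => fderiv ℝ φ x (v s x) with hP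
  have hB := hφ.bdd_nonneg
  have hmint : ∀ t ∈ Icc a₀ a₁, Integrable (m t) := fun t ht =>
    S.G_int.mono' (S.smooth_m t ht).continuous.aestronglyMeasurable
      (ae_of_all _ fun x => by simpa using S.m_le t ht x)
  have hmtint : Integrable (mt s) := S.G_int.mono' (S.cont_mt s hs).aestronglyMeasurable
    (ae_of_all _ fun x => by simpa using S.mt_le s hs x)
  have hbd : ∀ {f : EuclideanSpace ℝ ι → ℝ}, Integrable f → ∀ {g : EuclideanSpace ℝ ι → ℝ},
      Continuous g → (∀ x, |g x| ≤ B) → Integrable fun x => g x * f x :=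
    fun {f} hf {g} hg hgb => hf.bdd_mul hg.aestronglyMeasurable
      (ae_of_all _ fun x => by simpa using hgb x)
  have hDc : Continuous D := continuous_finsetSum _ fun i _ =>
    (((S.smooth_m s hs).mul ((contDiff_euclidean.1 (S.smooth_v s hs)) i)).continuous_fderiv
      (by simp)).clm_apply continuous_const
  have hDs : HasCompactSupport D := HasCompactSupport.of_support_subset_isCompact
    (S.supp_v s hs) fun x hx => by
      by_contra hnot
      refine hx (Finset.sum_eq_zero fun i _ => ?_)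
      have : (fun y => m s y * v s y i) =ᶠ[𝓝 x] fun _ => (0 : ℝ) := by
        filter_upwards [(notMem_tsupport_iff_eventuallyEq.1 hnot)] with y hy
        simp [hy]
      rw [this.fderiv_eq]
      simp
  have hPc : Continuous fun x => m s x * P x :=
    (S.smooth_m s hs).continuous.mul (hφ.continuous_fderiv.clm_apply (S.smooth_v s hs).continuous)
  have hPs : HasCompactSupport fun x => m s x * P x :=
    HasCompactSupport.of_support_subset_isCompact (S.supp_v s hs) fun x hx => by
      by_contra hnot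
      exact hx (by simp [hP, image_eq_zero_of_notMem_tsupport hnot])
  have hT : Continuous fun x => φ (x + h • v s x) :=
    hφ.continuous.comp (continuous_id.add ((S.smooth_v s hs).continuous.const_smul h))
  have iA := hbd (hmint _ hsh) hφ.continuous hφ.bdd
  have iB := hbd (hmint _ hs) hT fun x => hφ.bdd _
  have iC := hbd hmtint hφ.continuous hφ.bdd
  have iD := hbd (hDc.integrable_of_hasCompactSupport hDs) hφ.continuous hφ.bdd
  have iP : Integrable fun x => m s x * P x := hPc.integrable_of_hasCompactSupport hPs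
  set A := fun x => φ x * m (s + h) x - φ (x + h • v s x) * m s x
    - h * (φ x * mt s x - m s x * P x) with hA
  have iA' : Integrable A := (iA.sub iB).sub ((iC.sub iP).const_mul h)
  have hAle : ∀ x, |A x| ≤ h ^ 2 * ((B + K * Bv ^ 2) * G x) := fun x => by
    have h1 := S.taylor s hs (s + h) hsh x
    rw [add_sub_cancel_left] at h1
    have h2 := hφ.taylor hK x (h • v s x)
    rw [map_smul, smul_eq_mul, norm_smul, Real.norm_eq_abs, abs_of_nonneg hh] at h2
    have hG0 : 0 ≤ G x := (abs_nonneg _).trans (S.m_le s hs x)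
    calc |A x| = |φ x * (m (s + h) x - m s x - h * mt s x)
          - m s x * (φ (x + h • v s x) - φ x - h * P x)| := by
          congr 1; simp only [hA]; ring
      _ ≤ B * (G x * h ^ 2) + G x * (K * (h * Bv) ^ 2) := by
          refine (abs_sub _ _).trans (add_le_add ?_ ?_) <;> rw [abs_mul]
          · exact mul_le_mul (hφ.bdd x) h1 (abs_nonneg _) hB
          · refine mul_le_mul (S.m_le s hs x) (h2.trans ?_) (abs_nonneg _) hG0
            refine mul_le_mul_of_nonneg_left (pow_le_pow_left₀ (by positivity) ?_ 2) hK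
            exact mul_le_mul_of_nonneg_left (S.bdd_v s hs x) hh
      _ = _ := by ring
  have hmain : (∫ x, φ x * m (s + h) x) - ∫ x, φ (x + h • v s x) * m s x
      = (∫ x, A x) + h * ∫ x, φ x * (mt s x + D x) := by
    rw [show (∫ x, φ x * (mt s x + D x)) = (∫ x, φ x * mt s x) + ∫ x, φ x * D x by
      rw [← integral_add iC iD]; simp only [mul_add],
      show (∫ x, φ x * D x) = -∫ x, m s x * P x from S.ibp hs hφ.contDiff]
    have e : (∫ x, A x) = ((∫ x, φ x * m (s + h) x) - ∫ x, φ (x + h • v s x) * m s x)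
        - ∫ x, h * (φ x * mt s x - m s x * P x) := by
      rw [← integral_sub iA iB]
      exact integral_sub (iA.sub iB) ((iC.sub iP).const_mul h)
    have e' : (∫ x, h * (φ x * mt s x - m s x * P x))
        = h * ((∫ x, φ x * mt s x) - ∫ x, m s x * P x) := by
      rw [integral_const_mul, integral_sub iC iP]
    rw [e, e']
    ring
  rw [hmain]
  refine (abs_add_le _ _).trans ?_
  rw [add_comm (h * (B * ε))]
  refine add_le_add (abs_integral_le_integral_abs.trans ?_) ?_
  · rw [← integral_const_mul (μ := volume) (B + K * Bv ^ 2), ← integral_const_mul (μ := volume)]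
    exact integral_mono iA'.abs ((S.G_int.const_mul _).const_mul _) hAle
  · rw [abs_mul, abs_of_nonneg hh]
    refine mul_le_mul_of_nonneg_left (abs_integral_le_integral_abs.trans ?_) hh
    refine le_trans ?_ (mul_le_mul_of_nonneg_left (S.defect s hs) hB)
    rw [← integral_const_mul]
    have iDD : Integrable (fun x => mt s x + D x) :=
      hmtint.add (hDc.integrable_of_hasCompactSupport hDs)
    refine integral_mono (hbd iDD hφ.continuous hφ.bdd).abs (iDD.abs.const_mul B) fun x => ?_
    rw [abs_mul]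
    exact mul_le_mul_of_nonneg_right (hφ.bdd x) (abs_nonneg _)

/-- The weak transport estimate along the Euler scheme. -/
lemma Setting.transport (S : Setting a₀ a₁ m mt G v Bv Λ κ ε) {t₀ t : ℝ} (ht₀ : a₀ ≤ t₀)
    (hle : t₀ ≤ t) (ht : t ≤ a₁) {f : EuclideanSpace ℝ ι → ℝ} {B L K : ℝ}
    (hf : CBd f B L K) (hK : 0 ≤ K) {N : ℕ} (hN : 0 < N) :
    |(∫ x, f x * m t x) - ∫ x, f (euler v t₀ ((t - t₀) / N) N x) * m t₀ x|
      ≤ (t - t₀) * (B * ε) + (t - t₀) ^ 2 / N * ((B + (K + (t - t₀) * κ * L)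
          * Real.exp (2 * (Λ * (t - t₀))) * Bv ^ 2) * ∫ x, G x) := by
  have hN' : (N : ℝ) ≠ 0 := Nat.cast_ne_zero.2 hN.ne'
  set T := t - t₀ with hT
  set h := T / N with hh'
  have hT0 : 0 ≤ T := sub_nonneg.2 hle
  have hh : 0 ≤ h := div_nonneg hT0 (Nat.cast_nonneg N)
  have hhN : h * N = T := by rw [hh']; field_simp
  have hL := hf.grad_nonneg
  set ρ := 1 + h * Λ with hρ
  have hρ1 : 1 ≤ ρ := le_add_of_nonneg_right (mul_nonneg hh S.Λ_nonneg)
  have hκ := S.κ_nonneg
  set Kmax := (K + T * κ * L) * Real.exp (2 * (Λ * T)) with hKmax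
  have hIG : 0 ≤ ∫ x, G x :=
    integral_nonneg fun x => (abs_nonneg _).trans (S.m_le t ⟨ht₀.trans hle, ht⟩ x)
  set δ := h * (B * ε) + h ^ 2 * ((B + Kmax * Bv ^ 2) * ∫ x, G x) with hδ
  have hmem : ∀ k : ℕ, k ≤ N → t₀ + k * h ∈ Icc a₀ a₁ := fun k hk => by
    have : (k : ℝ) * h ≤ T := by
      rw [← hhN, mul_comm h]
      exact mul_le_mul_of_nonneg_right (Nat.cast_le.2 hk) hh
    constructor <;> [linarith [mul_nonneg (Nat.cast_nonneg (α := ℝ) k) hh]; linarith]
  have hKj : ∀ j : ℕ, j ≤ N → (K + j * (h * κ) * L) * ρ ^ (2 * j) ≤ Kmax := fun j hj => by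
    have hjh : (j : ℝ) * h ≤ T := by
      rw [← hhN, mul_comm h]
      exact mul_le_mul_of_nonneg_right (Nat.cast_le.2 hj) hh
    refine mul_le_mul ?_ ?_ (pow_nonneg (by linarith) _) (by positivity)
    · rw [← mul_assoc (j : ℝ)]
      gcongr
    · calc ρ ^ (2 * j) ≤ Real.exp (h * Λ) ^ (2 * j) :=
            pow_le_pow_left₀ (by linarith) (by linarith [Real.add_one_le_exp (h * Λ)]) _
        _ = Real.exp (2 * (Λ * (j * h))) := by
            rw [← Real.exp_nat_mul]; congr 1; push_cast; ring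
        _ ≤ Real.exp (2 * (Λ * T)) := Real.exp_le_exp.2
            (mul_le_mul_of_nonneg_left (mul_le_mul_of_nonneg_left hjh S.Λ_nonneg) two_pos.le)
  have key : ∀ k : ℕ, k ≤ N → ∀ φ : EuclideanSpace ℝ ι → ℝ,
      CBd φ B (L * ρ ^ (N - k)) ((K + (N - k : ℕ) * (h * κ) * L) * ρ ^ (2 * (N - k))) →
      |(∫ x, φ x * m (t₀ + k * h) x) - ∫ x, φ (euler v t₀ h k x) * m t₀ x| ≤ k * δ := by
    intro k
    induction k with
    | zero => intro _ φ _; simp [euler]
    | succ k ih =>
      intro hk φ hφ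
      have hk' : k ≤ N := Nat.le_of_succ_le hk
      obtain ⟨j, hj⟩ : ∃ j, N = k + 1 + j := ⟨N - (k + 1), by omega⟩
      have e1 : N - (k + 1) = j := by omega
      have e2 : N - k = j + 1 := by omega
      rw [e1] at hφ
      set s := t₀ + k * h with hs
      have hs1 : t₀ + ((k + 1 : ℕ) : ℝ) * h = s + h := by rw [hs]; push_cast; ring
      rw [hs1]
      have hKj0 : 0 ≤ (K + (j : ℝ) * (h * κ) * L) * ρ ^ (2 * j) :=
        mul_nonneg (by positivity) (pow_nonneg (by linarith) _)
      have h1 : |(∫ x, φ x * m (s + h) x) - ∫ x, φ (x + h • v s x) * m s x| ≤ δ := by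
        refine (S.step (hmem k hk') (hs1 ▸ hmem (k + 1) hk) hh hφ hKj0).trans ?_
        have := hKj j (by omega)
        rw [hδ]
        gcongr
      have hTd : Differentiable ℝ fun x => x + h • v s x :=
        differentiable_id.add (((S.smooth_v s (hmem k hk')).differentiable (by simp)).const_smul h)
      have hd : ∀ x, fderiv ℝ (fun x => x + h • v s x) x
          = ContinuousLinearMap.id ℝ _ + h • fderiv ℝ (v s) x := fun x =>
        ((hasFDerivAt_id x).add
          (((S.smooth_v s (hmem k hk')).differentiable (by simp) x).hasFDerivAt.const_smul h)).fderiv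
      have hρb : ∀ x, ‖fderiv ℝ (fun x => x + h • v s x) x‖ ≤ ρ := fun x => by
        rw [hd]
        refine (norm_add_le _ _).trans (add_le_add ContinuousLinearMap.norm_id_le ?_)
        rw [norm_smul, Real.norm_eq_abs, abs_of_nonneg hh]
        exact mul_le_mul_of_nonneg_left (S.dv_le s (hmem k hk') x) hh
      have hlip : ∀ x y, ‖fderiv ℝ (fun x => x + h • v s x) x
          - fderiv ℝ (fun x => x + h • v s x) y‖ ≤ h * κ * ‖x - y‖ := fun x y => by
        rw [hd, hd, add_sub_add_left_eq_sub,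
          show h • fderiv ℝ (v s) x - h • fderiv ℝ (v s) y
            = h • (fderiv ℝ (v s) x - fderiv ℝ (v s) y) by ext w; simp [mul_sub],
          norm_smul, Real.norm_eq_abs,
          abs_of_nonneg hh, mul_assoc]
        exact mul_le_mul_of_nonneg_left (S.dv_lip s (hmem k hk') x y) hh
      have hψ : CBd (fun x => φ (x + h • v s x)) B (L * ρ ^ (j + 1))
          ((K + (j + 1 : ℕ) * (h * κ) * L) * ρ ^ (2 * (j + 1))) := by
        refine (hφ.comp hKj0 hTd hρb hlip).mono le_rfl (by rw [pow_succ, mul_assoc]) ?_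
        have hp : ρ ^ j ≤ ρ ^ (2 * (j + 1)) := pow_le_pow_right₀ hρ1 (by omega)
        calc (K + j * (h * κ) * L) * ρ ^ (2 * j) * ρ ^ 2 + L * ρ ^ j * (h * κ)
            ≤ (K + j * (h * κ) * L) * ρ ^ (2 * j) * ρ ^ 2 + L * ρ ^ (2 * (j + 1)) * (h * κ) := by
              gcongr
          _ = _ := by push_cast; ring
      have h2 := ih hk' (fun x => φ (x + h • v s x)) (by rw [e2]; exact hψ)
      have h3 : (fun x => φ (euler v t₀ h (k + 1) x) * m t₀ x)
          = fun x => φ (euler v t₀ h k x + h • v s (euler v t₀ h k x)) * m t₀ x := rfl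
      rw [h3]
      refine (abs_sub_le _ (∫ x, φ (x + h • v s x) * m s x) _).trans ?_
      calc _ ≤ δ + k * δ := add_le_add h1 h2
        _ = _ := by push_cast; ring
  have := key N le_rfl f (by simpa using hf)
  rw [show t₀ + (N : ℝ) * h = t by rw [mul_comm, hhN, hT]; ring] at this
  refine this.trans (le_of_eq ?_)
  rw [hδ, hh']
  field_simp

end Vale.Agent.P347.Flow
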