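import Vale.Agent.P347.ForwardParams

/-!
The forward pass of the oracle step.
-/

namespace Vale.Agent.P347

open MeasureTheory ProbabilityTheory
open scoped Gradient

/-- The gains of the forward pass. -/
lemma fwd_gains {n a : ℕ} {R τ δ din : ℝ} (hR : 16 ≤ R)
    (hτδ : √τ / √δ ≤ (R ^ (gainExp n a + 20))⁻¹)
    (hdinδ : √din / √δ ≤ (R ^ (a - lossC n + (2 * n + 10)))⁻¹) :
    R ^ 8 * (√τ / √δ) ≤ (R ^ gainExp n a)⁻¹ ∧
    13 * (R ^ 8 * (√τ / √δ)) ≤ (R ^ gainExp n a)⁻¹ ∧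
    R ^ 8 * (√din / √δ) ≤ (R ^ (a - lossC n))⁻¹ ∧
    R ^ 8 * (√din / √δ) ≤ R⁻¹ := by
  have hR0 : 0 < R := by linarith
  have hR1 : (1 : ℝ) ≤ R := by linarith
  have h1 : 13 * (R ^ 8 * (√τ / √δ)) ≤ (R ^ gainExp n a)⁻¹ := by
    calc 13 * (R ^ 8 * (√τ / √δ)) ≤ R * (R ^ 8 * (R ^ (gainExp n a + 20))⁻¹) := by
          gcongr
          linarith
      _ = (R ^ (gainExp n a + 11))⁻¹ := by
          rw [show gainExp n a + 20 = (gainExp n a + 11) + 9 by ring,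
            pow_add R (gainExp n a + 11) 9]
          field_simp
      _ ≤ _ := inv_anti₀ (by positivity) (pow_le_pow_right₀ hR1 (by omega))
  have h2 : R ^ 8 * (√din / √δ) ≤ (R ^ (a - lossC n + (2 * n + 2)))⁻¹ := by
    refine (mul_le_mul_of_nonneg_left hdinδ (by positivity : 0 ≤ R ^ 8)).trans (le_of_eq ?_)
    rw [show a - lossC n + (2 * n + 10) = (a - lossC n + (2 * n + 2)) + 8 by ring,
      pow_add R (a - lossC n + (2 * n + 2)) 8]
    field_simp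
  exact ⟨le_trans (le_mul_of_one_le_left (by positivity) (by norm_num)) h1, h1,
    h2.trans (inv_anti₀ (by positivity) (pow_le_pow_right₀ hR1 (by omega))),
    h2.trans (inv_anti₀ hR0 (le_self_pow₀ hR1 (by omega)))⟩

/-- The total error of the forward pass. -/
lemma fwd_total {n a m j P : ℕ} {R τ δ din KP Cf₀ C₁ CE CI CL ε : ℝ} (hn : 1 ≤ n)
    (hR : 1 ≤ R) (hXP : accExp n a (m + 1) j ≤ P - 3)
    (hXG : accExp n a (m + 1) j ≤ n * gainExp n a) (hj : j < n) (hCL : 0 ≤ CL) (hKP : 0 ≤ KP)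
    (_ : 0 ≤ CE) (hCI : 0 ≤ CI) (hKX : 0 ≤ KP * |Cf₀|) (_ : 0 ≤ ε) (hε' : ε ≤ 1 / 10)
    (hτdiv : δ⁻¹ * τ ≤ 1)
    (hgain : R ^ 8 * (√τ / √δ) ≤ (R ^ gainExp n a)⁻¹ ∧
      13 * (R ^ 8 * (√τ / √δ)) ≤ (R ^ gainExp n a)⁻¹ ∧
      R ^ 8 * (√din / √δ) ≤ (R ^ (a - lossC n))⁻¹ ∧
      R ^ 8 * (√din / √δ) ≤ R⁻¹) :
    4 * (|C₁| / R ^ accExp n a (m + 1) j) + 11 * (δ⁻¹ * (KP * τ * |Cf₀| / R ^ (P - 3)))
      + 3 * ((2 + ε) * (|C₁| / R ^ accExp n a (m + 1) j) + CE / R ^ accExp n a (m + 1) j)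
      + 2 * (R ^ 8 * (√τ / √δ) * (CI / R ^ accExp n a m j))
      + 17 * (R ^ 8 * (√τ / √δ) * (CI / R ^ accExp n a m (j + 1)))
      + 3 * (2 / R ^ accExp n a (m + 1) j)
      + R ^ 8 * (√din / √δ) * (CI / R ^ accExp n a m j)
      + (13 * (R ^ 8 * (√τ / √δ))) ^ n * (|C₁| / R ^ accExp n a (m + 1) j + 3 * CL + 1)
    ≤ (4 * |C₁| + 11 * (KP * |Cf₀|) + 3 * (3 * |C₁| + CE) + 20 * CI + 6
        + (|C₁| + 3 * CL + 1)) / R ^ accExp n a (m + 1) j := by
  obtain ⟨hG, hG13, hg₀, -⟩ := hgain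
  set X := accExp n a (m + 1) j with hX
  have hρ : δ⁻¹ * (KP * τ * |Cf₀| / R ^ (P - 3)) ≤ KP * |Cf₀| / R ^ X := by
    calc δ⁻¹ * (KP * τ * |Cf₀| / R ^ (P - 3)) = δ⁻¹ * τ * (KP * |Cf₀| / R ^ (P - 3)) := by ring
      _ ≤ KP * |Cf₀| / R ^ (P - 3) := mul_le_of_le_one_left (by positivity) hτdiv
      _ ≤ _ := div_le_div_of_nonneg_left hKX (by positivity) (pow_le_pow_right₀ hR hXP)
  have hgain : a - lossC n ≤ gainExp n a := Nat.le_mul_of_pos_left _ hn
  have e1 : R ^ 8 * (√τ / √δ) * (CI / R ^ accExp n a m j) ≤ CI / R ^ X :=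
    (mul_le_mul_of_nonneg_right hG (by positivity)).trans (div_pow_le_of_gain hR
      ((accExp_succ_le n a m j).trans (by omega)) hCI)
  have e2 : R ^ 8 * (√τ / √δ) * (CI / R ^ accExp n a m (j + 1)) ≤ CI / R ^ X :=
    (mul_le_mul_of_nonneg_right hG (by positivity)).trans
      (div_pow_le_of_gain hR (accExp_succ_le' n a m hn hj) hCI)
  have e3 : R ^ 8 * (√din / √δ) * (CI / R ^ accExp n a m j) ≤ CI / R ^ X :=
    (mul_le_mul_of_nonneg_right hg₀ (by positivity)).trans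
      (div_pow_le_of_gain hR (accExp_succ_le n a m j) hCI)
  have e4 : (13 * (R ^ 8 * (√τ / √δ))) ^ n * (|C₁| / R ^ X + 3 * CL + 1)
      ≤ (|C₁| + 3 * CL + 1) / R ^ X := by
    have h1 : (13 * (R ^ 8 * (√τ / √δ))) ^ n ≤ (R ^ X)⁻¹ := by
      refine (pow_le_pow_left₀ (by positivity) hG13 n).trans ?_
      rw [inv_pow, ← pow_mul]
      exact inv_anti₀ (by positivity) (pow_le_pow_right₀ hR (by rw [Nat.mul_comm]; exact hXG))
    have h2 : |C₁| / R ^ X ≤ |C₁| := div_le_self (abs_nonneg _) (one_le_pow₀ hR)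
    calc _ ≤ (R ^ X)⁻¹ * (|C₁| + 3 * CL + 1) :=
          mul_le_mul h1 (by linarith) (by positivity) (by positivity)
      _ = _ := inv_mul_eq_div _ _
  have e5 : (2 + ε) * (|C₁| / R ^ X) ≤ 3 * (|C₁| / R ^ X) :=
    mul_le_mul_of_nonneg_right (by linarith) (by positivity)
  have e6 : 3 * (2 / R ^ X) = 6 / R ^ X := by ring
  simp only [add_div, mul_div_assoc, mul_add] at hρ e1 e2 e3 e4 e5 ⊢
  linarith

/-- The queries of the fixed bodies. -/
lemma fwd_queries {R : ℝ} {Q₀ Qb qE qB : ℕ} (hR : 3 ≤ R) (hQ₀ : (Q₀ : ℝ) ≤ R ^ qE)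
    (hQb : (Qb : ℝ) ≤ R ^ qB) :
    (1 : ℝ) + Qb ≤ R ^ (qE + qB + 2) ∧ ((Q₀ * (1 + Qb) : ℕ) : ℝ) ≤ R ^ (qE + qB + 2) := by
  have hR1 : (1 : ℝ) ≤ R := by linarith
  have h2 : (1 : ℝ) ≤ R ^ qB := one_le_pow₀ hR1
  have h3 : (1 : ℝ) + Qb ≤ R ^ (qB + 1) := by rw [pow_succ]; nlinarith
  refine ⟨h3.trans (pow_le_pow_right₀ hR1 (by omega)), ?_⟩
  push_cast
  calc (Q₀ : ℝ) * (1 + Qb) ≤ R ^ qE * R ^ (qB + 1) :=
        mul_le_mul hQ₀ h3 (by positivity) (by positivity)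
    _ ≤ _ := by
        rw [← pow_add]
        exact pow_le_pow_right₀ hR1 (by omega)

/-- The forward pass of the oracle step. -/
theorem forward : ForwardStatement := by
  have hgrid := grid
  intro hin n qE qE' qB hn
  set qo := qE' + 1 with hqo
  set q₁ := qE + qB + 2 with hq₁
  refine ⟨q₁ + n * (5 + qo * (n + 3) + 1) + (5 + qo * (n + 3)) + 3, lossC n + 11,
    fun a ha m i hi hEi hEn Cb Cf C₁ ε hε => ?_⟩
  set ε₁ := min (ε / 4) (1 / 10) with hε₁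
  have hε₁0 : 0 < ε₁ := lt_min (by linarith) (by norm_num)
  have hε₁4 : ε₁ ≤ ε / 4 := min_le_left _ _
  have hε₁10 : ε₁ ≤ 1 / 10 := min_le_right _ _
  obtain ⟨CE, RE, hCE, hRE, hevi⟩ := hEi ε₁ hε₁0
  obtain ⟨CI, RI, hCI, hRI, hevn⟩ := hEn ε₁ hε₁0
  set P := ordP n a with hPdef
  have hP : 100 ≤ P := Nat.le_add_left _ _
  obtain ⟨KP, Rg, hKP, hRg, hgrid⟩ := hgrid P (by omega)
  obtain ⟨K, hK, hsq⟩ := exists_hessSqFor P n (by omega)
  obtain ⟨cX, KX, hcX, hKX, hext⟩ := exists_scoreExtractor hin.levels hin.extractCurve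
    (P := P) (by omega)
  obtain ⟨cL, CL, hcL, hCL, hlev⟩ := fwd_levels hin.levels
  set big := 8 * (1 + (K : ℝ)) ^ 2 * diffSize P ^ 2 * KP ^ 2 * P with hbig
  set lg := 4 * ((3 * topExp n a 0 + 1 : ℕ) : ℝ) ^ 2 with hlg
  refine ⟨4 * |C₁| + 11 * (KP * |Cf P|) + 3 * (3 * |C₁| + CE) + 20 * (CI + KX) + 6
      + (|C₁| + 3 * CL + 1),
    RE + RI + Rg + big + lg + 24 * (1 + (P : ℝ) + K) + 14 / ε + 2 / cX + 2 / cL + 16, ?_, ?_, ?_⟩
  · positivity
  · have : 0 ≤ big + lg + 24 * (1 + (P : ℝ) + K) + 14 / ε + 2 / cX + 2 / cL := by positivity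
    linarith
  intro R hR j τ δ hj hτlo htop hwin hδ Φb Φf hb hf Tb Qb hQb hTb
  have p1 : 0 ≤ big := by positivity
  have p2 : 0 ≤ lg := by positivity
  have p3 : 0 ≤ 24 * (1 + (P : ℝ) + K) := by positivity
  have p4 : 0 ≤ 14 / ε := by positivity
  have p5 : 0 ≤ 2 / cX := by positivity
  have p6 : 0 ≤ 2 / cL := by positivity
  have hR16 : 16 ≤ R := by linarith
  have hR3 : (3 : ℝ) ≤ R := by linarith
  have hR1 : (1 : ℝ) ≤ R := by linarith
  have hR0 : 0 < R := by linarith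
  have hloss : lossC n = 40 * (n + 1) := rfl
  obtain ⟨hτ0, -, -, hτR, hlowtop, hlow, hgap, hlt⟩ := fwd_levels_le hn ha hi hR3 hτlo htop
  obtain ⟨hsize, hτδ, hdinδ, hτdin⟩ := fwd_size (K := K) (P := P) (KP := KP) hn ha hi hj hR3
    (by linarith) hK (by omega) hKP hτlo htop hwin hδ
  have hδ0 := hsize.delta_pos
  have hc : ∀ c : ℝ, 0 < c → 2 / c ≤ R → 2 * τ ≤ c := fun c hc hRc => by
    calc 2 * τ ≤ 2 * R⁻¹ := by gcongr
      _ ≤ c := by
          rw [← div_eq_mul_inv, div_le_iff₀ hR0]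
          have := (div_le_iff₀ hc).1 hRc
          linarith
  have hτn : 2 ^ (m + 1) * τ ≤ topLevel n a n R :=
    htop.trans (topLevel_mono hR1 n a (by omega))
  set s₁ := gadgetGap n a τ R with hs₁
  set low := gadgetLow τ R with hlowdef
  have htopτ : τ - s₁ < τ := sub_lt_self τ hgap
  -- the grid
  obtain ⟨hgex, hgq⟩ := hgrid R (by linarith) τ low (τ - s₁) hlow hlt htopτ
  obtain ⟨g⟩ := hgex (fwd_log_le hR1 (by linarith) hτlo hτ0 hlt)
  have hquad := fwd_quad (P := P) hτ0 hlow htopτ hR0 (by linarith) hf g (hgq g)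
  have hops := fwd_ops (q := qE') (top := τ - s₁) hn (by omega) hj hR3 rfl rfl hCI hKX hext
    (hevn R (by linarith)) hlow htopτ (hc cX hcX (by linarith)) hτn
  -- the start
  obtain ⟨op₀, Q₀, hQ₀, hop₀⟩ := hevi R (by linarith) j low (low / R ^ 4) (δ / 4) hj.le hlow
    (by positivity)
    (by
      rw [div_mul_eq_mul_div, div_le_iff₀ (by positivity)]
      exact mul_le_mul_of_nonneg_left (pow_le_pow_right₀ hR1 (by norm_num)) hlow.le)
    hlowtop
    (by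
      refine hwin.trans ?_
      rw [show 4 * (n - i) + 1 = (4 * (n - (i + 1)) + 4) + 1 by omega,
        pow_succ R (4 * (n - (i + 1)) + 4), mul_assoc]
      refine mul_le_mul_of_nonneg_left ?_ (by positivity)
      have := mul_le_mul_of_nonneg_right (show (4 : ℝ) ≤ R by linarith) hδ0.le
      linarith)
    (by linarith)
  have hTb' := hTb.mono le_rfl le_rfl le_rfl (E' := |C₁| / R ^ accExp n a (m + 1) j)
    (div_le_div_of_nonneg_right (le_abs_self _) (by positivity))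
  have hT₀ := hTb'.app hε₁0.le hop₀ (by linarith) fun d V hV => by
    obtain ⟨hm, hmap⟩ := hb.gadgetLaw_pass hV hlow.le hgap (by linarith) (Set.left_mem_Icc.2 hlt.le)
    have := isProbabilityMeasure_levelLaw hV.pot hlow.le
    have h1 := congrArg (Measure.map Prod.fst) hmap
    rw [Measure.map_map measurable_fst hm, Measure.map_fst_prod, measure_univ, one_smul] at h1
    exact ⟨hm.fst.aemeasurable, h1⟩
  rw [mul_one, abs_one, mul_one, mul_one] at hT₀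
  set X := accExp n a (m + 1) j with hXdef
  have hXP : X ≤ P - 3 := by
    have := two_mul_accExp_le n a (m + 1) j hn (by omega)
    show X ≤ ordP n a - 3
    unfold ordP
    omega
  have hXG : X ≤ n * gainExp n a := accExp_le_gain n a (m + 1) j
  have hcon := hsize.consts.2.2.2.2.2.2
  have hK0 : (0 : ℝ) ≤ K := Nat.cast_nonneg K
  have hc₀ : |√(τ - low)| ≤ 1 := by
    rw [abs_of_nonneg (Real.sqrt_nonneg _)]
    exact Real.sqrt_le_one.2 (by linarith [hsize.tau_le_one])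
  have hQop' : 8 * (1 + (P : ℝ) + K) * (1 + (⌊R ^ qE'⌋₊ : ℝ) + ⌊R ^ qE'⌋₊) ≤ R ^ qo := by
    have h1 := Nat.floor_le (pow_nonneg hR0.le qE')
    have h2 : (1 : ℝ) ≤ R ^ qE' := one_le_pow₀ hR1
    calc 8 * (1 + (P : ℝ) + K) * (1 + (⌊R ^ qE'⌋₊ : ℝ) + ⌊R ^ qE'⌋₊)
        ≤ 8 * (1 + (P : ℝ) + K) * (3 * R ^ qE') :=
          mul_le_mul_of_nonneg_left (by linarith) (by positivity)
      _ = 24 * (1 + (P : ℝ) + K) * R ^ qE' := by ring
      _ ≤ R * R ^ qE' := mul_le_mul_of_nonneg_right (by linarith) (by positivity)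
      _ = _ := by rw [hqo, pow_succ']
  obtain ⟨hQb', hQg'⟩ : (1 : ℝ) + Qb ≤ R ^ q₁ ∧ ((Q₀ * (1 + Qb) : ℕ) : ℝ) ≤ R ^ q₁ :=
    fwd_queries hR3 hQ₀ hQb
  have hsum : (2 + ε₁) * R⁻¹ + (1 / 2 + ε₁) + 4 * (R ^ 8 * (√(lad a (j + 1) R) / √δ))
      ≤ 1 / 2 + ε := by
    have h3 : 14 * R⁻¹ ≤ ε := by
      rw [← div_eq_mul_inv, div_le_iff₀ hR0]
      have := (div_le_iff₀ hε).1 (show 14 / ε ≤ R by linarith)
      linarith
    have h4 := (fwd_gains (n := n) (a := a) hR16 hτδ hdinδ).2.2.2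
    have h5 : (2 + ε₁) * R⁻¹ ≤ 3 * R⁻¹ :=
      mul_le_mul_of_nonneg_right (by linarith) (by positivity)
    have h6 : 0 ≤ R⁻¹ := by positivity
    linarith
  have hcG : |3 / 2 * √(τ - low)| + ((2 + ε₁) + (1 / 2 + ε₁) * |√(τ - low)|
      + 4 * (R ^ 8 * (√(lad a (j + 1) R) / √δ))) ≤ R := by
    rw [abs_mul, abs_of_pos (by norm_num : (0 : ℝ) < 3 / 2)]
    have : (1 / 2 + ε₁) * |√(τ - low)| ≤ 1 / 2 + ε₁ :=
      mul_le_of_le_one_right (by linarith) hc₀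
    have h4 := (fwd_gains (n := n) (a := a) hR16 hτδ hdinδ).2.2.2
    have h6 : R⁻¹ ≤ 1 := inv_le_one_of_one_le₀ hR1
    linarith
  have hτdiv : δ⁻¹ * τ ≤ 1 := by
    have h2 := pow_le_pow_left₀ (by positivity) (hτδ.trans hsize.small_le_one) 2
    rw [div_pow, Real.sq_sqrt hτ0.le, Real.sq_sqrt hδ0.le, one_pow] at h2
    rwa [inv_mul_eq_div]
  obtain ⟨T, Q, hQ, hT⟩ := FwdData.result' (n := n) (K := K) (P := P)
    { Qop := ⌊R ^ qE'⌋₊
      Qb := Qb
      Qg := Q₀ * (1 + Qb)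
      KP := KP
      CL := CL
      R := R
      τ := τ
      δ := δ
      din := lad a (j + 1) R
      dout := lad a j R
      low := low
      s₁ := s₁
      ε := ε₁
      Ein := (CI + KX) / R ^ accExp n a m (j + 1)
      Eout := (CI + KX) / R ^ accExp n a m j
      eb := |C₁| / R ^ X
      eG := (2 + ε₁) * (|C₁| / R ^ X) + CE / R ^ X
      ρ := KP * τ * |Cf P| / R ^ (P - 3)
      tiny := 2 / R ^ X
      S := (2 + ε₁) * R⁻¹ + (1 / 2 + ε₁)
      S₀ := (2 + ε₁) + (1 / 2 + ε₁) * |√(τ - low)|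
      cG := 3 / 2 * √(τ - low)
      size := hsize
      low_pos := hlow
      low_lt := hlt
      gap_pos := hgap
      eps_nonneg := hε₁0.le
      eps_le := hε₁10
      ein_nonneg := by positivity
      eout_nonneg := by positivity
      CL_nonneg := hCL
      eb_nonneg := by positivity
      eG_nonneg := by positivity
      tiny_nonneg := by positivity
      rho_nonneg := by positivity
      levels := hlev low τ hlow (by linarith [hc cL hcL (by linarith)])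
      g := g
      Φb := Φb
      Φf := Φf
      Cb := Cb
      Cf := Cf
      back := hb
      fwd := hf
      quad := hquad
      ops := hops
      small := fun t ht => fwd_small hR3 (by linarith) (hlow.trans_le ht.1)
        (ht.2.trans_lt htopτ) hτdin (hXP.trans (Nat.sub_le _ _)) hXG
      Tb := Tb
      back_node := hTb'
      T₀ := Body.app op₀ Tb
      start_node := hT₀
      S_le := by
        have : (2 + ε₁) * R⁻¹ ≤ (2 + ε₁) * 1 :=
          mul_le_mul_of_nonneg_left (inv_le_one_of_one_le₀ hR1) (by linarith)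
        linarith
      S₀_le := by
        rw [abs_mul, abs_of_pos (by norm_num : (0 : ℝ) < 3 / 2)]
        have : (1 / 2 + ε₁) * |√(τ - low)| ≤ 1 / 2 + ε₁ :=
          mul_le_of_le_one_right (by linarith) hc₀
        linarith }
    hsq (qo := qo) (q₁ := q₁) hQop' hQb' hQg'
  refine ⟨T, Q, _, _, _, hQ, hsum, hcG, hT.mono le_rfl le_rfl le_rfl ?_⟩
  exact fwd_total hn hR1 hXP hXG hj hCL (by linarith) hCE (by positivity) (by positivity)
    hε₁0.le hε₁10 hτdiv (fwd_gains hR16 hτδ hdinδ)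

end Vale.Agent.P347
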