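import Vale.Agent.P347.ForwardWeights
import Vale.Agent.P347.Extract

/-!
The numeric bounds on the weights of the forward pass.
-/

namespace Vale.Agent.P347

/-- The coupling of the forward pass. -/
noncomputable def fwdκ (δ : ℝ) : ℝ := -(1 / (2 * √(δ / 2)))

/-- The sizes of the parameters of the forward pass. -/
structure FwdSize (n K P : ℕ) (KP R τ δ din dout : ℝ) : Prop where
  three_le : 3 ≤ R
  big : 8 * (1 + (K : ℝ)) ^ 2 * diffSize P ^ 2 * KP ^ 2 * P ≤ R
  one_le_K : 1 ≤ K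
  two_le_P : 2 ≤ P
  one_le_KP : 1 ≤ KP
  tau_pos : 0 < τ
  tau_le : τ ≤ (R ^ 40)⁻¹
  delta_pos : 0 < δ
  delta_le : δ ≤ 1
  din_pos : 0 < din
  dout_nonneg : 0 ≤ dout
  dout_le : dout ≤ R ^ (4 * n + 4) * δ
  tau_delta : √τ / √δ ≤ (R ^ 20)⁻¹
  din_delta : √din / √δ ≤ (R ^ (2 * n + 10))⁻¹

namespace FwdSize

variable {n K P : ℕ} {KP R τ δ din dout : ℝ} (h : FwdSize n K P KP R τ δ din dout)

include h

lemma R_pos : 0 < R := by linarith [h.three_le]

lemma const_le {x : ℝ} (hx : x ≤ 8 * (1 + (K : ℝ)) ^ 2 * diffSize P ^ 2 * KP ^ 2 * P) : x ≤ R :=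
  hx.trans h.big

lemma consts : (P : ℝ) * KP ≤ R ∧ diffSize P * (P * KP) ≤ R ∧ 2 * (K * (P * KP)) ≤ R ∧
    4 * (K ^ 2 * (P * KP ^ 2)) ≤ R ∧ 2 * (diffSize P ^ 2 * (P * KP ^ 2)) ≤ R ∧
    (P : ℝ) * KP ^ 2 ≤ R ∧ 4 * (K : ℝ) ≤ R := by
  have hD := one_le_diffSize P
  have hK : (1 : ℝ) ≤ K := by exact_mod_cast h.one_le_K
  have hP : (1 : ℝ) ≤ P := by exact_mod_cast (le_trans one_le_two h.two_le_P)
  have hKP := h.one_le_KP
  have a1 : (K : ℝ) ≤ (1 + K) ^ 2 := by nlinarith
  have a2 : (K : ℝ) ^ 2 ≤ (1 + K) ^ 2 := by gcongr; linarith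
  have a3 : 1 ≤ (1 + (K : ℝ)) ^ 2 := one_le_pow₀ (by linarith)
  have b1 : diffSize P ≤ diffSize P ^ 2 := le_self_pow₀ hD two_ne_zero
  have b3 : 1 ≤ diffSize P ^ 2 := one_le_pow₀ hD
  have c1 : KP ≤ KP ^ 2 := le_self_pow₀ hKP two_ne_zero
  have d1 : ∀ x y z w : ℝ, 0 ≤ x → 0 ≤ y → 0 ≤ z → 0 ≤ w → w ≤ 8 → x ≤ (1 + (K : ℝ)) ^ 2 →
      y ≤ diffSize P ^ 2 → z ≤ KP ^ 2 → w * x * y * z * P ≤ R := fun x y z w hx hy hz hw h1 h2 h3 h4 =>
    h.const_le (by gcongr)
  refine ⟨?_, ?_, ?_, ?_, ?_, ?_, ?_⟩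
  · have := d1 1 1 KP 1 zero_le_one zero_le_one (by linarith) zero_le_one (by norm_num) a3 b3 c1
    linarith
  · have := d1 1 _ KP 1 zero_le_one (by linarith) (by linarith) zero_le_one (by norm_num) a3 b1 c1
    linarith
  · have := d1 _ 1 KP 2 (by linarith) zero_le_one (by linarith) zero_le_two (by norm_num) a1 b3 c1
    linarith
  · have := d1 _ 1 _ 4 (sq_nonneg _) zero_le_one (sq_nonneg _) (by norm_num) (by norm_num) a2 b3
      le_rfl
    linarith
  · have := d1 1 _ _ 2 zero_le_one (sq_nonneg _) (sq_nonneg _) zero_le_two (by norm_num) a3 le_rfl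
      le_rfl
    linarith
  · have := d1 1 1 _ 1 zero_le_one zero_le_one (sq_nonneg _) zero_le_one (by norm_num) a3 b3
      le_rfl
    linarith
  · have := d1 _ 1 1 4 (by linarith) zero_le_one zero_le_one (by norm_num) (by norm_num) a1 b3
      (one_le_pow₀ hKP)
    nlinarith [mul_le_mul_of_nonneg_left hP (by linarith : (0 : ℝ) ≤ 4 * K)]

lemma tau_le_one : τ ≤ 1 :=
  h.tau_le.trans (inv_le_one_of_one_le₀ (one_le_pow₀ (by linarith [h.three_le])))

lemma sqrt_tau_le_one : √τ ≤ 1 := Real.sqrt_le_one.2 h.tau_le_one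

lemma sqrt_tau_le : √τ ≤ √τ / √δ :=
  le_div_self (Real.sqrt_nonneg _) (Real.sqrt_pos.2 h.delta_pos) (Real.sqrt_le_one.2 h.delta_le)

lemma small_le_one {N : ℕ} : (R ^ N)⁻¹ ≤ 1 :=
  inv_le_one_of_one_le₀ (one_le_pow₀ (by linarith [h.three_le]))

lemma din_le_delta : √din ≤ √δ := by
  have := (div_le_iff₀ (Real.sqrt_pos.2 h.delta_pos)).1 (h.din_delta.trans h.small_le_one)
  linarith

lemma abs_κ_le : |fwdκ δ| ≤ (√δ)⁻¹ := by
  have hδ := Real.sqrt_pos.2 h.delta_pos
  rw [fwdκ, abs_neg, abs_of_nonneg (by positivity), one_div]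
  refine inv_anti₀ hδ ?_
  calc √δ = √((δ / 2) * 2) := by congr 1; ring
    _ = √(δ / 2) * √2 := Real.sqrt_mul (by have := h.delta_pos; positivity) _
    _ ≤ √(δ / 2) * 2 := mul_le_mul_of_nonneg_left
        ((Real.sqrt_le_iff).2 ⟨by norm_num, by norm_num⟩) (Real.sqrt_nonneg _)
    _ = _ := mul_comm _ _

lemma state_coef : (√(δ / 2))⁻¹ * fwdκ δ = -δ⁻¹ := by
  have hδ := h.delta_pos
  have h1 : √(δ / 2) * √(δ / 2) = δ / 2 := Real.mul_self_sqrt (by positivity)
  rw [fwdκ, mul_neg, ← div_eq_inv_mul, div_div, mul_assoc, h1, neg_inj, one_div]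
  ring_nf

lemma inv_sqrt_de_le : (√(δ / 2))⁻¹ ≤ 2 / √δ := by
  have := h.abs_κ_le
  rw [fwdκ, abs_neg, abs_of_nonneg (by positivity), one_div, mul_inv] at this
  rw [show 2 / √δ = 2 * (√δ)⁻¹ from div_eq_mul_inv _ _]
  linarith

lemma G_le : R ^ 9 * (√τ / √δ) ≤ (R ^ 11)⁻¹ := by
  refine (mul_le_mul_of_nonneg_left h.tau_delta (by have := h.R_pos; positivity)).trans (le_of_eq ?_)
  have := h.R_pos.ne'
  field_simp

variable {a b : ℝ} (g : Grid τ a b R) (ha : 0 < a) (hb : b < τ)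
  {W : Fin g.K × Fin P → ℝ} (hW : ∀ p, |W p| ≤ KP * g.len p)

include ha hb hW

lemma weight_value : ∑ q, |W q / 2| ≤ R ^ 8 * (√τ / √δ) := by
  have hR := h.R_pos
  have hR1 : (1 : ℝ) ≤ R := by linarith [h.three_le]
  have hKP := zero_le_one.trans h.one_le_KP
  have h1 := g.sum_abs_le ha hb hKP hW
  simp only [abs_div, abs_two, ← Finset.sum_div]
  calc (∑ q, |W q|) / 2 ≤ ∑ q, |W q| := half_le_self (Finset.sum_nonneg fun q _ => abs_nonneg _)
    _ ≤ R * τ := h1.trans (mul_le_mul_of_nonneg_right h.consts.1 h.tau_pos.le)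
    _ = R * (√τ * √τ) := by rw [Real.mul_self_sqrt h.tau_pos.le]
    _ ≤ R * (1 * (√τ / √δ)) := by
        gcongr
        · exact h.sqrt_tau_le_one
        · exact h.sqrt_tau_le
    _ ≤ _ := by
        rw [one_mul]
        exact mul_le_mul_of_nonneg_right (le_self_pow₀ hR1 (by norm_num)) (by positivity)

lemma weight_hess (α : ℝ) (hα : |α| ≤ (√δ)⁻¹) :
    ∑ q, |α * W q| * (diffSize P / fwdLam τ R (g.node q)) ≤ R ^ 8 * (√τ / √δ) ∧
    ∑ q, |α * W q| * diffSize P ≤ R ^ 8 * (√τ / √δ) * √τ := by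
  have hR := h.R_pos
  have hR1 : (1 : ℝ) ≤ R := by linarith [h.three_le]
  have hKP := zero_le_one.trans h.one_le_KP
  have hD := zero_le_one.trans (one_le_diffSize P)
  constructor
  · calc ∑ q, |α * W q| * (diffSize P / fwdLam τ R (g.node q))
        = |α| * (diffSize P * ∑ q, |W q| / fwdLam τ R (g.node q)) := by
          simp only [Finset.mul_sum, abs_mul]
          exact Finset.sum_congr rfl fun q _ => by ring
      _ ≤ (√δ)⁻¹ * (diffSize P * (P * KP * (R ^ 4 * √τ))) :=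
          mul_le_mul hα (mul_le_mul_of_nonneg_left
            (g.sum_div_lam_le h.two_le_P hR ha hb hKP hW) hD)
            (mul_nonneg hD (Finset.sum_nonneg fun q _ => by
              have := fwdLam_pos hR (g.node_pos h.two_le_P ha hb q).1
                (g.node_pos h.two_le_P ha hb q).2
              positivity)) (by positivity)
      _ = diffSize P * (P * KP) * R ^ 4 * (√τ / √δ) := by rw [div_eq_mul_inv]; ring
      _ ≤ R * R ^ 4 * (√τ / √δ) := by gcongr; exact h.consts.2.1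
      _ ≤ _ := by
          rw [← pow_succ']
          gcongr
          norm_num

  · calc ∑ q, |α * W q| * diffSize P = |α| * (diffSize P * ∑ q, |W q|) := by
          simp only [Finset.mul_sum, abs_mul]
          exact Finset.sum_congr rfl fun q _ => by ring
      _ ≤ (√δ)⁻¹ * (diffSize P * (P * KP * τ)) :=
          mul_le_mul hα (mul_le_mul_of_nonneg_left (g.sum_abs_le ha hb hKP hW) hD)
            (mul_nonneg hD (Finset.sum_nonneg fun q _ => abs_nonneg _)) (by positivity)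
      _ = diffSize P * (P * KP) * (√τ / √δ) * √τ := by
          nth_rewrite 1 [← Real.mul_self_sqrt h.tau_pos.le]
          rw [div_eq_mul_inv]; ring
      _ ≤ _ := by
          gcongr
          exact h.consts.2.1.trans (le_self_pow₀ hR1 (by norm_num))

lemma weight_sq (α : ℝ) :
    ∑ q, |α * W q| * (K / (fwdLam τ R (g.node q) / √din * fwdLam τ R (g.node q)))
      ≤ |α| * (R ^ 7 * √din) ∧
    ∑ q, |α * W q| * (K / (fwdLam τ R (g.node q) / √din)) ≤ |α| * (R ^ 5 * (√din * √τ)) ∧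
    ∑ q, |α * W q| * (K / fwdLam τ R (g.node q)) ≤ |α| * (R ^ 5 * √τ) := by
  have hR := h.R_pos
  have hR1 : (1 : ℝ) ≤ R := by linarith [h.three_le]
  have hKP := zero_le_one.trans h.one_le_KP
  have hd := Real.sqrt_pos.2 h.din_pos
  have hl : ∀ q, fwdLam τ R (g.node q) ≠ 0 := fun q =>
    (fwdLam_pos hR (g.node_pos h.two_le_P ha hb q).1 (g.node_pos h.two_le_P ha hb q).2).ne'
  have h1 := g.sum_div_lam_sq_le h.two_le_P hR ha hb hKP hW
  have h2 := g.sum_div_lam_le h.two_le_P hR ha hb hKP hW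
  have hK : 0 ≤ (K : ℝ) := by positivity
  have hK2 : (K : ℝ) * (P * KP) ≤ R := by
    have := h.consts.2.2.1
    have : 0 ≤ (K : ℝ) * (P * KP) := by positivity
    linarith
  refine ⟨?_, ?_, ?_⟩
  · calc ∑ q, |α * W q| * (K / (fwdLam τ R (g.node q) / √din * fwdLam τ R (g.node q)))
        = |α| * (K * √din * ∑ q, |W q| / fwdLam τ R (g.node q) ^ 2) := by
          simp only [Finset.mul_sum, abs_mul]
          refine Finset.sum_congr rfl fun q _ => ?_
          have := hl q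
          field_simp
      _ ≤ |α| * (K * √din * (2 * (P * KP) * R ^ 6)) := by gcongr
      _ = |α| * (2 * (K * (P * KP)) * R ^ 6 * √din) := by ring
      _ ≤ |α| * (R * R ^ 6 * √din) := by gcongr; exact h.consts.2.2.1
      _ = _ := by ring
  · calc ∑ q, |α * W q| * (K / (fwdLam τ R (g.node q) / √din))
        = |α| * (K * √din * ∑ q, |W q| / fwdLam τ R (g.node q)) := by
          simp only [Finset.mul_sum, abs_mul]
          refine Finset.sum_congr rfl fun q _ => ?_
          have := hl q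
          field_simp
      _ ≤ |α| * (K * √din * (P * KP * (R ^ 4 * √τ))) := by gcongr
      _ = |α| * (K * (P * KP) * R ^ 4 * (√din * √τ)) := by ring
      _ ≤ |α| * (R * R ^ 4 * (√din * √τ)) := by gcongr
      _ = _ := by ring
  · calc ∑ q, |α * W q| * (K / fwdLam τ R (g.node q))
        = |α| * (K * ∑ q, |W q| / fwdLam τ R (g.node q)) := by
          simp only [Finset.mul_sum, abs_mul]
          exact Finset.sum_congr rfl fun q _ => by ring
      _ ≤ |α| * (K * (P * KP * (R ^ 4 * √τ))) := by gcongr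
      _ = |α| * (K * (P * KP) * R ^ 4 * √τ) := by ring
      _ ≤ |α| * (R * R ^ 4 * √τ) := by gcongr
      _ = _ := by ring

lemma weight_sq_var (α : ℝ) :
    ∑ q, (α * W q) ^ 2 *
        ((K / (fwdLam τ R (g.node q) / √din * fwdLam τ R (g.node q))) ^ 2 * dout)
      ≤ (α * δ) ^ 2 * (R ^ 6)⁻¹ := by
  have hR := h.R_pos
  have hKP := zero_le_one.trans h.one_le_KP
  have hd := Real.sqrt_pos.2 h.din_pos
  have hδ := h.delta_pos
  have hdd : din / δ ≤ (R ^ (4 * n + 20))⁻¹ := by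
    have h1 := pow_le_pow_left₀ (by positivity) h.din_delta 2
    rwa [div_pow, Real.sq_sqrt h.din_pos.le, Real.sq_sqrt hδ.le, inv_pow, ← pow_mul,
      show (2 * n + 10) * 2 = 4 * n + 20 by ring] at h1
  calc ∑ q, (α * W q) ^ 2 *
        ((K / (fwdLam τ R (g.node q) / √din * fwdLam τ R (g.node q))) ^ 2 * dout)
      = α ^ 2 * (K ^ 2 * din * dout * ∑ q, (W q / fwdLam τ R (g.node q) ^ 2) ^ 2) := by
        simp only [Finset.mul_sum]
        refine Finset.sum_congr rfl fun q _ => ?_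
        have := (fwdLam_pos hR (g.node_pos h.two_le_P ha hb q).1
          (g.node_pos h.two_le_P ha hb q).2).ne'
        have e := Real.sq_sqrt h.din_pos.le
        field_simp
        rw [e]
        ring
    _ ≤ α ^ 2 * (K ^ 2 * din * (R ^ (4 * n + 4) * δ) * (4 * (P * KP ^ 2) * R ^ 9)) := by
        have := h.dout_le
        have := h.din_pos
        gcongr
        exact g.sum_sq_div_lam_sq_le h.two_le_P hR ha hb hKP hW
    _ = (α * δ) ^ 2 * (4 * (K ^ 2 * (P * KP ^ 2)) * R ^ (4 * n + 13) * (din / δ)) := by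
        field_simp
        ring
    _ ≤ (α * δ) ^ 2 * (R * R ^ (4 * n + 13) * (R ^ (4 * n + 20))⁻¹) := by
        have := h.din_pos
        gcongr
        exact h.consts.2.2.2.1
    _ = _ := by
        rw [show 4 * n + 20 = (4 * n + 13) + 7 by ring, pow_add _ (4 * n + 13) 7]
        field_simp

variable {s : ℝ} (hs : a ≤ s) (hW0 : ∀ p, s ≤ g.pt p.1 → W p = 0)

include hs hW0

lemma weight_var {vb : ℝ} (hvb : vb ≤ s / R ^ 4) :
    vb + (∑ q, (W q / 2) ^ 2) * din
      + ∑ q, (fwdκ δ * W q) ^ 2 * ((diffSize P / fwdLam τ R (g.node q)) ^ 2 * din)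
      ≤ s / R ^ 3 := by
  have hR := h.R_pos
  have hKP := zero_le_one.trans h.one_le_KP
  have hs0 : 0 ≤ s := ha.le.trans hs
  have hδ := h.delta_pos
  have hdd : din / δ ≤ (R ^ 20)⁻¹ := by
    have h1 := pow_le_pow_left₀ (by positivity) h.din_delta 2
    rw [div_pow, Real.sq_sqrt h.din_pos.le, Real.sq_sqrt hδ.le, inv_pow, ← pow_mul] at h1
    exact h1.trans (inv_anti₀ (by positivity) (pow_le_pow_right₀ (by linarith [h.three_le]) (by omega)))
  have hdin1 : din ≤ 1 := by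
    have := Real.le_sqrt h.din_pos.le hδ.le
    have h2 := pow_le_pow_left₀ (Real.sqrt_nonneg _) h.din_le_delta 2
    rw [Real.sq_sqrt h.din_pos.le, Real.sq_sqrt hδ.le] at h2
    exact h2.trans h.delta_le
  have hup : ∀ N : ℕ, R ^ N ≤ R ^ 16 → R ^ N * (R ^ 20)⁻¹ ≤ (R ^ 4)⁻¹ := fun N hN =>
    (mul_le_mul_of_nonneg_right hN (by positivity)).trans (le_of_eq (by field_simp))
  have t1 : (∑ q, (W q / 2) ^ 2) * din ≤ s / R ^ 4 := by
    calc (∑ q, (W q / 2) ^ 2) * din ≤ (∑ q, W q ^ 2) * 1 := by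
          have := h.din_pos
          refine mul_le_mul (Finset.sum_le_sum fun q _ => ?_) hdin1 this.le (by positivity)
          rw [div_pow]
          exact div_le_self (sq_nonneg _) (by norm_num)
      _ ≤ P * KP ^ 2 * (R * τ) * s := by
          rw [mul_one]
          exact g.sum_sq_le h.two_le_P hR ha hb hKP hW hs hW0 h.tau_pos.le
      _ ≤ R * (R * (R ^ 20)⁻¹) * s := by
          have := h.tau_pos
          gcongr
          · exact h.consts.2.2.2.2.2.1
          · exact h.tau_le.trans (inv_anti₀ (by positivity)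
              (pow_le_pow_right₀ (by linarith [h.three_le]) (by norm_num)))
      _ = R ^ 2 * (R ^ 20)⁻¹ * s := by ring
      _ ≤ (R ^ 4)⁻¹ * s := mul_le_mul_of_nonneg_right
          (hup 2 (pow_le_pow_right₀ (by linarith [h.three_le]) (by norm_num))) hs0
      _ = _ := by ring
  have t2 : ∑ q, (fwdκ δ * W q) ^ 2 * ((diffSize P / fwdLam τ R (g.node q)) ^ 2 * din)
      ≤ s / R ^ 4 := by
    calc ∑ q, (fwdκ δ * W q) ^ 2 * ((diffSize P / fwdLam τ R (g.node q)) ^ 2 * din)
        = fwdκ δ ^ 2 * din * (diffSize P ^ 2 * ∑ q, (W q / fwdLam τ R (g.node q)) ^ 2) := by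
          simp only [Finset.mul_sum]
          exact Finset.sum_congr rfl fun q _ => by ring
      _ ≤ δ⁻¹ * din * (diffSize P ^ 2 * (2 * (P * KP ^ 2) * R ^ 5 * s)) := by
          have := h.din_pos
          gcongr
          · rw [← sq_abs]
            refine (pow_le_pow_left₀ (abs_nonneg _) h.abs_κ_le 2).trans (le_of_eq ?_)
            rw [inv_pow, Real.sq_sqrt hδ.le]
          · exact g.sum_div_lam_sq' h.two_le_P hR ha hb hKP hW hs hW0
      _ = din / δ * (2 * (diffSize P ^ 2 * (P * KP ^ 2)) * R ^ 5) * s := by ring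
      _ ≤ (R ^ 20)⁻¹ * (R * R ^ 5) * s := by
          have := h.din_pos
          gcongr
          exact h.consts.2.2.2.2.1
      _ = R ^ 6 * (R ^ 20)⁻¹ * s := by ring
      _ ≤ (R ^ 4)⁻¹ * s := mul_le_mul_of_nonneg_right
          (hup 6 (pow_le_pow_right₀ (by linarith [h.three_le]) (by norm_num))) hs0
      _ = _ := by ring
  calc _ ≤ s / R ^ 4 + s / R ^ 4 + s / R ^ 4 := by gcongr
    _ = 3 * (s / R ^ 4) := by ring
    _ ≤ R * (s / R ^ 4) := mul_le_mul_of_nonneg_right h.three_le (by positivity)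
    _ = _ := by field_simp

end FwdSize

end Vale.Agent.P347
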