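import Vale.Agent.P347.SpecsOracle
import Vale.Agent.P347.GadgetLaws
import Vale.Agent.P347.AvgExtract

/-!
The residuals of the discretised forward path, and the first moments along it.
-/

namespace Vale.Agent.P347

open MeasureTheory ProbabilityTheory
open scoped Gradient

variable {d : ℕ} {V : Euc d → ℝ}

lemma integrable_comp_of_map {α β : Type*} [MeasurableSpace α] [MeasurableSpace β] {μ : Measure α}
    {ν : Measure β} {φ : α → β} (hφ : Measurable φ) (hmap : μ.map φ = ν) {f : β → ℝ} {B : ℝ}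
    (hf : Integrable f ν) (hB : ∫ y, f y ∂ν ≤ B) :
    Integrable (fun ω => f (φ ω)) μ ∧ ∫ ω, f (φ ω) ∂μ ≤ B := by
  subst hmap
  refine ⟨(integrable_map_measure hf.aestronglyMeasurable hφ.aemeasurable).1 hf, ?_⟩
  rwa [integral_map hφ.aemeasurable hf.aestronglyMeasurable] at hB

lemma gauss_norm_le_dimFac : ∫ η, ‖η‖ ∂(gauss d) ≤ dimFac d := by
  have h0 : (0 : ℝ) ≤ d := Nat.cast_nonneg d
  refine (gauss_integral_norm_le (d := d)).trans (Real.sqrt_le_iff.2 ⟨dimFac_nonneg d, ?_⟩)
  have h1 := one_le_dimFac d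
  have h2 : (d : ℝ) ≤ dimFac d := by
    unfold dimFac
    nlinarith [mul_nonneg h0 h0, mul_nonneg (mul_nonneg h0 h0) h0]
  nlinarith

section Residual

variable {τ low top κ s : ℝ} {Φf : PathFam} {Cf : ℕ → ℝ}

lemma FwdPath.continuous_at (hf : FwdPath τ low top κ Φf Cf) (hV : Nice d V)
    (hs : s ∈ Set.Icc low top) : Continuous (Φf d V s) :=
  (hf.continuousOn d V hV).comp_continuous (f := fun p : Euc d × Euc d × Euc d => (s, p))
    (continuous_const.prodMk continuous_id) fun _ => ⟨hs, trivial⟩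

lemma CurveBound.continuous_at {Ω : Type*} [TopologicalSpace Ω] [MeasurableSpace Ω]
    {μ : Measure Ω} {a b : ℝ} {G : ℝ → Ω → Euc d} {B : ℕ → ℝ → ℝ} (h : CurveBound μ a b G B)
    {u : ℝ} (hu : u ∈ Set.Icc a b) : Continuous (G u) :=
  h.continuousOn.comp_continuous (f := fun p : Ω => (u, p))
    (continuous_const.prodMk continuous_id) fun _ => ⟨hu, trivial⟩

lemma intervalIntegrable_weight_curve {Ω : Type*} [TopologicalSpace Ω] [MeasurableSpace Ω]
    {μ : Measure Ω} {G : ℝ → Ω → Euc d} {B : ℕ → ℝ → ℝ} (h : CurveBound μ low top G B)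
    (hs : s ∈ Set.Icc low top) (hτ : top < τ) (p : Ω) :
    IntervalIntegrable (fun u => √((τ - s) / (τ - u)) • G u p) volume low s := by
  refine ContinuousOn.intervalIntegrable ?_
  rw [Set.uIcc_of_le hs.1]
  have hsub : Set.Icc low s ⊆ Set.Icc low top := Set.Icc_subset_Icc_right hs.2
  refine ContinuousOn.smul (Real.continuous_sqrt.comp_continuousOn
    (continuousOn_const.div (by fun_prop) fun u hu => ?_)) ?_
  · have := (hsub hu).2
    linarith
  · exact (h.continuousOn.comp (f := fun u : ℝ => (u, p)) (by fun_prop)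
      fun u hu => ⟨hu, trivial⟩).mono hsub

variable {ι : Type*} [Fintype ι] {node : ι → ℝ}

/-- The position equation against the quadrature. -/
lemma fwd_pos_identity (hf : FwdPath τ low top κ Φf Cf) (hV : Nice d V) (hτ : top < τ)
    (hs : s ∈ Set.Icc low top) (p : Euc d × Euc d × Euc d) (A B : Euc d) :
    p.1 + √((τ - s) / (τ - low)) • (p.2.1 - p.1) + (1 / 2 : ℝ) • A + κ • B - (Φf d V s p).1
      = (1 / 2 : ℝ) • (A - ∫ u in low..s, √((τ - s) / (τ - u)) • score V u (Φf d V u p).1)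
        + κ • (B - ∫ u in low..s, √((τ - s) / (τ - u)) •
            hessAvg V u 0 (Φf d V u p).1 (Φf d V u p).2) := by
  have hi1 := (intervalIntegrable_weight_curve (hf.score_bound d V hV) hs hτ p).smul (1 / 2 : ℝ)
  have hi2 := (intervalIntegrable_weight_curve (hf.hess_bound d V hV) hs hτ p).smul κ
  have e : ∀ u : ℝ, √((τ - s) / (τ - u)) • ((1 / 2 : ℝ) • score V u (Φf d V u p).1
        + κ • hessAvg V u 0 (Φf d V u p).1 (Φf d V u p).2)
      = (1 / 2 : ℝ) • √((τ - s) / (τ - u)) • score V u (Φf d V u p).1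
        + κ • √((τ - s) / (τ - u)) • hessAvg V u 0 (Φf d V u p).1 (Φf d V u p).2 := fun u => by
    rw [smul_add, smul_comm _ (1 / 2 : ℝ), smul_comm _ κ]
  rw [hf.pos_eq d V hV p s hs]
  simp only [e]
  have hj1 : IntervalIntegrable (fun u => (1 / 2 : ℝ) • √((τ - s) / (τ - u)) •
      score V u (Φf d V u p).1) volume low s := hi1
  have hj2 : IntervalIntegrable (fun u => κ • √((τ - s) / (τ - u)) •
      hessAvg V u 0 (Φf d V u p).1 (Φf d V u p).2) volume low s := hi2
  rw [intervalIntegral.integral_add hj1 hj2, intervalIntegral.integral_smul,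
    intervalIntegral.integral_smul, smul_sub (1 / 2 : ℝ), smul_sub κ]
  abel

/-- The residual of the position equation. -/
lemma fwd_pos_residual (hf : FwdPath τ low top κ Φf Cf) (hV : Nice d V) (hτ : top < τ)
    (hs : s ∈ Set.Icc low top) (hnode : ∀ q, node q ∈ Set.Icc low top) (W : ι → ℝ) {ρ : ℝ}
    (h1 : Integrable (fun p => ‖∑ q, W q • score V (node q) (Φf d V (node q) p).1
        - ∫ u in low..s, √((τ - s) / (τ - u)) • score V u (Φf d V u p).1‖) (pathLaw V τ low) ∧
      ∫ p, ‖∑ q, W q • score V (node q) (Φf d V (node q) p).1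
        - ∫ u in low..s, √((τ - s) / (τ - u)) • score V u (Φf d V u p).1‖ ∂(pathLaw V τ low) ≤ ρ)
    (h2 : Integrable (fun p => ‖∑ q, W q • hessAvg V (node q) 0 (Φf d V (node q) p).1
          (Φf d V (node q) p).2
        - ∫ u in low..s, √((τ - s) / (τ - u)) •
          hessAvg V u 0 (Φf d V u p).1 (Φf d V u p).2‖) (pathLaw V τ low) ∧
      ∫ p, ‖∑ q, W q • hessAvg V (node q) 0 (Φf d V (node q) p).1 (Φf d V (node q) p).2
        - ∫ u in low..s, √((τ - s) / (τ - u)) •
          hessAvg V u 0 (Φf d V u p).1 (Φf d V u p).2‖ ∂(pathLaw V τ low) ≤ ρ) :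
    Integrable (fun p : Euc d × Euc d × Euc d => ‖p.1 + √((τ - s) / (τ - low)) • (p.2.1 - p.1)
        + ∑ q, (W q / 2) • score V (node q) (Φf d V (node q) p).1
        + ∑ q, (κ * W q) • hessAvg V (node q) 0 (Φf d V (node q) p).1 (Φf d V (node q) p).2
        - (Φf d V s p).1‖) (pathLaw V τ low) ∧
    ∫ p : Euc d × Euc d × Euc d, ‖p.1 + √((τ - s) / (τ - low)) • (p.2.1 - p.1)
        + ∑ q, (W q / 2) • score V (node q) (Φf d V (node q) p).1
        + ∑ q, (κ * W q) • hessAvg V (node q) 0 (Φf d V (node q) p).1 (Φf d V (node q) p).2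
        - (Φf d V s p).1‖ ∂(pathLaw V τ low) ≤ (1 / 2 + |κ|) * ρ := by
  set f : Euc d × Euc d × Euc d → Euc d := fun p => p.1 + √((τ - s) / (τ - low)) • (p.2.1 - p.1)
        + ∑ q, (W q / 2) • score V (node q) (Φf d V (node q) p).1
        + ∑ q, (κ * W q) • hessAvg V (node q) 0 (Φf d V (node q) p).1 (Φf d V (node q) p).2
        - (Φf d V s p).1 with hfdef
  have hc1 := hf.score_bound d V hV
  have hc2 := hf.hess_bound d V hV
  have k1 : ∀ q, Continuous fun p : Euc d × Euc d × Euc d =>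
      (W q / 2) • score V (node q) (Φf d V (node q) p).1 := fun q =>
    Continuous.const_smul (M := ℝ) (hc1.continuous_at (hnode q)) (W q / 2)
  have k2 : ∀ q, Continuous fun p : Euc d × Euc d × Euc d =>
      (κ * W q) • hessAvg V (node q) 0 (Φf d V (node q) p).1 (Φf d V (node q) p).2 := fun q =>
    Continuous.const_smul (M := ℝ) (hc2.continuous_at (hnode q)) (κ * W q)
  have k0 : Continuous fun p : Euc d × Euc d × Euc d =>
      p.1 + √((τ - s) / (τ - low)) • (p.2.1 - p.1) := by fun_prop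
  have hcont : Continuous f := by
    rw [hfdef]
    exact ((k0.add (continuous_finsetSum Finset.univ fun q _ => k1 q)).add
      (continuous_finsetSum Finset.univ fun q _ => k2 q)).sub (hf.continuous_at hV hs).fst
  have hpt : ∀ p, ‖f p‖ ≤ 1 / 2 * ‖∑ q, W q • score V (node q) (Φf d V (node q) p).1
        - ∫ u in low..s, √((τ - s) / (τ - u)) • score V u (Φf d V u p).1‖
      + |κ| * ‖∑ q, W q • hessAvg V (node q) 0 (Φf d V (node q) p).1 (Φf d V (node q) p).2
        - ∫ u in low..s, √((τ - s) / (τ - u)) •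
          hessAvg V u 0 (Φf d V u p).1 (Φf d V u p).2‖ := by
    intro p
    have e : f p = (1 / 2 : ℝ) • (∑ q, W q • score V (node q) (Φf d V (node q) p).1
          - ∫ u in low..s, √((τ - s) / (τ - u)) • score V u (Φf d V u p).1)
        + κ • (∑ q, W q • hessAvg V (node q) 0 (Φf d V (node q) p).1 (Φf d V (node q) p).2
          - ∫ u in low..s, √((τ - s) / (τ - u)) •
            hessAvg V u 0 (Φf d V u p).1 (Φf d V u p).2) := by
      rw [← fwd_pos_identity hf hV hτ hs p, Finset.smul_sum, Finset.smul_sum, hfdef]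
      simp only [smul_smul]
      rw [Finset.sum_congr rfl fun q (_ : q ∈ Finset.univ) =>
        congrArg (fun c : ℝ => c • score V (node q) (Φf d V (node q) p).1)
          (show 1 / 2 * W q = W q / 2 by ring)]
    rw [e]
    refine (norm_add_le _ _).trans (le_of_eq ?_)
    rw [norm_smul, norm_smul, Real.norm_eq_abs, Real.norm_eq_abs,
      abs_of_pos (by norm_num : (0 : ℝ) < 1 / 2)]
  have hg := (h1.1.const_mul (1 / 2)).add (h2.1.const_mul |κ|)
  have hint : Integrable (fun p => ‖f p‖) (pathLaw V τ low) :=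
    hg.mono' hcont.norm.aestronglyMeasurable (.of_forall fun p => by
      rw [norm_norm]; exact hpt p)
  refine ⟨hint, (integral_mono hint hg hpt).trans ?_⟩
  rw [integral_add' (h1.1.const_mul _) (h2.1.const_mul _), integral_const_mul, integral_const_mul,
    add_mul]
  gcongr
  · exact h1.2
  · exact h2.2

/-- The residual of the gadget equation. -/
lemma fwd_gadget_residual (hf : FwdPath τ low top κ Φf Cf) (hV : Nice d V)
    (hs : s ∈ Set.Icc low top) {r : ℝ} (hr : -(1 / (2 * κ)) = r) (W : ι → ℝ) (c : ℝ) {ρ : ℝ}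
    (h3 : Integrable (fun p => ‖∑ q, W q • hessAvg V (node q) 0 (Φf d V (node q) p).1
          (hessAvg V (node q) 0 (Φf d V (node q) p).1 (Φf d V (node q) p).2)
        - ∫ u in low..s, hessAvg V u 0 (Φf d V u p).1
          (hessAvg V u 0 (Φf d V u p).1 (Φf d V u p).2)‖) (pathLaw V τ low) ∧
      ∫ p, ‖∑ q, W q • hessAvg V (node q) 0 (Φf d V (node q) p).1
          (hessAvg V (node q) 0 (Φf d V (node q) p).1 (Φf d V (node q) p).2)
        - ∫ u in low..s, hessAvg V u 0 (Φf d V u p).1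
          (hessAvg V u 0 (Φf d V u p).1 (Φf d V u p).2)‖ ∂(pathLaw V τ low) ≤ ρ) :
    Integrable (fun p : Euc d × Euc d × Euc d => ‖c • (r • p.2.2 + score V low p.2.1
        + ∑ q, (κ * W q) • hessAvg V (node q) 0 (Φf d V (node q) p).1
          (hessAvg V (node q) 0 (Φf d V (node q) p).1 (Φf d V (node q) p).2)
        - (r • (Φf d V s p).2 + score V s (Φf d V s p).1))‖) (pathLaw V τ low) ∧
    ∫ p : Euc d × Euc d × Euc d, ‖c • (r • p.2.2 + score V low p.2.1
        + ∑ q, (κ * W q) • hessAvg V (node q) 0 (Φf d V (node q) p).1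
          (hessAvg V (node q) 0 (Φf d V (node q) p).1 (Φf d V (node q) p).2)
        - (r • (Φf d V s p).2 + score V s (Φf d V s p).1))‖ ∂(pathLaw V τ low)
      ≤ |c * κ| * ρ := by
  subst hr
  have e : ∀ p : Euc d × Euc d × Euc d, ‖c • ((-(1 / (2 * κ))) • p.2.2 + score V low p.2.1
        + ∑ q, (κ * W q) • hessAvg V (node q) 0 (Φf d V (node q) p).1
          (hessAvg V (node q) 0 (Φf d V (node q) p).1 (Φf d V (node q) p).2)
        - ((-(1 / (2 * κ))) • (Φf d V s p).2 + score V s (Φf d V s p).1))‖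
      = |c * κ| * ‖∑ q, W q • hessAvg V (node q) 0 (Φf d V (node q) p).1
          (hessAvg V (node q) 0 (Φf d V (node q) p).1 (Φf d V (node q) p).2)
        - ∫ u in low..s, hessAvg V u 0 (Φf d V u p).1
          (hessAvg V u 0 (Φf d V u p).1 (Φf d V u p).2)‖ := by
    intro p
    rw [hf.gadget_eq d V hV p s hs, add_sub_add_left_eq_sub, ← Real.norm_eq_abs, ← norm_smul,
      mul_smul, smul_sub κ, Finset.smul_sum]
    simp only [smul_smul]
  simp only [e]
  refine ⟨h3.1.const_mul _, ?_⟩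
  rw [integral_const_mul]
  exact mul_le_mul_of_nonneg_left h3.2 (abs_nonneg _)

end Residual

section Moments

variable {τ s₁ low s κ : ℝ} {Φb Φf : PathFam} {Cb Cf : ℕ → ℝ}

/-- The distance of the start of the iteration from the forward path. -/
lemma fwd_start_moment (hb : BackPath τ low (τ - s₁) Φb Cb)
    (hf : FwdPath τ low (τ - s₁) κ Φf Cf) (hV : Nice d V) (hlow : 0 ≤ low)
    (hab : low ≤ τ - s₁) (h0 : 0 < s₁) (h1 : s₁ ≤ τ) (hs : s ∈ Set.Icc low (τ - s₁)) {CL : ℝ}
    (hmom : ∀ t ∈ Set.Icc low τ, Integrable (fun y => ‖y‖) (levelLaw V t) ∧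
      ∫ y, ‖y‖ ∂(levelLaw V t) ≤ CL * dimFac d) {θ : ℝ} (hθ0 : 0 ≤ θ) (hθ1 : θ ≤ 1) :
    (Integrable (fun ω => ‖ω.1 + θ • ((Φb d V low (backPt s₁ ω)).1 - ω.1)
        - (Φf d V s (fwdStart s₁ low Φb d V ω)).1‖) (gadgetLaw τ s₁ d V) ∧
      ∫ ω, ‖ω.1 + θ • ((Φb d V low (backPt s₁ ω)).1 - ω.1)
        - (Φf d V s (fwdStart s₁ low Φb d V ω)).1‖ ∂(gadgetLaw τ s₁ d V)
        ≤ 3 * CL * dimFac d) ∧
    (Integrable (fun ω => ‖(0 : Euc d) - (Φf d V s (fwdStart s₁ low Φb d V ω)).2‖)
        (gadgetLaw τ s₁ d V) ∧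
      ∫ ω, ‖(0 : Euc d) - (Φf d V s (fwdStart s₁ low Φb d V ω)).2‖ ∂(gadgetLaw τ s₁ d V)
        ≤ 1 * dimFac d) := by
  have hlowτ : low ≤ τ := hab.trans (sub_le_self τ h0.le)
  obtain ⟨hmf, hmapf⟩ := hf.gadgetLaw_pass hb hV hlow hab h0 h1 hs
  obtain ⟨hmb, hmapb⟩ := hb.gadgetLaw_pass hV hlow h0 h1 (Set.left_mem_Icc.2 hab)
  have hpr : ∀ t, 0 ≤ t → IsProbabilityMeasure (levelLaw V t) := fun t ht =>
    isProbabilityMeasure_levelLaw hV.pot ht
  have := hpr s (hlow.trans hs.1)
  have := hpr low hlow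
  have hXf : (gadgetLaw τ s₁ d V).map (fun ω => (Φf d V s (fwdPt low s₁ Φb V ω)).1)
      = levelLaw V s := by
    have h := congrArg (Measure.map Prod.fst) hmapf
    rw [Measure.map_map measurable_fst hmf, Measure.map_fst_prod, measure_univ, one_smul] at h
    exact h
  have hξf : (gadgetLaw τ s₁ d V).map (fun ω => (Φf d V s (fwdPt low s₁ Φb V ω)).2)
      = gauss d := by
    have h := congrArg (Measure.map (Prod.snd ∘ Prod.snd)) hmapf
    rw [Measure.map_map (measurable_snd.comp measurable_snd) hmf,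
      ← Measure.map_map measurable_snd measurable_snd, Measure.map_snd_prod, measure_univ,
      one_smul, Measure.map_snd_prod, measure_univ, one_smul] at h
    exact h
  have hXb : (gadgetLaw τ s₁ d V).map (fun ω => (Φb d V low (backPt s₁ ω)).1)
      = levelLaw V low := by
    have h := congrArg (Measure.map Prod.fst) hmapb
    rw [Measure.map_map measurable_fst hmb, Measure.map_fst_prod, measure_univ, one_smul] at h
    exact h
  have hA := integrable_comp_of_map measurable_fst (gadgetLaw_map_anchor hV.pot h0 h1)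
    (hmom τ ⟨hlowτ, le_rfl⟩).1 (hmom τ ⟨hlowτ, le_rfl⟩).2
  have hB := integrable_comp_of_map hmb.fst hXb (hmom low ⟨le_rfl, hlowτ⟩).1
    (hmom low ⟨le_rfl, hlowτ⟩).2
  have hs' : s ∈ Set.Icc low τ := ⟨hs.1, hs.2.trans (sub_le_self τ h0.le)⟩
  have hC := integrable_comp_of_map hmf.fst hXf (hmom s hs').1 (hmom s hs').2
  have hD := integrable_comp_of_map hmf.snd.snd hξf gauss_integrable_norm gauss_norm_le_dimFac
  refine ⟨?_, ?_⟩
  · have hpt : ∀ ω : Rand d, ‖ω.1 + θ • ((Φb d V low (backPt s₁ ω)).1 - ω.1)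
        - (Φf d V s (fwdStart s₁ low Φb d V ω)).1‖
        ≤ ‖ω.1‖ + ‖(Φb d V low (backPt s₁ ω)).1‖
          + ‖(Φf d V s (fwdPt low s₁ Φb V ω)).1‖ := by
      intro ω
      refine (norm_sub_le _ _).trans (add_le_add ?_ le_rfl)
      have e : ω.1 + θ • ((Φb d V low (backPt s₁ ω)).1 - ω.1)
          = (1 - θ) • ω.1 + θ • (Φb d V low (backPt s₁ ω)).1 := by
        rw [smul_sub, sub_smul, one_smul]; abel
      rw [e]
      refine (norm_add_le _ _).trans ?_
      rw [norm_smul, norm_smul, Real.norm_eq_abs, Real.norm_eq_abs, abs_of_nonneg hθ0,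
        abs_of_nonneg (by linarith : 0 ≤ 1 - θ)]
      exact add_le_add (mul_le_of_le_one_left (norm_nonneg _) (by linarith))
        (mul_le_of_le_one_left (norm_nonneg _) hθ1)
    have hg := (hA.1.add hB.1).add hC.1
    have hint := hg.mono' ((measurable_fst.add ((hmb.fst.sub measurable_fst).const_smul θ)).sub
        hmf.fst).norm.aestronglyMeasurable (.of_forall fun ω => by
        rw [norm_norm]; exact hpt ω)
    refine ⟨hint, (integral_mono hint hg hpt).trans ?_⟩
    rw [integral_add' (hA.1.add hB.1) hC.1, integral_add' hA.1 hB.1]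
    linarith [hA.2, hB.2, hC.2]
  · simp only [zero_sub, norm_neg, one_mul]
    exact hD

end Moments

end Vale.Agent.P347
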