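import Vale.Agent.P347.ForwardIterate
import Vale.Agent.P347.ForwardBounds
import Vale.Agent.P347.ForwardResidual

/-!
The forward pass at given values of all parameters.
-/

namespace Vale.Agent.P347

open MeasureTheory ProbabilityTheory
open scoped Gradient

/-- What the forward pass needs of the facts about the levels on `[low, τ]`. -/
structure FwdLevels (low τ CL : ℝ) : Prop where
  hess : ∀ d V, Nice d V → ∀ t ∈ Set.Icc low τ,
    Continuous (hessAvg V t 0) ∧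
      (∀ y a b, inner ℝ (hessAvg V t 0 y a) b = inner ℝ a (hessAvg V t 0 y b)) ∧
      ∀ y, ‖hessAvg V t 0 y‖ ≤ 2
  moment : ∀ d V, Nice d V → ∀ t ∈ Set.Icc low τ, Integrable (fun y => ‖y‖) (levelLaw V t) ∧
    ∫ y, ‖y‖ ∂(levelLaw V t) ≤ CL * dimFac d

/-- The discretised equations of a forward path hold up to `ρ`. -/
def FwdQuad (τ low top KP R ρ : ℝ) (g : Grid τ low top R) (P : ℕ) (Φf : PathFam) : Prop :=
  ∀ s ∈ Set.Icc low top, ∃ W W₁ : Fin g.K × Fin P → ℝ,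
    (∀ p, |W p| ≤ KP * g.len p ∧ |W₁ p| ≤ KP * g.len p) ∧
    (∀ p, s ≤ g.pt p.1 → W p = 0) ∧
    ∀ d V, Nice d V →
      (Integrable (fun p => ‖∑ q, W q • score V (g.node q) (Φf d V (g.node q) p).1
          - ∫ u in low..s, √((τ - s) / (τ - u)) • score V u (Φf d V u p).1‖) (pathLaw V τ low) ∧
        ∫ p, ‖∑ q, W q • score V (g.node q) (Φf d V (g.node q) p).1
          - ∫ u in low..s, √((τ - s) / (τ - u)) • score V u (Φf d V u p).1‖ ∂(pathLaw V τ low)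
          ≤ ρ * dimFac d) ∧
      (Integrable (fun p => ‖∑ q, W q • hessAvg V (g.node q) 0 (Φf d V (g.node q) p).1
            (Φf d V (g.node q) p).2
          - ∫ u in low..s, √((τ - s) / (τ - u)) •
            hessAvg V u 0 (Φf d V u p).1 (Φf d V u p).2‖) (pathLaw V τ low) ∧
        ∫ p, ‖∑ q, W q • hessAvg V (g.node q) 0 (Φf d V (g.node q) p).1 (Φf d V (g.node q) p).2
          - ∫ u in low..s, √((τ - s) / (τ - u)) •
            hessAvg V u 0 (Φf d V u p).1 (Φf d V u p).2‖ ∂(pathLaw V τ low) ≤ ρ * dimFac d) ∧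
      (Integrable (fun p => ‖∑ q, W₁ q • hessAvg V (g.node q) 0 (Φf d V (g.node q) p).1
            (hessAvg V (g.node q) 0 (Φf d V (g.node q) p).1 (Φf d V (g.node q) p).2)
          - ∫ u in low..s, hessAvg V u 0 (Φf d V u p).1
            (hessAvg V u 0 (Φf d V u p).1 (Φf d V u p).2)‖) (pathLaw V τ low) ∧
        ∫ p, ‖∑ q, W₁ q • hessAvg V (g.node q) 0 (Φf d V (g.node q) p).1
            (hessAvg V (g.node q) 0 (Φf d V (g.node q) p).1 (Φf d V (g.node q) p).2)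
          - ∫ u in low..s, hessAvg V u 0 (Φf d V u p).1
            (hessAvg V u 0 (Φf d V u p).1 (Φf d V u p).2)‖ ∂(pathLaw V τ low) ≤ ρ * dimFac d)

/-- The operators at the levels of the nodes. -/
def FwdOps (τ low top R din dout ε Ein Eout : ℝ) (P Qop : ℕ) : Prop :=
  ∀ t ∈ Set.Icc low top,
    (∃ op, OpOK op Qop ε (scoreFam t) (levelFam t) (t / R ^ 3) din Ein) ∧
    Extractor P (levelFam t) (hessFam t 0) (fwdLam τ R t) (t / R ^ 2) din Qop ε Ein ∧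
    Extractor P (levelFam t) (hessFam t 0) (fwdLam τ R t) (t / R ^ 2) dout Qop ε Eout

/-- Everything the forward pass is given. -/
structure FwdData (n K P : ℕ) where
  /-- query bound of the operators -/
  Qop : ℕ
  /-- query bound of the backward body -/
  Qb : ℕ
  /-- query bound of the start -/
  Qg : ℕ
  /-- constants and parameters -/
  (KP CL R τ δ din dout low s₁ ε Ein Eout eb eG ρ tiny S S₀ cG : ℝ)
  /-- the sizes -/
  size : FwdSize n K P KP R τ δ din dout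
  low_pos : 0 < low
  low_lt : low < τ - s₁
  gap_pos : 0 < s₁
  eps_nonneg : 0 ≤ ε
  eps_le : ε ≤ 1 / 10
  ein_nonneg : 0 ≤ Ein
  eout_nonneg : 0 ≤ Eout
  CL_nonneg : 0 ≤ CL
  eb_nonneg : 0 ≤ eb
  eG_nonneg : 0 ≤ eG
  tiny_nonneg : 0 ≤ tiny
  rho_nonneg : 0 ≤ ρ
  levels : FwdLevels low τ CL
  /-- the grid -/
  g : Grid τ low (τ - s₁) R
  /-- the backward path -/
  Φb : PathFam
  /-- the forward path -/
  Φf : PathFam
  /-- the constants of the backward path -/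
  Cb : ℕ → ℝ
  /-- the constants of the forward path -/
  Cf : ℕ → ℝ
  back : BackPath τ low (τ - s₁) Φb Cb
  fwd : FwdPath τ low (τ - s₁) (fwdκ δ) Φf Cf
  quad : FwdQuad τ low (τ - s₁) KP R ρ g P Φf
  ops : FwdOps τ low (τ - s₁) R din dout ε Ein Eout P Qop
  small : ∀ t ∈ Set.Icc low (τ - s₁), (K : ℝ) * (fwdLam τ R t / √din) ≤ 1 / 2 ∧
      (fwdLam τ R t / √din) ^ P + ((K : ℝ) * (fwdLam τ R t / √din)) ^ n ≤ tiny
  /-- the backward body -/
  Tb : Body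
  back_node : Node (gadgetLaw τ s₁) 0 Tb Qb 1 (√(τ - low)) R⁻¹ 1
      (fun d V ω => (Φb d V low (backPt s₁ ω)).1) (low / R ^ 4) eb
  /-- the body of the start -/
  T₀ : Body
  start_node : Node (gadgetLaw τ s₁) 0 T₀ Qg (3 / 2) cG S S₀
      (fun d V ω => score V low (Φb d V low (backPt s₁ ω)).1) (δ / 4) eG
  S_le : S ≤ 5
  S₀_le : |cG| + S₀ ≤ 9

namespace FwdData

variable {n K P : ℕ} (D : FwdData n K P)

lemma gap_le : D.s₁ ≤ D.τ := by linarith [D.low_pos, D.low_lt]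

lemma node_mem (p : Fin D.g.K × Fin P) : D.g.node p ∈ Set.Icc D.low (D.τ - D.s₁) :=
  D.g.node_mem D.size.two_le_P p

lemma node_pos (p : Fin D.g.K × Fin P) : 0 < D.g.node p ∧ D.g.node p < D.τ :=
  D.g.node_pos D.size.two_le_P D.low_pos (sub_lt_self D.τ D.gap_pos) p

/-- The value weights at the nodes. -/
noncomputable def W (p : Fin D.g.K × Fin P) : Fin D.g.K × Fin P → ℝ :=
  (D.quad (D.g.node p) (D.node_mem p)).choose

/-- The weights of the squared Hessians at the nodes. -/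
noncomputable def W₁ (p : Fin D.g.K × Fin P) : Fin D.g.K × Fin P → ℝ :=
  (D.quad (D.g.node p) (D.node_mem p)).choose_spec.choose

lemma weights (p : Fin D.g.K × Fin P) :
    (∀ q, |D.W p q| ≤ D.KP * D.g.len q ∧ |D.W₁ p q| ≤ D.KP * D.g.len q) ∧
    ∀ q, D.g.node p ≤ D.g.pt q.1 → D.W p q = 0 :=
  ⟨(D.quad (D.g.node p) (D.node_mem p)).choose_spec.choose_spec.1,
    (D.quad (D.g.node p) (D.node_mem p)).choose_spec.choose_spec.2.1⟩

/-- The share of the backward body at a node. -/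
noncomputable def θ (p : Fin D.g.K × Fin P) : ℝ := √((D.τ - D.g.node p) / (D.τ - D.low))

lemma θ_mem (p : Fin D.g.K × Fin P) : 0 ≤ D.θ p ∧ D.θ p ≤ 1 := by
  have h1 := (D.node_mem p).1
  have h2 := (D.node_pos p).2
  exact ⟨Real.sqrt_nonneg _, Real.sqrt_le_one.2 ((div_le_one (by linarith)).2 (by linarith))⟩

/-- The anchor part at a node. -/
noncomputable def base (p : Fin D.g.K × Fin P) : VarFam := fun d V ω =>
  ω.1 + D.θ p • ((D.Φb d V D.low (backPt D.s₁ ω)).1 - ω.1)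

lemma base_node (p : Fin D.g.K × Fin P) :
    ∃ T, Node (gadgetLaw D.τ D.s₁) 0 T (max (1 + D.Qb) D.Qg) 1 (√(D.τ - D.g.node p)) 1 1
      (D.base p) (D.low / D.R ^ 4) D.eb := by
  obtain ⟨hθ0, hθ1⟩ := D.θ_mem p
  have h1 := (D.node_mem p).1
  have h2 := (D.node_pos p).2
  have hR := D.size.R_pos
  have hlow := D.low_pos
  have hc : D.θ p * √(D.τ - D.low) = √(D.τ - D.g.node p) := by
    rw [θ, ← Real.sqrt_mul (div_nonneg (by linarith) (by linarith)),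
      div_mul_cancel₀ _ (by linarith)]
  obtain ⟨T, hT⟩ := Node.comb3 (Node.anchor (P := gadgetLaw D.τ D.s₁) le_rfl) D.back_node
    (Node.noise le_rfl) (1 - D.θ p) (D.θ p) 0 (X := D.base p)
    (fun d V _ ω => by simp only [base, smul_sub, sub_smul, one_smul, zero_smul, add_zero]; abel)
    (c := 1) (c₀ := √(D.τ - D.g.node p)) (v := D.low / D.R ^ 4) (by ring)
    (by rw [mul_zero, zero_add, hc])
    (by
      rw [abs_one, mul_one, mul_one, abs_of_nonneg (by linarith), abs_of_nonneg hθ0]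
      linarith)
    (by
      rw [mul_zero, zero_add, mul_zero, add_zero]
      exact mul_le_of_le_one_left (by positivity) (pow_le_one₀ hθ0 hθ1))
  have hRi : D.R⁻¹ ≤ 1 := inv_le_one_of_one_le₀ (by linarith [D.size.three_le])
  refine ⟨T, hT.mono (by omega) ?_ ?_ ?_⟩
  · simp only [abs_zero, mul_zero, zero_add, add_zero, abs_of_nonneg hθ0]
    exact mul_le_one₀ hθ1 (by positivity) hRi
  · simp only [abs_zero, mul_zero, zero_add, add_zero, abs_of_nonneg hθ0, mul_one]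
    exact hθ1
  · simp only [abs_zero, mul_zero, zero_add, add_zero, abs_of_nonneg hθ0]
    exact mul_le_of_le_one_left D.eb_nonneg hθ1

lemma room_le {R τ t din : ℝ} {K : ℕ} (hR : 3 ≤ R) (hK : 4 * (K : ℝ) ≤ R) (hd : 0 < din)
    (h1 : 0 < t) (h2 : t < τ) :
    t / R ^ 3 + fwdLam τ R t ^ 2 *
      ((K : ℝ) * (1 + (fwdLam τ R t / √din) ^ 2 * (din / fwdLam τ R t ^ 2))) ≤ t / R ^ 2 := by
  have hR0 : 0 < R := by linarith
  have hl := fwdLam_pos hR0 h1 h2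
  have e : (fwdLam τ R t / √din) ^ 2 * (din / fwdLam τ R t ^ 2) = 1 := by
    rw [div_pow, Real.sq_sqrt hd.le]
    field_simp
  rw [e]
  calc t / R ^ 3 + fwdLam τ R t ^ 2 * ((K : ℝ) * (1 + 1))
      ≤ t / R ^ 3 + t / R ^ 4 * ((K : ℝ) * (1 + 1)) := by
        gcongr
        exact fwdLam_sq_le hR0 h1 h2
    _ = t / R ^ 2 * (R⁻¹ + 2 * K / R ^ 2) := by field_simp; ring
    _ ≤ t / R ^ 2 * 1 := by
        refine mul_le_mul_of_nonneg_left ?_ (by positivity)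
        have h5 : 2 * (K : ℝ) / R ^ 2 ≤ 1 / 6 := by
          rw [div_le_iff₀ (by positivity)]
          nlinarith
        have h6 : R⁻¹ ≤ 1 / 3 := by rw [one_div]; exact inv_anti₀ (by norm_num) hR
        linarith
    _ = _ := mul_one _

/-- The environment of the iteration. -/
noncomputable def env : FwdEnv (gadgetLaw D.τ D.s₁) P n K (Fin D.g.K × Fin P) where
  X p d V ω := (D.Φf d V (D.g.node p) (fwdStart D.s₁ D.low D.Φb d V ω)).1
  Ξ p d V ω := (D.Φf d V (D.g.node p) (fwdStart D.s₁ D.low D.Φb d V ω)).2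
  c₀ p := √(D.τ - D.g.node p)
  vy p := D.g.node p / D.R ^ 3
  g p := scoreFam (D.g.node p)
  μ p := levelFam (D.g.node p)
  H p := hessFam (D.g.node p) 0
  lam p := fwdLam D.τ D.R (D.g.node p)
  κr p := fwdLam D.τ D.R (D.g.node p) / √D.din
  v₀ p := D.g.node p / D.R ^ 2
  δin := D.din
  δout := D.dout
  Ein := D.Ein
  Eout := D.Eout
  ε := D.ε
  Qop := D.Qop
  W := D.W
  W₁ := D.W₁
  κ := fwdκ D.δ
  δe := D.δ / 2
  Base := D.base
  vb _ := D.low / D.R ^ 4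
  sb := 1
  eb := D.eb
  G₀ d V ω := score V D.low (D.Φb d V D.low (backPt D.s₁ ω)).1
  δc := D.δ / 4
  sG := 9
  eG := D.eG
  Qfix := max (1 + D.Qb) D.Qg
  eps_nonneg := D.eps_nonneg
  eps_le := D.eps_le
  din_nonneg := D.size.din_pos.le
  dout_nonneg := D.size.dout_nonneg
  ein_nonneg := D.ein_nonneg
  eout_nonneg := D.eout_nonneg
  de_pos := half_pos D.size.delta_pos
  vy_nonneg p := div_nonneg (D.node_pos p).1.le (pow_nonneg D.size.R_pos.le 3)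
  abs_c₀ p := by
    rw [abs_of_nonneg (Real.sqrt_nonneg _)]
    exact Real.sqrt_le_one.2 (by linarith [(D.node_pos p).1, D.size.tau_le_one])
  lam_pos p := fwdLam_pos D.size.R_pos (D.node_pos p).1 (D.node_pos p).2
  kr_pos p := div_pos (fwdLam_pos D.size.R_pos (D.node_pos p).1 (D.node_pos p).2)
    (Real.sqrt_pos.2 D.size.din_pos)
  two_le := D.size.two_le_P
  eval p := (D.ops _ (D.node_mem p)).1
  extIn p := (D.ops _ (D.node_mem p)).2.1
  extOut p := (D.ops _ (D.node_mem p)).2.2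
  room p := room_le D.size.three_le D.size.consts.2.2.2.2.2.2 D.size.din_pos (D.node_pos p).1
    (D.node_pos p).2
  small p := (D.small _ (D.node_mem p)).1
  hess p d V hV := ⟨isProbabilityMeasure_levelLaw hV.pot (D.node_pos p).1.le,
    isProbabilityMeasure_gadgetLaw hV.pot D.gap_le,
    D.levels.hess d V hV _ ⟨(D.node_mem p).1, (D.node_pos p).2.le⟩⟩
  law p d V hV := D.fwd.gadgetLaw_pass D.back hV D.low_pos.le D.low_lt.le D.gap_pos D.gap_le
    (D.node_mem p)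
  base := D.base_node
  start := ⟨D.T₀, D.start_node.recentre0.mono (le_max_right _ _)
    (by rw [abs_of_pos (by norm_num : (0 : ℝ) < 3 / 2)]; linarith [D.S_le])
    D.S₀_le le_rfl⟩

lemma coupling : (√(D.δ / 2))⁻¹ * fwdκ D.δ = -D.δ⁻¹ ∧
    |(√(D.δ / 2))⁻¹ * fwdκ D.δ| = D.δ⁻¹ ∧ |fwdκ D.δ| ≤ D.δ⁻¹ ∧
    -(1 / (2 * fwdκ D.δ)) = √(D.δ / 2) := by
  have hδ := D.size.delta_pos
  have hs : 0 < √(D.δ / 2) := Real.sqrt_pos.2 (half_pos hδ)
  refine ⟨D.size.state_coef, ?_, D.size.abs_κ_le.trans (inv_anti₀ hδ ?_), ?_⟩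
  · rw [D.size.state_coef, abs_neg, abs_of_pos (inv_pos.2 hδ)]
  · have hs1 := Real.sqrt_le_one.2 D.size.delta_le
    nlinarith [Real.mul_self_sqrt hδ.le, Real.sqrt_nonneg D.δ]
  · rw [fwdκ]; field_simp

/-- The gain of an inner error. -/
noncomputable def G : ℝ := D.R ^ 8 * (√D.τ / √D.δ)

/-- The gain of an outer error. -/
noncomputable def g₀ : ℝ := D.R ^ 8 * (√D.din / √D.δ)

/-- The spread of the states. -/
noncomputable def sξ : ℝ := D.R ^ 9 / √D.δ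

/-- The size of the discretisation. -/
noncomputable def ρ' : ℝ := D.δ⁻¹ * D.ρ

lemma gains : 0 ≤ D.G ∧ D.G ≤ 1 / 27 ∧ 0 ≤ D.g₀ ∧ D.g₀ ≤ 1 ∧ 0 ≤ D.sξ ∧
    √D.τ * D.sξ ≤ 1 ∧ 0 ≤ D.ρ' := by
  have hR := D.size.R_pos
  have hR3 := D.size.three_le
  have hR1 : (1 : ℝ) ≤ D.R := by linarith
  have hδ := D.size.delta_pos
  have h9 := D.size.G_le
  have hsx : √D.τ * D.sξ ≤ 1 := by
    rw [sξ, mul_div_assoc', mul_comm, mul_div_assoc]
    exact h9.trans D.size.small_le_one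
  have hG0 : 0 ≤ D.G := by unfold G; positivity
  have hG : D.G ≤ 1 / 27 := by
    have h1 : D.R * D.G ≤ (D.R ^ 2)⁻¹ := by
      refine le_trans (le_of_eq (by unfold G; ring)) (h9.trans (inv_anti₀ (by positivity)
        (pow_le_pow_right₀ hR1 (by norm_num : 2 ≤ 11))))
    have h5 : (D.R ^ 2)⁻¹ ≤ 1 / 9 := by
      rw [one_div]; exact inv_anti₀ (by norm_num) (by nlinarith)
    nlinarith
  refine ⟨hG0, hG, by unfold g₀; positivity, ?_, by unfold sξ; positivity, hsx,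
    mul_nonneg (inv_nonneg.2 hδ.le) D.rho_nonneg⟩
  refine (mul_le_mul_of_nonneg_left D.size.din_delta (by positivity)).trans ?_
  rw [← div_eq_mul_inv, div_le_one (by positivity)]
  exact pow_le_pow_right₀ hR1 (by omega)

lemma start_law {d : ℕ} {V : Euc d → ℝ} (hV : Nice d V) :
    Measurable (fwdStart D.s₁ D.low D.Φb d V) ∧
      (gadgetLaw D.τ D.s₁ d V).map (fwdStart D.s₁ D.low D.Φb d V) = pathLaw V D.τ D.low :=
  D.back.gadgetLaw_fwdPt hV D.low_pos.le D.low_lt.le D.gap_pos D.gap_le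

lemma posRes_le (p : Fin D.g.K × Fin P) (d : ℕ) (V : Euc d → ℝ) (hV : Nice d V) :
    Integrable (fun ω => ‖D.env.posRes p d V ω‖) (gadgetLaw D.τ D.s₁ d V) ∧
      ∫ ω, ‖D.env.posRes p d V ω‖ ∂(gadgetLaw D.τ D.s₁ d V) ≤ 2 * D.ρ' * dimFac d := by
  obtain ⟨h1, h2, -⟩ :=
    (D.quad (D.g.node p) (D.node_mem p)).choose_spec.choose_spec.2.2 d V hV
  obtain ⟨hi, hle⟩ := fwd_pos_residual D.fwd hV (sub_lt_self D.τ D.gap_pos) (D.node_mem p)
    D.node_mem (D.W p) h1 h2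
  refine integrable_comp_of_map (D.start_law hV).1 (D.start_law hV).2 hi (hle.trans ?_)
  rw [← mul_assoc]
  refine mul_le_mul_of_nonneg_right ?_ (dimFac_nonneg d)
  have h1 : (1 : ℝ) ≤ D.δ⁻¹ := by rw [one_le_inv₀ D.size.delta_pos]; exact D.size.delta_le
  rw [ρ', ← mul_assoc]
  refine mul_le_mul_of_nonneg_right ?_ D.rho_nonneg
  linarith [D.coupling.2.2.1]

lemma stateRes_le (p : Fin D.g.K × Fin P) (d : ℕ) (V : Euc d → ℝ) (hV : Nice d V) :
    Integrable (fun ω => ‖D.env.stateRes p d V ω‖) (gadgetLaw D.τ D.s₁ d V) ∧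
      ∫ ω, ‖D.env.stateRes p d V ω‖ ∂(gadgetLaw D.τ D.s₁ d V) ≤ D.ρ' * dimFac d := by
  obtain ⟨-, -, h3⟩ :=
    (D.quad (D.g.node p) (D.node_mem p)).choose_spec.choose_spec.2.2 d V hV
  obtain ⟨-, hσ, -, hr⟩ := D.coupling
  obtain ⟨hi, hle⟩ :=
    fwd_gadget_residual D.fwd hV (D.node_mem p) hr (D.W₁ p) (√(D.δ / 2))⁻¹ h3
  rw [hσ, ← mul_assoc] at hle
  obtain ⟨k1, k2⟩ := integrable_comp_of_map (D.start_law hV).1 (D.start_law hV).2 hi hle
  have hs : 0 < √(D.δ / 2) := Real.sqrt_pos.2 (half_pos D.size.delta_pos)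
  set s := √(D.δ / 2) with hsdef
  have e : ∀ ω : Rand d, D.env.stateRes p d V ω = s⁻¹ • (s • ω.2 1
      + score V D.low (D.Φb d V D.low (backPt D.s₁ ω)).1
      + ∑ q, (fwdκ D.δ * D.W₁ p q) • hessAvg V (D.g.node q) 0 (D.env.X q d V ω)
        (hessAvg V (D.g.node q) 0 (D.env.X q d V ω) (D.env.Ξ q d V ω))
      - (s • D.env.Ξ p d V ω + score V (D.g.node p) (D.env.X p d V ω))) := by
    intro ω
    simp only [FwdEnv.stateRes, env, scoreFam, hessFam, ← hsdef, smul_add, smul_sub,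
      Finset.smul_sum, smul_smul, mul_assoc, inv_mul_cancel₀ hs.ne', one_smul]
    abel
  simp only [e]
  exact ⟨k1, k2⟩

lemma top_le {Ut : Fin D.g.K × Fin P → ℝ} {d : ℕ} {V : Euc d → ℝ} (hV : Nice d V)
    (h3 : Integrable (fun p => ‖∑ q, Ut q • hessAvg V (D.g.node q) 0 (D.Φf d V (D.g.node q) p).1
          (hessAvg V (D.g.node q) 0 (D.Φf d V (D.g.node q) p).1 (D.Φf d V (D.g.node q) p).2)
        - ∫ u in D.low..(D.τ - D.s₁), hessAvg V u 0 (D.Φf d V u p).1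
          (hessAvg V u 0 (D.Φf d V u p).1 (D.Φf d V u p).2)‖) (pathLaw V D.τ D.low) ∧
      ∫ p, ‖∑ q, Ut q • hessAvg V (D.g.node q) 0 (D.Φf d V (D.g.node q) p).1
          (hessAvg V (D.g.node q) 0 (D.Φf d V (D.g.node q) p).1 (D.Φf d V (D.g.node q) p).2)
        - ∫ u in D.low..(D.τ - D.s₁), hessAvg V u 0 (D.Φf d V u p).1
          (hessAvg V u 0 (D.Φf d V u p).1 (D.Φf d V u p).2)‖ ∂(pathLaw V D.τ D.low)
        ≤ D.ρ * dimFac d) :
    Integrable (fun ω => ‖√D.env.δe • ω.2 1 + D.env.G₀ d V ω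
        + ∑ q, (fwdκ D.δ * Ut q) • D.env.H q d V (D.env.X q d V ω)
          (D.env.H q d V (D.env.X q d V ω) (D.env.Ξ q d V ω))
        - gadgetTop (D.δ / 2) (D.τ - D.s₁) D.s₁ D.low D.Φb D.Φf d V ω‖)
        (gadgetLaw D.τ D.s₁ d V) ∧
      ∫ ω, ‖√D.env.δe • ω.2 1 + D.env.G₀ d V ω
        + ∑ q, (fwdκ D.δ * Ut q) • D.env.H q d V (D.env.X q d V ω)
          (D.env.H q d V (D.env.X q d V ω) (D.env.Ξ q d V ω))
        - gadgetTop (D.δ / 2) (D.τ - D.s₁) D.s₁ D.low D.Φb D.Φf d V ω‖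
        ∂(gadgetLaw D.τ D.s₁ d V) ≤ D.ρ' * dimFac d := by
  obtain ⟨-, -, hκ, hr⟩ := D.coupling
  obtain ⟨hi, hle⟩ :=
    fwd_gadget_residual D.fwd hV (Set.right_mem_Icc.2 D.low_lt.le) hr Ut 1 h3
  simp only [one_smul, one_mul] at hi hle
  refine integrable_comp_of_map (D.start_law hV).1 (D.start_law hV).2 hi (hle.trans ?_)
  rw [← mul_assoc, ρ']
  exact mul_le_mul_of_nonneg_right (mul_le_mul_of_nonneg_right hκ D.rho_nonneg) (dimFac_nonneg d)

lemma init_state : FwdState (gadgetLaw D.τ D.s₁) D.env.c₀ D.env.vy D.env.X D.env.Ξ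
    (max (1 + D.Qb) D.Qg) 2 D.sξ (D.eb + 3 * D.CL) 1 := by
  intro p
  obtain ⟨T, hT⟩ := D.base_node p
  have hR1 : (1 : ℝ) ≤ D.R := by linarith [D.size.three_le]
  obtain ⟨T', hT'⟩ := hT.pad (v' := D.g.node p / D.R ^ 3)
    (div_le_div₀ (D.node_pos p).1.le (D.node_mem p).1 (pow_pos D.size.R_pos 3)
      (pow_le_pow_right₀ hR1 (by norm_num)))
  have hsx := D.gains.2.2.2.2.1
  refine ⟨⟨T', (hT'.shift (X' := D.env.X p) (E' := 3 * D.CL) fun d V hV =>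
      (fwd_start_moment D.back D.fwd hV D.low_pos.le D.low_lt.le D.gap_pos D.gap_le (D.node_mem p)
        (D.levels.moment d V hV) (D.θ_mem p).1 (D.θ_mem p).2).1).mono le_rfl one_le_two one_le_two
      le_rfl⟩, ?_⟩
  exact ⟨_, ((Node.noise (P := gadgetLaw D.τ D.s₁) (ν := 0) zero_le_one).shift (X' := D.env.Ξ p)
    (E' := 1) fun d V hV =>
      (fwd_start_moment D.back D.fwd hV D.low_pos.le D.low_lt.le D.gap_pos D.gap_le (D.node_mem p)
        (D.levels.moment d V hV) (D.θ_mem p).1 (D.θ_mem p).2).2).mono (Nat.zero_le _) hsx hsx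
    (by simp)⟩

lemma step_weights : √D.τ * (D.δ⁻¹ * (D.R ^ 7 * √D.din)) ≤ D.G ∧
    D.δ⁻¹ * (D.R ^ 5 * (√D.din * √D.τ)) ≤ D.G ∧
    √D.τ * (D.δ⁻¹ * (D.R ^ 5 * √D.τ)) ≤ D.G ∧ √D.τ * (√(D.δ / 2))⁻¹ ≤ D.G := by
  have hR1 : (1 : ℝ) ≤ D.R := by linarith [D.size.three_le]
  have hR := D.size.R_pos
  have hδ := D.size.delta_pos
  have hsd := Real.sqrt_pos.2 hδ
  have eδ : D.δ⁻¹ = (√D.δ)⁻¹ * (√D.δ)⁻¹ := by rw [← mul_inv, Real.mul_self_sqrt hδ.le]
  have hd : √D.din / √D.δ ≤ 1 := (div_le_one hsd).2 D.size.din_le_delta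
  have ht : √D.τ / √D.δ ≤ 1 := D.size.tau_delta.trans D.size.small_le_one
  have up : ∀ (N : ℕ) (r : ℝ), N ≤ 8 → r ≤ 1 → D.R ^ N * (√D.τ / √D.δ) * r ≤ D.G := by
    intro N r hN hr
    refine (mul_le_of_le_one_right (by positivity) hr).trans ?_
    exact mul_le_mul_of_nonneg_right (pow_le_pow_right₀ hR1 hN) (by positivity)
  refine ⟨?_, ?_, ?_, ?_⟩
  · refine le_trans (le_of_eq ?_) (up 7 _ (by norm_num) hd)
    rw [eδ]; ring
  · refine le_trans (le_of_eq ?_) (up 5 _ (by norm_num) hd)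
    rw [eδ]; ring
  · refine le_trans (le_of_eq ?_) (up 5 _ (by norm_num) ht)
    rw [eδ]; ring
  · calc √D.τ * (√(D.δ / 2))⁻¹ ≤ √D.τ * (2 / √D.δ) :=
          mul_le_mul_of_nonneg_left D.size.inv_sqrt_de_le (Real.sqrt_nonneg _)
      _ = 2 * (√D.τ / √D.δ) := by ring
      _ ≤ _ := mul_le_mul_of_nonneg_right
          (le_trans (by linarith [D.size.three_le]) (le_self_pow₀ hR1 (by norm_num)))
          (by positivity)

lemma spreads : (1 : ℝ) + D.G * 10 + 9 * D.G + 3 * (D.G * √D.τ) * D.sξ ≤ 2 ∧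
    9 / √(D.δ / 2) + D.δ⁻¹ * (D.R ^ 7 * √D.din) * 3
      + D.δ⁻¹ * (D.R ^ 5 * (√D.din * √D.τ)) * D.sξ + 10 / √(D.δ / 2) ≤ D.sξ := by
  obtain ⟨hG0, hG, -, -, hs0, hsx, -⟩ := D.gains
  have hR := D.size.R_pos
  have hR3 := D.size.three_le
  have hδ := D.size.delta_pos
  have hsd := Real.sqrt_pos.2 hδ
  refine ⟨?_, ?_⟩
  · rw [mul_assoc 3, mul_assoc D.G]
    have := mul_le_mul_of_nonneg_left hsx hG0
    linarith
  have eδ : D.δ⁻¹ = (√D.δ)⁻¹ * (√D.δ)⁻¹ := by rw [← mul_inv, Real.mul_self_sqrt hδ.le]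
  have h1 : D.δ⁻¹ * (D.R ^ 7 * √D.din) * 3 ≤ 3 * D.R ^ 7 / √D.δ := by
    refine le_trans (le_of_eq ?_) (mul_le_of_le_one_right (by positivity)
      ((div_le_one hsd).2 D.size.din_le_delta))
    rw [eδ]; ring
  have h2 : D.δ⁻¹ * (D.R ^ 5 * (√D.din * √D.τ)) * D.sξ ≤ 1 / 27 * D.sξ :=
    mul_le_mul_of_nonneg_right (D.step_weights.2.1.trans hG) hs0
  have h3 : 9 / √(D.δ / 2) + 10 / √(D.δ / 2) ≤ 38 / √D.δ := by
    rw [← add_div, div_eq_mul_inv]
    calc (9 + 10) * (√(D.δ / 2))⁻¹ ≤ (9 + 10) * (2 / √D.δ) :=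
          mul_le_mul_of_nonneg_left D.size.inv_sqrt_de_le (by norm_num)
      _ = _ := by ring
  have h4 : 38 / √D.δ + 3 * D.R ^ 7 / √D.δ ≤ 1 / 2 * D.sξ := by
    rw [sξ, ← add_div, mul_div_assoc']
    refine div_le_div_of_nonneg_right ?_ hsd.le
    have h5 : (3 : ℝ) ^ 7 ≤ D.R ^ 7 := pow_le_pow_left₀ (by norm_num) hR3 7
    have h6 : 9 * D.R ^ 7 ≤ D.R ^ 9 := by
      rw [show D.R ^ 9 = D.R ^ 2 * D.R ^ 7 by ring]
      exact mul_le_mul_of_nonneg_right (by nlinarith) (by positivity)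
    norm_num at h5
    linarith
  linarith

lemma variance : D.δ / 4 / (D.δ / 2) + (D.R ^ 6)⁻¹ + D.din / (D.δ / 2) ≤ 1 := by
  have hR := D.size.R_pos
  have hR3 := D.size.three_le
  have hR1 : (1 : ℝ) ≤ D.R := by linarith
  have hδ := D.size.delta_pos
  have h1 : (D.R ^ 6)⁻¹ ≤ 1 / 729 := by
    rw [one_div]
    exact inv_anti₀ (by norm_num) (le_trans (by norm_num) (pow_le_pow_left₀ (by norm_num) hR3 6))
  have h2 := pow_le_pow_left₀ (by positivity) D.size.din_delta 2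
  rw [div_pow, Real.sq_sqrt D.size.din_pos.le, Real.sq_sqrt hδ.le] at h2
  have h3 : ((D.R ^ (2 * n + 10))⁻¹) ^ 2 ≤ 1 / 729 := by
    refine le_trans ?_ h1
    rw [inv_pow, ← pow_mul]
    exact inv_anti₀ (by positivity) (pow_le_pow_right₀ hR1 (by omega))
  have e1 : D.δ / 4 / (D.δ / 2) = 1 / 2 := by field_simp; norm_num
  have e2 : D.din / (D.δ / 2) = 2 * (D.din / D.δ) := by field_simp
  rw [e1, e2]
  linarith

lemma card_le : ((Fintype.card (Fin D.g.K × Fin P) : ℕ) : ℝ) + 1 ≤ D.R ^ 5 := by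
  have hR1 : (1 : ℝ) ≤ D.R := by linarith [D.size.three_le]
  have hR3 := D.size.three_le
  have h1 := D.g.card_le P
  have h2 : (P : ℝ) ≤ D.R :=
    (le_mul_of_one_le_right (by positivity) D.size.one_le_KP).trans D.size.consts.1
  have h3 : (P : ℝ) * D.R ^ 3 ≤ D.R * D.R ^ 3 :=
    mul_le_mul_of_nonneg_right h2 (by positivity)
  have h4 : (1 : ℝ) ≤ D.R ^ 4 := one_le_pow₀ hR1
  have h5 : D.R * D.R ^ 4 = D.R ^ 5 := by ring
  nlinarith

/-- The states after `n` iterations. -/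
theorem states (hsq : HessSqFor P n K) {qo q₁ : ℕ}
    (hQop : 8 * (1 + (P : ℝ) + K) * (1 + D.Qop + D.Qop) ≤ D.R ^ qo)
    (hQb : (1 : ℝ) + D.Qb ≤ D.R ^ q₁) (hQg : (D.Qg : ℝ) ≤ D.R ^ q₁) :
    ∃ (Q : ℕ) (ey eξ : ℝ), 0 ≤ ey ∧ 0 ≤ eξ ∧
      (Q : ℝ) ≤ D.R ^ (q₁ + n * (5 + qo * (n + 3) + 1)) ∧
      ey + √D.τ * eξ ≤ 2 * (2 * D.eb + 2 * (2 * D.ρ') + D.ρ'
          + D.G * (D.eG + D.Eout + 8 * D.Ein + D.tiny))
        + (13 * D.G) ^ n * (D.eb + 3 * D.CL + 1) ∧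
      FwdState (gadgetLaw D.τ D.s₁) D.env.c₀ D.env.vy D.env.X D.env.Ξ Q 2 D.sξ ey eξ := by
  obtain ⟨hG0, hG, -, -, hs0, -, hρ0⟩ := D.gains
  have h := D.size
  have htop : D.τ - D.s₁ < D.τ := sub_lt_self D.τ D.gap_pos
  have hne : Nonempty (Fin D.g.K × Fin P) := by
    refine ⟨⟨⟨0, ?_⟩, ⟨0, by have := h.two_le_P; omega⟩⟩⟩
    by_contra hk
    have h1 := D.g.pt_last
    rw [Nat.eq_zero_of_not_pos hk, D.g.pt_zero] at h1
    linarith [D.low_lt]
  obtain ⟨hσe, hσ, -, -⟩ := D.coupling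
  obtain ⟨b1, b2, b3, b4⟩ := D.step_weights
  have hsx1 : √D.τ * 1 ≤ 1 := by rw [mul_one]; exact h.sqrt_tau_le_one
  refine D.env.iterate hsq h.one_le_K hne (wV := D.G) (wA := D.G) (wL := D.G * √D.τ)
    (wB := D.δ⁻¹ * (D.R ^ 7 * √D.din)) (wC := D.δ⁻¹ * (D.R ^ 5 * (√D.din * √D.τ)))
    (wD := D.δ⁻¹ * (D.R ^ 5 * √D.τ)) (vs := (D.R ^ 6)⁻¹) (ρy := 2 * D.ρ') (ρξ := D.ρ')
    (fun p => h.weight_value D.g D.low_pos htop fun q => ((D.weights p).1 q).1)
    (fun p => (h.weight_hess D.g D.low_pos htop (fun q => ((D.weights p).1 q).1) _ h.abs_κ_le).1)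
    (fun p => (h.weight_hess D.g D.low_pos htop (fun q => ((D.weights p).1 q).1) _ h.abs_κ_le).2)
    (fun p => ?_) (fun p => ?_) (fun p => ?_) (tiny := D.tiny)
    (fun q => (D.small _ (D.node_mem q)).2)
    (fun p => h.weight_var D.g D.low_pos htop (fun q => ((D.weights p).1 q).1) (D.node_mem p).1
      (D.weights p).2 (div_le_div_of_nonneg_right (D.node_mem p).1 (pow_nonneg h.R_pos.le 4)))
    (fun p => ?_) D.variance D.posRes_le D.stateRes_le (sξ := D.sξ) hs0 D.spreads.1 D.spreads.2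
    (s := √D.τ) (G := D.G) (Real.sqrt_nonneg _) h.sqrt_tau_le_one hG0 (by linarith) le_rfl le_rfl
    le_rfl b1 b2 b3 b4 D.eb_nonneg D.eG_nonneg D.tiny_nonneg (by linarith) hρ0
    (e₀ := D.eb + 3 * D.CL + 1) (add_nonneg D.eb_nonneg (by linarith [D.CL_nonneg])) zero_le_one
    (by linarith) D.init_state (R := D.R) (L := 5 + qo * (n + 3)) (q₁ := q₁) h.three_le ?_ ?_ ?_ n
  · have := (h.weight_sq D.g D.low_pos htop (fun q => ((D.weights p).1 q).2)
      ((√(D.δ / 2))⁻¹ * fwdκ D.δ)).1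
    rwa [hσ] at this
  · have := (h.weight_sq D.g D.low_pos htop (fun q => ((D.weights p).1 q).2)
      ((√(D.δ / 2))⁻¹ * fwdκ D.δ)).2.1
    rwa [hσ] at this
  · have := (h.weight_sq D.g D.low_pos htop (fun q => ((D.weights p).1 q).2)
      ((√(D.δ / 2))⁻¹ * fwdκ D.δ)).2.2
    rwa [hσ] at this
  · refine (h.weight_sq_var D.g D.low_pos htop (fun q => ((D.weights p).1 q).2)
      ((√(D.δ / 2))⁻¹ * fwdκ D.δ)).trans (le_of_eq ?_)
    rw [hσe, neg_mul, inv_mul_cancel₀ h.delta_pos.ne']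
    norm_num
  · show (((Fintype.card (Fin D.g.K × Fin P) + 1) *
      (8 * (1 + P + K) * (1 + D.Qop + D.Qop)) ^ (n + 3) : ℕ) : ℝ) ≤ _
    push_cast
    rw [pow_add D.R 5, pow_mul]
    exact mul_le_mul D.card_le (pow_le_pow_left₀ (by positivity) hQop _) (by positivity)
      (pow_nonneg h.R_pos.le _)
  · show ((max (1 + D.Qb) D.Qg : ℕ) : ℝ) ≤ _
    push_cast; exact max_le hQb hQg
  · push_cast; exact max_le hQb hQg

lemma query_le {R x y z b : ℝ} {qn L N qo q₁ : ℕ} (hR : 3 ≤ R) (hN : x ≤ R ^ 5) (_ : 0 ≤ x)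
    (hy : y ≤ R ^ qn) (hy0 : 0 ≤ y) (hz : z ≤ R ^ q₁) (hb : b ≤ R ^ qo) (hb0 : 0 ≤ b)
    (hq : q₁ ≤ qn) (hL : 5 + qo * (N + 3) ≤ L) :
    1 + z + x * (b ^ (N + 1) * (1 + y + (y + 1))) ≤ R ^ (qn + L + 3) := by
  have hR1 : (1 : ℝ) ≤ R := by linarith
  have hQn : (1 : ℝ) ≤ R ^ qn := one_le_pow₀ hR1
  have h2 : (1 : ℝ) + z ≤ R ^ (qn + L + 2) := by
    have h21 : (R : ℝ) ^ q₁ ≤ R ^ qn := pow_le_pow_right₀ hR1 hq
    calc (1 : ℝ) + z ≤ R ^ qn * R := by nlinarith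
      _ ≤ _ := by
          rw [← pow_succ]
          exact pow_le_pow_right₀ hR1 (by omega)
  have h3 : x * (b ^ (N + 1) * (1 + y + (y + 1))) ≤ R ^ (qn + L + 2) := by
    calc _ ≤ R ^ 5 * (R ^ (qo * (N + 1)) * (R ^ 2 * R ^ qn)) := by
          refine mul_le_mul hN (mul_le_mul ?_ ?_ (by positivity) (by positivity)) (by positivity)
            (by positivity)
          · rw [pow_mul]; exact pow_le_pow_left₀ hb0 hb _
          · calc 1 + y + (y + 1) ≤ 4 * R ^ qn := by linarith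
              _ ≤ _ := mul_le_mul_of_nonneg_right (by nlinarith) (by linarith)
      _ ≤ _ := by
          rw [← pow_add, ← pow_add, ← pow_add]
          refine pow_le_pow_right₀ hR1 ?_
          rw [Nat.mul_add] at hL
          rw [Nat.mul_add]
          omega
  calc _ ≤ R ^ (qn + L + 2) + R ^ (qn + L + 2) := add_le_add h2 h3
    _ ≤ R * R ^ (qn + L + 2) := by
        nlinarith [pow_nonneg (zero_le_one.trans hR1) (qn + L + 2)]
    _ = _ := (pow_succ' R _).symm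

/-- The body at the top. -/
theorem result' (hsq : HessSqFor P n K) {qo q₁ : ℕ}
    (hQop : 8 * (1 + (P : ℝ) + K) * (1 + D.Qop + D.Qop) ≤ D.R ^ qo)
    (hQb : (1 : ℝ) + D.Qb ≤ D.R ^ q₁) (hQg : (D.Qg : ℝ) ≤ D.R ^ q₁) :
    ∃ (T : Body) (Q : ℕ),
      (Q : ℝ) ≤ D.R ^ (q₁ + n * (5 + qo * (n + 3) + 1) + (5 + qo * (n + 3)) + 3) ∧
      Node (gadgetLaw D.τ D.s₁) 0 T Q (3 / 2) D.cG (D.S + 4 * D.g₀) (D.S₀ + 4 * D.g₀)
        (gadgetTop (D.δ / 2) (D.τ - D.s₁) D.s₁ D.low D.Φb D.Φf) (D.δ / 2)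
        (4 * D.eb + 11 * D.ρ' + 3 * D.eG + 2 * (D.G * D.Eout) + 17 * (D.G * D.Ein)
          + 3 * D.tiny + D.g₀ * D.Eout + (13 * D.G) ^ n * (D.eb + 3 * D.CL + 1)) := by
  obtain ⟨Q, ey, eξ, hey, heξ, hQ, hsum, hst⟩ := D.states hsq hQop hQb hQg
  obtain ⟨hG0, hG, hg0, hg1, hs0, hsx, hρ0⟩ := D.gains
  have h := D.size
  have hR := h.R_pos
  have hR3 := h.three_le
  have hR1 : (1 : ℝ) ≤ D.R := by linarith
  have hδ := h.delta_pos
  have htop : D.τ - D.s₁ < D.τ := sub_lt_self D.τ D.gap_pos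
  obtain ⟨Wt, Ut, hW, -, hres⟩ := D.quad _ (Set.right_mem_Icc.2 D.low_lt.le)
  have hU := h.weight_sq D.g D.low_pos htop (fun q => (hW q).2) (fwdκ D.δ)
  have hα : ∀ x : ℝ, 0 ≤ x → |fwdκ D.δ| * x ≤ (√D.δ)⁻¹ * x := fun x hx =>
    mul_le_mul_of_nonneg_right h.abs_κ_le hx
  obtain ⟨T, hT⟩ := D.env.finish hsq hey heξ hs0 zero_le_two hst D.tiny_nonneg
    (fun q => (D.small _ (D.node_mem q)).2) (U := fun q => fwdκ D.δ * Ut q) (uB := D.g₀)
    (uC := D.g₀ * √D.τ) (uD := D.G)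
    (hU.1.trans ((hα _ (by positivity)).trans (by
      calc (√D.δ)⁻¹ * (D.R ^ 7 * √D.din) = D.R ^ 7 * (√D.din / √D.δ) := by ring
        _ ≤ _ := mul_le_mul_of_nonneg_right (pow_le_pow_right₀ hR1 (by norm_num)) (by positivity))))
    (hU.2.1.trans ((hα _ (by positivity)).trans (by
      calc (√D.δ)⁻¹ * (D.R ^ 5 * (√D.din * √D.τ)) = D.R ^ 5 * (√D.din / √D.δ) * √D.τ := by ring
        _ ≤ _ := mul_le_mul_of_nonneg_right (mul_le_mul_of_nonneg_right
            (pow_le_pow_right₀ hR1 (by norm_num)) (by positivity)) (Real.sqrt_nonneg _))))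
    (hU.2.2.trans ((hα _ (by positivity)).trans (by
      calc (√D.δ)⁻¹ * (D.R ^ 5 * √D.τ) = D.R ^ 5 * (√D.τ / √D.δ) := by ring
        _ ≤ _ := mul_le_mul_of_nonneg_right (pow_le_pow_right₀ hR1 (by norm_num)) (by positivity))))
    D.start_node (v := D.δ / 2) (by
      refine (add_le_add le_rfl
        (h.weight_sq_var D.g D.low_pos htop (fun q => (hW q).2) (fwdκ D.δ))).trans ?_
      have h1 : fwdκ D.δ ^ 2 ≤ D.δ⁻¹ := by
        rw [← sq_abs]
        refine (pow_le_pow_left₀ (abs_nonneg _) h.abs_κ_le 2).trans (le_of_eq ?_)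
        rw [inv_pow, Real.sq_sqrt hδ.le]
      have h2 : (D.R ^ 6)⁻¹ ≤ 1 / 4 := by
        rw [one_div]
        exact inv_anti₀ (by norm_num)
          (le_trans (by norm_num) (pow_le_pow_left₀ (by norm_num) hR3 6))
      calc D.δ / 4 + (fwdκ D.δ * D.δ) ^ 2 * (D.R ^ 6)⁻¹
          ≤ D.δ / 4 + D.δ⁻¹ * D.δ ^ 2 * (1 / 4) := by rw [mul_pow]; gcongr
        _ = D.δ / 2 := by field_simp; ring)
    (X' := gadgetTop (D.δ / 2) (D.τ - D.s₁) D.s₁ D.low D.Φb D.Φf) (ρ := D.ρ')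
    (fun d V hV => D.top_le hV (hres d V hV).2.2)
  refine ⟨T, _, ?_, hT.mono le_rfl ?_ ?_ ?_⟩
  · change ((1 + D.Qg + Fintype.card (Fin D.g.K × Fin P) *
      ((K * (1 + D.Qop + D.Qop)) ^ (n + 1) * (1 + Q + (Q + 1))) : ℕ) : ℝ) ≤ _
    push_cast
    refine query_le hR3 ?_ (Nat.cast_nonneg _) hQ (Nat.cast_nonneg _) hQg (le_trans ?_ hQop)
      (by positivity) (Nat.le_add_right _ _) le_rfl
    · linarith [D.card_le]
    · refine mul_le_mul_of_nonneg_right ?_ (by positivity)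
      linarith [(Nat.cast_nonneg P : (0 : ℝ) ≤ P), (Nat.cast_nonneg K : (0 : ℝ) ≤ K)]
  · have := mul_le_mul_of_nonneg_left hsx hg0
    linarith
  · have := mul_le_mul_of_nonneg_left hsx hg0
    linarith
  · change D.eG + (D.g₀ * (ey + D.Eout) + D.g₀ * √D.τ * (eξ + D.tiny) + D.G * D.Ein) + D.ρ' ≤ _
    have h1 := mul_le_of_le_one_left D.eG_nonneg (hG.trans (by norm_num))
    have h2 := mul_le_of_le_one_left D.tiny_nonneg (hG.trans (by norm_num))
    have h3 : D.g₀ * (ey + √D.τ * eξ) ≤ ey + √D.τ * eξ :=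
      mul_le_of_le_one_left (by positivity) hg1
    have h4 : D.g₀ * (√D.τ * D.tiny) ≤ D.tiny :=
      (mul_le_of_le_one_left (by have := D.tiny_nonneg; positivity) hg1).trans
        (mul_le_of_le_one_left D.tiny_nonneg h.sqrt_tau_le_one)
    linarith

end FwdData

end Vale.Agent.P347
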