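import Vale.Agent.P347.FwdIter

/-!
Repeating the step of the forward pass, and the body at its end.
-/

namespace Vale.Agent.P347

open MeasureTheory ProbabilityTheory

/-- The body for a squared Hessian at given order, iteration count and constant. -/
def HessSqFor (P It K : ℕ) : Prop :=
  ∀ (Pr' : RandFam) (ν : ℝ) (μ₀ : MeasFam) (H : HessFam)
      (lam v₀ δin δout : ℝ) (Qin Qout : ℕ) (ε Ein Eout : ℝ), 0 ≤ ε → ε ≤ 1 → 0 < lam →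
      0 ≤ δin → 0 ≤ δout → 0 ≤ Ein → 0 ≤ Eout →
      (∀ d V, Nice d V → IsProbabilityMeasure (μ₀ d V) ∧ IsProbabilityMeasure (Pr' d V) ∧
        Continuous (H d V) ∧ (∀ y a b, inner ℝ (H d V y a) b = inner ℝ a (H d V y b)) ∧
        ∀ y, ‖H d V y‖ ≤ 2) →
      Extractor P μ₀ H lam v₀ δin Qin ε Ein → Extractor P μ₀ H lam v₀ δout Qout ε Eout →
      ∀ (T : Body) (QT : ℕ) (c c₀ S S₀ : ℝ) (X : VarFam) (vy Ey : ℝ),
        Node Pr' ν T QT c c₀ S S₀ X vy Ey → 0 ≤ vy → 0 ≤ Ey →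
      ∀ (Z Z' : Body) (QZ : ℕ) (Sz Sz₀ : ℝ) (ξ ξ' : VarFam) (vz Ez : ℝ),
        Node Pr' ν Z QZ 0 0 Sz Sz₀ ξ vz Ez → Node Pr' ν Z' QZ 0 0 Sz Sz₀ ξ' vz Ez →
        0 ≤ vz → 0 ≤ Ez →
      (∀ d V, Nice d V → Measurable (fun ω => (X d V ω, ξ' d V ω, ξ d V ω)) ∧
        (Pr' d V).map (fun ω => (X d V ω, ξ' d V ω, ξ d V ω))
          = (μ₀ d V).prod ((gauss d).prod (gauss d))) →
      ∀ κr v' : ℝ, 0 < κr → (K : ℝ) * κr ≤ 1 / 2 →
        vy + lam ^ 2 * ((K : ℝ) * (vz + κr ^ 2 * (δin / lam ^ 2))) ≤ v₀ →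
        ((K : ℝ) / (κr * lam)) ^ 2 * δout ≤ v' →
        ∃ (T' : Body) (Q' : ℕ), Q' ≤ (K * (1 + Qin + Qout)) ^ (It + 1) * (1 + QT + QZ) ∧
          Node Pr' ν T' Q' 0 0 ((K : ℝ) / (κr * lam) * (|c| + S + lam * Sz))
            ((K : ℝ) / (κr * lam) * (|c₀| + S₀ + lam * Sz₀))
            (fun d V ω => H d V (X d V ω) (H d V (X d V ω) (ξ d V ω))) v'
            ((K : ℝ) / (κr * lam) *
              (Ey + lam * Ez + κr * Ein + Eout + lam * (κr ^ P + ((K : ℝ) * κr) ^ It)))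

lemma exists_hessSqFor (P It : ℕ) (hP : 2 ≤ P) : ∃ K, 1 ≤ K ∧ HessSqFor P It K := hessSq P It hP

/-- The coupled errors contract. -/
lemma fwd_error_step {wV wA wL wB wC wD s si G eb eG Ein Eout tiny ρy ρξ ey eξ ey' eξ' : ℝ}
    (hs0 : 0 ≤ s) (hs1 : s ≤ 1) (hG0 : 0 ≤ G) (hG : 13 * G ≤ 1 / 2)
    (hV : wV ≤ G) (hA : wA ≤ G) (hL : wL ≤ G * s) (hB : s * wB ≤ G) (hC : wC ≤ G)
    (hD : s * wD ≤ G) (hsi : s * si ≤ G)
    (heG : 0 ≤ eG) (hEin : 0 ≤ Ein) (hEout : 0 ≤ Eout) (htiny : 0 ≤ tiny)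
    (hρξ : 0 ≤ ρξ) (hey : 0 ≤ ey) (heξ : 0 ≤ eξ) (hey0 : 0 ≤ ey')
    (hey' : ey' = eb + wV * (3 * ey + Ein) + wA * (3 * ey + 2 * Ein) + 3 * wL * eξ + ρy)
    (heξ' : eξ' = si * eG + wB * (ey + Eout) + wC * (eξ + tiny) + wD * Ein
      + si * (3 * ey' + Ein) + ρξ) :
    ey' + s * eξ' ≤ (2 * eb + 2 * ρy + ρξ + G * (eG + Eout + 8 * Ein + tiny))
      + 13 * G * (ey + s * eξ) := by
  have hw : 0 ≤ s * eξ := by positivity
  have v1 := mul_le_mul_of_nonneg_right hV (by positivity : 0 ≤ 3 * ey + Ein)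
  have a1 := mul_le_mul_of_nonneg_right hA (by positivity : 0 ≤ 3 * ey + 2 * Ein)
  have l1 := mul_le_mul_of_nonneg_right hL heξ
  have y1 : ey' ≤ eb + G * (6 * ey + 3 * Ein + 3 * (s * eξ)) + ρy := by linarith
  have b1 := mul_le_mul_of_nonneg_right hB (by positivity : 0 ≤ ey + Eout)
  have c1 := mul_le_mul_of_nonneg_right hC hw
  have c2 := mul_le_mul_of_nonneg_right hC (by positivity : 0 ≤ s * tiny)
  have c3 : G * (s * tiny) ≤ G * tiny :=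
    mul_le_mul_of_nonneg_left (mul_le_of_le_one_left htiny hs1) hG0
  have d1 := mul_le_mul_of_nonneg_right hD hEin
  have g1 := mul_le_mul_of_nonneg_right hsi heG
  have g2 := mul_le_mul_of_nonneg_right hsi (by positivity : 0 ≤ 3 * ey' + Ein)
  have r1 := mul_le_of_le_one_left hρξ hs1
  have x1 : s * eξ' ≤ G * (eG + ey + Eout + s * eξ + tiny + 2 * Ein) + 3 * (G * ey') + ρξ := by
    rw [heξ']; linarith
  have g3 := mul_le_mul_of_nonneg_right (by linarith : 3 * G ≤ 1) hey0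
  nlinarith [mul_nonneg hG0 hey, mul_nonneg hG0 hw, mul_nonneg hG0 hEin]

namespace FwdEnv

variable {Pr : RandFam} {P It K : ℕ} {ι : Type*} [Fintype ι] (E : FwdEnv Pr P It K ι)

/-- Several iterations. -/
theorem iterate (hsq : HessSqFor P It K)
    (hK : 1 ≤ K) (hne : Nonempty ι) {wV wA wL wB wC wD vs ρy ρξ : ℝ}
    (hwV : ∀ p, ∑ q, |E.W p q / 2| ≤ wV)
    (hwA : ∀ p, ∑ q, |E.κ * E.W p q| * (diffSize P / E.lam q) ≤ wA)
    (hwL : ∀ p, ∑ q, |E.κ * E.W p q| * diffSize P ≤ wL)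
    (hwB : ∀ p, ∑ q, |(√E.δe)⁻¹ * E.κ * E.W₁ p q| * (K / (E.κr q * E.lam q)) ≤ wB)
    (hwC : ∀ p, ∑ q, |(√E.δe)⁻¹ * E.κ * E.W₁ p q| * (K / E.κr q) ≤ wC)
    (hwD : ∀ p, ∑ q, |(√E.δe)⁻¹ * E.κ * E.W₁ p q| * (K / E.lam q) ≤ wD)
    {tiny : ℝ} (htiny : ∀ q, E.κr q ^ P + ((K : ℝ) * E.κr q) ^ It ≤ tiny)
    (hvar : ∀ p, E.vb p + (∑ q, (E.W p q / 2) ^ 2) * E.δin
      + ∑ q, (E.κ * E.W p q) ^ 2 * ((diffSize P / E.lam q) ^ 2 * E.δin) ≤ E.vy p)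
    (hvs : ∀ p, ∑ q, ((√E.δe)⁻¹ * E.κ * E.W₁ p q) ^ 2 *
      ((K / (E.κr q * E.lam q)) ^ 2 * E.δout) ≤ vs)
    (hvx : E.δc / E.δe + vs + E.δin / E.δe ≤ 1)
    (hρy : ∀ p d V, Nice d V → Integrable (fun ω => ‖E.posRes p d V ω‖) (Pr d V) ∧
      ∫ ω, ‖E.posRes p d V ω‖ ∂(Pr d V) ≤ ρy * dimFac d)
    (hρξ : ∀ p d V, Nice d V → Integrable (fun ω => ‖E.stateRes p d V ω‖) (Pr d V) ∧
      ∫ ω, ‖E.stateRes p d V ω‖ ∂(Pr d V) ≤ ρξ * dimFac d)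
    {sξ : ℝ} (hsξ : 0 ≤ sξ)
    (hS₁ : E.sb + wV * 10 + 9 * wA + 3 * wL * sξ ≤ 2)
    (hS₂ : E.sG / √E.δe + wB * 3 + wC * sξ + 10 / √E.δe ≤ sξ)
    {s G : ℝ} (hs0 : 0 ≤ s) (hs1 : s ≤ 1) (hG0 : 0 ≤ G) (hG : 13 * G ≤ 1 / 2)
    (hV : wV ≤ G) (hA : wA ≤ G) (hL : wL ≤ G * s) (hB : s * wB ≤ G) (hC : wC ≤ G)
    (hD : s * wD ≤ G) (hsi : s * (√E.δe)⁻¹ ≤ G)
    (heb : 0 ≤ E.eb) (heG : 0 ≤ E.eG) (ht0 : 0 ≤ tiny) (hρy0 : 0 ≤ ρy) (hρξ0 : 0 ≤ ρξ)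
    {e₀ ey₀ eξ₀ : ℝ} (hey₀ : 0 ≤ ey₀) (heξ₀ : 0 ≤ eξ₀) (he₀ : ey₀ + s * eξ₀ ≤ e₀)
    {Q₀ : ℕ} (hst : FwdState Pr E.c₀ E.vy E.X E.Ξ Q₀ 2 sξ ey₀ eξ₀)
    {R : ℝ} {L q₁ : ℕ} (hR : 3 ≤ R) (hgr : (E.growth : ℝ) ≤ R ^ L)
    (hQf : (E.Qfix : ℝ) ≤ R ^ q₁) (hQ₀ : (Q₀ : ℝ) ≤ R ^ q₁) (k : ℕ) :
    ∃ (Q : ℕ) (ey eξ : ℝ), 0 ≤ ey ∧ 0 ≤ eξ ∧ (Q : ℝ) ≤ R ^ (q₁ + k * (L + 1)) ∧
      ey + s * eξ ≤ 2 * (2 * E.eb + 2 * ρy + ρξ + G * (E.eG + E.Eout + 8 * E.Ein + tiny))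
        + (13 * G) ^ k * e₀ ∧
      FwdState Pr E.c₀ E.vy E.X E.Ξ Q 2 sξ ey eξ := by
  set A := 2 * E.eb + 2 * ρy + ρξ + G * (E.eG + E.Eout + 8 * E.Ein + tiny) with hAdef
  have hEin := E.ein_nonneg
  have hEout := E.eout_nonneg
  have hA0 : 0 ≤ A := by positivity
  have he : 0 ≤ e₀ := le_trans (by positivity) he₀
  have hsq0 : 0 ≤ (√E.δe)⁻¹ := by positivity
  have hR0 : 0 < R := by linarith
  obtain ⟨p₀⟩ := hne
  have hV0 : 0 ≤ wV := (Finset.sum_nonneg fun q _ => abs_nonneg _).trans (hwV p₀)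
  have hA0' : 0 ≤ wA := (Finset.sum_nonneg fun q _ => mul_nonneg (abs_nonneg _)
    (div_nonneg (zero_le_one.trans (one_le_diffSize P)) (E.lam_pos q).le)).trans (hwA p₀)
  have hL0 : 0 ≤ wL := (Finset.sum_nonneg fun q _ => mul_nonneg (abs_nonneg _)
    (zero_le_one.trans (one_le_diffSize P))).trans (hwL p₀)
  have hB0 : 0 ≤ wB := (Finset.sum_nonneg fun q _ => mul_nonneg (abs_nonneg _)
    (by have := E.kr_pos q; have := E.lam_pos q; positivity)).trans (hwB p₀)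
  have hC0 : 0 ≤ wC := (Finset.sum_nonneg fun q _ => mul_nonneg (abs_nonneg _)
    (by have := E.kr_pos q; positivity)).trans (hwC p₀)
  have hD0 : 0 ≤ wD := (Finset.sum_nonneg fun q _ => mul_nonneg (abs_nonneg _)
    (by have := E.lam_pos q; positivity)).trans (hwD p₀)
  induction k with
  | zero =>
    refine ⟨Q₀, ey₀, eξ₀, hey₀, heξ₀, by simpa using hQ₀, ?_, hst⟩
    simp only [pow_zero, one_mul]
    linarith
  | succ k ih =>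
    obtain ⟨Q, ey, eξ, hey, heξ, hQ, hsum, hS⟩ := ih
    obtain ⟨ey', hey'⟩ : ∃ y, y = E.eb + wV * (3 * ey + E.Ein) + wA * (3 * ey + 2 * E.Ein)
        + 3 * wL * eξ + ρy := ⟨_, rfl⟩
    obtain ⟨eξ', heξ'⟩ : ∃ y, y = (√E.δe)⁻¹ * E.eG + wB * (ey + E.Eout) + wC * (eξ + tiny)
        + wD * E.Ein + (√E.δe)⁻¹ * (3 * ey' + E.Ein) + ρξ := ⟨_, rfl⟩
    have hey'0 : 0 ≤ ey' := by rw [hey']; positivity
    have heξ'0 : 0 ≤ eξ' := by rw [heξ']; positivity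
    have hstep := E.iter hK hsq hwV hwA hwL hwB hwC hwD htiny hvar hvs hvx hρy hρξ hey heξ hsξ
      (sy' := 2) (sξ' := sξ) (ey' := ey') (eξ' := eξ') hey'0 (by linarith) hey'.ge (by linarith)
      (by rw [heξ', div_eq_inv_mul, div_eq_inv_mul]) hS
    refine ⟨_, ey', eξ', hey'0, heξ'0, ?_, ?_, hstep⟩
    · push_cast
      have hp : (1 : ℝ) ≤ R ^ (q₁ + k * (L + 1)) := one_le_pow₀ (by linarith)
      have h1 : (E.Qfix : ℝ) ≤ R ^ (q₁ + k * (L + 1)) :=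
        hQf.trans (pow_le_pow_right₀ (by linarith) (Nat.le_add_right _ _))
      calc (E.growth : ℝ) * (1 + Q + E.Qfix) ≤ R ^ L * (R * R ^ (q₁ + k * (L + 1))) := by
            refine mul_le_mul hgr ?_ (by positivity) (by positivity)
            nlinarith
        _ = _ := by rw [← pow_succ', ← pow_add]; ring_nf
    · have h1 := fwd_error_step hs0 hs1 hG0 hG hV hA hL hB hC hD hsi heG hEin hEout ht0
        hρξ0 hey heξ hey'0 hey' heξ'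
      have h2 := mul_le_mul_of_nonneg_left hsum (by positivity : 0 ≤ 13 * G)
      have h3 : 13 * G * (2 * A) ≤ 1 / 2 * (2 * A) :=
        mul_le_mul_of_nonneg_right hG (by positivity)
      rw [pow_succ', mul_assoc]
      linarith

/-- The body at the end of the forward pass. -/
theorem finish (hsq : HessSqFor P It K)
    {Q : ℕ} {sy sξ ey eξ : ℝ} (hey : 0 ≤ ey) (heξ : 0 ≤ eξ) (hsξ : 0 ≤ sξ) (hsy : 0 ≤ sy)
    (hst : FwdState Pr E.c₀ E.vy E.X E.Ξ Q sy sξ ey eξ) {tiny : ℝ} (ht0 : 0 ≤ tiny)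
    (htiny : ∀ q, E.κr q ^ P + ((K : ℝ) * E.κr q) ^ It ≤ tiny)
    {U : ι → ℝ} {uB uC uD : ℝ}
    (huB : ∑ q, |U q| * (K / (E.κr q * E.lam q)) ≤ uB)
    (huC : ∑ q, |U q| * (K / E.κr q) ≤ uC)
    (huD : ∑ q, |U q| * (K / E.lam q) ≤ uD)
    {T₀ : Body} {Q₀ : ℕ} {c c₀ S S₀ δc eG v ρ : ℝ}
    (hT₀ : Node Pr 0 T₀ Q₀ c c₀ S S₀ E.G₀ δc eG)
    (hv : δc + ∑ q, U q ^ 2 * ((K / (E.κr q * E.lam q)) ^ 2 * E.δout) ≤ v)
    {X' : VarFam} (hρ : ∀ d V, Nice d V →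
      Integrable (fun ω => ‖√E.δe • ω.2 1 + E.G₀ d V ω
        + ∑ q, U q • E.H q d V (E.X q d V ω) (E.H q d V (E.X q d V ω) (E.Ξ q d V ω))
        - X' d V ω‖) (Pr d V) ∧
      ∫ ω, ‖√E.δe • ω.2 1 + E.G₀ d V ω
        + ∑ q, U q • E.H q d V (E.X q d V ω) (E.H q d V (E.X q d V ω) (E.Ξ q d V ω))
        - X' d V ω‖ ∂(Pr d V) ≤ ρ * dimFac d) :
    ∃ T, Node Pr 0 T (1 + Q₀ + Fintype.card ι *
        ((K * (1 + E.Qop + E.Qop)) ^ (It + 1) * (1 + Q + (Q + 1)))) c c₀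
      (S + (uB * (1 + sy) + uC * sξ)) (S₀ + (uB * (1 + sy) + uC * sξ)) X' v
      (eG + (uB * (ey + E.Eout) + uC * (eξ + tiny) + uD * E.Ein) + ρ) := by
  have hε := E.eps_nonneg
  have hε' := E.eps_le
  choose Tp hTp using fun p => (hst p).1
  choose Zp hZp using fun p => (hst p).2
  have hB : ∀ q, ∃ T', ∃ Q', Q' ≤ (K * (1 + E.Qop + E.Qop)) ^ (It + 1) * (1 + Q + (Q + 1)) ∧
      Node Pr 0 T' Q' 0 0
      (K / (E.κr q * E.lam q) * (1 + sy + E.lam q * sξ))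
      (K / (E.κr q * E.lam q) * (1 + sy + E.lam q * sξ))
      (fun d V ω => E.H q d V (E.X q d V ω) (E.H q d V (E.X q d V ω) (E.Ξ q d V ω)))
      ((K / (E.κr q * E.lam q)) ^ 2 * E.δout)
      (K / (E.κr q * E.lam q) * (ey + E.lam q * eξ + E.κr q * E.Ein + E.Eout
        + E.lam q * tiny)) := by
    intro q
    have hl := E.lam_pos q
    have hk := E.kr_pos q
    obtain ⟨Z', hZ'⟩ := (Node.slot (P := Pr) (ν := 0) 2 (by decide)).pad zero_le_one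
    obtain ⟨T', Q', hQ', hT'⟩ := hsq Pr 0 (E.μ q) (E.H q) (E.lam q) (E.v₀ q) E.δin E.δout
      E.Qop E.Qop E.ε E.Ein E.Eout hε (by linarith) hl E.din_nonneg E.dout_nonneg E.ein_nonneg
      E.eout_nonneg (E.hess q) (E.extIn q) (E.extOut q) (Tp q) Q 1 (E.c₀ q) sy sy (E.X q) (E.vy q)
      ey (hTp q) (E.vy_nonneg q) hey (Zp q) Z' (Q + 1) sξ sξ (E.Ξ q) (fun _ _ ω => ω.2 2) 1 eξ
      ((hZp q).mono (Nat.le_succ Q) le_rfl le_rfl le_rfl)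
      (hZ'.mono (Nat.le_add_left 1 Q) hsξ hsξ heξ) zero_le_one heξ (E.law q) (E.κr q) _ hk
      (E.small q) (E.room q) le_rfl
    have hKl : 0 ≤ (K : ℝ) / (E.κr q * E.lam q) := by positivity
    refine ⟨T', Q', hQ', hT'.mono le_rfl ?_ ?_ ?_⟩
    · rw [abs_one]
    · refine mul_le_mul_of_nonneg_left ?_ hKl
      have := E.abs_c₀ q
      linarith
    · refine mul_le_mul_of_nonneg_left ?_ hKl
      have := mul_le_mul_of_nonneg_left (htiny q) hl.le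
      linarith
  choose TB QB hQB hTB using hB
  have hsplit : ∀ x y : ℝ, 0 ≤ x → 0 ≤ y →
      ∑ q, |U q| * (K / (E.κr q * E.lam q) * (x + E.lam q * y)) ≤ uB * x + uC * y :=
    fun x y hx hy => by
      calc ∑ q, |U q| * (K / (E.κr q * E.lam q) * (x + E.lam q * y))
          = (∑ q, |U q| * (K / (E.κr q * E.lam q))) * x + (∑ q, |U q| * (K / E.κr q)) * y := by
            rw [Finset.sum_mul, Finset.sum_mul, ← Finset.sum_add_distrib]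
            refine Finset.sum_congr rfl fun q _ => ?_
            have := (E.lam_pos q).ne'
            have := (E.kr_pos q).ne'
            field_simp
        _ ≤ _ := by gcongr
  obtain ⟨SB, hSB⟩ := Node.wsum U (Q := (K * (1 + E.Qop + E.Qop)) ^ (It + 1) * (1 + Q + (Q + 1)))
    (fun q => (hTB q).mono (hQB q) le_rfl le_rfl le_rfl)
    (S := uB * (1 + sy) + uC * sξ) (S₀ := uB * (1 + sy) + uC * sξ)
    (v := ∑ q, U q ^ 2 * ((K / (E.κr q * E.lam q)) ^ 2 * E.δout))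
    (E := uB * (ey + E.Eout) + uC * (eξ + tiny) + uD * E.Ein)
    (hsplit (1 + sy) sξ (by linarith) hsξ) (hsplit (1 + sy) sξ (by linarith) hsξ) le_rfl
    (by
      calc ∑ q, |U q| * (K / (E.κr q * E.lam q) * (ey + E.lam q * eξ + E.κr q * E.Ein + E.Eout
              + E.lam q * tiny))
          = ∑ q, |U q| * (K / (E.κr q * E.lam q) * (ey + E.Eout + E.lam q * (eξ + tiny)))
            + (∑ q, |U q| * (K / E.lam q)) * E.Ein := by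
            rw [Finset.sum_mul, ← Finset.sum_add_distrib]
            refine Finset.sum_congr rfl fun q _ => ?_
            have := (E.lam_pos q).ne'
            have := (E.kr_pos q).ne'
            field_simp
            ring
        _ ≤ _ := by
            have := E.eout_nonneg
            have := hsplit (ey + E.Eout) (eξ + tiny) (by positivity) (by positivity)
            have := mul_le_mul_of_nonneg_right huD E.ein_nonneg
            linarith)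
  obtain ⟨T, hT⟩ := Node.comb3 (Node.slot (P := Pr) (ν := 0) 1 (by decide)) hT₀ hSB (√E.δe) 1 1
    (X := fun d V ω => √E.δe • ω.2 1 + E.G₀ d V ω
      + ∑ q, U q • E.H q d V (E.X q d V ω) (E.H q d V (E.X q d V ω) (E.Ξ q d V ω)))
    (fun d V _ ω => by simp) (c := c) (c₀ := c₀) (v := v) (by ring) (by ring) (by simp)
    (by simpa using hv)
  refine ⟨T, (hT.shift (X' := X') (E' := ρ) fun d V hV => hρ d V hV).mono le_rfl ?_ ?_ ?_⟩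
  · simp
  · simp
  · simp

end FwdEnv

end Vale.Agent.P347
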