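import Vale.Agent.P347.Asymp

/-!
The inequalities between levels, noise levels and accuracy exponents.
-/

namespace Vale.Agent.P347

/-- The exponent of the inner gain. -/
def gainExp (n a : ℕ) : ℕ := n * (a - lossC n)

lemma accExp_succ_le (n a m j : ℕ) :
    accExp n a (m + 1) j ≤ accExp n a m j + (a - lossC n) := by
  unfold accExp
  rw [← Nat.mul_succ]
  gcongr
  omega

lemma accExp_succ_le' (n a m : ℕ) {j : ℕ} (hn : 1 ≤ n) (hj : j < n) :
    accExp n a (m + 1) j ≤ accExp n a m (j + 1) + gainExp n a := by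
  unfold accExp gainExp
  rw [mul_comm n (a - lossC n), ← Nat.mul_add]
  gcongr
  have h : (n - j) * n = (n - (j + 1)) * n + n := by
    rw [← Nat.succ_mul]; congr 1; omega
  omega

lemma accExp_le_gain (n a m j : ℕ) : accExp n a m j ≤ n * gainExp n a := by
  unfold accExp gainExp
  calc (a - lossC n) * min m ((n - j) * n) ≤ (a - lossC n) * (n * n) :=
        Nat.mul_le_mul_left _ ((min_le_right _ _).trans (Nat.mul_le_mul_right _ (Nat.sub_le _ _)))
    _ = _ := by ring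

lemma accExp_top (n a j : ℕ) {m : ℕ} (h : j = n ∨ m = 0) : accExp n a m j = 0 := by
  rcases h with rfl | rfl <;> simp [accExp]

variable {R : ℝ}

lemma le_topLevel {n a i m : ℕ} (hR : 1 ≤ R) (hi : i ≤ n) (h : 11 ≤ 4 * n * a) {τ : ℝ}
    (hτ : 0 ≤ τ) (htop : 2 ^ m * τ ≤ topLevel n a i R) : τ ≤ (R ^ (4 * n * a - 1))⁻¹ := by
  have h1 := (le_mul_of_one_le_left hτ (one_le_pow₀ one_le_two)).trans
    (htop.trans (topLevel_mono hR n a hi))
  rwa [topLevel, topExp_top n a h] at h1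

/-- A level is far below every noise level but the last, by the inner gain. -/
lemma level_mul_le {n a i j k : ℕ} (hR : 1 ≤ R) (hj : j < n) (ha : lossC n + 11 ≤ a)
    (hk : k ≤ 20 * (n + 1)) {τ δ : ℝ}
    (hτ : τ ≤ (R ^ (4 * n * a - 1))⁻¹) (hwin : lad a j R ≤ R ^ (4 * (n - i) + 4) * δ) :
    τ * R ^ (2 * (gainExp n a + k)) ≤ δ := by
  have hR0 : 0 < R := by linarith
  have hδ : (R ^ (2 * a * j + (4 * (n - i) + 4)))⁻¹ ≤ δ := by
    rw [pow_add, mul_inv, mul_comm, inv_mul_le_iff₀ (by positivity)]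
    exact hwin
  refine le_trans ?_ hδ
  refine (mul_le_mul_of_nonneg_right hτ (by positivity)).trans ?_
  rw [inv_mul_le_iff₀ (by positivity), ← div_eq_mul_inv, le_div_iff₀ (by positivity), ← pow_add]
  refine pow_le_pow_right₀ hR ?_
  have h1 : 2 * a * j + 2 * a ≤ 2 * a * n := by
    rw [← Nat.mul_succ]; exact Nat.mul_le_mul_left _ hj
  have h2 : gainExp n a + n * lossC n = n * a := by
    rw [gainExp, ← Nat.mul_add]; congr 1; omega
  have h4 : 2 * a * n = 2 * (n * a) := by ring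
  have h5 : 4 * n * a = 4 * (n * a) := by ring
  have h6 : lossC n = 40 * (n + 1) := rfl
  have h7 : n - i ≤ n := Nat.sub_le _ _
  omega

/-- The next noise level is far below the current one, by the outer gain. -/
lemma lad_succ_mul_le {n a i j k : ℕ} (hR : 1 ≤ R) (ha : lossC n + 11 ≤ a)
    (hk : k ≤ 20 * (n + 1)) {δ : ℝ} (hwin : lad a j R ≤ R ^ (4 * (n - i) + 4) * δ) :
    lad a (j + 1) R * R ^ (2 * (a - lossC n + k)) ≤ δ := by
  have hR0 : 0 < R := by linarith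
  have hδ : (R ^ (2 * a * j + (4 * (n - i) + 4)))⁻¹ ≤ δ := by
    rw [pow_add, mul_inv, mul_comm, inv_mul_le_iff₀ (by positivity)]
    exact hwin
  refine le_trans ?_ hδ
  rw [lad, inv_mul_le_iff₀ (by positivity), ← div_eq_mul_inv, le_div_iff₀ (by positivity),
    ← pow_add]
  refine pow_le_pow_right₀ hR ?_
  have h6 : lossC n = 40 * (n + 1) := rfl
  have h7 : n - i ≤ n := Nat.sub_le _ _
  rw [Nat.mul_succ]
  omega

lemma lad_le_mul {n a i j : ℕ} (hR : 1 ≤ R) {δ : ℝ} (hδ0 : 0 ≤ δ)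
    (hwin : lad a j R ≤ R ^ (4 * (n - i) + 4) * δ) : lad a j R ≤ R ^ (4 * n + 4) * δ :=
  hwin.trans (mul_le_mul_of_nonneg_right (pow_le_pow_right₀ hR (by omega)) hδ0)

lemma sqrt_div_le_inv_pow {x y : ℝ} (hR : 0 < R) (hx : 0 ≤ x) (hy : 0 < y) {N : ℕ}
    (h : x * R ^ (2 * N) ≤ y) : √x / √y ≤ (R ^ N)⁻¹ := by
  rw [← Real.sqrt_div hx, show (R ^ N)⁻¹ = √(((R ^ N)⁻¹) ^ 2) by
    rw [Real.sqrt_sq (by positivity)]]
  refine Real.sqrt_le_sqrt ?_
  rw [div_le_iff₀ hy, inv_pow, ← pow_mul, mul_comm N 2, inv_mul_eq_div,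
    le_div_iff₀ (by positivity)]
  exact h

/-- A gain absorbs a lower accuracy. -/
lemma div_pow_le_of_gain (hR : 1 ≤ R) {X Y G : ℕ} (h : X ≤ Y + G) {C : ℝ} (hC : 0 ≤ C) :
    (R ^ G)⁻¹ * (C / R ^ Y) ≤ C / R ^ X := by
  have hR0 : 0 < R := by linarith
  rw [inv_mul_eq_div, div_div, ← pow_add]
  gcongr

end Vale.Agent.P347
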