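import Vale.Agent.P347.AvgExtract

/-!
The extractor of the gadget phase.
-/

namespace Vale.Agent.P347

open MeasureTheory ProbabilityTheory
open scoped Gradient

variable {P : ℕ}

/-- The extractor of the gadget phase, from score operators at the shifted levels. -/
lemma exists_scoreExtractor (hlev : LevelFactsStatement) (hext : ExtractCurveStatement)
    (hP : 2 ≤ P) :
    ∃ c₀ K : ℝ, 0 < c₀ ∧ 0 ≤ K ∧ ∀ (t lam v₀ δ : ℝ) (Q : ℕ) (ε E : ℝ), 0 < t → 2 * t ≤ c₀ →
      0 < lam → lam ^ 2 ≤ t → 0 ≤ v₀ → 0 ≤ E →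
      (∀ l : Fin P, ∃ op, OpOK op Q ε (scoreFam (t + (lam * eqNode l) ^ 2))
          (levelFam (t + (lam * eqNode l) ^ 2)) v₀ δ E) →
      Extractor P (levelFam t) (hessFam t 0) lam v₀ δ Q ε (E + K * (2 * lam / √t) ^ P) := by
  obtain ⟨c₁, C₁, hc₁, -, hlev⟩ := hlev
  obtain ⟨c₂, hc₂, Cc, hext⟩ := hext
  refine ⟨min c₁ c₂, diffSize P * |Cc P|, lt_min hc₁ hc₂,
    mul_nonneg (zero_le_one.trans (one_le_diffSize P)) (abs_nonneg _), ?_⟩
  intro t lam v₀ δ Q ε E ht htc hlam hlamt hv₀ hE hops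
  have htc₁ : 2 * t ≤ c₁ := htc.trans (min_le_left _ _)
  have htc₂ : 2 * t ≤ c₂ := htc.trans (min_le_right _ _)
  set node : Fin P → ℝ := fun l => lam * eqNode l with hnode
  have hnode2 : ∀ l, node l ^ 2 ≤ lam ^ 2 := fun l => by
    rw [hnode]; dsimp only
    rw [mul_pow]
    exact mul_le_of_le_one_right (sq_nonneg _) ((sq_le_one_iff_abs_le_one _).2 (abs_eqNode_le hP l))
  have hops' : ∀ l, ∃ op, OpOK op Q ε (scoreFam (t + node l ^ 2))
      (levelFam (t + node l ^ 2)) v₀ δ (E + diffSize P * |Cc P| * (2 * lam / √t) ^ P) := by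
    intro l
    obtain ⟨op, hop⟩ := hops l
    exact ⟨op, hop.mono le_rfl le_rfl (le_add_of_nonneg_right (by
      have := one_le_diffSize P; positivity))⟩
  choose ops hops'' using hops'
  refine ⟨ops, _, _, hops'', fun d V hV => ?_⟩
  obtain ⟨hl1, -, hl3, -⟩ := hlev d V hV.pot hV.grad_zero
  obtain ⟨hp, -, -, hconv⟩ := hl1 t ht.le (by linarith)
  obtain ⟨hcurve, hder⟩ := (hext d V hV.pot hV.grad_zero).1 t ht (by linarith)
  have hH : Continuous (hessAvg V t 0) := (hl3 t 0 ht le_rfl (by linarith)).2.1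
  have hsqrt : lam ≤ √t := Real.le_sqrt_of_sq_le hlamt
  obtain ⟨hri, hrle⟩ := residual_bound (D := fun p : Euc d × Euc d => hessAvg V t 0 p.1 p.2)
    (M := |Cc P| * ((d : ℝ) + 1) ^ 2 / √t ^ P) hcurve hP hlam (by linarith) hsqrt
    (fun s _ => by gcongr; exact le_abs_self _) (by fun_prop) hder
  refine ⟨fun l => ?_, hH, fun l => ?_, hri, ?_⟩
  · have h1 : ((levelLaw V t).prod (gauss d)).map (fun p => p.1 + node l • p.2)
        = ((levelLaw V t).prod (gauss d)).map (fun p => p.1 + √(node l ^ 2) • p.2) := by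
      rw [Real.sqrt_sq_eq_abs]
      rcases le_total 0 (node l) with h | h
      · rw [abs_of_nonneg h]
      · rw [abs_of_nonpos h]
        have hneg : (gauss d).map (fun η => -η) = gauss d := by
          have := stdGaussian_map (LinearIsometryEquiv.neg ℝ (E := Euc d))
          exact this
        conv_lhs => rw [← Measure.map_id (μ := levelLaw V t), ← hneg,
          Measure.map_prod_map _ _ measurable_id (by fun_prop),
          Measure.map_map (by fun_prop) (by fun_prop)]
        congr 1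
        funext p
        simp
    exact h1.trans (hconv (node l ^ 2) (sq_nonneg _) (by nlinarith [hnode2 l]))
  · obtain ⟨hdiff, -, -, -, -, he, -⟩ :=
      hl3 (t + node l ^ 2) 0 (by positivity) le_rfl (by nlinarith [hnode2 l])
    show Continuous (score V (t + node l ^ 2))
    rw [← funext he]
    exact hdiff.continuous
  · refine hrle.trans ?_
    rw [add_mul, div_pow]
    refine le_add_of_nonneg_of_le (mul_nonneg hE (dimFac_nonneg d)) ?_
    have hd : ((d : ℝ) + 1) ^ 2 ≤ dimFac d := pow_le_pow_right₀ (by simp) (by norm_num)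
    have := one_le_diffSize P
    calc diffSize P * (2 * lam) ^ P * (|Cc P| * ((d : ℝ) + 1) ^ 2 / √t ^ P)
        ≤ diffSize P * (2 * lam) ^ P * (|Cc P| * dimFac d / √t ^ P) := by gcongr
      _ = _ := by ring

end Vale.Agent.P347
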