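import Vale.Agent.P347.ForwardAt
import Vale.Agent.P347.ScoreExtract
import Vale.Agent.P347.Params

/-!
The parameters of the forward pass in the recursion.
-/

namespace Vale.Agent.P347

open MeasureTheory ProbabilityTheory

lemma log_le_of_le_pow {x R : ℝ} {N : ℕ} (hx : 0 < x) (hR : 1 ≤ R) (hN : 4 * (N : ℝ) ^ 2 ≤ R)
    (h : x ≤ R ^ N) : Real.log x ≤ R := by
  have hR0 : 0 < R := by linarith
  have h1 : Real.log R ≤ 2 * √R := by
    have h2 := Real.log_le_sub_one_of_pos (Real.sqrt_pos.2 hR0)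
    rw [Real.log_sqrt hR0.le] at h2
    linarith
  have h3 : 2 * (N : ℝ) ≤ √R := Real.le_sqrt_of_sq_le (by linarith)
  calc Real.log x ≤ Real.log (R ^ N) := Real.log_le_log hx h
    _ = N * Real.log R := Real.log_pow _ _
    _ ≤ N * (2 * √R) := mul_le_mul_of_nonneg_left h1 (Nat.cast_nonneg N)
    _ = (2 * N) * √R := by ring
    _ ≤ √R * √R := mul_le_mul_of_nonneg_right h3 (Real.sqrt_nonneg _)
    _ = R := Real.mul_self_sqrt hR0.le

variable {n a m i j : ℕ} {R τ δ : ℝ}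

/-- The facts about the levels of a gadget. -/
lemma fwd_levels_le (hn : 1 ≤ n) (ha : lossC n + 11 ≤ a) (hi : i < n) (hR : 3 ≤ R)
    (hτ : (R ^ (topExp n a 0 + 1))⁻¹ ≤ τ) (htop : 2 ^ (m + 1) * τ ≤ topLevel n a (i + 1) R) :
    0 < τ ∧ τ ≤ (R ^ (4 * n * a - 1))⁻¹ ∧ τ ≤ (R ^ 40)⁻¹ ∧ τ ≤ R⁻¹ ∧
    2 ^ (m + 1) * (2 * gadgetLow τ R) ≤ topLevel n a i R ∧
    0 < gadgetLow τ R ∧ 0 < gadgetGap n a τ R ∧
    gadgetLow τ R < τ - gadgetGap n a τ R := by
  have hR0 : 0 < R := by linarith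
  have hR1 : (1 : ℝ) ≤ R := by linarith
  have hτ0 : 0 < τ := lt_of_lt_of_le (by positivity) hτ
  have hloss : lossC n = 40 * (n + 1) := rfl
  have ha1 : a ≤ n * a := Nat.le_mul_of_pos_left a hn
  have h4 : 4 * n * a = 4 * (n * a) := by ring
  have h1 := le_topLevel hR1 (show i + 1 ≤ n by omega) (by omega) hτ0.le htop
  have h40 : τ ≤ (R ^ 40)⁻¹ :=
    h1.trans (inv_anti₀ (by positivity) (pow_le_pow_right₀ hR1 (by omega)))
  have hlow : 0 < gadgetLow τ R := by unfold gadgetLow; positivity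
  have hgap : 0 < gadgetGap n a τ R := by unfold gadgetGap; positivity
  refine ⟨hτ0, h1, h40, h40.trans (inv_anti₀ hR0 (le_self_pow₀ hR1 (by norm_num))), ?_, hlow,
    hgap, ?_⟩
  · have e : topExp n a i + 10 = 2 * topExp n a (i + 1) := by
      unfold topExp
      rw [show n - i = (n - (i + 1)) + 1 by omega, pow_succ]
      ring
    have h2 : (1 : ℝ) ≤ 2 ^ (m + 1) := one_le_pow₀ one_le_two
    have h3 : 2 ^ (m + 1) * (τ * τ) ≤ topLevel n a (i + 1) R * topLevel n a (i + 1) R := by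
      calc 2 ^ (m + 1) * (τ * τ) ≤ (2 ^ (m + 1) * τ) * (2 ^ (m + 1) * τ) := by
            rw [show (2 : ℝ) ^ (m + 1) * τ * (2 ^ (m + 1) * τ)
              = 2 ^ (m + 1) * (2 ^ (m + 1) * (τ * τ)) by ring]
            exact mul_le_mul_of_nonneg_left (le_mul_of_one_le_left (by positivity) h2)
              (by positivity)
        _ ≤ _ := mul_le_mul htop htop (by positivity) (by unfold topLevel; positivity)
    calc 2 ^ (m + 1) * (2 * gadgetLow τ R) = 2 * R ^ 8 * (2 ^ (m + 1) * (τ * τ)) := by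
          unfold gadgetLow; ring
      _ ≤ R ^ 10 * (topLevel n a (i + 1) R * topLevel n a (i + 1) R) := by
          refine mul_le_mul ?_ h3 (by positivity) (by positivity)
          calc (2 : ℝ) * R ^ 8 ≤ R ^ 2 * R ^ 8 :=
                mul_le_mul_of_nonneg_right (by nlinarith) (by positivity)
            _ = _ := by ring
      _ = _ := by
          unfold topLevel
          rw [← mul_inv, ← pow_add, ← two_mul, ← e, pow_add]
          field_simp
  · have h5 : τ * R ^ 8 ≤ 1 / 3 := by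
      refine (mul_le_mul_of_nonneg_right h40 (by positivity)).trans ?_
      rw [inv_mul_le_iff₀ (by positivity)]
      have h6 : R ^ 8 * R ≤ R ^ 40 :=
        le_trans (le_of_eq (pow_succ R 8).symm) (pow_le_pow_right₀ hR1 (by norm_num))
      nlinarith [pow_pos hR0 8]
    have h7 : gadgetGap n a τ R ≤ τ / 3 := by
      unfold gadgetGap
      gcongr
      exact hR.trans (le_self_pow₀ hR1 (by have := topExp_ge_ten n a 0; omega))
    have h8 : gadgetLow τ R ≤ τ / 3 := by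
      unfold gadgetLow
      calc τ ^ 2 * R ^ 8 = τ * (τ * R ^ 8) := by ring
        _ ≤ τ * (1 / 3) := mul_le_mul_of_nonneg_left h5 hτ0.le
        _ = _ := by ring
    linarith

lemma fwd_log_le (hR : 1 ≤ R) (hN : 4 * ((3 * topExp n a 0 + 1 : ℕ) : ℝ) ^ 2 ≤ R)
    (hτ : (R ^ (topExp n a 0 + 1))⁻¹ ≤ τ) (hτ0 : 0 < τ)
    (hlt : gadgetLow τ R < τ - gadgetGap n a τ R) :
    Real.log ((τ - gadgetGap n a τ R) / (τ - (τ - gadgetGap n a τ R))
      * ((τ - gadgetLow τ R) / gadgetLow τ R)) ≤ R := by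
  have hR0 : 0 < R := by linarith
  have hlow : 0 < gadgetLow τ R := by unfold gadgetLow; positivity
  have hgap : 0 < gadgetGap n a τ R := by unfold gadgetGap; positivity
  rw [sub_sub_cancel]
  refine log_le_of_le_pow (mul_pos (div_pos (by linarith) hgap) (div_pos (by linarith) hlow)) hR
    hN ?_
  calc (τ - gadgetGap n a τ R) / gadgetGap n a τ R * ((τ - gadgetLow τ R) / gadgetLow τ R)
      ≤ τ / gadgetGap n a τ R * (τ / gadgetLow τ R) := by
        refine mul_le_mul (by gcongr; linarith) (by gcongr; linarith)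
          (div_nonneg (by linarith) hlow.le) (by positivity)
    _ = R ^ (2 * topExp n a 0) / (τ * R ^ 8) := by
        unfold gadgetGap gadgetLow; field_simp
    _ ≤ R ^ (2 * topExp n a 0) / ((R ^ (topExp n a 0 + 1))⁻¹ * 1) := by
        gcongr
        exact one_le_pow₀ hR
    _ = _ := by
        rw [mul_one, div_inv_eq_mul, ← pow_add]
        congr 1
        omega

/-- A level is far below every noise level, by the inner gain. -/
lemma level_mul_le_lad (hn : 1 ≤ n) (hR : 1 ≤ R) (hj : j < n) (ha : lossC n + 11 ≤ a)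
    (hτ : τ ≤ (R ^ (4 * n * a - 1))⁻¹) :
    τ * R ^ (2 * (gainExp n a + 2)) ≤ lad a (j + 1) R := by
  have hR0 : 0 < R := by linarith
  refine (mul_le_mul_of_nonneg_right hτ (by positivity)).trans ?_
  rw [lad, inv_mul_le_iff₀ (by positivity), ← div_eq_mul_inv, le_div_iff₀ (by positivity),
    ← pow_add]
  refine pow_le_pow_right₀ hR ?_
  have h1 : 2 * a * (j + 1) ≤ 2 * a * n := Nat.mul_le_mul_left _ hj
  have h2 : gainExp n a + n * lossC n = n * a := by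
    rw [gainExp, ← Nat.mul_add]; congr 1; omega
  have h3 : lossC n ≤ n * lossC n := Nat.le_mul_of_pos_left _ hn
  have h4 : 2 * a * n = 2 * (n * a) := by ring
  have h5 : 4 * n * a = 4 * (n * a) := by ring
  have h6 : lossC n = 40 * (n + 1) := rfl
  omega

/-- The sizes in the recursion. -/
lemma fwd_size {K P : ℕ} {KP : ℝ} (hn : 1 ≤ n) (ha : lossC n + 11 ≤ a) (hi : i < n)
    (hj : j < n) (hR : 3 ≤ R)
    (hbig : 8 * (1 + (K : ℝ)) ^ 2 * diffSize P ^ 2 * KP ^ 2 * P ≤ R) (hK : 1 ≤ K) (hP : 2 ≤ P)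
    (hKP : 1 ≤ KP) (hτ : (R ^ (topExp n a 0 + 1))⁻¹ ≤ τ)
    (htop : 2 ^ (m + 1) * τ ≤ topLevel n a (i + 1) R)
    (hwin : lad a j R ≤ R ^ (4 * (n - (i + 1)) + 4) * δ) (hδ : δ ≤ lad a j R) :
    FwdSize n K P KP R τ δ (lad a (j + 1) R) (lad a j R) ∧
    √τ / √δ ≤ (R ^ (gainExp n a + 20))⁻¹ ∧
    √(lad a (j + 1) R) / √δ ≤ (R ^ (a - lossC n + (2 * n + 10)))⁻¹ ∧
    √τ / √(lad a (j + 1) R) ≤ (R ^ (gainExp n a + 2))⁻¹ := by
  have hR0 : 0 < R := by linarith
  have hR1 : (1 : ℝ) ≤ R := by linarith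
  obtain ⟨hτ0, hτ1, hτ40, -⟩ := fwd_levels_le hn ha hi hR hτ htop
  have hδ0 : 0 < δ := by
    by_contra h
    have := lad_pos hR0 a j
    have := mul_nonpos_of_nonneg_of_nonpos (pow_nonneg hR0.le (4 * (n - (i + 1)) + 4)) (not_lt.1 h)
    linarith
  have t1 : √τ / √δ ≤ (R ^ (gainExp n a + 20))⁻¹ :=
    sqrt_div_le_inv_pow hR0 hτ0.le hδ0 (level_mul_le hR1 hj ha (by omega) hτ1 hwin)
  have t2 : √(lad a (j + 1) R) / √δ ≤ (R ^ (a - lossC n + (2 * n + 10)))⁻¹ :=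
    sqrt_div_le_inv_pow hR0 (lad_pos hR0 a _).le hδ0 (lad_succ_mul_le hR1 ha (by omega) hwin)
  refine ⟨⟨hR, hbig, hK, hP, hKP, hτ0, hτ40, hδ0, hδ.trans (lad_le_one hR1 a j), lad_pos hR0 a _,
    (lad_pos hR0 a j).le, lad_le_mul hR1 hδ0.le hwin, ?_, ?_⟩, t1, t2,
    sqrt_div_le_inv_pow hR0 hτ0.le (lad_pos hR0 a _) (level_mul_le_lad hn hR1 hj ha hτ1)⟩
  · exact t1.trans (inv_anti₀ (by positivity) (pow_le_pow_right₀ hR1 (by omega)))
  · exact t2.trans (inv_anti₀ (by positivity) (pow_le_pow_right₀ hR1 (by omega)))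

/-- The angle scales are tiny. -/
lemma fwd_small {K P G X : ℕ} {din t : ℝ} (hR : 3 ≤ R) (hK : 2 * (K : ℝ) ≤ R) (ht0 : 0 < t)
    (htτ : t < τ) (hτd : √τ / √din ≤ (R ^ (G + 2))⁻¹) (hXP : X ≤ P)
    (hXG : X ≤ n * G) :
    (K : ℝ) * (fwdLam τ R t / √din) ≤ 1 / 2 ∧
    (fwdLam τ R t / √din) ^ P + ((K : ℝ) * (fwdLam τ R t / √din)) ^ n ≤ 2 / R ^ X := by
  have hR0 : 0 < R := by linarith
  have hR1 : (1 : ℝ) ≤ R := by linarith
  have hl : fwdLam τ R t ≤ √τ := Real.le_sqrt_of_sq_le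
    ((fwdLam_sq_le hR0 ht0 htτ).trans ((div_le_self ht0.le (one_le_pow₀ hR1)).trans htτ.le))
  have hk0 : 0 ≤ fwdLam τ R t / √din :=
    div_nonneg (fwdLam_pos hR0 ht0 htτ).le (Real.sqrt_nonneg _)
  have hk : fwdLam τ R t / √din ≤ (R ^ (G + 2))⁻¹ :=
    (div_le_div_of_nonneg_right hl (Real.sqrt_nonneg _)).trans hτd
  have hKk : (K : ℝ) * (fwdLam τ R t / √din) ≤ 1 / 2 * (R ^ (G + 1))⁻¹ := by
    calc (K : ℝ) * (fwdLam τ R t / √din) ≤ (R / 2) * (R ^ (G + 2))⁻¹ :=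
          mul_le_mul (by linarith) hk hk0 (by linarith)
      _ = _ := by field_simp; ring
  refine ⟨hKk.trans (mul_le_of_le_one_right (by norm_num)
    (inv_le_one_of_one_le₀ (one_le_pow₀ hR1))), ?_⟩
  have h1 : (fwdLam τ R t / √din) ^ P ≤ (R ^ X)⁻¹ := by
    refine (pow_le_pow_left₀ hk0 hk P).trans ?_
    rw [inv_pow, ← pow_mul]
    refine inv_anti₀ (by positivity) (pow_le_pow_right₀ hR1 (hXP.trans ?_))
    exact Nat.le_mul_of_pos_left P (by omega)
  have h2 : ((K : ℝ) * (fwdLam τ R t / √din)) ^ n ≤ (R ^ X)⁻¹ := by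
    refine (pow_le_pow_left₀ (by positivity) (hKk.trans
      (mul_le_of_le_one_left (by positivity) (by norm_num))) n).trans ?_
    rw [inv_pow, ← pow_mul]
    refine inv_anti₀ (by positivity) (pow_le_pow_right₀ hR1 (hXG.trans ?_))
    rw [Nat.mul_comm]
    exact Nat.mul_le_mul_right _ (by omega)
  calc _ ≤ (R ^ X)⁻¹ + (R ^ X)⁻¹ := add_le_add h1 h2
    _ = _ := by ring

/-- The equations discretised on a grid. -/
lemma fwd_quad {P : ℕ} {KP top low κ : ℝ} {Φf : PathFam} {Cf : ℕ → ℝ}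
    (hτ : 0 < τ) (hlow : 0 < low) (htop : top < τ) (hR : 0 < R) (hKP : 0 ≤ KP)
    (hf : FwdPath τ low top κ Φf Cf) (g : Grid τ low top R)
    (hg : ∀ s ∈ Set.Icc low top,
      ∃ W W₁ Wb : Fin g.K × Fin P → ℝ,
        (∀ p, |W p| ≤ KP * (g.pt (p.1 + 1) - g.pt p.1) ∧
          |W₁ p| ≤ KP * (g.pt (p.1 + 1) - g.pt p.1) ∧ |Wb p| ≤ KP * τ / R) ∧
        (∀ p, s ≤ g.pt p.1 → W p = 0 ∧ W₁ p = 0) ∧
        ∀ (d : ℕ) (μ : Measure (Euc d × Euc d × Euc d)) (G : ℝ → Euc d × Euc d × Euc d → Euc d)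
          (B : ℕ → ℝ → ℝ) (M : ℝ), IsProbabilityMeasure μ → CurveBound μ low top G B →
          (∀ u ∈ Set.Icc low top, B P u ≤ M / min u (τ - u) ^ P) → 0 ≤ M →
          (Integrable (fun ω => ‖∑ p, W p • G (g.node p) ω
              - ∫ u in low..s, √((τ - s) / (τ - u)) • G u ω‖) μ ∧
            ∫ ω, ‖∑ p, W p • G (g.node p) ω
              - ∫ u in low..s, √((τ - s) / (τ - u)) • G u ω‖ ∂μ ≤ KP * τ * M / R ^ (P - 3)) ∧
          (Integrable (fun ω => ‖∑ p, W₁ p • G (g.node p) ω - ∫ u in low..s, G u ω‖) μ ∧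
            ∫ ω, ‖∑ p, W₁ p • G (g.node p) ω - ∫ u in low..s, G u ω‖ ∂μ
              ≤ KP * τ * M / R ^ (P - 3)) ∧
          (Integrable (fun ω => ‖∑ p, Wb p • G (g.node p) ω
              - ∫ u in top..s, √((τ - s) / (τ - u)) • G u ω‖) μ ∧
            ∫ ω, ‖∑ p, Wb p • G (g.node p) ω
              - ∫ u in top..s, √((τ - s) / (τ - u)) • G u ω‖ ∂μ ≤ KP * τ * M / R ^ (P - 3))) :
    FwdQuad τ low top KP R (KP * τ * |Cf P| / R ^ (P - 3)) g P Φf := by
  intro s hs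
  obtain ⟨W, W₁, Wb, hW, hW0, hq⟩ := hg s hs
  refine ⟨W, W₁, fun p => ⟨(hW p).1, (hW p).2.1⟩, fun p hp => (hW0 p hp).1, fun d V hV => ?_⟩
  have := isProbabilityMeasure_pathLaw (τ := τ) hV.pot hlow.le
  have hM : ∀ u ∈ Set.Icc low top, Cf P * ((d : ℝ) + 1) ^ 2 / min u (τ - u) ^ P
      ≤ |Cf P| * ((d : ℝ) + 1) ^ 2 / min u (τ - u) ^ P := fun u hu => by
    have : 0 < min u (τ - u) := lt_min (hlow.trans_le hu.1) (by linarith [hu.2])
    gcongr
    exact le_abs_self _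
  have hdim : KP * τ * (|Cf P| * ((d : ℝ) + 1) ^ 2) / R ^ (P - 3)
      ≤ KP * τ * |Cf P| / R ^ (P - 3) * dimFac d := by
    rw [div_mul_eq_mul_div, mul_assoc (KP * τ) |Cf P| (dimFac d)]
    gcongr
    exact pow_le_pow_right₀ (by simp) (by norm_num)
  obtain ⟨h1, -, -⟩ := hq d _ _ _ _ this (hf.score_bound d V hV) hM (by positivity)
  obtain ⟨h2, -, -⟩ := hq d _ _ _ _ this (hf.hess_bound d V hV) hM (by positivity)
  obtain ⟨-, h3, -⟩ := hq d _ _ _ _ this (hf.hessSq_bound d V hV) hM (by positivity)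
  exact ⟨⟨h1.1, h1.2.trans hdim⟩, ⟨h2.1, h2.2.trans hdim⟩, h3.1, h3.2.trans hdim⟩

/-- The facts about levels below `τ`. -/
lemma fwd_levels (hlev : LevelFactsStatement) :
    ∃ c CL : ℝ, 0 < c ∧ 0 ≤ CL ∧ ∀ low τ : ℝ, 0 < low → τ ≤ c → FwdLevels low τ CL := by
  obtain ⟨c, C, hc, hC, h⟩ := hlev
  refine ⟨c, C, hc, hC.le, fun low τ hlow hτ => ⟨fun d V hV t ht => ?_, fun d V hV t ht => ?_⟩⟩
  · obtain ⟨-, -, h3, -⟩ := h d V hV.pot hV.grad_zero
    obtain ⟨-, k1, k2, k3, -⟩ := h3 t 0 (hlow.trans_le ht.1) le_rfl (by linarith [ht.2])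
    exact ⟨k1, k2, k3⟩
  · obtain ⟨h1, -⟩ := h d V hV.pot hV.grad_zero
    obtain ⟨-, k1, k2, -⟩ := h1 t (hlow.le.trans ht.1) (ht.2.trans hτ)
    refine ⟨by simpa using k1 1, k2.trans ?_⟩
    refine mul_le_mul_of_nonneg_left ?_ hC.le
    exact le_self_pow₀ (by simp) (by norm_num)

/-- The operators at the nodes, from score evaluation. -/
lemma fwd_ops {q P Qop : ℕ} {ε C cX KX low top : ℝ} (hn : 1 ≤ n) (ha : 11 ≤ a) (hj : j < n)
    (hR : 3 ≤ R) (hP : P = ordP n a) (hQop : Qop = ⌊R ^ q⌋₊) (hC : 0 ≤ C) (hKX : 0 ≤ KX)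
    (hext : ∀ (t lam v₀ δ : ℝ) (Q : ℕ) (ε E : ℝ), 0 < t → 2 * t ≤ cX →
      0 < lam → lam ^ 2 ≤ t → 0 ≤ v₀ → 0 ≤ E →
      (∀ l : Fin P, ∃ op, OpOK op Q ε (scoreFam (t + (lam * eqNode l) ^ 2))
          (levelFam (t + (lam * eqNode l) ^ 2)) v₀ δ E) →
      Extractor P (levelFam t) (hessFam t 0) lam v₀ δ Q ε (E + KX * (2 * lam / √t) ^ P))
    (hev : ∀ (j : ℕ) (t v δ : ℝ), j ≤ n →
      0 < t → 0 ≤ v → v * R ^ 2 ≤ t → 2 ^ m * (2 * t) ≤ topLevel n a n R →
      lad a j R ≤ R ^ (4 * (n - n) + 1) * δ →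
      δ ≤ lad a j R → ∃ (op : Op) (Q : ℕ), (Q : ℝ) ≤ R ^ q ∧
        OpOK op Q ε (scoreFam t) (levelFam t) v δ (C / R ^ accExp n a m j))
    (hlow : 0 < low) (htop : top < τ) (hτc : 2 * τ ≤ cX)
    (hτ : 2 ^ (m + 1) * τ ≤ topLevel n a n R) :
    FwdOps τ low top R (lad a (j + 1) R) (lad a j R) ε
      ((C + KX) / R ^ accExp n a m (j + 1)) ((C + KX) / R ^ accExp n a m j) P Qop := by
  have hR0 : 0 < R := by linarith
  have hR1 : (1 : ℝ) ≤ R := by linarith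
  intro t ht
  have ht0 : 0 < t := hlow.trans_le ht.1
  have htτ : t < τ := ht.2.trans_lt htop
  have hop : ∀ (j' : ℕ) (t' v : ℝ), j' ≤ n → t ≤ t' → t' ≤ τ → 0 ≤ v → v ≤ t / R ^ 2 →
      ∃ op, OpOK op Qop ε (scoreFam t') (levelFam t') v (lad a j' R) (C / R ^ accExp n a m j') := by
    intro j' t' v hj' htt' ht'τ hv hv'
    obtain ⟨op, Q, hQ, hok⟩ := hev j' t' v (lad a j' R) hj' (ht0.trans_le htt') hv
      (((le_div_iff₀ (by positivity)).1 hv').trans htt')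
      (by rw [← mul_assoc, ← pow_succ]
          exact (mul_le_mul_of_nonneg_left ht'τ (by positivity)).trans hτ)
      (le_mul_of_one_le_left (lad_pos hR0 a j').le (one_le_pow₀ hR1)) le_rfl
    exact ⟨op, hok.mono (hQop ▸ Nat.le_floor hQ) le_rfl le_rfl⟩
  have hext' : ∀ j', j' ≤ n → Extractor P (levelFam t) (hessFam t 0) (fwdLam τ R t) (t / R ^ 2)
      (lad a j' R) Qop ε ((C + KX) / R ^ accExp n a m j') := by
    intro j' hj'
    have hl := fwdLam_pos hR0 ht0 htτ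
    have hl2 := fwdLam_sq_le hR0 ht0 htτ
    have hlt : fwdLam τ R t ^ 2 ≤ t :=
      hl2.trans (div_le_self ht0.le (one_le_pow₀ hR1))
    have hnode : ∀ l : Fin P, (fwdLam τ R t * eqNode l) ^ 2 ≤ fwdLam τ R t ^ 2 := fun l => by
      rw [mul_pow]
      refine mul_le_of_le_one_right (sq_nonneg _) ((sq_le_one_iff_abs_le_one _).2
        (abs_eqNode_le ?_ l))
      subst hP
      unfold ordP
      omega
    obtain ⟨ops, us, μs, hops, hres⟩ := hext t (fwdLam τ R t) (t / R ^ 2) (lad a j' R) Qop ε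
      (C / R ^ accExp n a m j') ht0 (by linarith) hl hlt (by positivity) (by positivity)
      fun l => hop j' _ _ hj' (le_add_of_nonneg_right (sq_nonneg _))
        (by linarith [hnode l, fwdLam_add_le hR1 ht0 htτ]) (by positivity) le_rfl
    have hE : C / R ^ accExp n a m j' + KX * (2 * fwdLam τ R t / √t) ^ P
        ≤ (C + KX) / R ^ accExp n a m j' := by
      rw [add_div]
      gcongr ?_ + ?_
      · exact le_rfl
      have h1 : 2 * fwdLam τ R t / √t ≤ R⁻¹ := by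
        have h2 : fwdLam τ R t ≤ √t / R ^ 2 := by
          have h3 := Real.sqrt_le_sqrt hl2
          rwa [Real.sqrt_sq hl.le, Real.sqrt_div ht0.le, show R ^ 4 = (R ^ 2) ^ 2 by ring,
            Real.sqrt_sq (by positivity)] at h3
        calc 2 * fwdLam τ R t / √t ≤ 2 * (√t / R ^ 2) / √t := by gcongr
          _ = 2 / R * R⁻¹ := by
              have := (Real.sqrt_pos.2 ht0).ne'
              field_simp
          _ ≤ _ := mul_le_of_le_one_left (by positivity) ((div_le_one hR0).2 (by linarith))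
      calc KX * (2 * fwdLam τ R t / √t) ^ P ≤ KX * R⁻¹ ^ P := by gcongr
        _ = KX / R ^ P := by rw [inv_pow]; ring
        _ ≤ _ := by
            gcongr
            subst hP; exact accExp_le_ordP n a m j' hn ha
    exact ⟨ops, us, μs, fun l => (hops l).mono le_rfl le_rfl hE, fun d V hV =>
      ⟨(hres d V hV).1, (hres d V hV).2.1, (hres d V hV).2.2.1, (hres d V hV).2.2.2.1,
        (hres d V hV).2.2.2.2.trans (mul_le_mul_of_nonneg_right hE (dimFac_nonneg d))⟩⟩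
  refine ⟨?_, hext' (j + 1) hj, hext' j hj.le⟩
  obtain ⟨op, hok⟩ := hop (j + 1) t (t / R ^ 3) hj le_rfl htτ.le (by positivity)
    (div_le_div_of_nonneg_left ht0.le (by positivity) (pow_le_pow_right₀ hR1 (by norm_num)))
  exact ⟨op, hok.mono le_rfl le_rfl (div_le_div_of_nonneg_right (by linarith) (by positivity))⟩

end Vale.Agent.P347
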