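import Vale.Agent.P347.SpecsPass
import Vale.Agent.P347.Asymp

/-!
Grids fine relative to both ends and their product integration rules.
-/

namespace Vale.Agent.P347

open MeasureTheory

namespace Grid

variable {τ a b R : ℝ} (g : Grid τ a b R)

lemma pt_le {i k : ℕ} (hik : i ≤ k) (hk : k ≤ g.K) : g.pt i ≤ g.pt k := by
  induction hik with
  | refl => exact le_rfl
  | step _ ih => exact (ih (Nat.le_of_succ_le hk)).trans (g.pt_lt _ hk).le

lemma pt_mem {k : ℕ} (hk : k ≤ g.K) : g.pt k ∈ Set.Icc a b :=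
  ⟨g.pt_zero.symm.trans_le (g.pt_le (Nat.zero_le k) hk),
    (g.pt_le hk le_rfl).trans_eq g.pt_last⟩

lemma Icc_subset (k : Fin g.K) : Set.Icc (g.pt k) (g.pt (k + 1)) ⊆ Set.Icc a b :=
  Set.Icc_subset_Icc (g.pt_mem k.2.le).1 (g.pt_mem k.2).2

lemma width_le (k : Fin g.K) (hR : 0 < R) (ha : 0 < a) : g.pt (k + 1) - g.pt k ≤ τ / R := by
  rw [le_div_iff₀ hR]
  have h1 := g.pt_mem k.2
  have h2 := g.width k k.2
  have h3 := min_le_right (g.pt k) (τ - g.pt (k + 1))
  linarith [h1.1]

lemma node_mem' {P : ℕ} (hP : 2 ≤ P) (p : Fin g.K × Fin P) :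
    g.node p ∈ Set.Icc (g.pt p.1) (g.pt (p.1 + 1)) := by
  have h1 : (2 : ℝ) ≤ P := by exact_mod_cast hP
  have hl : ((p.2 : ℕ) : ℝ) + 1 ≤ P := by exact_mod_cast p.2.2
  have hw := sub_nonneg.2 (g.pt_lt p.1 p.1.2).le
  have h0 : 0 ≤ ((p.2 : ℕ) : ℝ) / ((P : ℝ) - 1) := div_nonneg (Nat.cast_nonneg _) (by linarith)
  have h2 : ((p.2 : ℕ) : ℝ) / ((P : ℝ) - 1) ≤ 1 := (div_le_one (by linarith)).2 (by linarith)
  unfold Grid.node
  refine ⟨le_add_of_nonneg_right (mul_nonneg hw h0), ?_⟩
  have := mul_le_mul_of_nonneg_left h2 hw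
  linarith

lemma node_mem {P : ℕ} (hP : 2 ≤ P) (p : Fin g.K × Fin P) : g.node p ∈ Set.Icc a b :=
  g.Icc_subset p.1 (g.node_mem' hP p)

lemma card_le (P : ℕ) : (Fintype.card (Fin g.K × Fin P) : ℝ) ≤ P * R ^ 3 := by
  simp only [Fintype.card_prod, Fintype.card_fin, Nat.cast_mul]
  rw [mul_comm]
  exact mul_le_mul_of_nonneg_left g.K_le (Nat.cast_nonneg _)

end Grid

variable {d : ℕ}

/-- The integral of a jointly continuous curve against a continuous weight is continuous in the
outcome. -/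
lemma continuous_integral_curve {Ω : Type*} [TopologicalSpace Ω]
    {a b : ℝ} (hab : a ≤ b) {φ : ℝ → ℝ} (hφ : ContinuousOn φ (Set.Icc a b))
    {G : ℝ → Ω → Euc d} (hG : ContinuousOn (fun p : ℝ × Ω => G p.1 p.2) (Set.Icc a b ×ˢ Set.univ))
    {u v : ℝ} (hu : u ∈ Set.Icc a b) (hv : v ∈ Set.Icc a b) :
    Continuous fun ω => ∫ r in u..v, φ r • G r ω := by
  have hproj : Continuous fun r : ℝ => ((Set.projIcc a b hab r : Set.Icc a b) : ℝ) :=
    continuous_subtype_val.comp continuous_projIcc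
  have hc : Continuous (Function.uncurry fun (ω : Ω) (r : ℝ) =>
      φ (Set.projIcc a b hab r) • G (Set.projIcc a b hab r) ω) := by
    refine ((hφ.comp_continuous hproj fun r => (Set.projIcc a b hab r).2).comp continuous_snd).smul ?_
    exact hG.comp_continuous (f := fun p : Ω × ℝ => ((Set.projIcc a b hab p.2 : ℝ), p.1))
      ((hproj.comp continuous_snd).prodMk continuous_fst)
      fun p => ⟨(Set.projIcc a b hab p.2).2, Set.mem_univ _⟩
  refine (intervalIntegral.continuous_parametric_intervalIntegral_of_continuous' hc u v).congr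
    fun ω => intervalIntegral.integral_congr fun r hr => ?_
  have hr' : r ∈ Set.Icc a b := Set.uIcc_subset_Icc hu hv hr
  rw [Set.projIcc_of_mem hab hr']

/-- The equispaced nodes of `[0, 1]`. -/
noncomputable def unitNode {P : ℕ} (l : Fin P) : ℝ := ((l : ℕ) : ℝ) / ((P : ℝ) - 1)

lemma unitNode_injective {P : ℕ} (hP : 2 ≤ P) : Function.Injective (unitNode (P := P)) := by
  intro i j h
  have hP1 : ((P : ℝ) - 1) ≠ 0 := by
    have : (2 : ℝ) ≤ P := by exact_mod_cast hP
    linarith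
  simp only [unitNode, div_left_inj' hP1, Nat.cast_inj] at h
  exact Fin.ext h

lemma exists_lebesgue_const (P : ℕ) :
    ∃ K : ℝ, 0 ≤ K ∧ ∀ x ∈ Set.Icc (0 : ℝ) 1, ∑ l, |lag (unitNode (P := P)) l x| ≤ K := by
  have hc : Continuous fun x => ∑ l, |lag (unitNode (P := P)) l x| :=
    continuous_finsetSum _ fun l _ => (continuous_lag _ l).abs
  obtain ⟨K, hK⟩ := isCompact_Icc.exists_bound_of_continuousOn (hc.continuousOn (s := Set.Icc 0 1))
  exact ⟨max K 0, le_max_right _ _, fun x hx =>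
    ((Real.le_norm_self _).trans (hK x hx)).trans (le_max_left _ _)⟩

/-- The product rule with weight `φ` on clipped intervals. -/
lemma Grid.exists_rule {P : ℕ} (hP : 2 ≤ P) {KL : ℝ}
    (hKL : ∀ x ∈ Set.Icc (0 : ℝ) 1, ∑ l, |lag (unitNode (P := P)) l x| ≤ KL)
    {τ a b R : ℝ} (hR : 1 ≤ R) (ha : 0 < a) (hbτ : b < τ) (g : Grid τ a b R)
    {φ : ℝ → ℝ} (hφ : ContinuousOn φ (Set.Icc a b)) {u₀ v₀ : ℕ → ℝ} {B₀ : Fin g.K → ℝ}
    (hu : ∀ k : Fin g.K, u₀ k ∈ Set.Icc (g.pt k) (g.pt (k + 1)))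
    (hv : ∀ k : Fin g.K, v₀ k ∈ Set.Icc (g.pt k) (g.pt (k + 1)))
    (hΦ : ∀ k : Fin g.K, abs (∫ r in u₀ k..v₀ k, |φ r|) ≤ B₀ k)
    (hB : ∀ k, B₀ k ≤ τ / R) :
    ∃ W : Fin g.K × Fin P → ℝ, (∀ p, |W p| ≤ KL * B₀ p.1) ∧
      (∀ p, u₀ p.1 = v₀ p.1 → W p = 0) ∧
      ∀ (d : ℕ) (μ : Measure (Euc d × Euc d × Euc d)) (G : ℝ → Euc d × Euc d × Euc d → Euc d)
        (B : ℕ → ℝ → ℝ) (M : ℝ), IsProbabilityMeasure μ → CurveBound μ a b G B →
        (∀ u ∈ Set.Icc a b, B P u ≤ M / min u (τ - u) ^ P) → 0 ≤ M →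
        Integrable (fun ω => ‖∑ p, W p • G (g.node p) ω
            - ∑ k : Fin g.K, ∫ u in u₀ k..v₀ k, φ u • G u ω‖) μ ∧
          ∫ ω, ‖∑ p, W p • G (g.node p) ω - ∑ k : Fin g.K, ∫ u in u₀ k..v₀ k, φ u • G u ω‖ ∂μ
            ≤ (1 + KL) * τ * M / R ^ (P - 2) := by
  have hR0 : 0 < R := by linarith
  set nd : Fin g.K → Fin P → ℝ := fun k l => g.node (k, l) with hnd
  have haff : ∀ k : Fin g.K, nd k = fun l => g.pt k + (g.pt (k + 1) - g.pt k) * unitNode l :=
    fun k => rfl
  have hw : ∀ k : Fin g.K, 0 < g.pt (k + 1) - g.pt k := fun k => sub_pos.2 (g.pt_lt k k.2)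
  have hlag : ∀ k : Fin g.K, ∀ r ∈ Set.Icc (g.pt k) (g.pt (k + 1)),
      ∑ l, |lag (nd k) l r| ≤ KL := fun k r hr => by
    obtain ⟨x, hx, rfl⟩ : ∃ x ∈ Set.Icc (0 : ℝ) 1,
        g.pt k + (g.pt (k + 1) - g.pt k) * x = r := by
      refine ⟨(r - g.pt k) / (g.pt (k + 1) - g.pt k), ⟨div_nonneg (by linarith [hr.1]) (hw k).le,
        (div_le_one (hw k)).2 (by linarith [hr.2])⟩, ?_⟩
      rw [mul_div_cancel₀ _ (hw k).ne']; ring
    simp only [haff, lag_affine unitNode _ _ (hw k).ne']
    exact hKL x hx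
  have hKL0 : 0 ≤ KL :=
    (Finset.sum_nonneg fun l _ => abs_nonneg _).trans (hKL 0 ⟨le_rfl, zero_le_one⟩)
  refine ⟨fun p => ∫ r in u₀ p.1..v₀ p.1, φ r * lag (nd p.1) p.2 r, fun p => ?_, fun p h => ?_, ?_⟩
  · obtain ⟨k, l⟩ := p
    have hsub : Set.uIcc (u₀ k) (v₀ k) ⊆ Set.Icc (g.pt k) (g.pt (k + 1)) :=
      Set.uIcc_subset_Icc (hu k) (hv k)
    rw [← Real.norm_eq_abs]
    refine (intervalIntegral.norm_integral_le_abs_of_norm_le (μ := volume) (g := fun r => KL * |φ r|)
      (ae_restrict_of_forall_mem measurableSet_uIoc fun r hr => ?_)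
      ((((hφ.mono (hsub.trans (g.Icc_subset k))).abs).intervalIntegrable).const_mul _)).trans ?_
    · rw [Real.norm_eq_abs, abs_mul, mul_comm]
      refine mul_le_mul_of_nonneg_right ?_ (abs_nonneg _)
      exact (Finset.single_le_sum (f := fun i => |lag (nd k) i r|) (fun i _ => abs_nonneg _)
        (Finset.mem_univ l)).trans (hlag k r (hsub (Set.uIoc_subset_uIcc hr)))
    · rw [intervalIntegral.integral_const_mul, abs_mul, abs_of_nonneg hKL0]
      exact mul_le_mul_of_nonneg_left (hΦ k) hKL0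
  · simp [h]
  intro d μ G B M hμ hcb hB' hM
  have hS : ∀ k : Fin g.K, ∃ S : Euc d × Euc d × Euc d → ℝ, (∀ ω, 0 ≤ S ω) ∧ Integrable S μ ∧
      ∫ ω, S ω ∂μ ≤ M / R ^ P ∧ ∀ ω,
        ‖∑ l, (∫ r in u₀ k..v₀ k, φ r * lag (nd k) l r) • G (nd k l) ω
          - ∫ r in u₀ k..v₀ k, φ r • G r ω‖ ≤ (1 + KL) * (τ / R) * S ω := by
    intro k
    set lo := g.pt k
    set hi := g.pt (k + 1)
    have hlo : 0 < lo := ha.trans_le (g.pt_mem k.2.le).1
    have hhi : hi < τ := (g.pt_mem k.2).2.trans_lt hbτ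
    have hr := hcb.restrict (g.pt_mem k.2.le).1 (g.pt_mem k.2).2
    set m := min lo (τ - hi) with hm
    have hm0 : 0 < m := lt_min hlo (sub_pos.2 hhi)
    obtain ⟨G₁, S, hS0, hSi, hSle, -, hmaj⟩ := hr.exists_majorant' (g.pt_lt k k.2) hP
      (M := M / m ^ P) fun u hu' => by
        refine (hB' u (g.Icc_subset k hu')).trans ?_
        gcongr
        exact le_min ((min_le_left _ _).trans hu'.1) ((min_le_right _ _).trans (by linarith [hu'.2]))
    refine ⟨S, hS0, hSi, hSle.trans ?_, fun ω => ?_⟩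
    · have h2 : (hi - lo) * R ≤ m := g.width k k.2
      rw [mul_div_assoc', div_le_div_iff₀ (by positivity) (by positivity)]
      calc (hi - lo) ^ P * M * R ^ P = M * ((hi - lo) * R) ^ P := by rw [mul_pow]; ring
        _ ≤ M * m ^ P := by
            have := (hw k).le
            gcongr
    · refine (hmaj.integrate ?_ (fun l => g.node_mem' hP (k, l)) (hu k) (hv k)
        (hφ.mono (g.Icc_subset k)) ω ?_ (hlag k) (hΦ k)).trans ?_
      · exact fun i j h => unitNode_injective hP
          (mul_left_cancel₀ (hw k).ne' (add_left_cancel h))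
      · exact hr.continuousOn.comp (f := fun r => (r, ω)) (by fun_prop)
          fun r hr' => ⟨hr', Set.mem_univ _⟩
      · gcongr
        · exact hS0 ω
        · exact hB k
  choose S hS0 hSi hSle hSb using hS
  set F : Euc d × Euc d × Euc d → ℝ := fun ω => ∑ k, (1 + KL) * (τ / R) * S k ω with hF
  have hFi : Integrable F μ := integrable_finsetSum _ fun k _ => (hSi k).const_mul _
  have hpt : ∀ ω, ‖∑ p : Fin g.K × Fin P, (∫ r in u₀ p.1..v₀ p.1, φ r * lag (nd p.1) p.2 r) •
        G (g.node p) ω - ∑ k : Fin g.K, ∫ u in u₀ k..v₀ k, φ u • G u ω‖ ≤ F ω := fun ω => by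
    rw [Fintype.sum_prod_type, ← Finset.sum_sub_distrib]
    exact (norm_sum_le _ _).trans (Finset.sum_le_sum fun k _ => hSb k ω)
  have hab : a ≤ b := by
    rcases Nat.eq_zero_or_pos g.K with h | h
    · have h0 := g.pt_last
      rw [h] at h0
      exact le_of_eq (g.pt_zero.symm.trans h0)
    · exact (g.pt_mem h).1.trans (g.pt_mem h).2
  have hmeas : AEStronglyMeasurable (fun ω =>
      ‖∑ p : Fin g.K × Fin P, (∫ r in u₀ p.1..v₀ p.1, φ r * lag (nd p.1) p.2 r) •
        G (g.node p) ω - ∑ k : Fin g.K, ∫ u in u₀ k..v₀ k, φ u • G u ω‖) μ := by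
    refine (Continuous.norm (Continuous.sub (continuous_finsetSum _ fun p _ => ?_)
      (continuous_finsetSum _ fun k _ => ?_))).aestronglyMeasurable
    · exact Continuous.const_smul (M := ℝ) (hcb.continuousOn.comp_continuous
        (f := fun ω => (g.node p, ω)) (by fun_prop)
        fun ω => ⟨g.node_mem hP p, Set.mem_univ _⟩) (∫ r in u₀ p.1..v₀ p.1, φ r * lag (nd p.1) p.2 r)
    · exact continuous_integral_curve hab hφ hcb.continuousOn (g.Icc_subset k (hu k))
        (g.Icc_subset k (hv k))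
  have hint := hFi.mono' hmeas (.of_forall fun ω => by rw [norm_norm]; exact hpt ω)
  refine ⟨hint, (integral_mono hint hFi hpt).trans ?_⟩
  rw [hF, integral_finsetSum _ fun k _ => (hSi k).const_mul _]
  simp only [integral_const_mul]
  have hτ : 0 < τ := lt_of_lt_of_le' hbτ (ha.le.trans hab)
  refine (Finset.sum_le_sum fun k _ =>
    mul_le_mul_of_nonneg_left (hSle k) (by positivity)).trans ?_
  rw [Finset.sum_const, Finset.card_univ, Fintype.card_fin, nsmul_eq_mul]
  have e : R ^ P = R ^ (P - 2) * R ^ 2 := by rw [← pow_add, Nat.sub_add_cancel hP]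
  calc (g.K : ℝ) * ((1 + KL) * (τ / R) * (M / R ^ P))
      ≤ R ^ 3 * ((1 + KL) * (τ / R) * (M / R ^ P)) :=
        mul_le_mul_of_nonneg_right g.K_le (by positivity)
    _ = (1 + KL) * τ * M / R ^ (P - 2) := by rw [e]; field_simp

lemma exists_grid {τ a b R : ℝ} (ha : 0 < a) (hab : a < b) (hb : b < τ) (hR : 3 ≤ R)
    (hlog : Real.log (b / (τ - b) * ((τ - a) / a)) ≤ R) : Nonempty (Grid τ a b R) := by
  have hτa : 0 < τ - a := by linarith
  have hτb : 0 < τ - b := by linarith
  have hτ : 0 < τ := by linarith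
  have hb0 : 0 < b := ha.trans hab
  set ra := a / (τ - a) with hra
  have hra0 : 0 < ra := div_pos ha hτa
  set ρ := b / (τ - b) * ((τ - a) / a) with hρ
  have hρ0 : 0 < ρ := mul_pos (div_pos hb0 hτb) (div_pos hτa ha)
  have hρ1 : 1 < ρ := by
    rw [hρ, div_mul_div_comm, one_lt_div (by positivity)]
    nlinarith
  set L := Real.log ρ with hL
  have hL0 : 0 < L := Real.log_pos hρ1
  set K := ⌈2 * R ^ 2⌉₊ with hK
  have hKl : 2 * R ^ 2 ≤ K := Nat.le_ceil _
  have hK0 : (0 : ℝ) < K := lt_of_lt_of_le (by positivity) hKl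
  set x := L / K with hx
  have hx0 : 0 < x := div_pos hL0 hK0
  have hxR : x * (2 * R) ≤ 1 := by
    rw [hx, div_mul_eq_mul_div, div_le_one hK0]
    nlinarith
  set q := Real.exp x with hq
  have hq1 : 1 < q := Real.one_lt_exp_iff.2 hx0
  have hqR : (q - 1) * R ≤ 1 := by
    have h1 : (1 - x) * q ≤ 1 := by
      have := mul_le_mul_of_nonneg_right (Real.one_sub_le_exp_neg x) (Real.exp_pos x).le
      rwa [← Real.exp_add, neg_add_cancel, Real.exp_zero] at this
    have h2 : x ≤ 1 / 2 := by nlinarith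
    have h3 : q ≤ 2 := by nlinarith
    have h4 : q - 1 ≤ x * 2 := by nlinarith
    nlinarith
  set r : ℕ → ℝ := fun k => ra * q ^ k with hr
  have hr0 : ∀ k, 0 < r k := fun k => by simp only [hr]; positivity
  refine ⟨{
    K := K
    pt := fun k => τ * r k / (1 + r k)
    pt_zero := ?_
    pt_last := ?_
    pt_lt := fun k _ => ?_
    K_le := ?_
    width := fun k _ => ?_ }⟩
  · simp only [hr, hra, pow_zero, mul_one]
    have h1 : τ - a + a = τ := by ring
    field_simp
    rw [h1]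
  · have e : r K = b / (τ - b) := by
      simp only [hr, hq, ← Real.exp_nat_mul, hx, mul_div_cancel₀ _ hK0.ne']
      rw [hL, Real.exp_log hρ0, hρ, hra]
      field_simp
    have h1 : τ - b + b = τ := by ring
    simp only [e]
    field_simp
    rw [h1]
  · have h := hr0 k
    have h' := hr0 (k + 1)
    rw [div_lt_div_iff₀ (by linarith) (by linarith)]
    have : r k < r (k + 1) := by
      simp only [hr]; gcongr; omega
    nlinarith
  · refine (Nat.ceil_lt_add_one (by positivity)).le.trans ?_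
    nlinarith
  · have h := hr0 k
    have h' := hr0 (k + 1)
    have e : r (k + 1) = r k * q := by simp only [hr]; ring
    have ew : τ * r (k + 1) / (1 + r (k + 1)) - τ * r k / (1 + r k)
        = τ * (r k * (q - 1)) / ((1 + r k) * (1 + r (k + 1))) := by
      rw [e] at h' ⊢; field_simp; ring
    rw [ew, div_mul_eq_mul_div, le_min_iff]
    have hbound : r k * (q - 1) * R ≤ r k := by nlinarith
    constructor
    · rw [div_le_div_iff₀ (by positivity) (by linarith)]
      calc τ * (r k * (q - 1)) * R * (1 + r k) = τ * (r k * (q - 1) * R) * (1 + r k) := by ring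
        _ ≤ τ * r k * (1 + r k) * 1 := by
            rw [mul_one]
            exact mul_le_mul_of_nonneg_right (mul_le_mul_of_nonneg_left hbound hτ.le) (by linarith)
        _ ≤ _ := by
            rw [mul_assoc (τ * r k)]
            exact mul_le_mul_of_nonneg_left (mul_le_mul_of_nonneg_left (by linarith) (by linarith))
              (by positivity)
    · have e2 : τ - τ * r (k + 1) / (1 + r (k + 1)) = τ / (1 + r (k + 1)) := by
        rw [sub_eq_iff_eq_add, ← add_div, eq_div_iff (by linarith)]; ring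
      rw [e2, div_le_div_iff₀ (by positivity) (by linarith)]
      calc τ * (r k * (q - 1)) * R * (1 + r (k + 1))
          = τ * (r k * (q - 1) * R) * (1 + r (k + 1)) := by ring
        _ ≤ τ * (1 + r k) * (1 + r (k + 1)) :=
            mul_le_mul_of_nonneg_right (mul_le_mul_of_nonneg_left (by linarith) hτ.le) (by linarith)
        _ = _ := by ring

/-- Grids and their product integration rules exist. -/
theorem grid : GridStatement := by
  intro P hP
  obtain ⟨KL, hKL0, hKL⟩ := exists_lebesgue_const P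
  refine ⟨1 + KL, 3, by linarith, by norm_num, fun R hR τ a b ha hab hb => ?_⟩
  refine ⟨exists_grid ha hab hb hR, fun g s hs => ?_⟩
  have hR1 : 1 ≤ R := by linarith
  have hR0 : 0 < R := by linarith
  have hτ : 0 < τ := by linarith
  set φ : ℝ → ℝ := fun u => √((τ - s) / (τ - u)) with hφ
  have hφc : ContinuousOn φ (Set.Icc a b) :=
    (continuousOn_const.div (by fun_prop) fun u hu => (sub_pos.2 (hu.2.trans_lt hb)).ne').sqrt
  set v₀ : ℕ → ℝ := fun k => max (g.pt k) (min (g.pt (k + 1)) s) with hv₀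
  set u₀ : ℕ → ℝ := fun k => min (g.pt (k + 1)) (max (g.pt k) s) with hu₀
  have hlt : ∀ k : Fin g.K, g.pt k ≤ g.pt (k + 1) := fun k => (g.pt_lt k k.2).le
  have hpk : ∀ k : Fin g.K, g.pt k ∈ Set.Icc (g.pt k) (g.pt (k + 1)) :=
    fun k => ⟨le_rfl, hlt k⟩
  have hv : ∀ k : Fin g.K, v₀ k ∈ Set.Icc (g.pt k) (g.pt (k + 1)) :=
    fun k => ⟨le_max_left _ _, max_le (hlt k) (min_le_left _ _)⟩
  have hu : ∀ k : Fin g.K, u₀ k ∈ Set.Icc (g.pt k) (g.pt (k + 1)) :=
    fun k => ⟨le_min (hlt k) (le_max_left _ _), min_le_left _ _⟩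
  have hφ1 : ∀ k : Fin g.K, ∀ r ∈ Set.uIoc (g.pt k) (v₀ k), |φ r| ≤ 1 := fun k r hr => by
    rw [Set.uIoc_of_le (hv k).1] at hr
    have hrs : r ≤ s := by
      rcases le_total (g.pt k) (min (g.pt (k + 1)) s) with h | h
      · exact hr.2.trans ((max_eq_right h).trans_le (min_le_right _ _))
      · have := hr.2.trans_eq (max_eq_left h); linarith [hr.1]
    simp only [hφ, abs_of_nonneg (Real.sqrt_nonneg _)]
    rw [Real.sqrt_le_one]
    exact div_le_one_of_le₀ (by linarith) (by linarith [hs.2])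
  obtain ⟨W, hW, hW0, hWe⟩ := g.exists_rule (P := P) (by omega) hKL hR1 ha hb hφc
    (u₀ := fun k => g.pt k) (v₀ := v₀) (B₀ := fun k => g.pt (k + 1) - g.pt k) hpk hv
    (fun k => by
      rw [← Real.norm_eq_abs]
      refine (intervalIntegral.norm_integral_le_of_norm_le_const (C := 1) fun r hr => ?_).trans ?_
      · rw [Real.norm_eq_abs, abs_abs]; exact hφ1 k r hr
      · rw [one_mul, abs_of_nonneg (by linarith [(hv k).1])]
        linarith [(hv k).2])
    (fun k => g.width_le k hR0 ha)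
  obtain ⟨W₁, hW₁, hW₁0, hW₁e⟩ := g.exists_rule (P := P) (by omega) hKL hR1 ha hb
    (φ := fun _ => (1 : ℝ)) continuousOn_const
    (u₀ := fun k => g.pt k) (v₀ := v₀) (B₀ := fun k => g.pt (k + 1) - g.pt k) hpk hv
    (fun k => by
      simp only [abs_one, intervalIntegral.integral_const, smul_eq_mul, mul_one]
      rw [abs_of_nonneg (by linarith [(hv k).1])]
      linarith [(hv k).2])
    (fun k => g.width_le k hR0 ha)
  obtain ⟨Wb, hWb, hWb0, hWbe⟩ := g.exists_rule (P := P) (by omega) hKL hR1 ha hb hφc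
    (u₀ := u₀) (v₀ := fun k => g.pt (k + 1)) (B₀ := fun _ => τ / R) hu
    (fun k => ⟨hlt k, le_rfl⟩)
    (fun k => by
      rcases le_or_gt (g.pt (k + 1)) s with h | h
      · have : u₀ k = g.pt (k + 1) := min_eq_left (h.trans (le_max_right _ _))
        simp [this]
        positivity
      · set hi := g.pt (k + 1)
        have hhi : hi < τ := (g.pt_mem k.2).2.trans_lt hb
        have h1 : 0 < τ - hi := sub_pos.2 hhi
        rw [← Real.norm_eq_abs]
        refine (intervalIntegral.norm_integral_le_of_norm_le_const (C := √((τ - s) / (τ - hi)))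
          fun r hr => ?_).trans ?_
        · rw [Set.uIoc_of_le (hu k).2] at hr
          rw [Real.norm_eq_abs, abs_abs]
          simp only [hφ, abs_of_nonneg (Real.sqrt_nonneg _)]
          exact Real.sqrt_le_sqrt (div_le_div_of_nonneg_left (by linarith) h1 (by linarith [hr.2]))
        · rw [abs_of_nonneg (by linarith [(hu k).2]), le_div_iff₀ hR0,
            Real.sqrt_div (by linarith : 0 ≤ τ - s)]
          have h2 : (hi - u₀ k) * R ≤ τ - hi := by
            refine le_trans ?_ ((g.width k k.2).trans (min_le_right _ _))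
            exact mul_le_mul_of_nonneg_right (by linarith [(hu k).1]) hR0.le
          calc √(τ - s) / √(τ - hi) * (hi - u₀ k) * R
              = √(τ - s) / √(τ - hi) * ((hi - u₀ k) * R) := by ring
            _ ≤ √(τ - s) / √(τ - hi) * (τ - hi) := mul_le_mul_of_nonneg_left h2 (by positivity)
            _ = √(τ - s) * √(τ - hi) := by
                rw [div_mul_eq_mul_div, mul_div_assoc, Real.div_sqrt]
            _ ≤ √τ * √τ := by
                have := hs.1; have := (g.pt_mem k.2).1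
                gcongr <;> linarith
            _ = τ := Real.mul_self_sqrt hτ.le)
    (fun _ => le_rfl)
  refine ⟨W, W₁, fun p => -Wb p, fun p => ⟨?_, ?_, ?_⟩, fun p hp => ?_, ?_⟩
  · refine (hW p).trans (mul_le_mul_of_nonneg_right (by linarith) ?_)
    linarith [hlt p.1]
  · refine (hW₁ p).trans (mul_le_mul_of_nonneg_right (by linarith) ?_)
    linarith [hlt p.1]
  · rw [abs_neg, mul_div_assoc]
    exact (hWb p).trans (mul_le_mul_of_nonneg_right (by linarith) (by positivity))
  · have h : v₀ p.1 = g.pt p.1 :=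
      max_eq_left ((min_le_right _ _).trans hp)
    exact ⟨hW0 p h.symm, hW₁0 p h.symm⟩
  intro d μ G B M hμ hcb hB hM
  have hab' := hab.le
  have hGc : ∀ ω, ContinuousOn (fun u => G u ω) (Set.Icc a b) := fun ω =>
    hcb.continuousOn.comp (f := fun u => (u, ω)) (by fun_prop) fun u hu' => ⟨hu', Set.mem_univ _⟩
  have hE : (1 + KL) * τ * M / R ^ (P - 2) ≤ (1 + KL) * τ * M / R ^ (P - 3) :=
    div_le_div_of_nonneg_left (by positivity) (by positivity) (pow_le_pow_right₀ hR1 (by omega))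
  -- summation of the clipped intervals
  have hadd : ∀ (f : ℝ → Euc d), ContinuousOn f (Set.Icc a b) →
      (∑ k : Fin g.K, ∫ u in g.pt k..v₀ k, f u) = ∫ u in a..s, f u ∧
      (∑ k : Fin g.K, ∫ u in u₀ k..g.pt (k + 1), f u) = ∫ u in s..b, f u := by
    intro f hf
    have hmn : ∀ k, k ≤ g.K → min (g.pt k) s ∈ Set.Icc a b ∧ max (g.pt k) s ∈ Set.Icc a b :=
      fun k hk => ⟨⟨le_min (g.pt_mem hk).1 hs.1, (min_le_right _ _).trans hs.2⟩,
        ⟨hs.1.trans (le_max_right _ _), max_le (g.pt_mem hk).2 hs.2⟩⟩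
    constructor
    · have h := intervalIntegral.sum_integral_adjacent_intervals (f := f) (μ := volume)
        (a := fun k => min (g.pt k) s) (n := g.K) fun k hk =>
          (hf.mono (Set.uIcc_subset_Icc (hmn k hk.le).1 (hmn (k + 1) hk).1)).intervalIntegrable
      rw [g.pt_zero, g.pt_last, min_eq_left hs.1, min_eq_right hs.2, Finset.sum_range] at h
      rw [← h]
      refine Finset.sum_congr rfl fun k _ => ?_
      rcases le_total s (g.pt k) with h1 | h1
      · rw [min_eq_right h1, min_eq_right (h1.trans (hlt k))]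
        simp only [hv₀, max_eq_left ((min_le_right _ _).trans h1), intervalIntegral.integral_same]
      · rw [min_eq_left h1]
        simp only [hv₀, max_eq_right (le_min (hlt k) h1)]
    · have h := intervalIntegral.sum_integral_adjacent_intervals (f := f) (μ := volume)
        (a := fun k => max (g.pt k) s) (n := g.K) fun k hk =>
          (hf.mono (Set.uIcc_subset_Icc (hmn k hk.le).2 (hmn (k + 1) hk).2)).intervalIntegrable
      rw [g.pt_zero, g.pt_last, max_eq_right hs.1, max_eq_left hs.2, Finset.sum_range] at h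
      rw [← h]
      refine Finset.sum_congr rfl fun k _ => ?_
      rcases le_total (g.pt (k + 1)) s with h1 | h1
      · rw [max_eq_right h1, max_eq_right ((hlt k).trans h1)]
        simp only [hu₀, min_eq_left (h1.trans (le_max_right _ _)), intervalIntegral.integral_same]
      · rw [max_eq_left h1]
        simp only [hu₀, min_eq_right (max_le (hlt k) h1)]
  obtain ⟨i1, e1⟩ := hWe d μ G B M hμ hcb hB hM
  obtain ⟨i2, e2⟩ := hW₁e d μ G B M hμ hcb hB hM
  obtain ⟨i3, e3⟩ := hWbe d μ G B M hμ hcb hB hM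
  have s1 : ∀ ω, (∑ k : Fin g.K, ∫ u in g.pt k..v₀ k, φ u • G u ω)
      = ∫ u in a..s, φ u • G u ω := fun ω => (hadd _ (hφc.fun_smul (hGc ω))).1
  have s2 : ∀ ω, (∑ k : Fin g.K, ∫ u in g.pt k..v₀ k, (1 : ℝ) • G u ω)
      = ∫ u in a..s, G u ω := fun ω => by simpa using (hadd _ (hGc ω)).1
  have s3 : ∀ ω, ‖∑ p, (-Wb p) • G (g.node p) ω - ∫ u in b..s, φ u • G u ω‖
      = ‖∑ p, Wb p • G (g.node p) ω - ∑ k : Fin g.K, ∫ u in u₀ k..g.pt (k + 1), φ u • G u ω‖ :=
    fun ω => by
      rw [(hadd _ (hφc.fun_smul (hGc ω))).2, intervalIntegral.integral_symm s b, sub_neg_eq_add,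
        ← norm_neg]
      congr 1
      simp only [neg_smul, Finset.sum_neg_distrib]
      abel
  simp only [s1] at i1 e1
  simp only [s2] at i2 e2
  simp only [← s3] at i3 e3
  exact ⟨⟨i1, e1.trans hE⟩, ⟨i2, e2.trans hE⟩, i3, e3.trans hE⟩

end Vale.Agent.P347
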