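import Vale.Agent.P347.SpecsPass
import Vale.Agent.P347.Grid

/-!
Geometry of a grid and sums of quadrature weights against the steps of the forward pass.
-/

namespace Vale.Agent.P347

/-- The extraction step at level `t` below `τ`. -/
noncomputable def fwdLam (τ R t : ℝ) : ℝ := √(t * (τ - t) / τ) / R ^ 2

section Lam

variable {τ R t : ℝ}

lemma fwdLam_pos (hR : 0 < R) (h0 : 0 < t) (h1 : t < τ) : 0 < fwdLam τ R t :=
  div_pos (Real.sqrt_pos.2 (div_pos (mul_pos h0 (sub_pos.2 h1)) (h0.trans h1))) (by positivity)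

lemma fwdLam_sq (h0 : 0 < t) (h1 : t < τ) :
    fwdLam τ R t ^ 2 = t * (τ - t) / τ / R ^ 4 := by
  rw [fwdLam, div_pow, Real.sq_sqrt (div_nonneg (mul_nonneg h0.le (sub_nonneg.2 h1.le))
    (h0.trans h1).le), ← pow_mul]

lemma fwdLam_sq_le (hR : 0 < R) (h0 : 0 < t) (h1 : t < τ) : fwdLam τ R t ^ 2 ≤ t / R ^ 4 := by
  rw [fwdLam_sq h0 h1]
  gcongr
  rw [div_le_iff₀ (h0.trans h1)]
  nlinarith

lemma fwdLam_sq_le_gap (hR : 1 ≤ R) (h0 : 0 < t) (h1 : t < τ) :
    fwdLam τ R t ^ 2 ≤ τ - t := by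
  rw [fwdLam_sq h0 h1]
  refine (div_le_self (by have := sub_pos.2 h1; have := h0.trans h1; positivity)
    (one_le_pow₀ hR)).trans ?_
  rw [div_le_iff₀ (h0.trans h1)]
  nlinarith [mul_le_mul_of_nonneg_right h1.le (sub_nonneg.2 h1.le)]

lemma fwdLam_add_le (hR : 1 ≤ R) (h0 : 0 < t) (h1 : t < τ) : t + fwdLam τ R t ^ 2 ≤ τ := by
  linarith [fwdLam_sq_le_gap hR h0 h1]

/-- An interval fine at `t` is short against the step. -/
lemma div_fwdLam_le {l : ℝ} (hR : 0 < R) (h0 : 0 < t) (h1 : t < τ) (hl : 0 ≤ l)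
    (ha : l * R ≤ t) (hb : l * R ≤ τ - t) : l / fwdLam τ R t ≤ R * √τ := by
  have hτ : 0 < τ := h0.trans h1
  rw [div_le_iff₀ (fwdLam_pos hR h0 h1)]
  refine (pow_le_pow_iff_left₀ hl (by have := fwdLam_pos hR h0 h1; positivity) two_ne_zero).1 ?_
  rw [mul_pow, mul_pow, Real.sq_sqrt hτ.le, fwdLam_sq h0 h1]
  have h2 : l * R * (l * R) ≤ t * (τ - t) :=
    mul_le_mul ha hb (by positivity) h0.le
  have h3 : R ^ 2 * τ * (t * (τ - t) / τ / R ^ 4) = t * (τ - t) / R ^ 2 := by field_simp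
  rw [h3, le_div_iff₀ (by positivity)]
  nlinarith

/-- An interval fine at `t` is short against the square of the step. -/
lemma div_fwdLam_sq_le {l : ℝ} (hR : 0 < R) (h0 : 0 < t) (h1 : t < τ)
    (ha : l * R ≤ t) (hb : l * R ≤ τ - t) : l / fwdLam τ R t ^ 2 ≤ 2 * R ^ 3 := by
  have hg : 0 < τ - t := sub_pos.2 h1
  have hτ : 0 < τ := h0.trans h1
  rw [fwdLam_sq h0 h1]
  have e : l / (t * (τ - t) / τ / R ^ 4) = (l * R / t + l * R / (τ - t)) * R ^ 3 := by
    field_simp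
    ring
  rw [e]
  refine mul_le_mul_of_nonneg_right ?_ (by positivity)
  have h2 : l * R / t ≤ 1 := (div_le_one h0).2 ha
  have h3 : l * R / (τ - t) ≤ 1 := (div_le_one hg).2 hb
  linarith

end Lam

namespace Grid

variable {τ a b R : ℝ} (g : Grid τ a b R) {P : ℕ}

/-- The length of the interval of a node. -/
def len (p : Fin g.K × Fin P) : ℝ := g.pt (p.1 + 1) - g.pt p.1

lemma len_nonneg (p : Fin g.K × Fin P) : 0 ≤ g.len p :=
  sub_nonneg.2 (g.pt_lt p.1 p.1.2).le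

lemma len_mul_le (hP : 2 ≤ P) (p : Fin g.K × Fin P) :
    g.len p * R ≤ g.pt p.1 ∧ g.len p * R ≤ g.node p ∧ g.len p * R ≤ τ - g.node p := by
  have h := g.width p.1 p.1.2
  obtain ⟨h1, h2⟩ := g.node_mem' hP p
  have ha := h.trans (min_le_left _ _)
  have hb := h.trans (min_le_right _ _)
  unfold len
  exact ⟨ha, ha.trans h1, hb.trans (by linarith)⟩

lemma sum_len : ∑ p : Fin g.K × Fin P, g.len p = (P : ℝ) * (b - a) := by
  rw [Fintype.sum_prod_type, Finset.sum_comm]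
  simp only [len]
  rw [Finset.sum_const, Finset.card_univ, Fintype.card_fin, nsmul_eq_mul,
    Fin.sum_univ_eq_sum_range (fun k => g.pt (k + 1) - g.pt k), Finset.sum_range_sub,
    g.pt_zero, g.pt_last]

lemma sum_le {f : Fin g.K × Fin P → ℝ} {B : ℝ} (hB : 0 ≤ B) (h : ∀ p, f p ≤ B) :
    ∑ p, f p ≤ P * R ^ 3 * B := by
  refine (Finset.sum_le_sum fun p _ => h p).trans ?_
  rw [Finset.sum_const, Finset.card_univ, nsmul_eq_mul]
  exact mul_le_mul_of_nonneg_right (g.card_le P) hB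

section Weights

variable (hP : 2 ≤ P) (hR : 0 < R) (ha : 0 < a) (hb : b < τ) {KP : ℝ} (hKP : 0 ≤ KP)
  {W : Fin g.K × Fin P → ℝ} (hW : ∀ p, |W p| ≤ KP * g.len p)

include hP ha hb in
lemma node_pos (p : Fin g.K × Fin P) : 0 < g.node p ∧ g.node p < τ :=
  ⟨ha.trans_le (g.node_mem hP p).1, (g.node_mem hP p).2.trans_lt hb⟩

include hP hR ha hb hKP hW in
lemma abs_div_lam_le (p : Fin g.K × Fin P) :
    |W p| / fwdLam τ R (g.node p) ≤ KP * (R * √τ) := by
  obtain ⟨h0, h1⟩ := g.node_pos hP ha hb p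
  obtain ⟨-, h2, h3⟩ := g.len_mul_le hP p
  refine (div_le_div_of_nonneg_right (hW p) (fwdLam_pos hR h0 h1).le).trans ?_
  rw [mul_div_assoc]
  exact mul_le_mul_of_nonneg_left (div_fwdLam_le hR h0 h1 (g.len_nonneg p) h2 h3) hKP

include hP hR ha hb hKP hW in
lemma abs_div_lam_sq_le (p : Fin g.K × Fin P) :
    |W p| / fwdLam τ R (g.node p) ^ 2 ≤ KP * (2 * R ^ 3) := by
  obtain ⟨h0, h1⟩ := g.node_pos hP ha hb p
  obtain ⟨-, h2, h3⟩ := g.len_mul_le hP p
  refine (div_le_div_of_nonneg_right (hW p) (sq_nonneg _)).trans ?_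
  rw [mul_div_assoc]
  exact mul_le_mul_of_nonneg_left (div_fwdLam_sq_le hR h0 h1 h2 h3) hKP

include ha hb hKP hW in
lemma sum_abs_le : ∑ p, |W p| ≤ P * KP * τ := by
  refine (Finset.sum_le_sum fun p _ => hW p).trans ?_
  rw [← Finset.mul_sum, g.sum_len, mul_comm (P : ℝ) KP, mul_assoc]
  gcongr
  linarith

include hP hR ha hb hKP hW in
lemma sum_div_lam_le :
    ∑ p, |W p| / fwdLam τ R (g.node p) ≤ P * KP * (R ^ 4 * √τ) :=
  (g.sum_le (by positivity) fun p => g.abs_div_lam_le hP hR ha hb hKP hW p).trans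
    (le_of_eq (by ring))

include hP hR ha hb hKP hW in
lemma sum_div_lam_sq_le :
    ∑ p, |W p| / fwdLam τ R (g.node p) ^ 2 ≤ 2 * (P * KP) * R ^ 6 :=
  (g.sum_le (by positivity) fun p => g.abs_div_lam_sq_le hP hR ha hb hKP hW p).trans
    (le_of_eq (by ring))

include hP hR ha hb hKP hW in
lemma sum_sq_div_lam_sq_le :
    ∑ p, (W p / fwdLam τ R (g.node p) ^ 2) ^ 2 ≤ 4 * (P * KP ^ 2) * R ^ 9 := by
  refine (g.sum_le (B := (KP * (2 * R ^ 3)) ^ 2) (by positivity) fun p => ?_).trans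
    (le_of_eq (by ring))
  rw [← sq_abs, abs_div, abs_of_nonneg (sq_nonneg (fwdLam τ R (g.node p)))]
  exact pow_le_pow_left₀ (by positivity) (g.abs_div_lam_sq_le hP hR ha hb hKP hW p) 2

variable {s : ℝ} (hs : a ≤ s) (hW0 : ∀ p, s ≤ g.pt p.1 → W p = 0)

include hP hR hKP hW hW0 in
lemma abs_weight_le (hs0 : 0 ≤ s) (p : Fin g.K × Fin P) : |W p| * R ≤ KP * s := by
  rcases le_or_gt s (g.pt p.1) with h | h
  · rw [hW0 p h]; simp; positivity
  · calc |W p| * R ≤ KP * g.len p * R := mul_le_mul_of_nonneg_right (hW p) hR.le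
      _ ≤ _ := by
        rw [mul_assoc]
        exact mul_le_mul_of_nonneg_left ((g.len_mul_le hP p).1.trans h.le) hKP

include hP hR ha hb hKP hW hs hW0 in
lemma sum_sq_le (hτ : 0 ≤ τ) :
    ∑ p, W p ^ 2 ≤ P * KP ^ 2 * (R * τ) * s := by
  have hs0 : 0 ≤ s := ha.le.trans hs
  refine (g.sum_le (B := KP ^ 2 * τ * s / R ^ 2) (by positivity) fun p => ?_).trans
    (le_of_eq (by field_simp))
  obtain ⟨-, -, h3⟩ := g.len_mul_le hP p
  have h1 : |W p| * R ≤ KP * s := g.abs_weight_le hP hR hKP hW hW0 hs0 p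
  have h2 : |W p| * R ≤ KP * τ := by
    calc |W p| * R ≤ KP * g.len p * R := mul_le_mul_of_nonneg_right (hW p) hR.le
      _ ≤ _ := by
        rw [mul_assoc]
        exact mul_le_mul_of_nonneg_left (h3.trans (sub_le_self τ (g.node_pos hP ha hb p).1.le)) hKP
  rw [le_div_iff₀ (by positivity), ← sq_abs]
  calc |W p| ^ 2 * R ^ 2 = (|W p| * R) * (|W p| * R) := by ring
    _ ≤ KP * τ * (KP * s) := mul_le_mul h2 h1 (by positivity) (by positivity)
    _ = _ := by ring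

include hP hR ha hb hKP hW hs hW0 in
lemma sum_div_lam_sq' :
    ∑ p, (W p / fwdLam τ R (g.node p)) ^ 2 ≤ 2 * (P * KP ^ 2) * R ^ 5 * s := by
  have hs0 : 0 ≤ s := ha.le.trans hs
  refine (g.sum_le (B := 2 * KP ^ 2 * R ^ 2 * s) (by positivity) fun p => ?_).trans
    (le_of_eq (by ring))
  calc (W p / fwdLam τ R (g.node p)) ^ 2
      = |W p| / fwdLam τ R (g.node p) ^ 2 * |W p| := by
        rw [div_pow, ← sq_abs]; ring
    _ ≤ KP * (2 * R ^ 3) * (KP * s / R) :=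
        mul_le_mul (g.abs_div_lam_sq_le hP hR ha hb hKP hW p)
          ((le_div_iff₀ hR).2 (g.abs_weight_le hP hR hKP hW hW0 hs0 p)) (abs_nonneg _)
          (by positivity)
    _ = _ := by field_simp

end Weights

end Grid

end Vale.Agent.P347
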