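import Vale.Agent.P347.Rotation
import Vale.Agent.P347.Extract

/-!
The rotation as a random curve: derivative bounds, laws, and quadrature errors.
-/

namespace Vale.Agent.P347

open MeasureTheory ProbabilityTheory
open scoped RealInnerProductSpace

variable {d P : ℕ}

/-- Majorant of a curve with geometrically bounded derivatives. -/
lemma majorant_of_deriv {Ω : Type*} {a b : ℝ} (hab : a < b) {D : ℕ → ℝ → Ω → Euc d}
    (hd : ∀ k t ω, HasDerivAt (fun u => D k u ω) (D (k + 1) t ω) t) {B : ℝ}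
    {M : Ω → ℝ} (hB : ∀ k t ω, ‖D k t ω‖ ≤ B ^ k * M ω) (m : ℕ) :
    Majorant a b (D 0) (D 1) (m + 2) (fun ω => ((b - a) * B) ^ (m + 2) * M ω)
      (fun ω => ((b - a) * B) ^ (m + 2) / (b - a) * M ω) := by
  refine ⟨fun ω => ⟨fun i => ((i.factorial : ℝ))⁻¹ • D i a ω, fun t ht => ?_, fun t ht => ?_⟩⟩
  · have hc : ∀ k, Continuous fun u => D k u ω := fun k =>
      continuous_iff_continuousAt.2 fun u => (hd k u ω).continuousAt
    have h2 := taylor_remainder_le (m + 1) (fun k u => D k u ω) (fun k => (hc k).continuousOn)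
      (fun k u _ => (hd k u ω).hasDerivWithinAt) t ht
    simp only [smul_smul, ← div_eq_mul_inv]
    refine h2.trans ?_
    refine (mul_le_mul_of_nonneg_left (intervalIntegral.integral_mono_on hab.le
      (hc _).norm.continuousOn.intervalIntegrable intervalIntegrable_const
      fun u _ => hB (m + 1 + 1) u ω) (pow_nonneg (by linarith) _)).trans (le_of_eq ?_)
    rw [intervalIntegral.integral_const, smul_eq_mul, mul_pow, pow_succ (b - a) (m + 1)]
    ring
  · have hc : ∀ k, Continuous fun u => D k u ω := fun k =>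
      continuous_iff_continuousAt.2 fun u => (hd k u ω).continuousAt
    have h2 := taylor_remainder_le m (fun k u => D (k + 1) u ω) (fun k => (hc _).continuousOn)
      (fun k u _ => (hd _ u ω).hasDerivWithinAt) t ht
    rw [Finset.sum_range_succ' _ (m + 1)]
    simp only [Nat.cast_zero, zero_mul, zero_smul, add_zero, smul_smul, Nat.add_sub_cancel]
    have e : ∀ i : ℕ, ((i : ℝ) + 1) * (t - a) ^ i * (((i + 1).factorial : ℕ) : ℝ)⁻¹
        = (t - a) ^ i / (i.factorial : ℝ) := fun i => by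
      rw [Nat.factorial_succ, Nat.cast_mul, Nat.cast_succ]; field_simp
    simp only [Nat.cast_succ, e]
    refine h2.trans ?_
    refine (mul_le_mul_of_nonneg_left (intervalIntegral.integral_mono_on hab.le
      (hc _).norm.continuousOn.intervalIntegrable intervalIntegrable_const
      fun u _ => hB (m + 1 + 1) u ω) (pow_nonneg (by linarith) _)).trans (le_of_eq ?_)
    have hne : b - a ≠ 0 := sub_ne_zero.2 hab.ne'
    rw [intervalIntegral.integral_const, smul_eq_mul, mul_pow]
    field_simp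
    ring

/-- The pair of rotated vectors at a position and two starting vectors. -/
noncomputable def zpair (H : Euc d → Euc d →L[ℝ] Euc d) (θ : ℝ) (p : Euc d × Euc d × Euc d) :
    Euc d × Euc d :=
  rot (H p.1) θ p.2

/-- Sum of the norms of the starting vectors. -/
noncomputable def startSize (p : Euc d × Euc d × Euc d) : ℝ := ‖p.2.1‖ + ‖p.2.2‖

/-- Derivatives of every order of the rotation. -/
noncomputable def zderiv (H : Euc d → Euc d →L[ℝ] Euc d) (k : ℕ) (θ : ℝ)
    (p : Euc d × Euc d × Euc d) : Euc d × Euc d :=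
  (rotGen d (H p.1))^[k] (zpair H θ p)

variable {H : Euc d → Euc d →L[ℝ] Euc d}

lemma zderiv_zero (θ : ℝ) (p : Euc d × Euc d × Euc d) : zderiv H 0 θ p = zpair H θ p := rfl

lemma zderiv_succ (k : ℕ) (θ : ℝ) (p : Euc d × Euc d × Euc d) :
    zderiv H (k + 1) θ p = rotGen d (H p.1) (zderiv H k θ p) :=
  Function.iterate_succ_apply' _ _ _

lemma hasDerivAt_zderiv (p : Euc d × Euc d × Euc d) :
    ∀ (k : ℕ) (θ : ℝ), HasDerivAt (fun u => zderiv H k u p) (zderiv H (k + 1) θ p) θ
  | 0, θ => by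
    rw [zderiv_succ, rotGen_apply]
    exact rot_hasDerivAt (H p.1) p.2 θ
  | k + 1, θ => by
    simp only [zderiv_succ]
    have h := hasDerivAt_zderiv p k θ
    rw [zderiv_succ] at h
    exact (rotGen d (H p.1)).hasFDerivAt.comp_hasDerivAt θ h

lemma norm_zderiv_le (hs : ∀ y a b, ⟪H y a, b⟫ = ⟪a, H y b⟫) (hn : ∀ y, ‖H y‖ ≤ 2)
    (p : Euc d × Euc d × Euc d) : ∀ (k : ℕ) (θ : ℝ), ‖zderiv H k θ p‖ ≤ 2 ^ k * startSize p
  | 0, θ => by
    have h := rot_inner (hs p.1) p.2 p.2 θ
    simp only [real_inner_self_eq_norm_sq] at h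
    rw [zderiv_zero, pow_zero, one_mul, Prod.norm_def, startSize, zpair]
    refine max_le ?_ ?_ <;>
      nlinarith [norm_nonneg (rot (H p.1) θ p.2).1, norm_nonneg (rot (H p.1) θ p.2).2,
        norm_nonneg p.2.1, norm_nonneg p.2.2]
  | k + 1, θ => by
    have ih := norm_zderiv_le hs hn p k θ
    rw [zderiv_succ, rotGen_apply, Prod.norm_def, norm_neg, pow_succ]
    have h1 : ∀ v : Euc d, ‖v‖ ≤ ‖zderiv H k θ p‖ → ‖H p.1 v‖ ≤ 2 ^ k * 2 * startSize p :=
      fun v hv => by
        calc ‖H p.1 v‖ ≤ ‖H p.1‖ * ‖v‖ := (H p.1).le_opNorm v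
          _ ≤ 2 * (2 ^ k * startSize p) := mul_le_mul (hn _) (hv.trans ih) (norm_nonneg _) zero_le_two
          _ = _ := by ring
    exact max_le (h1 _ (norm_snd_le _)) (h1 _ (norm_fst_le _))

lemma continuous_zpair (hH : Continuous H) (θ : ℝ) : Continuous (zpair H θ) :=
  ((rot_continuous hH).comp (continuous_const.prodMk continuous_fst)).clm_apply continuous_snd

lemma zpair_zero (p : Euc d × Euc d × Euc d) : zpair H 0 p = p.2 := rot_zero _ _

/-- The rotated vectors are standard Gaussian given the position. -/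
lemma map_zpair (hH : Continuous H) (hs : ∀ y a b, ⟪H y a, b⟫ = ⟪a, H y b⟫)
    (μ : Measure (Euc d)) [IsProbabilityMeasure μ] (θ : ℝ) :
    (μ.prod ((gauss d).prod (gauss d))).map (fun p => (p.1, zpair H θ p))
      = μ.prod ((gauss d).prod (gauss d)) :=
  (MeasurePreserving.skew_product (g := fun y q => rot (H y) θ q) (MeasurePreserving.id μ)
    (continuous_zpair hH θ).measurable (.of_forall fun y => rot_map_gauss (hs y) θ)).map_eq

/-- Functions bounded by the starting vectors have mean at most twice their bound. -/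
lemma integral_triple_le (μ : Measure (Euc d)) [IsProbabilityMeasure μ]
    {f : Euc d × Euc d × Euc d → ℝ} (hf : AEStronglyMeasurable f (μ.prod ((gauss d).prod (gauss d))))
    {C : ℝ} (hC : 0 ≤ C) (hb : ∀ p, |f p| ≤ C * startSize p) :
    Integrable f (μ.prod ((gauss d).prod (gauss d))) ∧
      ∫ p, f p ∂(μ.prod ((gauss d).prod (gauss d))) ≤ C * (2 * dimFac d) := by
  have hg := gauss_integrable_norm (d := d)
  have hi : Integrable (fun p : Euc d × Euc d × Euc d => startSize p)
      (μ.prod ((gauss d).prod (gauss d))) :=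
    ((hg.comp_fst (gauss d)).add (hg.comp_snd (gauss d))).comp_snd μ
  have hd : ∫ η, ‖η‖ ∂(gauss d) ≤ dimFac d := by
    refine gauss_integral_norm_le.trans ?_
    have h1 : (1 : ℝ) ≤ (d : ℝ) + 1 := le_add_of_nonneg_left (Nat.cast_nonneg d)
    refine le_trans ?_ (le_self_pow₀ h1 (by norm_num : (3 : ℕ) ≠ 0))
    rw [Real.sqrt_le_iff]
    exact ⟨by positivity, by nlinarith⟩
  refine ⟨(hi.const_mul C).mono' hf (.of_forall fun p => (hb p)), ?_⟩
  refine (integral_mono ((hi.const_mul C).mono' hf (.of_forall fun p => hb p)) (hi.const_mul C)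
    fun p => (le_abs_self _).trans (hb p)).trans ?_
  rw [integral_const_mul]
  refine mul_le_mul_of_nonneg_left ?_ hC
  simp only [startSize]
  rw [integral_fun_snd (μ := μ) (ν := (gauss d).prod (gauss d))
    (fun q : Euc d × Euc d => ‖q.1‖ + ‖q.2‖), integral_add (hg.comp_fst (gauss d))
    (hg.comp_snd (gauss d)), integral_fun_fst (μ := gauss d) (ν := gauss d) (fun x => ‖x‖),
    integral_fun_snd (μ := gauss d) (ν := gauss d) (fun x => ‖x‖)]
  simp only [probReal_univ, one_smul]
  linarith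

/-- Integration weights on the nodes scaled by `h`. -/
noncomputable def intW (h : ℝ) (l m : Fin P) : ℝ :=
  ∫ r in (0 : ℝ)..h * eqNode l, lag (fun j => h * eqNode j) m r

lemma exists_lag_bound (P : ℕ) : ∃ L : ℝ, 1 ≤ L ∧
    ∀ x ∈ Set.Icc (-1 : ℝ) 1, ∑ i : Fin P, |lag (eqNode (P := P)) i x| ≤ L := by
  obtain ⟨C, hC⟩ := isCompact_Icc.bddAbove_image
    (f := fun x => ∑ i : Fin P, |lag (eqNode (P := P)) i x|) (K := Set.Icc (-1 : ℝ) 1)
    (continuous_finsetSum _ fun i _ => (continuous_lag _ i).abs).continuousOn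
  exact ⟨max C 1, le_max_right _ _, fun x hx => (hC ⟨x, hx, rfl⟩).trans (le_max_left _ _)⟩

lemma sum_abs_lag_scaled {L h : ℝ} (hh : 0 < h)
    (hL : ∀ x ∈ Set.Icc (-1 : ℝ) 1, ∑ i : Fin P, |lag (eqNode (P := P)) i x| ≤ L) {r : ℝ}
    (hr : r ∈ Set.Icc (-h) h) : ∑ i : Fin P, |lag (fun j => h * eqNode j) i r| ≤ L := by
  have e : ∀ i : Fin P, lag (fun j => h * eqNode j) i r = lag (eqNode (P := P)) i (r / h) :=
    fun i => by
      have h1 := lag_affine (eqNode (P := P)) i 0 hh.ne' (r / h)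
      simpa [mul_div_cancel₀ r hh.ne'] using h1
  simp only [e]
  refine hL _ ⟨?_, ?_⟩
  · rw [le_div_iff₀ hh]; linarith [hr.1]
  · rw [div_le_one hh]; exact hr.2

lemma mul_eqNode_mem (hP : 2 ≤ P) {h : ℝ} (hh : 0 ≤ h) (l : Fin P) :
    h * eqNode l ∈ Set.Icc (-h) h := by
  obtain ⟨h1, h2⟩ := abs_le.1 (abs_eqNode_le hP l)
  constructor <;> nlinarith

lemma abs_intW_le (hP : 2 ≤ P) {L h : ℝ} (hh : 0 < h)
    (hL : ∀ x ∈ Set.Icc (-1 : ℝ) 1, ∑ i : Fin P, |lag (eqNode (P := P)) i x| ≤ L)
    (l m : Fin P) : |intW h l m| ≤ L * h := by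
  have hsub : Set.uIoc 0 (h * eqNode l) ⊆ Set.Icc (-h) h :=
    Set.uIoc_subset_uIcc.trans
      (Set.uIcc_subset_Icc ⟨by linarith, hh.le⟩ (mul_eqNode_mem hP hh.le l))
  have h1 := intervalIntegral.norm_integral_le_of_norm_le_const
    (f := fun r => lag (fun j => h * eqNode j) m r) (C := L) (a := 0) (b := h * eqNode l)
    fun r hr => (Real.norm_eq_abs _).le.trans
      ((Finset.single_le_sum (f := fun i : Fin P => |lag (fun j => h * eqNode j) i r|)
        (fun i _ => abs_nonneg _) (Finset.mem_univ m)).trans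
        (sum_abs_lag_scaled hh hL (hsub hr)))
  rw [Real.norm_eq_abs, sub_zero] at h1
  refine h1.trans (mul_le_mul_of_nonneg_left ?_ ?_)
  · rw [abs_mul, abs_of_pos hh]
    exact mul_le_of_le_one_right hh.le (abs_eqNode_le hP l)
  · exact (Finset.sum_nonneg fun i _ => abs_nonneg _).trans (hL 0 ⟨by norm_num, by norm_num⟩)

variable (hs : ∀ y a b, ⟪H y a, b⟫ = ⟪a, H y b⟫) (hn : ∀ y, ‖H y‖ ≤ 2)
include hs hn

/-- Quadrature error of the equations of the rotation, for a component map `π`. -/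
lemma quad_zpair {m : ℕ} (hP : P = m + 2) {L h : ℝ} (hh : 0 < h)
    (hL : ∀ x ∈ Set.Icc (-1 : ℝ) 1, ∑ i : Fin P, |lag (eqNode (P := P)) i x| ≤ L)
    (π : Euc d × Euc d →L[ℝ] Euc d) (hπ : ∀ w, ‖π w‖ ≤ ‖w‖) (p : Euc d × Euc d × Euc d)
    (l : Fin P) :
    ‖π p.2 + ∑ j, intW h l j • π (zderiv H 1 (h * eqNode j) p) - π (zpair H (h * eqNode l) p)‖
      ≤ (1 + L) * h * (2 * ((4 * h) ^ P * startSize p)) := by
  subst hP
  have hP2 : 2 ≤ m + 2 := by omega
  have hd : ∀ k t (q : Euc d × Euc d × Euc d),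
      HasDerivAt (fun u => π (zderiv H (k + 1) u q)) (π (zderiv H (k + 1 + 1) t q)) t :=
    fun k t q => π.hasFDerivAt.comp_hasDerivAt t (hasDerivAt_zderiv q _ t)
  have hB : ∀ k t (q : Euc d × Euc d × Euc d),
      ‖π (zderiv H (k + 1) t q)‖ ≤ 2 ^ k * (2 * startSize q) := fun k t q =>
    (hπ _).trans ((norm_zderiv_le hs hn q _ t).trans (le_of_eq (by ring)))
  have hmaj := majorant_of_deriv (a := -h) (b := h) (by linarith)
    (D := fun k t q => π (zderiv H (k + 1) t q)) hd hB m
  have hcont : Continuous fun r => π (zderiv H 1 r p) :=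
    continuous_iff_continuousAt.2 fun u => (hd 0 u p).continuousAt
  have htf : ∀ j, h * eqNode (P := m + 2) j ∈ Set.Icc (-h) h := mul_eqNode_mem hP2 hh.le
  have hinj : Function.Injective fun j : Fin (m + 2) => h * eqNode j :=
    (mul_right_injective₀ hh.ne').comp (eqNode_injective hP2)
  have key := hmaj.integrate (t := fun j => h * eqNode j) hinj htf (u := 0) (v := h * eqNode l)
    ⟨by linarith, hh.le⟩ (htf l) (φ := fun _ => (1 : ℝ)) continuousOn_const p hcont.continuousOn
    (K := L) (fun r hr => sum_abs_lag_scaled hh hL hr) (Φ := h)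
    (by
      simp only [abs_one, intervalIntegral.integral_const, smul_eq_mul, mul_one, sub_zero]
      rw [abs_mul, abs_of_pos hh]
      exact mul_le_of_le_one_right hh.le (abs_eqNode_le hP2 l))
  have hftc : ∫ r in (0 : ℝ)..h * eqNode l, π (zderiv H 1 r p)
      = π (zpair H (h * eqNode l) p) - π p.2 := by
    rw [intervalIntegral.integral_eq_sub_of_hasDerivAt
      (f := fun r => π (zderiv H 0 r p))
      (fun r _ => π.hasFDerivAt.comp_hasDerivAt r (hasDerivAt_zderiv p 0 r))
      (hcont.intervalIntegrable _ _)]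
    simp [zderiv_zero, zpair_zero]
  simp only [one_mul, one_smul, zero_add] at key
  rw [hftc] at key
  refine le_trans (le_of_eq ?_) (key.trans (le_of_eq ?_))
  · congr 1
    simp only [intW]
    abel
  · ring

/-- Differentiation of `H ζ₁` at angle `0`. -/
lemma diff_zpair {m : ℕ} (hP : P = m + 2) {h : ℝ} (hh : 0 < h) (p : Euc d × Euc d × Euc d) :
    ‖∑ l : Fin P, (diffW l / h) • H p.1 (zpair H (h * eqNode l) p).1 - H p.1 (H p.1 p.2.2)‖
      ≤ 2 * diffSize P / h * (2 * ((4 * h) ^ P * startSize p)) := by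
  subst hP
  have hP2 : 2 ≤ m + 2 := by omega
  set D : ℕ → ℝ → Euc d × Euc d × Euc d → Euc d := fun k t q => H q.1 (zderiv H k t q).1 with hD
  have hd : ∀ k t (q : Euc d × Euc d × Euc d), HasDerivAt (fun u => D k u q) (D (k + 1) t q) t :=
    fun k t q => ((H q.1).comp (ContinuousLinearMap.fst ℝ (Euc d) (Euc d))).hasFDerivAt.comp_hasDerivAt t
      (hasDerivAt_zderiv q k t)
  have hB : ∀ k t (q : Euc d × Euc d × Euc d), ‖D k t q‖ ≤ 2 ^ k * (2 * startSize q) := fun k t q => by
    calc ‖D k t q‖ ≤ ‖H q.1‖ * ‖(zderiv H k t q).1‖ := (H q.1).le_opNorm _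
      _ ≤ 2 * (2 ^ k * startSize q) :=
          mul_le_mul (hn _) ((norm_fst_le _).trans (norm_zderiv_le hs hn q k t)) (norm_nonneg _)
            zero_le_two
      _ = _ := by ring
  have hmaj := majorant_of_deriv (a := -h) (b := h) (by linarith) hd hB m
  have htf : ∀ j, h * eqNode (P := m + 2) j ∈ Set.Icc (-h) h := mul_eqNode_mem hP2 hh.le
  have key := hmaj.differentiate (t := fun j => h * eqNode j)
    ((mul_right_injective₀ hh.ne').comp (eqNode_injective hP2)) htf
    (x := 0) ⟨by linarith, hh.le⟩ p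
  have e1 : D 1 0 p = H p.1 (H p.1 p.2.2) := by
    simp [hD, zderiv_succ, zderiv_zero, zpair_zero, rotGen_apply]
  have e2 : ∀ l : Fin (m + 2), deriv (lag (fun j => h * eqNode j) l) 0 = diffW l / h :=
    fun l => deriv_lag_scale _ l hh.ne'
  simp only [e2, e1, abs_div, abs_of_pos hh] at key
  refine le_trans (le_of_eq (by simp [hD, zderiv_zero])) (key.trans ?_)
  rw [← Finset.sum_div, show (h - -h) * 2 = 4 * h by ring]
  have hM : 0 ≤ (4 * h) ^ (m + 2) * (2 * startSize p) := by
    have : 0 ≤ startSize p := add_nonneg (norm_nonneg _) (norm_nonneg _)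
    positivity
  calc (∑ l : Fin (m + 2), |diffW l|) / h * ((4 * h) ^ (m + 2) * (2 * startSize p))
        + (4 * h) ^ (m + 2) / (h - -h) * (2 * startSize p)
      = ((∑ l : Fin (m + 2), |diffW l|) + 1 / 2) / h * ((4 * h) ^ (m + 2) * (2 * startSize p)) := by
        field_simp
        ring
    _ ≤ 2 * diffSize (m + 2) / h * ((4 * h) ^ (m + 2) * (2 * startSize p)) := by
        refine mul_le_mul_of_nonneg_right (div_le_div_of_nonneg_right ?_ hh.le) hM
        have := Finset.sum_nonneg fun (l : Fin (m + 2)) (_ : l ∈ Finset.univ) => abs_nonneg (diffW l)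
        simp only [diffSize]
        linarith
    _ = _ := by ring

end Vale.Agent.P347
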