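import Vale.Agent.P347.SpecsHessSq
import Vale.Agent.P347.RotationCurve

/-!
The body computing a squared Hessian applied to a Gaussian vector.
-/

namespace Vale.Agent.P347

open MeasureTheory ProbabilityTheory
open scoped RealInnerProductSpace

variable {d : ℕ}

/-- The first component for `true`, the second for `false`. -/
noncomputable def compL (d : ℕ) : Bool → (Euc d × Euc d →L[ℝ] Euc d)
  | true => ContinuousLinearMap.fst ℝ (Euc d) (Euc d)
  | false => ContinuousLinearMap.snd ℝ (Euc d) (Euc d)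

/-- The sign in the equations of the rotation. -/
def rotSign : Bool → ℝ
  | true => 1
  | false => -1

lemma norm_compL_le (i : Bool) (w : Euc d × Euc d) : ‖compL d i w‖ ≤ ‖w‖ := by
  cases i
  · exact norm_snd_le w
  · exact norm_fst_le w

lemma abs_rotSign (i : Bool) : |rotSign i| = 1 := by
  cases i <;> simp [rotSign]

lemma compL_zderiv_one (H : Euc d → Euc d →L[ℝ] Euc d) (i : Bool) (θ : ℝ)
    (p : Euc d × Euc d × Euc d) :
    compL d i (zderiv H 1 θ p) = rotSign i • H p.1 (compL d (!i) (zpair H θ p)) := by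
  rw [zderiv_succ, zderiv_zero, rotGen_apply]
  cases i <;> simp [compL, rotSign]

/-- The rotated vectors as random vectors. -/
noncomputable def zvar (H : HessFam) (X ξ' ξ : VarFam) (i : Bool) (θ : ℝ) : VarFam :=
  fun d V ω => compL d i (zpair (H d V) θ (X d V ω, ξ' d V ω, ξ d V ω))

/-- What the construction needs of the random setting. -/
structure HessSetting (Pr : RandFam) (μ₀ : MeasFam) (H : HessFam) (X ξ' ξ : VarFam) : Prop where
  prob : ∀ d V, Nice d V → IsProbabilityMeasure (μ₀ d V)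
  cont : ∀ d V, Nice d V → Continuous (H d V)
  symm : ∀ d V, Nice d V → ∀ y a b, ⟪H d V y a, b⟫ = ⟪a, H d V y b⟫
  bdd : ∀ d V, Nice d V → ∀ y, ‖H d V y‖ ≤ 2
  meas : ∀ d V, Nice d V → Measurable fun ω => (X d V ω, ξ' d V ω, ξ d V ω)
  law : ∀ d V, Nice d V → (Pr d V).map (fun ω => (X d V ω, ξ' d V ω, ξ d V ω))
    = (μ₀ d V).prod ((gauss d).prod (gauss d))

namespace HessSetting

variable {Pr : RandFam} {μ₀ : MeasFam} {H : HessFam} {X ξ' ξ : VarFam}

lemma pair_law (h : HessSetting Pr μ₀ H X ξ' ξ) (i : Bool) (θ : ℝ) {d : ℕ} {V : Euc d → ℝ}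
    (hV : Nice d V) :
    AEMeasurable (fun ω => (X d V ω, zvar H X ξ' ξ i θ d V ω)) (Pr d V) ∧
      (Pr d V).map (fun ω => (X d V ω, zvar H X ξ' ξ i θ d V ω)) = (μ₀ d V).prod (gauss d) := by
  have := h.prob d V hV
  have hT := h.meas d V hV
  have hf : Measurable fun p : Euc d × Euc d × Euc d => (p.1, zpair (H d V) θ p) :=
    measurable_fst.prodMk (continuous_zpair (h.cont d V hV) θ).measurable
  have hg : Measurable (Prod.map id (compL d i) : Euc d × Euc d × Euc d → Euc d × Euc d) :=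
    measurable_id.prodMap (compL d i).continuous.measurable
  refine ⟨((hg.comp hf).comp hT).aemeasurable, ?_⟩
  calc (Pr d V).map (fun ω => (X d V ω, zvar H X ξ' ξ i θ d V ω))
      = ((((Pr d V).map fun ω => (X d V ω, ξ' d V ω, ξ d V ω)).map
          fun p => (p.1, zpair (H d V) θ p)).map (Prod.map id (compL d i))) := by
        rw [Measure.map_map hf hT, Measure.map_map hg (hf.comp hT)]
        rfl
    _ = _ := by
        rw [h.law d V hV, map_zpair (h.cont d V hV) (h.symm d V hV) (μ₀ d V) θ,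
          ← Measure.map_prod_map _ _ measurable_id (compL d i).continuous.measurable,
          Measure.map_id]
        congr 1
        cases i
        · exact (measurePreserving_snd (μ := gauss d) (ν := gauss d)).map_eq
        · exact (measurePreserving_fst (μ := gauss d) (ν := gauss d)).map_eq

lemma bound (h : HessSetting Pr μ₀ H X ξ' ξ) {d : ℕ} {V : Euc d → ℝ} (hV : Nice d V)
    {f : Euc d × Euc d × Euc d → Euc d} (hf : Measurable f) {C E : ℝ} (hC : 0 ≤ C)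
    (hb : ∀ p, ‖f p‖ ≤ C * startSize p) (hE : C * 2 ≤ E) :
    Integrable (fun ω => ‖f (X d V ω, ξ' d V ω, ξ d V ω)‖) (Pr d V) ∧
      ∫ ω, ‖f (X d V ω, ξ' d V ω, ξ d V ω)‖ ∂(Pr d V) ≤ E * dimFac d := by
  have := h.prob d V hV
  have hT := (h.meas d V hV).aemeasurable (μ := Pr d V)
  obtain ⟨hi, hle⟩ := integral_triple_le (μ₀ d V) (f := fun p => ‖f p‖)
    hf.norm.aestronglyMeasurable hC fun p => by simpa using hb p
  rw [← h.law d V hV] at hi hle
  refine ⟨(integrable_map_measure hi.aestronglyMeasurable hT).1 hi, ?_⟩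
  rw [integral_map hT hi.aestronglyMeasurable] at hle
  refine hle.trans ?_
  rw [← mul_assoc]
  exact mul_le_mul_of_nonneg_right hE (dimFac_nonneg d)

end HessSetting

/-- Base vectors of the rotation. -/
def baseVar (ξ' ξ : VarFam) : Bool → VarFam
  | true => ξ'
  | false => ξ

lemma zvar_base (X ξ' ξ : VarFam) (i : Bool) (d : ℕ) (V : Euc d → ℝ) (ω : Rand d) :
    compL d i (X d V ω, ξ' d V ω, ξ d V ω).2 = baseVar ξ' ξ i d V ω := by
  cases i <;> rfl

variable {Pr : RandFam} {ν : ℝ} {μ₀ : MeasFam} {H : HessFam} {X ξ' ξ : VarFam}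

/-- One Picard step for the equations of the rotation. -/
lemma picard_step (hset : HessSetting Pr μ₀ H X ξ' ξ) {m : ℕ} {L h : ℝ} (hh : 0 < h) (hh1 : h ≤ 1)
    (hL : ∀ x ∈ Set.Icc (-1 : ℝ) 1, ∑ i : Fin (m + 2), |lag (eqNode (P := m + 2)) i x| ≤ L)
    {lam v₀ δin ε Ein : ℝ} {Qin : ℕ} (hε : 0 ≤ ε) (hε1 : ε ≤ 1) (hlam : 0 < lam) (hδ : 0 ≤ δin)
    (hEin : 0 ≤ Ein) (hin : Extractor (m + 2) μ₀ H lam v₀ δin Qin ε Ein)
    {T : Body} {QT : ℕ} {c c₀ S S₀ vy Ey : ℝ} (hT : Node Pr ν T QT c c₀ S S₀ X vy Ey) (hEy : 0 ≤ Ey)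
    (i : Bool) {Zb : Body} {QZ : ℕ} {Sz Sz₀ vz Ez : ℝ}
    (hZ : Node Pr ν Zb QZ 0 0 Sz Sz₀ (baseVar ξ' ξ i) vz Ez)
    {vζ e s s₀ : ℝ} {Qc : ℕ} (he : 0 ≤ e) (hvζ : 0 ≤ vζ) (hv : vy + lam ^ 2 * vζ ≤ v₀)
    (hW : vz + ((m + 2 : ℕ) : ℝ) * L ^ 2 * diffSize (m + 2) ^ 2 * (h ^ 2 * (δin / lam ^ 2)) ≤ vζ)
    (hpart : ∀ j : Fin (m + 2), ∃ T', Node Pr ν T' Qc 0 0 s s₀
      (zvar H X ξ' ξ (!i) (h * eqNode j)) vζ e) (l : Fin (m + 2)) :
    ∃ T', Node Pr ν T' (QZ + (m + 2) * ((m + 2) * (Qin * (1 + (QT + Qc))))) 0 0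
      (Sz + 3 * ((m + 2 : ℕ) : ℝ) * L * diffSize (m + 2) * h / lam * (|c| + S + lam * s))
      (Sz₀ + 3 * ((m + 2 : ℕ) : ℝ) * L * diffSize (m + 2) * h / lam * (|c₀| + S₀ + lam * s₀))
      (zvar H X ξ' ξ i (h * eqNode l)) vζ
      (Ez + 3 * ((m + 2 : ℕ) : ℝ) * L * diffSize (m + 2) * h / lam * (Ey + lam * e + Ein)
        + 4 * (1 + L) * 4 ^ (m + 2) * h ^ (m + 2)) := by
  have hP : 2 ≤ m + 2 := by omega
  have hD := one_le_diffSize (m + 2)
  set D := diffSize (m + 2) with hDdef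
  have hL0 : 0 ≤ L := (Finset.sum_nonneg fun _ _ => abs_nonneg _).trans
    (hL 0 ⟨by norm_num, by norm_num⟩)
  choose Tc hTc using hpart
  choose Th hTh using fun j : Fin (m + 2) => Node.hess (v' := (D / lam) ^ 2 * δin) hP hε hlam hδ
    hin hT (hTc j) hEy hvζ hv (fun d V hV => hset.pair_law (!i) _ hV) le_rfl
  set a : Fin (m + 2 + 1) → ℝ := Fin.cons 1 fun j => rotSign i * intW h l j with ha
  have habs : ∀ j, |rotSign i * intW h l j| ≤ L * h := fun j => by
    rw [abs_mul, abs_rotSign, one_mul]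
    exact abs_intW_le hP hh hL l j
  have h1 := Node.comb0 (a := a) (Ts := Fin.cons Zb Th)
    (Qs := Fin.cons QZ fun _ => (m + 2) * (Qin * (1 + (QT + Qc))))
    (Ss := Fin.cons Sz fun _ => D / lam * (2 + ε) * (|c| + S + lam * s))
    (Ss₀ := Fin.cons Sz₀ fun _ => D / lam * (2 + ε) * (|c₀| + S₀ + lam * s₀))
    (Xs := Fin.cons (baseVar ξ' ξ i) fun j d V ω =>
      H d V (X d V ω) (zvar H X ξ' ξ (!i) (h * eqNode j) d V ω))
    (vs := Fin.cons vz fun _ => (D / lam) ^ 2 * δin)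
    (Es := Fin.cons Ez fun _ => D / lam * ((2 + ε) * (Ey + lam * |e|) + 2 * |Ein|))
    (Fin.cases hZ fun j => hTh j)
    (X' := fun d V ω => baseVar ξ' ξ i d V ω + ∑ j, (rotSign i * intW h l j) •
      H d V (X d V ω) (zvar H X ξ' ξ (!i) (h * eqNode j) d V ω))
    (fun d V _ ω => by simp [ha, Fin.sum_univ_succ (n := m + 2)]) (v' := vζ) (by
      refine le_trans ?_ hW
      rw [Fin.sum_univ_succ (n := m + 2)]
      simp only [ha, Fin.cons_zero, Fin.cons_succ, one_pow, one_mul]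
      gcongr ?_ + ?_
      · exact le_rfl
      calc ∑ j, (rotSign i * intW h l j) ^ 2 * ((D / lam) ^ 2 * δin)
          ≤ ∑ _j : Fin (m + 2), (L * h) ^ 2 * ((D / lam) ^ 2 * δin) := by
            refine Finset.sum_le_sum fun j _ => mul_le_mul_of_nonneg_right ?_ (by positivity)
            rw [← sq_abs]
            exact pow_le_pow_left₀ (abs_nonneg _) (habs j) 2
        _ = _ := by simp; ring)
  obtain ⟨hS, hS₀⟩ := hT.spread_nonneg
  obtain ⟨hs, hs₀⟩ := (hTc l).spread_nonneg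
  have h2 := h1.shift (X' := zvar H X ξ' ξ i (h * eqNode l))
    (E' := 4 * (1 + L) * 4 ^ (m + 2) * h ^ (m + 2)) fun d V hV => by
      set f : Euc d × Euc d × Euc d → Euc d := fun p =>
        compL d i p.2 + ∑ j, intW h l j • compL d i (zderiv (H d V) 1 (h * eqNode j) p)
          - compL d i (zpair (H d V) (h * eqNode l) p)
      have hfm : Measurable f := by
        have hz : ∀ θ, Measurable (zpair (H d V) θ) := fun θ =>
          (continuous_zpair (hset.cont d V hV) θ).measurable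
        refine ((((compL d i).continuous.measurable.comp measurable_snd).add
          (Finset.measurable_fun_sum _ fun j _ => Measurable.const_smul ?_ (intW h l j))).sub
          ((compL d i).continuous.measurable.comp (hz _)))
        simp only [compL_zderiv_one]
        exact (((hset.cont d V hV).comp continuous_fst).clm_apply
          ((compL d (!i)).continuous.comp (continuous_zpair (hset.cont d V hV) _))
          |>.const_smul (rotSign i)).measurable
      have hb : ∀ p, ‖f p‖ ≤ (1 + L) * h * (2 * (4 * h) ^ (m + 2)) * startSize p := fun p =>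
        (quad_zpair (hset.symm d V hV) (hset.bdd d V hV) rfl hh hL (compL d i) (norm_compL_le i)
          p l).trans (le_of_eq (by ring))
      have h3 := hset.bound hV hfm (C := (1 + L) * h * (2 * (4 * h) ^ (m + 2)))
        (E := 4 * (1 + L) * 4 ^ (m + 2) * h ^ (m + 2)) (by positivity) hb (by
          rw [mul_pow]
          calc (1 + L) * h * (2 * (4 ^ (m + 2) * h ^ (m + 2))) * 2
              = 4 * (1 + L) * 4 ^ (m + 2) * h ^ (m + 2) * h := by ring
            _ ≤ _ := mul_le_of_le_one_right (by positivity) hh1)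
      have heq : ∀ ω, baseVar ξ' ξ i d V ω + ∑ j, (rotSign i * intW h l j) •
          H d V (X d V ω) (zvar H X ξ' ξ (!i) (h * eqNode j) d V ω)
          - zvar H X ξ' ξ i (h * eqNode l) d V ω = f (X d V ω, ξ' d V ω, ξ d V ω) := fun ω => by
        simp only [f, compL_zderiv_one, smul_smul, zvar_base X ξ' ξ i d V ω, zvar, mul_comm]
      simp only [heq]
      exact h3
  have hsum : ∑ j, |rotSign i * intW h l j| ≤ ((m + 2 : ℕ) : ℝ) * (L * h) :=
    (Finset.sum_le_sum fun j _ => habs j).trans (le_of_eq (by simp))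
  have key : ∀ {A B : ℝ}, 0 ≤ A → A ≤ 3 * (D / lam) * B →
      ∑ j, |rotSign i * intW h l j| * A ≤ 3 * ((m + 2 : ℕ) : ℝ) * L * D * h / lam * B := by
    intro A B hA hAB
    rw [← Finset.sum_mul]
    refine (mul_le_mul hsum hAB hA (by positivity)).trans (le_of_eq ?_)
    ring
  refine ⟨_, h2.mono ?_ ?_ ?_ ?_⟩
  · simp [Fin.sum_univ_succ (n := m + 2)]
  · rw [Fin.sum_univ_succ (n := m + 2)]
    simp only [ha, Fin.cons_zero, Fin.cons_succ, abs_one, one_mul]
    exact add_le_add le_rfl (key (by positivity) (by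
      calc D / lam * (2 + ε) * (|c| + S + lam * s) ≤ D / lam * 3 * (|c| + S + lam * s) := by
            gcongr; linarith
        _ = _ := by ring))
  · rw [Fin.sum_univ_succ (n := m + 2)]
    simp only [ha, Fin.cons_zero, Fin.cons_succ, abs_one, one_mul]
    exact add_le_add le_rfl (key (by positivity) (by
      calc D / lam * (2 + ε) * (|c₀| + S₀ + lam * s₀) ≤ D / lam * 3 * (|c₀| + S₀ + lam * s₀) := by
            gcongr; linarith
        _ = _ := by ring))
  · rw [Fin.sum_univ_succ (n := m + 2)]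
    simp only [ha, Fin.cons_zero, Fin.cons_succ, abs_one, one_mul]
    refine add_le_add (add_le_add le_rfl (key (by positivity) ?_)) le_rfl
    rw [abs_of_nonneg he, abs_of_nonneg hEin]
    calc D / lam * ((2 + ε) * (Ey + lam * e) + 2 * Ein)
        ≤ D / lam * (3 * (Ey + lam * e) + 3 * Ein) := by gcongr <;> linarith
      _ = _ := by ring

lemma query_step {m K Qout : ℕ} (hQ : 2 * ((m + 2) * (m + 2)) + 2 ≤ K) (n QT QZ Qin : ℕ) :
    QZ + (m + 2) * ((m + 2) * (Qin * (1 + (QT + (K * (1 + Qin + Qout)) ^ n * (1 + QT + QZ)))))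
      ≤ (K * (1 + Qin + Qout)) ^ (n + 1) * (1 + QT + QZ) := by
  have h1B : 1 ≤ (K * (1 + Qin + Qout)) ^ n :=
    Nat.one_le_pow _ _ (Nat.mul_pos (by omega) (by omega))
  have h2B : 1 + QT + QZ ≤ (K * (1 + Qin + Qout)) ^ n * (1 + QT + QZ) :=
    Nat.le_mul_of_pos_left _ h1B
  rw [pow_succ, mul_right_comm]
  generalize (K * (1 + Qin + Qout)) ^ n * (1 + QT + QZ) = B at h2B ⊢
  calc QZ + (m + 2) * ((m + 2) * (Qin * (1 + (QT + B))))
      ≤ B + (m + 2) * ((m + 2) * (Qin * (B + B))) :=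
        Nat.add_le_add (by omega)
          (Nat.mul_le_mul_left _ (Nat.mul_le_mul_left _ (Nat.mul_le_mul_left _ (by omega))))
    _ = B * (1 + 2 * ((m + 2) * (m + 2)) * Qin) := by ring
    _ ≤ B * (K * (1 + Qin + Qout)) := by
        refine Nat.mul_le_mul_left _ ?_
        calc 1 + 2 * ((m + 2) * (m + 2)) * Qin ≤ K + K * Qin :=
              Nat.add_le_add (by omega) (Nat.mul_le_mul_right _ (by omega))
          _ = K * (1 + Qin) := by ring
          _ ≤ _ := Nat.mul_le_mul_left _ (by omega)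

lemma query_final {m K : ℕ} (hQ : 2 * ((m + 2) * (m + 2)) + 2 ≤ K) (n QT QZ Qin Qout : ℕ) :
    (m + 2) * ((m + 2) * (Qout * (1 + (QT + (K * (1 + Qin + Qout)) ^ n * (1 + QT + QZ)))))
      ≤ (K * (1 + Qin + Qout)) ^ (n + 1) * (1 + QT + QZ) := by
  have h1B : 1 ≤ (K * (1 + Qin + Qout)) ^ n :=
    Nat.one_le_pow _ _ (Nat.mul_pos (by omega) (by omega))
  have h2B : 1 + QT + QZ ≤ (K * (1 + Qin + Qout)) ^ n * (1 + QT + QZ) :=
    Nat.le_mul_of_pos_left _ h1B
  rw [pow_succ, mul_right_comm]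
  generalize (K * (1 + Qin + Qout)) ^ n * (1 + QT + QZ) = B at h2B ⊢
  calc (m + 2) * ((m + 2) * (Qout * (1 + (QT + B))))
      ≤ (m + 2) * ((m + 2) * (Qout * (B + B))) :=
        Nat.mul_le_mul_left _ (Nat.mul_le_mul_left _ (Nat.mul_le_mul_left _ (by omega)))
    _ = B * (2 * ((m + 2) * (m + 2)) * Qout) := by ring
    _ ≤ B * (K * (1 + Qin + Qout)) :=
        Nat.mul_le_mul_left _ (Nat.mul_le_mul (by omega) (by omega))

lemma spread_step {lam ρ Sz x : ℝ} (hlam : 0 < lam) (hρ0 : 0 ≤ ρ) (hρ2 : ρ ≤ 1 / 2) (hSz : 0 ≤ Sz)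
    (hx : 0 ≤ x) :
    Sz + ρ / lam * (x + lam * (2 * (Sz + ρ / lam * x))) ≤ 2 * (Sz + ρ / lam * x) := by
  have hs : 0 ≤ 2 * (Sz + ρ / lam * x) := by positivity
  calc Sz + ρ / lam * (x + lam * (2 * (Sz + ρ / lam * x)))
      = (Sz + ρ / lam * x) + ρ * (2 * (Sz + ρ / lam * x)) := by field_simp; ring
    _ ≤ _ := by linarith [mul_le_mul_of_nonneg_right hρ2 hs]

lemma spread_final {lam h ρ Sz x D K : ℝ} (hlam : 0 < lam) (hh : 0 < h) (hρ2 : ρ ≤ 1 / 2)
    (hSz : 0 ≤ Sz) (hx : 0 ≤ x) (hK : 6 * D ^ 2 ≤ K) :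
    3 * D ^ 2 / (h * lam) * (x + lam * (2 * (Sz + ρ / lam * x)))
      ≤ K / (h * lam) * (x + lam * Sz) := by
  have h4 : x + lam * (2 * (Sz + ρ / lam * x)) ≤ 2 * (x + lam * Sz) := by
    calc x + lam * (2 * (Sz + ρ / lam * x)) = x + 2 * (lam * Sz) + 2 * ρ * x := by
          field_simp; ring
      _ ≤ _ := by linarith [mul_le_mul_of_nonneg_right hρ2 hx]
  calc 3 * D ^ 2 / (h * lam) * (x + lam * (2 * (Sz + ρ / lam * x)))
      ≤ 3 * D ^ 2 / (h * lam) * (2 * (x + lam * Sz)) := mul_le_mul_of_nonneg_left h4 (by positivity)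
    _ = 6 * D ^ 2 / (h * lam) * (x + lam * Sz) := by ring
    _ ≤ _ := mul_le_mul_of_nonneg_right (div_le_div_of_nonneg_right hK (by positivity))
        (by positivity)

lemma error_final {lam h ρ B₀ Cq Ey Ez Ein Eout D F K R r t : ℝ} (hlam : 0 < lam) (hh : 0 < h)
    (hρ : ρ = B₀ * h) (hρ2 : ρ ≤ 1 / 2) (hr : r ≤ R) (hEy : 0 ≤ Ey) (hEz : 0 ≤ Ez) (hEin : 0 ≤ Ein)
    (hEout : 0 ≤ Eout) (hB : 0 ≤ B₀) (hC : 0 ≤ Cq) (hF : 0 ≤ F) (ht : 0 ≤ t)
    (hR : 0 ≤ R) (hK : 3 * D ^ 2 * (6 + 2 * B₀ + 2 * Cq) + F ≤ K) :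
    3 * D ^ 2 / (h * lam) *
        (Ey + lam * (2 * (Ez + ρ / lam * (Ey + Ein) + Cq * t) + 4 * r) + Eout) + F / h * t
      ≤ K / (h * lam) * (Ey + lam * Ez + h * Ein + Eout + lam * (t + R)) := by
  set G := Ey + lam * Ez + h * Ein + Eout + lam * (t + R) with hG
  have hT0 : 0 ≤ lam * t := by positivity
  have hT1 : 0 ≤ lam * Ez := by positivity
  have hT2 : 0 ≤ h * Ein := by positivity
  have hT3 : 0 ≤ lam * R := by positivity
  have hG0 : 0 ≤ G := by rw [hG]; positivity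
  have hG1 : lam * t ≤ G := by rw [hG]; linarith
  have h3 : Ey + lam * (2 * (Ez + ρ / lam * (Ey + Ein) + Cq * t) + 4 * r) + Eout
      ≤ (6 + 2 * B₀ + 2 * Cq) * G := by
    calc Ey + lam * (2 * (Ez + ρ / lam * (Ey + Ein) + Cq * t) + 4 * r) + Eout
        = Ey + 2 * (lam * Ez) + 2 * (ρ * Ey) + 2 * B₀ * (h * Ein) + 2 * Cq * (lam * t)
          + 4 * (lam * r) + Eout := by rw [hρ]; field_simp; ring
      _ ≤ 6 * G + 2 * B₀ * G + 2 * Cq * G := by
          have h4 : 2 * B₀ * (h * Ein) ≤ 2 * B₀ * G :=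
            mul_le_mul_of_nonneg_left (by rw [hG]; linarith) (by positivity)
          have h5 : 2 * Cq * (lam * t) ≤ 2 * Cq * G := mul_le_mul_of_nonneg_left hG1 (by positivity)
          have h6 := mul_le_mul_of_nonneg_left hr hlam.le
          have h7 := mul_le_mul_of_nonneg_right hρ2 hEy
          rw [hG] at h4 h5 ⊢
          linarith
      _ = _ := by ring
  calc 3 * D ^ 2 / (h * lam) *
        (Ey + lam * (2 * (Ez + ρ / lam * (Ey + Ein) + Cq * t) + 4 * r) + Eout) + F / h * t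
      ≤ 3 * D ^ 2 / (h * lam) * ((6 + 2 * B₀ + 2 * Cq) * G) + F / (h * lam) * G := by
        refine add_le_add (mul_le_mul_of_nonneg_left h3 (by positivity)) ?_
        calc F / h * t = F / (h * lam) * (lam * t) := by field_simp
          _ ≤ _ := mul_le_mul_of_nonneg_left hG1 (by positivity)
    _ = (3 * D ^ 2 * (6 + 2 * B₀ + 2 * Cq) + F) / (h * lam) * G := by ring
    _ ≤ _ := mul_le_mul_of_nonneg_right (div_le_div_of_nonneg_right hK (by positivity)) hG0

/-- The Picard iterates for the equations of the rotation. -/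
lemma hess_iterates (hset : HessSetting Pr μ₀ H X ξ' ξ) {m : ℕ} {L h : ℝ} (hh : 0 < h) (hh1 : h ≤ 1)
    (hL : ∀ x ∈ Set.Icc (-1 : ℝ) 1, ∑ i : Fin (m + 2), |lag (eqNode (P := m + 2)) i x| ≤ L)
    {lam v₀ δin ε Ein : ℝ} {Qin : ℕ} (hε : 0 ≤ ε) (hε1 : ε ≤ 1) (hlam : 0 < lam) (hδ : 0 ≤ δin)
    (hEin : 0 ≤ Ein) (hin : Extractor (m + 2) μ₀ H lam v₀ δin Qin ε Ein)
    {T : Body} {QT : ℕ} {c c₀ S S₀ vy Ey : ℝ} (hT : Node Pr ν T QT c c₀ S S₀ X vy Ey) (hEy : 0 ≤ Ey)
    {Z Z' : Body} {QZ : ℕ} {Sz Sz₀ vz Ez : ℝ} (hZ : Node Pr ν Z QZ 0 0 Sz Sz₀ ξ vz Ez)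
    (hZ' : Node Pr ν Z' QZ 0 0 Sz Sz₀ ξ' vz Ez) (hEz : 0 ≤ Ez)
    {vζ : ℝ} (hvζ : 0 ≤ vζ) (hvz' : vz ≤ vζ) (hv : vy + lam ^ 2 * vζ ≤ v₀)
    (hW : vz + ((m + 2 : ℕ) : ℝ) * L ^ 2 * diffSize (m + 2) ^ 2 * (h ^ 2 * (δin / lam ^ 2)) ≤ vζ)
    {ρ : ℝ} (hρ : 3 * ((m + 2 : ℕ) : ℝ) * L * diffSize (m + 2) * h = ρ) (hρ0 : 0 ≤ ρ)
    (hρ2 : ρ ≤ 1 / 2) {Cq : ℝ} (hCq : 4 * (1 + L) * 4 ^ (m + 2) = Cq) (hCq0 : 0 ≤ Cq)
    {A : ℝ} (hA : Ez + ρ / lam * (Ey + Ein) + Cq * h ^ (m + 2) = A)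
    {K Qout : ℕ} (hQ : 2 * ((m + 2) * (m + 2)) + 2 ≤ K) :
    ∀ (n : ℕ) (i : Bool) (l : Fin (m + 2)), ∃ T', Node Pr ν T'
      ((K * (1 + Qin + Qout)) ^ n * (1 + QT + QZ)) 0 0
      (2 * (Sz + ρ / lam * (|c| + S))) (2 * (Sz₀ + ρ / lam * (|c₀| + S₀)))
      (zvar H X ξ' ξ i (h * eqNode l)) vζ (2 * A + 4 * ρ ^ n) := by
  have hbase : ∀ i, ∃ Zb, Node Pr ν Zb QZ 0 0 Sz Sz₀ (baseVar ξ' ξ i) vz Ez := fun i => by
    cases i
    · exact ⟨Z, hZ⟩
    · exact ⟨Z', hZ'⟩
  obtain ⟨hS, hS₀⟩ := hT.spread_nonneg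
  obtain ⟨hSz, hSz₀⟩ := hZ.spread_nonneg
  have hA0 : 0 ≤ A := by rw [← hA]; positivity
  intro n
  induction n with
  | zero =>
    intro i l
    obtain ⟨Zb, hb⟩ := hbase i
    obtain ⟨Zp, hp⟩ := hb.pad hvz'
    have h3 := hp.shift (X' := zvar H X ξ' ξ i (h * eqNode l)) (E' := 4) fun d V hV => by
      have h4 := hset.bound hV (f := fun p => compL d i p.2
          - compL d i (zpair (H d V) (h * eqNode l) p))
        (((compL d i).continuous.comp continuous_snd).sub ((compL d i).continuous.comp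
          (continuous_zpair (hset.cont d V hV) _))).measurable (C := 2) (E := 4) zero_le_two
        (fun p => by
          refine (norm_sub_le _ _).trans ?_
          have h5 := (norm_compL_le i (zpair (H d V) (h * eqNode l) p)).trans
            (norm_zderiv_le (hset.symm d V hV) (hset.bdd d V hV) p 0 (h * eqNode l))
          have h6 := (norm_compL_le i p.2).trans (show ‖p.2‖ ≤ startSize p from
            max_le (le_add_of_nonneg_right (norm_nonneg _))
              (le_add_of_nonneg_left (norm_nonneg _)))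
          rw [pow_zero, one_mul] at h5
          linarith) (by norm_num)
      simp only [zvar_base X ξ' ξ i d V] at h4
      exact h4
    refine ⟨Zp, h3.mono ?_ ?_ ?_ ?_⟩
    · simp
    · have : 0 ≤ ρ / lam * (|c| + S) := by positivity
      linarith
    · have : 0 ≤ ρ / lam * (|c₀| + S₀) := by positivity
      linarith
    · have : 0 ≤ ρ / lam * (Ey + Ein) + Cq * h ^ (m + 2) := by positivity
      rw [← hA]; linarith
  | succ n ih =>
    intro i l
    obtain ⟨Zb, hb⟩ := hbase i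
    obtain ⟨T', hT'⟩ := picard_step hset hh hh1 hL hε hε1 hlam hδ hEin hin hT hEy i hb
      (by positivity) hvζ hv hW (fun j => ih (!i) j) l
    refine ⟨T', hT'.mono ?_ ?_ ?_ ?_⟩
    · exact query_step hQ (Qout := Qout) n QT QZ Qin
    · rw [hρ]
      exact spread_step hlam hρ0 hρ2 hSz (add_nonneg (abs_nonneg c) hS)
    · rw [hρ]
      exact spread_step hlam hρ0 hρ2 hSz₀ (add_nonneg (abs_nonneg c₀) hS₀)
    · rw [hρ, hCq]
      calc Ez + ρ / lam * (Ey + lam * (2 * A + 4 * ρ ^ n) + Ein) + Cq * h ^ (m + 2)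
          = A + ρ * (2 * A) + 4 * ρ ^ (n + 1) := by rw [← hA]; field_simp; ring
        _ ≤ _ := by
            have : ρ * (2 * A) ≤ 1 / 2 * (2 * A) := mul_le_mul_of_nonneg_right hρ2 (by positivity)
            linarith

/-- The body at the end of the iteration: extraction and differentiation at angle `0`. -/
lemma hess_extract (hset : HessSetting Pr μ₀ H X ξ' ξ) {m : ℕ} {h : ℝ} (hh : 0 < h)
    {lam v₀ δout ε Eout : ℝ} {Qout : ℕ} (hε : 0 ≤ ε) (hε1 : ε ≤ 1) (hlam : 0 < lam)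
    (hδ : 0 ≤ δout) (hEout : 0 ≤ Eout) (hout : Extractor (m + 2) μ₀ H lam v₀ δout Qout ε Eout)
    {T : Body} {QT : ℕ} {c c₀ S S₀ vy Ey : ℝ} (hT : Node Pr ν T QT c c₀ S S₀ X vy Ey) (hEy : 0 ≤ Ey)
    {Qc : ℕ} {s s₀ vζ e : ℝ} (he : 0 ≤ e) (hvζ : 0 ≤ vζ) (hv : vy + lam ^ 2 * vζ ≤ v₀)
    (hpart : ∀ l : Fin (m + 2), ∃ T', Node Pr ν T' Qc 0 0 s s₀
      (zvar H X ξ' ξ true (h * eqNode l)) vζ e)
    {v' : ℝ} (hv' : (diffSize (m + 2) ^ 2 / (h * lam)) ^ 2 * δout ≤ v') :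
    ∃ T', Node Pr ν T' ((m + 2) * ((m + 2) * (Qout * (1 + (QT + Qc))))) 0 0
      (3 * diffSize (m + 2) ^ 2 / (h * lam) * (|c| + S + lam * s))
      (3 * diffSize (m + 2) ^ 2 / (h * lam) * (|c₀| + S₀ + lam * s₀))
      (fun d V ω => H d V (X d V ω) (H d V (X d V ω) (ξ d V ω))) v'
      (3 * diffSize (m + 2) ^ 2 / (h * lam) * (Ey + lam * e + Eout)
        + 8 * diffSize (m + 2) * 4 ^ (m + 2) / h * h ^ (m + 2)) := by
  have hD := one_le_diffSize (m + 2)
  set D := diffSize (m + 2) with hDdef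
  obtain ⟨hS, hS₀⟩ := hT.spread_nonneg
  choose Tc hTc using hpart
  obtain ⟨hs, hs₀⟩ := (hTc 0).spread_nonneg
  choose Th hTh using fun l : Fin (m + 2) => Node.hess (v' := (D / lam) ^ 2 * δout)
    (by omega : 2 ≤ m + 2) hε hlam hδ hout hT (hTc l) hEy hvζ hv
    (fun d V hV => hset.pair_law true _ hV) le_rfl
  have hsum : ∑ l : Fin (m + 2), |diffW l / h| ≤ D / h := by
    simp only [abs_div, abs_of_pos hh, ← Finset.sum_div, hDdef, diffSize]
    gcongr
    linarith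
  have h1 := Node.comb0 (a := fun l : Fin (m + 2) => diffW l / h) hTh
    (X' := fun d V ω => ∑ l : Fin (m + 2), (diffW l / h) •
      H d V (X d V ω) (zvar H X ξ' ξ true (h * eqNode l) d V ω))
    (fun d V _ ω => rfl) (v' := v') (by
      refine le_trans ?_ hv'
      rw [← Finset.sum_mul, ← mul_assoc]
      refine mul_le_mul_of_nonneg_right ?_ hδ
      calc (∑ l : Fin (m + 2), (diffW l / h) ^ 2) * (D / lam) ^ 2
          ≤ (D / h) ^ 2 * (D / lam) ^ 2 := by
            refine mul_le_mul_of_nonneg_right ?_ (sq_nonneg _)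
            calc ∑ l : Fin (m + 2), (diffW l / h) ^ 2 = ∑ l : Fin (m + 2), |diffW l / h| ^ 2 := by
                  simp only [sq_abs]
              _ ≤ (∑ l : Fin (m + 2), |diffW l / h|) ^ 2 :=
                  Finset.sum_sq_le_sq_sum_of_nonneg fun _ _ => abs_nonneg _
              _ ≤ _ := pow_le_pow_left₀ (Finset.sum_nonneg fun _ _ => abs_nonneg _) hsum 2
        _ = (D ^ 2 / (h * lam)) ^ 2 := by ring)
  have h2 := h1.shift (X' := fun d V ω => H d V (X d V ω) (H d V (X d V ω) (ξ d V ω)))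
    (E' := 8 * D * 4 ^ (m + 2) / h * h ^ (m + 2)) fun d V hV => by
      have hH := hset.cont d V hV
      have h3 := hset.bound hV (f := fun p => ∑ l : Fin (m + 2), (diffW l / h) •
          H d V p.1 (zpair (H d V) (h * eqNode l) p).1 - H d V p.1 (H d V p.1 p.2.2))
        ((continuous_finsetSum _ fun l _ => (((hH.comp continuous_fst).clm_apply
            ((continuous_zpair hH _).fst)).const_smul (diffW l / h))).sub
          ((hH.comp continuous_fst).clm_apply ((hH.comp continuous_fst).clm_apply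
            continuous_snd.snd))).measurable
        (C := 2 * D / h * (2 * (4 * h) ^ (m + 2))) (E := 8 * D * 4 ^ (m + 2) / h * h ^ (m + 2))
        (by positivity)
        (fun p => (diff_zpair (hset.symm d V hV) (hset.bdd d V hV) rfl hh p).trans
          (le_of_eq (by ring)))
        (le_of_eq (by rw [mul_pow]; ring))
      exact h3
  have hfin : ∀ {x y : ℝ}, 0 ≤ x → x ≤ D / lam * (3 * y) →
      (∑ l : Fin (m + 2), |diffW l / h| * x) ≤ 3 * D ^ 2 / (h * lam) * y := by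
    intro x y hx hxy
    rw [← Finset.sum_mul]
    refine (mul_le_mul hsum hxy hx (by positivity)).trans (le_of_eq ?_)
    ring
  refine ⟨_, h2.mono (le_of_eq (by simp)) (hfin (by positivity) ?_) (hfin (by positivity) ?_)
    (add_le_add (hfin (by positivity) ?_) le_rfl)⟩
  · rw [mul_assoc]
    exact mul_le_mul_of_nonneg_left
      (mul_le_mul_of_nonneg_right (by linarith) (by positivity)) (by positivity)
  · rw [mul_assoc]
    exact mul_le_mul_of_nonneg_left
      (mul_le_mul_of_nonneg_right (by linarith) (by positivity)) (by positivity)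
  · rw [abs_of_nonneg he, abs_of_nonneg hEout]
    refine mul_le_mul_of_nonneg_left ?_ (by positivity)
    have := mul_le_mul_of_nonneg_right hε1 (by positivity : (0 : ℝ) ≤ Ey + lam * e)
    linarith

/-- The body computing a squared Hessian applied to a Gaussian vector. -/
theorem hessSq : HessSqStatement := by
  intro P It hP
  obtain ⟨m, rfl⟩ : ∃ m, P = m + 2 := ⟨P - 2, by omega⟩
  obtain ⟨L, hL1, hL⟩ := exists_lag_bound (m + 2)
  set D := diffSize (m + 2) with hDdef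
  have hD := one_le_diffSize (m + 2)
  set B₀ := 3 * ((m + 2 : ℕ) : ℝ) * L * D with hB₀
  set Cq := 4 * (1 + L) * 4 ^ (m + 2) with hCq
  set Cfin := 3 * D ^ 2 * (6 + 2 * B₀ + 2 * Cq) + 8 * D * 4 ^ (m + 2) with hCfin
  set C := 1 + ((m + 2 : ℕ) : ℝ) * L ^ 2 * D ^ 2 + B₀ + 6 * D ^ 2 + Cfin
    + 2 * ((m + 2 : ℕ) : ℝ) ^ 2 + 2 with hC
  have hB₀0 : 0 ≤ B₀ := by positivity
  have hCfin0 : 0 ≤ Cfin := by positivity
  have hCq0 : 0 ≤ Cq := by positivity
  have hp1 : 0 ≤ ((m + 2 : ℕ) : ℝ) * L ^ 2 * D ^ 2 := by positivity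
  have hp2 : 0 ≤ 2 * ((m + 2 : ℕ) : ℝ) ^ 2 := by positivity
  have hD2 : 1 ≤ D ^ 2 := one_le_pow₀ hD
  refine ⟨⌈C⌉₊, Nat.one_le_ceil_iff.2 (by linarith), ?_⟩
  set K := ⌈C⌉₊
  have hKC : C ≤ (K : ℝ) := Nat.le_ceil C
  intro Pr ν μ₀ H lam v₀ δin δout Qin Qout ε Ein Eout hε hε1 hlam hδin hδout hEin hEout hfacts
    hin hout T QT c c₀ S S₀ X vy Ey hT hvy hEy Z Z' QZ Sz Sz₀ ξ ξ' vz Ez hZ hZ' hvz hEz hlaw
    h v' hh hKh hv₀ hv'
  have hset : HessSetting Pr μ₀ H X ξ' ξ :=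
    ⟨fun d V hV => (hfacts d V hV).1, fun d V hV => (hfacts d V hV).2.2.1,
      fun d V hV => (hfacts d V hV).2.2.2.1, fun d V hV => (hfacts d V hV).2.2.2.2,
      fun d V hV => (hlaw d V hV).1, fun d V hV => (hlaw d V hV).2⟩
  have hh1 : h ≤ 1 := by
    have : 1 * h ≤ (K : ℝ) * h := mul_le_mul_of_nonneg_right (by linarith) hh.le
    linarith
  set ρ := B₀ * h with hρ
  have hρ0 : 0 ≤ ρ := by positivity
  have hρK : ρ ≤ (K : ℝ) * h := mul_le_mul_of_nonneg_right (by linarith) hh.le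
  have hρ2 : ρ ≤ 1 / 2 := hρK.trans hKh
  have hδl : 0 ≤ h ^ 2 * (δin / lam ^ 2) := by positivity
  have hvz' : vz ≤ (K : ℝ) * (vz + h ^ 2 * (δin / lam ^ 2)) := by
    calc vz ≤ 1 * (vz + h ^ 2 * (δin / lam ^ 2)) := by linarith
      _ ≤ _ := mul_le_mul_of_nonneg_right (by linarith) (by positivity)
  have hW : vz + ((m + 2 : ℕ) : ℝ) * L ^ 2 * D ^ 2 * (h ^ 2 * (δin / lam ^ 2))
      ≤ (K : ℝ) * (vz + h ^ 2 * (δin / lam ^ 2)) := by
    rw [mul_add]
    exact add_le_add (le_mul_of_one_le_left hvz (by linarith))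
      (mul_le_mul_of_nonneg_right (by linarith) hδl)
  have hQ : 2 * ((m + 2) * (m + 2)) + 2 ≤ K := by
    have : ((2 * ((m + 2) * (m + 2)) + 2 : ℕ) : ℝ) ≤ (K : ℝ) := by
      calc ((2 * ((m + 2) * (m + 2)) + 2 : ℕ) : ℝ) = 2 * ((m + 2 : ℕ) : ℝ) ^ 2 + 2 := by
            push_cast; ring
        _ ≤ _ := by linarith
    exact_mod_cast this
  obtain ⟨hS, hS₀⟩ := hT.spread_nonneg
  obtain ⟨hSz, hSz₀⟩ := hZ.spread_nonneg
  have iter := hess_iterates hset hh hh1 hL hε hε1 hlam hδin hEin hin hT hEy hZ hZ' hEz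
    (by positivity) hvz' hv₀ hW (ρ := ρ) (by rw [hρ, hB₀]) hρ0 hρ2 (Cq := Cq) hCq.symm hCq0 rfl
    (Qout := Qout) hQ It
  obtain ⟨T', hT'⟩ := hess_extract hset hh hε hε1 hlam hδout hEout hout hT hEy
    (by positivity) (by positivity) hv₀ (fun l => iter true l) (v' := v')
    ((mul_le_mul_of_nonneg_right (pow_le_pow_left₀ (by positivity)
      (div_le_div_of_nonneg_right (by linarith) (by positivity)) 2) hδout).trans hv')
  refine ⟨T', _, ?_, hT'.mono le_rfl ?_ ?_ ?_⟩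
  · exact query_final hQ It QT QZ Qin Qout
  · exact spread_final hlam hh hρ2 hSz (add_nonneg (abs_nonneg c) hS) (by linarith)
  · exact spread_final hlam hh hρ2 hSz₀ (add_nonneg (abs_nonneg c₀) hS₀) (by linarith)
  · exact error_final hlam hh hρ hρ2 (pow_le_pow_left₀ hρ0 hρK It) hEy hEz hEin hEout hB₀0 hCq0
      (by positivity) (by positivity) (by positivity) (by linarith)

end Vale.Agent.P347
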