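import Vale.Agent.P347.NodeSum
import Vale.Agent.P347.HessSq

/-!
One iteration of the forward pass of the oracle step, in abstract numeric form.
-/

namespace Vale.Agent.P347

open MeasureTheory ProbabilityTheory

/-- The three bodies at a node of the forward pass: position and Gaussian state. -/
def FwdState (Pr : RandFam) {ι : Type*} (c₀ vy : ι → ℝ) (X Ξ : ι → VarFam) (Q : ℕ)
    (sy sξ ey eξ : ℝ) : Prop :=
  ∀ p, (∃ T, Node Pr 0 T Q 1 (c₀ p) sy sy (X p) (vy p) ey) ∧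
    ∃ Z, Node Pr 0 Z Q 0 0 sξ sξ (Ξ p) 1 eξ

/-- What one iteration of the forward pass needs. -/
structure FwdEnv (Pr : RandFam) (P It K : ℕ) (ι : Type*) [Fintype ι] where
  /-- positions -/
  X : ι → VarFam
  /-- Gaussian states -/
  Ξ : ι → VarFam
  /-- slot centre of the positions -/
  c₀ : ι → ℝ
  /-- variance of the positions -/
  vy : ι → ℝ
  /-- score fields -/
  g : ι → FieldFam
  /-- levels -/
  μ : ι → MeasFam
  /-- Hessian fields -/
  H : ι → HessFam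
  /-- extraction steps -/
  lam : ι → ℝ
  /-- rotation scales -/
  κr : ι → ℝ
  /-- extraction input variances -/
  v₀ : ι → ℝ
  /-- noise levels -/
  δin : ℝ
  /-- noise level of the outer operators -/
  δout : ℝ
  /-- accuracies -/
  Ein : ℝ
  /-- accuracy of the outer operators -/
  Eout : ℝ
  /-- slack -/
  ε : ℝ
  /-- query bound of the operators -/
  Qop : ℕ
  /-- position weights -/
  W : ι → ι → ℝ
  /-- value weights -/
  W₁ : ι → ι → ℝ
  /-- the coupling -/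
  κ : ℝ
  /-- the gadget variance -/
  δe : ℝ
  /-- anchor part of the positions -/
  Base : ι → VarFam
  /-- variance of the anchor part -/
  vb : ι → ℝ
  /-- spread of the anchor part -/
  sb : ℝ
  /-- error of the anchor part -/
  eb : ℝ
  /-- the value at the start -/
  G₀ : VarFam
  /-- its variance -/
  δc : ℝ
  /-- its spread -/
  sG : ℝ
  /-- its error -/
  eG : ℝ
  /-- query bound of the fixed bodies -/
  Qfix : ℕ
  eps_nonneg : 0 ≤ ε
  eps_le : ε ≤ 1 / 10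
  din_nonneg : 0 ≤ δin
  dout_nonneg : 0 ≤ δout
  ein_nonneg : 0 ≤ Ein
  eout_nonneg : 0 ≤ Eout
  de_pos : 0 < δe
  vy_nonneg : ∀ p, 0 ≤ vy p
  abs_c₀ : ∀ p, |c₀ p| ≤ 1
  lam_pos : ∀ p, 0 < lam p
  kr_pos : ∀ p, 0 < κr p
  two_le : 2 ≤ P
  eval : ∀ p, ∃ op, OpOK op Qop ε (g p) (μ p) (vy p) δin Ein
  extIn : ∀ p, Extractor P (μ p) (H p) (lam p) (v₀ p) δin Qop ε Ein
  extOut : ∀ p, Extractor P (μ p) (H p) (lam p) (v₀ p) δout Qop ε Eout
  room : ∀ p, vy p + lam p ^ 2 * ((K : ℝ) * (1 + κr p ^ 2 * (δin / lam p ^ 2))) ≤ v₀ p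
  small : ∀ p, (K : ℝ) * κr p ≤ 1 / 2
  hess : ∀ p d V, Nice d V → IsProbabilityMeasure (μ p d V) ∧ IsProbabilityMeasure (Pr d V) ∧
    Continuous (H p d V) ∧ (∀ y a b, inner ℝ (H p d V y a) b = inner ℝ a (H p d V y b)) ∧
    ∀ y, ‖H p d V y‖ ≤ 2
  law : ∀ p d V, Nice d V → Measurable (fun ω => (X p d V ω, ω.2 2, Ξ p d V ω)) ∧
    (Pr d V).map (fun ω => (X p d V ω, ω.2 2, Ξ p d V ω))
      = (μ p d V).prod ((gauss d).prod (gauss d))
  base : ∀ p, ∃ T, Node Pr 0 T Qfix 1 (c₀ p) sb sb (Base p) (vb p) eb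
  start : ∃ T, Node Pr 0 T Qfix 0 0 sG sG G₀ δc eG

lemma growth_pos_le (Qop Q Qf N P K L : ℕ) (hL : 8 * (1 + P + K) * (1 + Qop + Qop) ≤ L) :
    Qf + N * (Qop * (1 + Q)) + N * (P * (Qop * (1 + (Q + Q)))) ≤ (N + 1) * L * (1 + Q + Qf) := by
  set U := 1 + Q + Qf
  set B := 8 * (1 + P + K) * (1 + Qop + Qop) with hB
  have b3 : Qop + 2 * P * Qop + 1 ≤ B := by
    have h1 : Qop ≤ 1 + Qop + Qop := by omega
    have h2 : 1 + 2 * P ≤ 8 * (1 + P + K) := by omega
    calc Qop + 2 * P * Qop + 1 ≤ (1 + 2 * P) * (1 + Qop + Qop) := by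
          rw [Nat.add_mul, one_mul, Nat.mul_add, Nat.mul_add, Nat.mul_one]; omega
      _ ≤ B := Nat.mul_le_mul_right _ h2
  calc Qf + N * (Qop * (1 + Q)) + N * (P * (Qop * (1 + (Q + Q))))
      ≤ U + N * (Qop * U) + N * (P * (Qop * (2 * U))) := by
        gcongr <;> omega
    _ = (1 + N * (Qop + 2 * P * Qop)) * U := by ring
    _ ≤ ((N + 1) * B) * U := Nat.mul_le_mul_right _ (by
        have h4 : N * (Qop + 2 * P * Qop) ≤ N * B := Nat.mul_le_mul_left _ (by omega)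
        rw [Nat.add_mul, one_mul]; omega)
    _ ≤ _ := Nat.mul_le_mul_right _ (Nat.mul_le_mul_left _ hL)

lemma growth_state_le (Qop Q Qf N P K It L : ℕ)
    (hL : (8 * (1 + P + K) * (1 + Qop + Qop)) ^ (It + 3) ≤ L) :
    0 + (1 + Qf + N * ((K * (1 + Qop + Qop)) ^ (It + 1) * (1 + Q + (Q + 1))))
      + Qop * (1 + (Qf + N * (Qop * (1 + Q)) + N * (P * (Qop * (1 + (Q + Q))))))
      ≤ (N + 1) * L * (1 + Q + Qf) := by
  set U := 1 + Q + Qf
  set B := 8 * (1 + P + K) * (1 + Qop + Qop) with hB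
  set X := B ^ (It + 1) with hXdef
  have hB8 : 8 ≤ B := le_trans (by omega : 8 ≤ 8 * (1 + P + K) * 1) (Nat.mul_le_mul_left _ (by omega))
  have a1 : Qop ≤ B := le_trans (by omega : Qop ≤ 1 + Qop + Qop) (Nat.le_mul_of_pos_left _ (by omega))
  have a2 : 1 + (Qf + N * (Qop * (1 + Q)) + N * (P * (Qop * (1 + (Q + Q)))))
      ≤ 2 * ((N + 1) * B * U) := by
    have h5 : Qf + N * (Qop * (1 + Q)) + N * (P * (Qop * (1 + (Q + Q)))) ≤ (N + 1) * B * U :=
      growth_pos_le Qop Q Qf N P K B le_rfl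
    have h6 : 1 ≤ (N + 1) * B * U :=
      Nat.mul_pos (Nat.mul_pos (by omega) (by omega)) (by omega)
    omega
  have e1 : N * ((K * (1 + Qop + Qop)) ^ (It + 1) * (1 + Q + (Q + 1))) ≤ N * (X * (2 * U)) :=
    Nat.mul_le_mul_left _ (Nat.mul_le_mul
      (Nat.pow_le_pow_left (Nat.mul_le_mul_right _ (by omega)) _) (by omega))
  have hX8 : 8 ≤ X := hB8.trans (Nat.le_self_pow (by omega) _)
  have e3 : 2 * (B * B) + 2 * X + 1 ≤ X * (B * B) := by
    have h7 : 8 * (B * B) ≤ X * (B * B) := Nat.mul_le_mul_right _ hX8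
    have h8 : X * 8 ≤ X * (B * B) := Nat.mul_le_mul_left _ (hB8.trans (Nat.le_mul_self B))
    have h9 : 1 ≤ B * B := Nat.mul_pos (by omega) (by omega)
    omega
  have h10 : 1 + Qf ≤ (N + 1) * U := le_trans (by omega) (Nat.le_mul_of_pos_left _ (by omega))
  calc _ ≤ (N + 1) * U + N * (X * (2 * U)) + B * (2 * ((N + 1) * B * U)) := by
        have := Nat.mul_le_mul a1 a2
        omega
    _ ≤ (N + 1) * U + (N + 1) * (X * (2 * U)) + B * (2 * ((N + 1) * B * U)) := by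
        gcongr; omega
    _ = (N + 1) * ((2 * (B * B) + 2 * X + 1) * U) := by ring
    _ ≤ (N + 1) * (X * (B * B) * U) := Nat.mul_le_mul_left _ (Nat.mul_le_mul_right _ e3)
    _ = (N + 1) * B ^ (It + 3) * U := by rw [hXdef]; ring
    _ ≤ _ := Nat.mul_le_mul_right _ (Nat.mul_le_mul_left _ hL)

namespace FwdEnv

variable {Pr : RandFam} {P It K : ℕ} {ι : Type*} [Fintype ι] (E : FwdEnv Pr P It K ι)

/-- The factor of query growth of one iteration. -/
def growth : ℕ := (Fintype.card ι + 1) * (8 * (1 + P + K) * (1 + E.Qop + E.Qop)) ^ (It + 3)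

/-- The residual of the position equation at node `p`. -/
noncomputable def posRes (p : ι) (d : ℕ) (V : Euc d → ℝ) (ω : Rand d) : Euc d :=
  E.Base p d V ω + ∑ q, (E.W p q / 2) • E.g q d V (E.X q d V ω)
    + ∑ q, (E.κ * E.W p q) • E.H q d V (E.X q d V ω) (E.Ξ q d V ω) - E.X p d V ω

/-- The residual of the gadget equation at node `p`. -/
noncomputable def stateRes (p : ι) (d : ℕ) (V : Euc d → ℝ) (ω : Rand d) : Euc d :=
  ω.2 1 + (√E.δe)⁻¹ • E.G₀ d V ω
    + ∑ q, ((√E.δe)⁻¹ * E.κ * E.W₁ p q) •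
        E.H q d V (E.X q d V ω) (E.H q d V (E.X q d V ω) (E.Ξ q d V ω))
    - (√E.δe)⁻¹ • E.g p d V (E.X p d V ω) - E.Ξ p d V ω

/-- The score at a position body. -/
lemma scoreValue (p : ι) (T : Body) (QT : ℕ) (S Ey : ℝ)
    (hT : Node Pr 0 T QT 1 (E.c₀ p) S S (E.X p) (E.vy p) Ey) :
    ∃ T', Node Pr 0 T' (E.Qop * (1 + QT)) 0 0 (3 * S + 4) (3 * S + 4)
      (fun d V ω => E.g p d V (E.X p d V ω)) E.δin ((2 + E.ε) * Ey + E.Ein) := by
  have hε := E.eps_nonneg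
  have hε' := E.eps_le
  choose opE hopE using E.eval
  have h := (hT.app hε (hopE p) E.din_nonneg fun d V hV => by
    obtain ⟨hm, hmap⟩ := E.law p d V hV
    have hp := (E.hess p d V hV).2.1
    have hμ := (E.hess p d V hV).1
    refine ⟨hm.fst.aemeasurable, ?_⟩
    rw [show E.X p d V = Prod.fst ∘ fun ω => (E.X p d V ω, ω.2 2, E.Ξ p d V ω) from rfl,
      ← Measure.map_map measurable_fst hm, hmap, Measure.map_fst_prod, measure_univ,
      one_smul]).recentre0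
  have h0 := hT.spread_nonneg.1
  refine ⟨_, h.mono le_rfl ?_ ?_ le_rfl⟩
  · rw [mul_one, abs_of_pos (by norm_num : (0 : ℝ) < 3 / 2), abs_one, mul_one]
    nlinarith
  · have hc := E.abs_c₀ p
    have hc0 := abs_nonneg (E.c₀ p)
    rw [abs_mul, abs_of_pos (by norm_num : (0 : ℝ) < 3 / 2)]
    nlinarith

/-- One iteration. -/
theorem iter {wV wA wL wB wC wD vs ρy ρξ : ℝ}
    (hK : 1 ≤ K) (hsq : ∀ (Pr' : RandFam) (ν : ℝ) (μ₀ : MeasFam) (H : HessFam)
      (lam v₀ δin δout : ℝ) (Qin Qout : ℕ) (ε Ein Eout : ℝ), 0 ≤ ε → ε ≤ 1 → 0 < lam →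
      0 ≤ δin → 0 ≤ δout → 0 ≤ Ein → 0 ≤ Eout →
      (∀ d V, Nice d V → IsProbabilityMeasure (μ₀ d V) ∧ IsProbabilityMeasure (Pr' d V) ∧
        Continuous (H d V) ∧ (∀ y a b, inner ℝ (H d V y a) b = inner ℝ a (H d V y b)) ∧
        ∀ y, ‖H d V y‖ ≤ 2) →
      Extractor P μ₀ H lam v₀ δin Qin ε Ein → Extractor P μ₀ H lam v₀ δout Qout ε Eout →
      ∀ (T : Body) (QT : ℕ) (c c₀ S S₀ : ℝ) (X : VarFam) (vy Ey : ℝ),
        Node Pr' ν T QT c c₀ S S₀ X vy Ey → 0 ≤ vy → 0 ≤ Ey →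
      ∀ (Z Z' : Body) (QZ : ℕ) (Sz Sz₀ : ℝ) (ξ ξ' : VarFam) (vz Ez : ℝ),
        Node Pr' ν Z QZ 0 0 Sz Sz₀ ξ vz Ez → Node Pr' ν Z' QZ 0 0 Sz Sz₀ ξ' vz Ez →
        0 ≤ vz → 0 ≤ Ez →
      (∀ d V, Nice d V → Measurable (fun ω => (X d V ω, ξ' d V ω, ξ d V ω)) ∧
        (Pr' d V).map (fun ω => (X d V ω, ξ' d V ω, ξ d V ω))
          = (μ₀ d V).prod ((gauss d).prod (gauss d))) →
      ∀ κr v' : ℝ, 0 < κr → (K : ℝ) * κr ≤ 1 / 2 →
        vy + lam ^ 2 * ((K : ℝ) * (vz + κr ^ 2 * (δin / lam ^ 2))) ≤ v₀ →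
        ((K : ℝ) / (κr * lam)) ^ 2 * δout ≤ v' →
        ∃ (T' : Body) (Q' : ℕ), Q' ≤ (K * (1 + Qin + Qout)) ^ (It + 1) * (1 + QT + QZ) ∧
          Node Pr' ν T' Q' 0 0 ((K : ℝ) / (κr * lam) * (|c| + S + lam * Sz))
            ((K : ℝ) / (κr * lam) * (|c₀| + S₀ + lam * Sz₀))
            (fun d V ω => H d V (X d V ω) (H d V (X d V ω) (ξ d V ω))) v'
            ((K : ℝ) / (κr * lam) *
              (Ey + lam * Ez + κr * Ein + Eout + lam * (κr ^ P + ((K : ℝ) * κr) ^ It))))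
    (hwV : ∀ p, ∑ q, |E.W p q / 2| ≤ wV)
    (hwA : ∀ p, ∑ q, |E.κ * E.W p q| * (diffSize P / E.lam q) ≤ wA)
    (hwL : ∀ p, ∑ q, |E.κ * E.W p q| * diffSize P ≤ wL)
    (hwB : ∀ p, ∑ q, |(√E.δe)⁻¹ * E.κ * E.W₁ p q| * (K / (E.κr q * E.lam q)) ≤ wB)
    (hwC : ∀ p, ∑ q, |(√E.δe)⁻¹ * E.κ * E.W₁ p q| * (K / E.κr q) ≤ wC)
    (hwD : ∀ p, ∑ q, |(√E.δe)⁻¹ * E.κ * E.W₁ p q| * (K / E.lam q) ≤ wD)
    {tiny : ℝ} (htiny : ∀ q, E.κr q ^ P + ((K : ℝ) * E.κr q) ^ It ≤ tiny)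
    (hvar : ∀ p, E.vb p + (∑ q, (E.W p q / 2) ^ 2) * E.δin
      + ∑ q, (E.κ * E.W p q) ^ 2 * ((diffSize P / E.lam q) ^ 2 * E.δin) ≤ E.vy p)
    (hvs : ∀ p, ∑ q, ((√E.δe)⁻¹ * E.κ * E.W₁ p q) ^ 2 *
      ((K / (E.κr q * E.lam q)) ^ 2 * E.δout) ≤ vs)
    (hvx : E.δc / E.δe + vs + E.δin / E.δe ≤ 1)
    (hρy : ∀ p d V, Nice d V → Integrable (fun ω => ‖E.posRes p d V ω‖) (Pr d V) ∧
      ∫ ω, ‖E.posRes p d V ω‖ ∂(Pr d V) ≤ ρy * dimFac d)
    (hρξ : ∀ p d V, Nice d V → Integrable (fun ω => ‖E.stateRes p d V ω‖) (Pr d V) ∧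
      ∫ ω, ‖E.stateRes p d V ω‖ ∂(Pr d V) ≤ ρξ * dimFac d)
    {Q : ℕ} {sy sξ ey eξ : ℝ} (hey : 0 ≤ ey) (heξ : 0 ≤ eξ) (hsξ : 0 ≤ sξ)
    {sy' sξ' ey' eξ' : ℝ} (hey'0 : 0 ≤ ey')
    (hsy' : E.sb + wV * (3 * sy + 4) + 3 * wA * (1 + sy) + 3 * wL * sξ ≤ sy')
    (hey' : E.eb + wV * (3 * ey + E.Ein) + wA * (3 * ey + 2 * E.Ein) + 3 * wL * eξ + ρy ≤ ey')
    (hsξ' : E.sG / √E.δe + wB * (1 + sy) + wC * sξ + (3 * sy' + 4) / √E.δe ≤ sξ')
    (heξ' : E.eG / √E.δe + wB * (ey + E.Eout) + wC * (eξ + tiny) + wD * E.Ein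
      + (3 * ey' + E.Ein) / √E.δe + ρξ ≤ eξ')
    (hst : FwdState Pr E.c₀ E.vy E.X E.Ξ Q sy sξ ey eξ) :
    FwdState Pr E.c₀ E.vy E.X E.Ξ (E.growth * (1 + Q + E.Qfix)) sy' sξ' ey' eξ' := by
  have hε := E.eps_nonneg
  have hε' := E.eps_le
  have hD := one_le_diffSize P
  choose Tp hTp using fun p => (hst p).1
  choose Zp hZp using fun p => (hst p).2
  choose opE hopE using E.eval
  have hroom : ∀ p, E.vy p + E.lam p ^ 2 * 1 ≤ E.v₀ p := fun p => by
    refine le_trans ?_ (E.room p)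
    gcongr
    have h1 : (1 : ℝ) ≤ K := by exact_mod_cast hK
    have h2 : 0 ≤ E.κr p ^ 2 * (E.δin / E.lam p ^ 2) := by
      have := E.din_nonneg; positivity
    nlinarith
  have hlaw2 : ∀ (q : ι) d V, Nice d V →
      AEMeasurable (fun ω => (E.X q d V ω, E.Ξ q d V ω)) (Pr d V) ∧
      (Pr d V).map (fun ω => (E.X q d V ω, E.Ξ q d V ω)) = (E.μ q d V).prod (gauss d) := by
    intro q d V hV
    obtain ⟨hm, hmap⟩ := E.law q d V hV
    have hμ := (E.hess q d V hV).1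
    refine ⟨(hm.fst.prodMk hm.snd.snd).aemeasurable, ?_⟩
    rw [show (fun ω => (E.X q d V ω, E.Ξ q d V ω)) = (Prod.map id Prod.snd)
        ∘ fun ω => (E.X q d V ω, ω.2 2, E.Ξ q d V ω) from rfl,
      ← Measure.map_map (by fun_prop) hm, hmap, ← Measure.map_prod_map _ _ measurable_id
        measurable_snd, Measure.map_id, Measure.map_snd_prod, measure_univ, one_smul]
  -- the first extraction
  have hA : ∀ q, ∃ T', Node Pr 0 T' (P * (E.Qop * (1 + (Q + Q)))) 0 0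
      (diffSize P / E.lam q * (3 * (1 + sy + E.lam q * sξ)))
      (diffSize P / E.lam q * (3 * (1 + sy + E.lam q * sξ)))
      (fun d V ω => E.H q d V (E.X q d V ω) (E.Ξ q d V ω))
      ((diffSize P / E.lam q) ^ 2 * E.δin)
      (diffSize P / E.lam q * (3 * (ey + E.lam q * eξ) + 2 * E.Ein)) := by
    intro q
    have hl := E.lam_pos q
    obtain ⟨T', hT'⟩ := Node.hess E.two_le hε hl E.din_nonneg (E.extIn q) (hTp q) (hZp q) hey
      zero_le_one (hroom q) (hlaw2 q) le_rfl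
    have hsy0 := (hTp q).spread_nonneg.1
    have hDl : 0 ≤ diffSize P / E.lam q := by positivity
    refine ⟨T', hT'.mono le_rfl ?_ ?_ ?_⟩
    · rw [abs_one, mul_assoc]
      exact mul_le_mul_of_nonneg_left (mul_le_mul_of_nonneg_right (by linarith)
        (by positivity)) hDl
    · rw [mul_assoc]
      refine mul_le_mul_of_nonneg_left ?_ hDl
      have hc := E.abs_c₀ q
      have hc0 := abs_nonneg (E.c₀ q)
      nlinarith [mul_nonneg hl.le hsξ]
    · refine mul_le_mul_of_nonneg_left ?_ hDl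
      rw [abs_of_nonneg heξ, abs_of_nonneg E.ein_nonneg]
      nlinarith [mul_nonneg hl.le heξ]
  -- the squared Hessian
  have hB : ∀ q, ∃ T', ∃ Q', Q' ≤ (K * (1 + E.Qop + E.Qop)) ^ (It + 1) * (1 + Q + (Q + 1)) ∧
      Node Pr 0 T' Q' 0 0
      (K / (E.κr q * E.lam q) * (1 + sy + E.lam q * sξ))
      (K / (E.κr q * E.lam q) * (1 + sy + E.lam q * sξ))
      (fun d V ω => E.H q d V (E.X q d V ω) (E.H q d V (E.X q d V ω) (E.Ξ q d V ω)))
      ((K / (E.κr q * E.lam q)) ^ 2 * E.δout)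
      (K / (E.κr q * E.lam q) * (ey + E.lam q * eξ + E.κr q * E.Ein + E.Eout
        + E.lam q * tiny)) := by
    intro q
    have hl := E.lam_pos q
    have hk := E.kr_pos q
    obtain ⟨Z', hZ'⟩ := (Node.slot (P := Pr) (ν := 0) 2 (by decide)).pad zero_le_one
    obtain ⟨T', Q', hQ', hT'⟩ := hsq Pr 0 (E.μ q) (E.H q) (E.lam q) (E.v₀ q) E.δin E.δout
      E.Qop E.Qop E.ε E.Ein E.Eout hε (by linarith) hl E.din_nonneg E.dout_nonneg E.ein_nonneg
      E.eout_nonneg (E.hess q) (E.extIn q) (E.extOut q) (Tp q) Q 1 (E.c₀ q) sy sy (E.X q) (E.vy q)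
      ey (hTp q) (E.vy_nonneg q) hey (Zp q) Z' (Q + 1) sξ sξ (E.Ξ q) (fun _ _ ω => ω.2 2) 1 eξ
      ((hZp q).mono (Nat.le_succ Q) le_rfl le_rfl le_rfl)
      (hZ'.mono (Nat.le_add_left 1 Q) hsξ hsξ heξ) zero_le_one heξ (E.law q) (E.κr q) _ hk
      (E.small q) (E.room q) le_rfl
    have hKl : 0 ≤ (K : ℝ) / (E.κr q * E.lam q) := by positivity
    refine ⟨T', Q', hQ', hT'.mono le_rfl ?_ ?_ ?_⟩
    · rw [abs_one]
    · refine mul_le_mul_of_nonneg_left ?_ hKl
      have := E.abs_c₀ q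
      linarith
    · refine mul_le_mul_of_nonneg_left ?_ hKl
      have := mul_le_mul_of_nonneg_left (htiny q) hl.le
      linarith
  choose TA hTA using hA
  choose TB QB hQB hTB using hB
  obtain ⟨sTV, hsTV⟩ : ∃ TV : ι → Body, ∀ q, Node Pr 0 (TV q) (E.Qop * (1 + Q)) 0 0 (3 * sy + 4)
      (3 * sy + 4) (fun d V ω => E.g q d V (E.X q d V ω)) E.δin ((2 + E.ε) * ey + E.Ein) :=
    Classical.axiom_of_choice fun q => E.scoreValue q (Tp q) Q sy ey (hTp q)
  obtain ⟨G0, hG0⟩ := E.start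
  set s := √E.δe with hs
  have hs0 : 0 < s := Real.sqrt_pos.2 E.de_pos
  set N := Fintype.card ι
  set L := (8 * (1 + P + K) * (1 + E.Qop + E.Qop)) ^ (It + 3) with hLdef
  have hL : ∀ j, j ≤ It + 3 → (8 * (1 + P + K) * (1 + E.Qop + E.Qop)) ^ j ≤ L := fun j hj =>
    Nat.pow_le_pow_right (Nat.mul_pos (by omega) (by omega)) hj
  -- new positions
  have hPos : ∀ p, ∃ T', Node Pr 0 T'
      (E.Qfix + N * (E.Qop * (1 + Q)) + N * (P * (E.Qop * (1 + (Q + Q))))) 1 (E.c₀ p) sy' sy'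
      (E.X p) (E.vy p) ey' := by
    intro p
    obtain ⟨B0, hB0⟩ := E.base p
    have hsy0 := (hTp p).spread_nonneg.1
    have hw0 : 0 ≤ wV := (Finset.sum_nonneg fun q _ => abs_nonneg _).trans (hwV p)
    have hsum1 : ∀ x y : ℝ, 0 ≤ x → 0 ≤ y →
        ∑ q, |E.κ * E.W p q| * (diffSize P / E.lam q * (3 * (x + E.lam q * y)))
          ≤ 3 * wA * x + 3 * wL * y := fun x y hx hy => by
      calc ∑ q, |E.κ * E.W p q| * (diffSize P / E.lam q * (3 * (x + E.lam q * y)))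
          = (∑ q, |E.κ * E.W p q| * (diffSize P / E.lam q)) * (3 * x)
            + (∑ q, |E.κ * E.W p q| * diffSize P) * (3 * y) := by
            rw [Finset.sum_mul, Finset.sum_mul, ← Finset.sum_add_distrib]
            refine Finset.sum_congr rfl fun q _ => ?_
            have := (E.lam_pos q).ne'
            field_simp
        _ ≤ wA * (3 * x) + wL * (3 * y) := by gcongr <;> [exact hwA p; exact hwL p]
        _ = _ := by ring
    obtain ⟨SV, hSV⟩ := Node.wsum (fun q => E.W p q / 2) hsTV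
      (S := wV * (3 * sy + 4)) (S₀ := wV * (3 * sy + 4)) (v := (∑ q, (E.W p q / 2) ^ 2) * E.δin)
      (E := wV * (3 * ey + E.Ein))
      (by rw [← Finset.sum_mul]; exact mul_le_mul_of_nonneg_right (hwV p) (by positivity))
      (by rw [← Finset.sum_mul]; exact mul_le_mul_of_nonneg_right (hwV p) (by positivity))
      (le_of_eq (Finset.sum_mul ..).symm)
      (by
        rw [← Finset.sum_mul]
        have := E.ein_nonneg
        refine (mul_le_mul_of_nonneg_left ?_ (Finset.sum_nonneg fun q _ => abs_nonneg _)).trans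
          (mul_le_mul_of_nonneg_right (hwV p) (by positivity))
        nlinarith)
    obtain ⟨SA, hSA⟩ := Node.wsum (fun q => E.κ * E.W p q) hTA
      (S := 3 * wA * (1 + sy) + 3 * wL * sξ) (S₀ := 3 * wA * (1 + sy) + 3 * wL * sξ)
      (v := ∑ q, (E.κ * E.W p q) ^ 2 * ((diffSize P / E.lam q) ^ 2 * E.δin))
      (E := wA * (3 * ey + 2 * E.Ein) + 3 * wL * eξ)
      (hsum1 (1 + sy) sξ (by linarith) hsξ) (hsum1 (1 + sy) sξ (by linarith) hsξ) le_rfl
      (by
        calc ∑ q, |E.κ * E.W p q| * (diffSize P / E.lam q * (3 * (ey + E.lam q * eξ) + 2 * E.Ein))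
            = (∑ q, |E.κ * E.W p q| * (diffSize P / E.lam q)) * (3 * ey + 2 * E.Ein)
              + (∑ q, |E.κ * E.W p q| * diffSize P) * (3 * eξ) := by
              rw [Finset.sum_mul, Finset.sum_mul, ← Finset.sum_add_distrib]
              refine Finset.sum_congr rfl fun q _ => ?_
              have := (E.lam_pos q).ne'
              field_simp
              ring
          _ ≤ wA * (3 * ey + 2 * E.Ein) + wL * (3 * eξ) := by
              have := E.ein_nonneg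
              gcongr <;> [exact hwA p; exact hwL p]
          _ = _ := by ring)
    obtain ⟨SVA, hSVA⟩ := Node.comb3 (Node.noise le_rfl) hSV hSA 0 1 1
      (X := fun d V ω => ∑ q, (E.W p q / 2) • E.g q d V (E.X q d V ω)
        + ∑ q, (E.κ * E.W p q) • E.H q d V (E.X q d V ω) (E.Ξ q d V ω))
      (fun d V _ ω => by simp) (c := 0) (c₀ := 0)
      (v := (∑ q, (E.W p q / 2) ^ 2) * E.δin
        + ∑ q, (E.κ * E.W p q) ^ 2 * ((diffSize P / E.lam q) ^ 2 * E.δin))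
      (by ring) (by ring) (by simp) (le_of_eq (by ring))
    obtain ⟨T', hT'⟩ := Node.comb3 hB0 (Node.noise le_rfl) hSVA 1 0 1
      (X := fun d V ω => E.Base p d V ω + ∑ q, (E.W p q / 2) • E.g q d V (E.X q d V ω)
        + ∑ q, (E.κ * E.W p q) • E.H q d V (E.X q d V ω) (E.Ξ q d V ω))
      (fun d V _ ω => by simp only [one_smul, smul_zero, add_zero]; abel) (c := 1) (c₀ := E.c₀ p)
      (v := E.vy p) (by ring) (by ring) (by simp) (by linarith [hvar p])
    have h5 := hT'.shift (X' := E.X p) (E' := ρy) fun d V hV => hρy p d V hV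
    refine ⟨T', h5.mono ?_ ?_ ?_ ?_⟩
    · simp only [N]; omega
    · simp only [abs_one, abs_zero, one_mul, zero_mul, add_zero, zero_add]
      linarith
    · simp only [abs_one, abs_zero, one_mul, zero_mul, add_zero, zero_add]
      linarith
    · simp only [abs_one, abs_zero, one_mul, zero_mul, add_zero, zero_add]
      linarith
  intro p
  obtain ⟨TP, hTP⟩ := hPos p
  refine ⟨⟨TP, hTP.mono ?_ le_rfl le_rfl le_rfl⟩, ?_⟩
  · exact growth_pos_le E.Qop Q E.Qfix N P K L (by simpa using hL 1 (by omega))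
  -- the new state
  have hey0 : 0 ≤ sy := (hTp p).spread_nonneg.1
  have hsy'0 := hTP.spread_nonneg.1
  obtain ⟨Vp, hVp⟩ := E.scoreValue p TP _ sy' ey' hTP
  set σ := fun q => s⁻¹ * E.κ * E.W₁ p q with hσ
  obtain ⟨SB, hSB⟩ := Node.wsum σ (Q := (K * (1 + E.Qop + E.Qop)) ^ (It + 1) * (1 + Q + (Q + 1)))
    (fun q => (hTB q).mono (hQB q) le_rfl le_rfl le_rfl)
    (S := wB * (1 + sy) + wC * sξ) (S₀ := wB * (1 + sy) + wC * sξ)
    (v := ∑ q, σ q ^ 2 * ((K / (E.κr q * E.lam q)) ^ 2 * E.δout))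
    (E := wB * (ey + E.Eout) + wC * (eξ + tiny) + wD * E.Ein)
    (by
      calc ∑ q, |σ q| * (K / (E.κr q * E.lam q) * (1 + sy + E.lam q * sξ))
          = (∑ q, |σ q| * (K / (E.κr q * E.lam q))) * (1 + sy)
            + (∑ q, |σ q| * (K / E.κr q)) * sξ := by
            rw [Finset.sum_mul, Finset.sum_mul, ← Finset.sum_add_distrib]
            refine Finset.sum_congr rfl fun q _ => ?_
            have := (E.lam_pos q).ne'
            have := (E.kr_pos q).ne'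
            field_simp
        _ ≤ _ := by gcongr <;> [exact hwB p; exact hwC p])
    (by
      calc ∑ q, |σ q| * (K / (E.κr q * E.lam q) * (1 + sy + E.lam q * sξ))
          = (∑ q, |σ q| * (K / (E.κr q * E.lam q))) * (1 + sy)
            + (∑ q, |σ q| * (K / E.κr q)) * sξ := by
            rw [Finset.sum_mul, Finset.sum_mul, ← Finset.sum_add_distrib]
            refine Finset.sum_congr rfl fun q _ => ?_
            have := (E.lam_pos q).ne'
            have := (E.kr_pos q).ne'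
            field_simp
        _ ≤ _ := by gcongr <;> [exact hwB p; exact hwC p])
    le_rfl
    (by
      have ht0 : 0 ≤ tiny := (by
        have := E.kr_pos p; positivity : (0:ℝ) ≤ E.κr p ^ P + ((K : ℝ) * E.κr p) ^ It).trans
          (htiny p)
      calc ∑ q, |σ q| * (K / (E.κr q * E.lam q) * (ey + E.lam q * eξ + E.κr q * E.Ein + E.Eout
              + E.lam q * tiny))
          = (∑ q, |σ q| * (K / (E.κr q * E.lam q))) * (ey + E.Eout)
            + (∑ q, |σ q| * (K / E.κr q)) * (eξ + tiny)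
            + (∑ q, |σ q| * (K / E.lam q)) * E.Ein := by
            rw [Finset.sum_mul, Finset.sum_mul, Finset.sum_mul, ← Finset.sum_add_distrib,
              ← Finset.sum_add_distrib]
            refine Finset.sum_congr rfl fun q _ => ?_
            have := (E.lam_pos q).ne'
            have := (E.kr_pos q).ne'
            field_simp
            ring
        _ ≤ _ := by
            have := E.eout_nonneg
            have := E.ein_nonneg
            gcongr <;> [exact hwB p; exact hwC p; exact hwD p])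
  obtain ⟨Y1, hY1⟩ := Node.comb3 (Node.slot (P := Pr) (ν := 0) 1 (by decide)) hG0 hSB 1 s⁻¹ 1
    (X := fun d V ω => ω.2 1 + s⁻¹ • E.G₀ d V ω
      + ∑ q, σ q • E.H q d V (E.X q d V ω) (E.H q d V (E.X q d V ω) (E.Ξ q d V ω)))
    (fun d V _ ω => by simp) (c := 0) (c₀ := 0) (v := E.δc / E.δe + vs) (by ring) (by ring)
    (by simp) (by
      rw [inv_pow, Real.sq_sqrt E.de_pos.le]
      have h := hvs p
      simp only [one_pow, one_mul, mul_zero, zero_add, inv_mul_eq_div]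
      linarith)
  obtain ⟨Z', hZ'⟩ := Node.comb3 (Node.noise le_rfl) hY1 hVp 0 1 (-s⁻¹)
    (X := fun d V ω => (ω.2 1 + s⁻¹ • E.G₀ d V ω
      + ∑ q, σ q • E.H q d V (E.X q d V ω) (E.H q d V (E.X q d V ω) (E.Ξ q d V ω)))
      - s⁻¹ • E.g p d V (E.X p d V ω))
    (fun d V _ ω => by simp [sub_eq_add_neg]) (c := 0) (c₀ := 0) (v := 1) (by ring) (by ring)
    (by simp) (by
      rw [neg_sq, inv_pow, Real.sq_sqrt E.de_pos.le, inv_mul_eq_div]
      linarith)
  have h5 := hZ'.shift (X' := E.Ξ p) (E' := ρξ) fun d V hV => hρξ p d V hV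
  refine ⟨Z', h5.mono ?_ ?_ ?_ ?_⟩
  · exact growth_state_le E.Qop Q E.Qfix N P K It L le_rfl
  · simp only [abs_neg, abs_inv, abs_of_pos hs0, abs_one, abs_zero, one_mul, mul_zero,
      zero_add, inv_mul_eq_div]
    linarith
  · simp only [abs_neg, abs_inv, abs_of_pos hs0, abs_one, abs_zero, one_mul, mul_zero,
      zero_add, inv_mul_eq_div]
    linarith
  · simp only [abs_neg, abs_inv, abs_of_pos hs0, abs_one, abs_zero, one_mul, mul_zero,
      zero_add, inv_mul_eq_div]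
    have h1 : ((2 + E.ε) * ey' + E.Ein) / s ≤ (3 * ey' + E.Ein) / s := by
      gcongr
      linarith
    linarith

end FwdEnv

end Vale.Agent.P347
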