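import Vale.Agent.P347.SpecsOracle
import Vale.Agent.P347.GadgetLaws
import Vale.Agent.P347.LevelPot

/-!
Closing the gadget of the oracle step.
-/

namespace Vale.Agent.P347

open MeasureTheory ProbabilityTheory
open scoped Gradient RealInnerProductSpace

variable {d : ℕ}

lemma pi_three_map_pair (μ₀ μ₁ μ₂ : Measure (Euc d)) [IsProbabilityMeasure μ₀]
    [IsProbabilityMeasure μ₁] [IsProbabilityMeasure μ₂] :
    (Measure.pi ![μ₀, μ₁, μ₂]).map (fun s => (s 0, s 1)) = μ₀.prod μ₁ := by
  have : ∀ i, IsProbabilityMeasure (![μ₀, μ₁, μ₂] i) := fun i => by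
    fin_cases i <;> simp <;> infer_instance
  refine (Measure.prod_eq fun A B hA hB => ?_).symm
  rw [Measure.map_apply (by fun_prop) (hA.prod hB)]
  have hpre : (fun s : Fin 3 → Euc d => (s 0, s 1)) ⁻¹' (A ×ˢ B)
      = Set.univ.pi ![A, B, Set.univ] := by
    ext s
    simp [Fin.forall_fin_succ]
  rw [hpre, Measure.pi_pi, Fin.prod_univ_three]
  simp

/-- Gaussian averages of a Lipschitz function are Lipschitz in the centre. -/
lemma lipschitz_gN_average {f : Euc d → ℝ} (hf : LipschitzWith 1 f) (v : ℝ) :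
    LipschitzWith 1 fun z => ∫ w, f w ∂(gN z v) :=
  LipschitzWith.of_dist_le_mul fun a b => by
    rw [Real.dist_eq, dist_eq_norm, NNReal.coe_one, one_mul]
    exact dualClose_gN_shift a b v f hf

lemma abs_le_of_lipschitzWith {f : Euc d → ℝ} (hf : LipschitzWith 1 f) (z : Euc d) :
    |f z| ≤ |f 0| + ‖z‖ := by
  simpa using abs_le_of_lipschitz (lipschitz_abs_sub hf) z

/-- Averaging a Gaussian average over an independent Gaussian of the same size. -/
lemma integral_gN_combine {f : Euc d → ℝ} (hf : LipschitzWith 1 f) {δ : ℝ} (hδ : 0 ≤ δ)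
    (m : Euc d) :
    ∫ ξ, ∫ w, f w ∂(gN (√(δ / 2) • ξ + m) (δ / 2)) ∂(gauss d) = ∫ w, f w ∂(gN m δ) := by
  set a := √(δ / 2) with ha
  have hfc := hf.continuous
  have hi : Integrable (fun p : Euc d × Euc d => f (m + (a • p.1 + a • p.2)))
      ((gauss d).prod (gauss d)) := by
    refine gauss_prod_integrable_of_growth (by fun_prop) (C := |f 0| + ‖m‖ + |a|) (n := 1)
      fun p => ?_
    rw [Real.norm_eq_abs, pow_one, pow_one]
    refine (abs_le_of_lipschitzWith hf _).trans ?_
    have h1 := norm_add_le m (a • p.1 + a • p.2)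
    have h2 := norm_add_le (a • p.1) (a • p.2)
    rw [norm_smul, norm_smul, Real.norm_eq_abs] at h2
    nlinarith [norm_nonneg m, abs_nonneg (f 0), abs_nonneg a, norm_nonneg p.1, norm_nonneg p.2,
      mul_nonneg (add_nonneg (abs_nonneg (f 0)) (norm_nonneg m))
        (add_nonneg (norm_nonneg p.1) (norm_nonneg p.2))]
  have e : ∀ ξ, ∫ w, f w ∂(gN (a • ξ + m) (δ / 2))
      = ∫ η, f (m + (a • ξ + a • η)) ∂(gauss d) := fun ξ => by
    rw [integral_gN _ _ hfc, ← ha]
    simp only [add_comm (a • ξ) m, add_assoc]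
  simp only [e]
  rw [← integral_prod (fun p : Euc d × Euc d => f (m + (a • p.1 + a • p.2))) hi,
    integral_gauss_combine a a (f := fun y => f (m + y)) (by fun_prop), integral_gN _ _ hfc]
  rw [ha, Real.sq_sqrt (by linarith : (0 : ℝ) ≤ δ / 2), add_halves]

/-- The posterior spread around the top point. -/
lemma post_spread {V : Euc d → ℝ} (hV : NicePot d V 1 2) {τ s : ℝ} (hs : 0 ≤ s) (hsτ : s < τ) :
    Integrable (fun x => ∫ y, ‖y - x‖ ∂(postKernel V τ s x)) (levelLaw V τ) ∧
      ∫ x, ∫ y, ‖y - x‖ ∂(postKernel V τ s x) ∂(levelLaw V τ) ≤ √(τ - s) * ((d : ℝ) + 1) := by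
  have hW := hV.weight.smoothPot hs
  have hd : 0 < τ - s := sub_pos.2 hsτ
  have := hW.isProbabilityMeasure
  set r := √(τ - s)
  have hr : 0 ≤ r := Real.sqrt_nonneg _
  have hn := (gauss_integrable_norm (d := d)).comp_snd (gibbs (smoothPot V s))
  have hi : Integrable (fun p : Euc d × Euc d => ‖p.1 - (p.1 + r • p.2)‖)
      ((gibbs (smoothPot V s)).prod (gauss d)) := by
    refine (hn.const_mul r).congr (.of_forall fun p => ?_)
    simp [norm_smul, abs_of_nonneg hr]
  obtain ⟨h1, h2⟩ := integral_post_step hW hd (G := fun q => ‖q.2 - q.1‖) (by fun_prop) hi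
  simp only [levelLaw, ← smoothPot_step hV hs hsτ.le, postKernel_eq]
  refine ⟨h1, h2.le.trans ?_⟩
  calc ∫ p : Euc d × Euc d, ‖p.1 - (p.1 + r • p.2)‖ ∂((gibbs (smoothPot V s)).prod (gauss d))
      = r * ∫ η, ‖η‖ ∂(gauss d) := by
        simp only [sub_add_cancel_left, norm_neg, norm_smul, Real.norm_eq_abs, abs_of_nonneg hr]
        rw [integral_const_mul, integral_fun_snd (μ := gibbs (smoothPot V s)) (ν := gauss d) (‖·‖)]
        simp
    _ ≤ _ := mul_le_mul_of_nonneg_left (gauss_norm_le d) hr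

/-- The averaged gadget value against the Gaussian law around the score at the top. -/
lemma gadget_target_le {V : Euc d → ℝ} (hV : NicePot d V 1 2) {τ s₁ δ : ℝ} (h0 : 0 < s₁)
    (h1 : s₁ ≤ τ) (hδ : 0 ≤ δ) {m : Euc d → Euc d} (hm : ∀ a b, ‖m a - m b‖ ≤ 2 * ‖a - b‖)
    {x g : Euc d} (hg : ∫ y, m y ∂(postKernel V τ (τ - s₁) x) = g)
    {Ψ : Euc d × Euc d × Euc d → Euc d × Euc d} (hΨ : Measurable Ψ)
    (hlaw : ((postKernel V τ (τ - s₁) x).prod (gauss d)).map (fun q => Ψ (x, q.1, q.2))
      = (postKernel V τ (τ - s₁) x).prod (gauss d))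
    {f : Euc d → ℝ} (hf : LipschitzWith 1 f) :
    |∫ s, ∫ w, f w ∂(gN (√(δ / 2) • (Ψ (backPt s₁ (x, s))).2 + m (Ψ (backPt s₁ (x, s))).1) (δ / 2))
          ∂(Measure.pi ![topKernel V τ s₁ x, gauss d, gauss d])
        - ∫ w, f w ∂(gN g δ)| ≤ 4 * ∫ y, ‖y - x‖ ∂(postKernel V τ (τ - s₁) x) := by
  have := isProbabilityMeasure_postKernel hV (sub_nonneg.2 h1) (sub_lt_self τ h0) x
  have := isProbabilityMeasure_topKernel hV h0 h1 x
  set K := postKernel V τ (τ - s₁) x with hK
  have hKn : Integrable (fun y => ‖y‖) K := by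
    rw [hK, postKernel_eq]
    exact ((hV.weight.smoothPot (sub_nonneg.2 h1)).postPot
      (sub_pos.2 (sub_lt_self τ h0)) x).integrable_norm
  have hKy : Integrable (fun y => ‖y - x‖) K :=
    (hKn.add (integrable_const ‖x‖)).mono' (by fun_prop)
      (.of_forall fun y => by rw [norm_norm]; exact norm_sub_le y x)
  set a := √(δ / 2) with ha
  have ha0 : 0 ≤ a := Real.sqrt_nonneg _
  set G : Euc d → ℝ := fun z => ∫ w, f w ∂(gN z (δ / 2)) with hG
  have hGl : LipschitzWith 1 G := lipschitz_gN_average hf _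
  have hmc : Continuous m := (LipschitzWith.of_dist_le_mul (K := 2) fun p q => by
    simpa [dist_eq_norm] using hm p q).continuous
  set H : Euc d × Euc d → ℝ := fun q => G (a • q.2 + m q.1) with hH
  have hHc : Continuous H := by have := hGl.continuous; fun_prop
  have hmy : ∀ y, ‖m y‖ ≤ ‖m x‖ + 2 * ‖y - x‖ := fun y => by
    linarith [hm y x, norm_le_norm_add_norm_sub' (m y) (m x)]
  have hHi : Integrable H (K.prod (gauss d)) := by
    refine ((((integrable_const (|G 0| + ‖m x‖)).add (hKy.const_mul 2)).comp_fst (gauss d)).add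
      (((gauss_integrable_norm (d := d)).comp_snd K).const_mul a)).mono' hHc.aestronglyMeasurable
      (.of_forall fun q => ?_)
    simp only [Pi.add_apply, Real.norm_eq_abs, hH]
    refine (abs_le_of_lipschitzWith hGl _).trans ?_
    have := norm_add_le (a • q.2) (m q.1)
    rw [norm_smul, Real.norm_eq_abs, abs_of_nonneg ha0] at this
    linarith [hmy q.1]
  -- push the slots through the path
  have e1 : ∫ s, G (a • (Ψ (backPt s₁ (x, s))).2 + m (Ψ (backPt s₁ (x, s))).1)
      ∂(Measure.pi ![topKernel V τ s₁ x, gauss d, gauss d]) = ∫ q, H q ∂(K.prod (gauss d)) := by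
    set T : Euc d × Euc d → ℝ :=
      fun p => H (Ψ (x, x + √s₁ • p.1, p.2)) with hT
    have hTm : Measurable T := hHc.measurable.comp (hΨ.comp (by fun_prop))
    calc ∫ s, G (a • (Ψ (backPt s₁ (x, s))).2 + m (Ψ (backPt s₁ (x, s))).1)
          ∂(Measure.pi ![topKernel V τ s₁ x, gauss d, gauss d])
        = ∫ p, T p ∂((topKernel V τ s₁ x).prod (gauss d)) := by
          rw [← pi_three_map_pair (topKernel V τ s₁ x) (gauss d) (gauss d),
            integral_map (by fun_prop) hTm.aestronglyMeasurable]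
          rfl
      _ = ∫ q, H (Ψ (x, q.1, q.2)) ∂(K.prod (gauss d)) := by
          have e : (topKernel V τ s₁ x).prod (gauss d)
              = (K.prod (gauss d)).map (Prod.map (fun y => (√s₁)⁻¹ • (y - x)) id) := by
            rw [← Measure.map_prod_map _ _ (by fun_prop) measurable_id, Measure.map_id]
            rfl
          rw [e, integral_map (by fun_prop) hTm.aestronglyMeasurable]
          refine integral_congr_ae (.of_forall fun q => ?_)
          simp [hT, smul_inv_smul₀ (Real.sqrt_pos.2 h0).ne']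
      _ = _ := by
          conv_rhs => rw [← hlaw]
          exact (integral_map (hΨ.comp (by fun_prop)).aemeasurable hHc.aestronglyMeasurable).symm
  have e2 : ∫ q, H q ∂(K.prod (gauss d)) = ∫ y, ∫ w, f w ∂(gN (m y) δ) ∂K := by
    rw [integral_prod _ hHi]
    exact integral_congr_ae (.of_forall fun y => integral_gN_combine hf hδ (m y))
  rw [e1, e2]
  have hLl : LipschitzWith 1 fun z => ∫ w, f w ∂(gN z δ) := lipschitz_gN_average hf δ
  set L : Euc d → ℝ := fun z => ∫ w, f w ∂(gN z δ) with hL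
  have hLi : Integrable (fun y => L (m y)) K := by
    refine ((integrable_const (|L 0| + ‖m x‖)).add (hKy.const_mul 2)).mono'
      (hLl.continuous.comp hmc).aestronglyMeasurable (.of_forall fun y => ?_)
    simp only [Pi.add_apply, Real.norm_eq_abs]
    linarith [abs_le_of_lipschitzWith hLl (m y), hmy y]
  have hmg : ‖m x - g‖ ≤ 2 * ∫ y, ‖y - x‖ ∂K := by
    have hmi : Integrable m K :=
      ((integrable_const ‖m x‖).add (hKy.const_mul 2)).mono' hmc.aestronglyMeasurable
        (.of_forall hmy)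
    rw [← hg, norm_sub_rev, show (∫ y, m y ∂K) - m x = ∫ y, (m y - m x) ∂K by
      rw [integral_sub hmi (integrable_const _)]; simp]
    rw [← integral_const_mul]
    exact norm_integral_le_of_norm_le (hKy.const_mul 2) (.of_forall fun y => hm y x)
  rw [show (∫ y, L (m y) ∂K) - L g = ∫ y, (L (m y) - L g) ∂K by
    rw [integral_sub hLi (integrable_const _)]; simp]
  calc |∫ y, (L (m y) - L g) ∂K| ≤ ∫ y, (2 * ‖y - x‖ + ‖m x - g‖) ∂K := by
        refine norm_integral_le_of_norm_le (f := fun y => L (m y) - L g)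
          ((hKy.const_mul 2).add (integrable_const _)) (.of_forall fun y => ?_)
        rw [Real.norm_eq_abs]
        refine ((lipschitz_abs_sub hLl) _ _).trans ?_
        rw [one_mul]
        linarith [norm_sub_le_norm_sub_add_norm_sub (m y) (m x) g, hm y x]
    _ ≤ _ := by
        rw [integral_add (hKy.const_mul 2) (integrable_const _), integral_const_mul]
        simp only [integral_const, probReal_univ, one_smul]
        linarith

theorem gadgetClose : GadgetCloseStatement := by
  intro hin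
  obtain ⟨c₁, C₁, hc₁, -, hlev⟩ := hin.levels
  obtain ⟨c₂, C₂, hc₂, -, hmart⟩ := hin.kernel
  obtain ⟨c₃, C₃, hc₃, hC₃, htop⟩ := exists_topKernel_close hin.kernel
  refine ⟨min c₁ (min c₂ c₃), C₃ + 4, by positivity, by positivity, ?_⟩
  intro τ low s₁ δ Φb Φf κ Cb Cf T Q c₀' S S₀ ε E hlow hlt h0 h2 hτ hδ hb hf hnode hS hε
  have h1 : s₁ ≤ τ := by linarith
  have htop' : 0 < τ - s₁ := by linarith
  have hτ1 : τ ≤ c₁ := hτ.trans (min_le_left _ _)
  have hτ2 : τ ≤ c₂ := hτ.trans ((min_le_right _ _).trans (min_le_left _ _))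
  have hτ3 : τ ≤ c₃ := hτ.trans ((min_le_right _ _).trans (min_le_right _ _))
  have hlow0 := hlow.le
  have hab : low ≤ τ - s₁ := hlt.le
  have hmem : τ - s₁ ∈ Set.Icc low (τ - s₁) := Set.right_mem_Icc.2 hab
  have hscore : ∀ d V, Nice d V → ∀ a b : Euc d,
      ‖score V (τ - s₁) a - score V (τ - s₁) b‖ ≤ 2 * ‖a - b‖ := fun d V hV a b => by
    obtain ⟨-, -, -, -, hlip, heq, -⟩ :=
      (hlev d V hV.pot hV.grad_zero).2.2.1 (τ - s₁) 0 htop' le_rfl (by linarith)
    simpa only [heq] using hlip a b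
  obtain ⟨op, hop⟩ := hnode.closeNoise (ε := ε) (δ := δ) (Ek := C₃ * √s₁) (Et := 4 * √s₁)
    (μ := levelFam τ) (u := scoreFam τ) (K := fun d V => topKernel V τ s₁)
    (by simpa using hS) (by rw [abs_of_pos (by norm_num : (0 : ℝ) < 3 / 2)]; linarith)
    (fun d V hV => by
      obtain ⟨e, he0, hei, hee, hed⟩ := htop d V hV.pot hV.grad_zero τ s₁ h0 h2 hτ3
      exact ⟨isProbabilityMeasure_topKernel hV.pot h0 h1, integrable_norm_topKernel hV.pot h0 h1,
        e, he0, hei, hee, .of_forall hed⟩)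
    (fun d V hV => ⟨isProbabilityMeasure_gadgetLaw hV.pot h1, disint_gadgetLaw hV.pot h0 h1⟩)
    (fun d V hV => by
      obtain ⟨hPm, hPl⟩ := hf.gadgetLaw_pass hb hV hlow0 hab h0 h1 hmem
      have hsc : Continuous (score V (τ - s₁)) := (LipschitzWith.of_dist_le_mul (K := 2) fun a b => by
        simpa [dist_eq_norm] using hscore d V hV a b).continuous
      set Z : Euc d × Euc d × Euc d → Euc d := fun q => √(δ / 2) • q.2.2 + score V (τ - s₁) q.1
      have hZc : Continuous Z := by fun_prop
      have hZ : gadgetTop (δ / 2) (τ - s₁) s₁ low Φb Φf d V = Z ∘ fun ω : Rand d =>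
          ((Φf d V (τ - s₁) (fwdPt low s₁ Φb V ω)).1, ω.2 2,
            (Φf d V (τ - s₁) (fwdPt low s₁ Φb V ω)).2) := rfl
      refine ⟨hZ ▸ hZc.measurable.comp hPm, ?_⟩
      have := isProbabilityMeasure_levelLaw hV.pot htop'.le
      have hsi : Integrable (fun y => ‖score V (τ - s₁) y‖) (levelLaw V (τ - s₁)) :=
        ((hV.pot.weight.smoothPot htop'.le).integrable_temperate
          (hV.pot.weight.smoothPot htop'.le).gradient_temperate).norm
      have hi : Integrable (fun q => ‖Z q‖)
          ((levelLaw V (τ - s₁)).prod ((gauss d).prod (gauss d))) := by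
        refine ((((gauss_integrable_norm (d := d)).comp_snd (gauss d)).comp_snd
          (levelLaw V (τ - s₁))).const_mul (√(δ / 2)) |>.add (hsi.comp_fst _)).mono'
          hZc.norm.aestronglyMeasurable (.of_forall fun q => ?_)
        simp only [norm_norm, Pi.add_apply, Z]
        refine (norm_add_le _ _).trans (le_of_eq ?_)
        rw [norm_smul, Real.norm_eq_abs, abs_of_nonneg (Real.sqrt_nonneg _)]
      rw [← hPl] at hi
      rw [hZ]
      exact (integrable_map_measure hZc.norm.aestronglyMeasurable hPm.aemeasurable).1 hi)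
    (fun d V hV => by
      obtain ⟨hsi, hse⟩ := post_spread hV.pot htop'.le (sub_lt_self τ h0)
      refine ⟨fun x => 4 * ∫ y, ‖y - x‖ ∂(postKernel V τ (τ - s₁) x),
        fun x => mul_nonneg (by norm_num) (integral_nonneg fun _ => norm_nonneg _),
        hsi.const_mul 4, ?_, .of_forall fun x f hf' => ?_⟩
      · rw [integral_const_mul]
        rw [sub_sub_cancel] at hse
        refine (mul_le_mul_of_nonneg_left hse (by norm_num)).trans ?_
        rw [← mul_assoc]
        exact mul_le_mul_of_nonneg_left (le_self_pow₀ (by simp) (by norm_num)) (by positivity)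
      · have hg := (hmart d V hV.pot hV.grad_zero τ (τ - s₁) htop' (sub_lt_self τ h0) hτ2).2.2.2.1 x
        have hma := hb.measurable hV (Set.left_mem_Icc.2 hab)
        have hms := hf.measurable hV hmem
        have key := gadget_target_le hV.pot h0 h1 hδ (hscore d V hV) (x := x)
          (g := score V τ x) hg
          (Ψ := fun p => Φf d V (τ - s₁) (p.1, Φb d V low p))
          (hms.comp (measurable_fst.prodMk hma))
          (postKernel_map_comp hma hms (fun x => hb.law d V hV x low (Set.left_mem_Icc.2 hab))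
            (fun x => hf.law d V hV x (τ - s₁) hmem) x) hf'
        have hXeq : ∀ s : Fin 3 → Euc d, gadgetTop (δ / 2) (τ - s₁) s₁ low Φb Φf d V (x, s)
            = √(δ / 2) • (Φf d V (τ - s₁) (x, Φb d V low (backPt s₁ (x, s)))).2
              + score V (τ - s₁) (Φf d V (τ - s₁) (x, Φb d V low (backPt s₁ (x, s)))).1 := fun s => by
          change √(δ / 2) • (Φf d V (τ - s₁) (fwdPt low s₁ Φb V (x, s))).2
              + score V (τ - s₁) (Φf d V (τ - s₁) (fwdPt low s₁ Φb V (x, s))).1 = _
          rw [fwdPt_eq hb hV hab]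
        simp only [hXeq, scoreFam]
        exact key)
  refine ⟨op, hop.mono le_rfl le_rfl ?_⟩
  have hA : 0 ≤ |c₀'| + S₀ := add_nonneg (abs_nonneg _) hnode.spread_nonneg.2
  nlinarith [Real.sqrt_nonneg s₁, mul_nonneg hC₃.le (Real.sqrt_nonneg s₁),
    mul_nonneg hA (Real.sqrt_nonneg s₁)]

end Vale.Agent.P347
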