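import Vale.Agent.P347.Node

/-!
The random setting of the oracle step and the properties of its ideal paths.
-/

namespace Vale.Agent.P347

open MeasureTheory ProbabilityTheory
open scoped Gradient

/-- The law of `(x, (w, ξ, ξ'))` with `x` at level `τ`; `w` is the scaled displacement from `x`
to the point at level `τ - s₁`. -/
noncomputable def gadgetLaw (τ s₁ : ℝ) : RandFam := fun d V =>
  ((levelLaw V (τ - s₁)).prod (Measure.pi fun _ : Fin 3 => gauss d)).map
    fun p => (p.1 + √s₁ • p.2 0, ![-p.2 0, p.2 1, p.2 2])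

/-- The law of the scaled displacement given the top point. -/
noncomputable def topKernel {d : ℕ} (V : Euc d → ℝ) (τ s₁ : ℝ) (x : Euc d) : Measure (Euc d) :=
  (postKernel V τ (τ - s₁) x).map fun y => (√s₁)⁻¹ • (y - x)

/-- Paths for each dimension and potential. -/
abbrev PathFam : Type :=
  (d : ℕ) → (Euc d → ℝ) → ℝ → Euc d × Euc d × Euc d → Euc d × Euc d

/-- A backward path from level `b` down to level `a` below `τ`. -/
structure BackPath (τ a b : ℝ) (Φ : PathFam) (C : ℕ → ℝ) : Prop where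
  /-- continuity -/
  continuousOn : ∀ d V, Nice d V → ContinuousOn
    (fun q : ℝ × (Euc d × Euc d × Euc d) => Φ d V q.1 q.2) (Set.Icc a b ×ˢ Set.univ)
  /-- initial value -/
  init : ∀ d V, Nice d V → ∀ p, Φ d V b p = (p.2.1, p.2.2)
  /-- the position equation -/
  pos_eq : ∀ d V, Nice d V → ∀ p, ∀ s ∈ Set.Icc a b,
    (Φ d V s p).1 = p.1 + √((τ - s) / (τ - b)) • (p.2.1 - p.1)
      + ∫ u in b..s, √((τ - s) / (τ - u)) • ((1 / 2 : ℝ) • score V u (Φ d V u p).1)
  /-- the Gaussian state does not move -/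
  snd_eq : ∀ d V, Nice d V → ∀ p, ∀ s ∈ Set.Icc a b, (Φ d V s p).2 = p.2.2
  /-- invariance -/
  law : ∀ d V, Nice d V → ∀ x, ∀ s ∈ Set.Icc a b,
    ((postKernel V τ b x).prod (gauss d)).map (fun q => Φ d V s (x, q.1, q.2))
      = (postKernel V τ s x).prod (gauss d)
  /-- derivative bounds of the integrand -/
  score_bound : ∀ d V, Nice d V → CurveBound (pathLaw V τ b) a b
    (fun u p => score V u (Φ d V u p).1)
    (fun k u => C k * ((d : ℝ) + 1) ^ 2 / min u (τ - u) ^ k)

/-- A gadget path from level `a` up to level `b` below `τ`. -/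
structure FwdPath (τ a b κ : ℝ) (Φ : PathFam) (C : ℕ → ℝ) : Prop where
  /-- continuity -/
  continuousOn : ∀ d V, Nice d V → ContinuousOn
    (fun q : ℝ × (Euc d × Euc d × Euc d) => Φ d V q.1 q.2) (Set.Icc a b ×ˢ Set.univ)
  /-- initial value -/
  init : ∀ d V, Nice d V → ∀ p, Φ d V a p = (p.2.1, p.2.2)
  /-- the position equation -/
  pos_eq : ∀ d V, Nice d V → ∀ p, ∀ s ∈ Set.Icc a b,
    (Φ d V s p).1 = p.1 + √((τ - s) / (τ - a)) • (p.2.1 - p.1)
      + ∫ u in a..s, √((τ - s) / (τ - u)) • ((1 / 2 : ℝ) • score V u (Φ d V u p).1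
        + κ • hessAvg V u 0 (Φ d V u p).1 (Φ d V u p).2)
  /-- the gadget identity -/
  gadget_eq : ∀ d V, Nice d V → ∀ p, ∀ s ∈ Set.Icc a b,
    (-(1 / (2 * κ))) • (Φ d V s p).2 + score V s (Φ d V s p).1
      = (-(1 / (2 * κ))) • p.2.2 + score V a p.2.1
        + κ • ∫ u in a..s,
          hessAvg V u 0 (Φ d V u p).1 (hessAvg V u 0 (Φ d V u p).1 (Φ d V u p).2)
  /-- invariance -/
  law : ∀ d V, Nice d V → ∀ x, ∀ s ∈ Set.Icc a b,
    ((postKernel V τ a x).prod (gauss d)).map (fun q => Φ d V s (x, q.1, q.2))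
      = (postKernel V τ s x).prod (gauss d)
  /-- derivative bounds of the first integrand -/
  score_bound : ∀ d V, Nice d V → CurveBound (pathLaw V τ a) a b
    (fun u p => score V u (Φ d V u p).1)
    (fun k u => C k * ((d : ℝ) + 1) ^ 2 / min u (τ - u) ^ k)
  /-- derivative bounds of the second integrand -/
  hess_bound : ∀ d V, Nice d V → CurveBound (pathLaw V τ a) a b
    (fun u p => hessAvg V u 0 (Φ d V u p).1 (Φ d V u p).2)
    (fun k u => C k * ((d : ℝ) + 1) ^ 2 / min u (τ - u) ^ k)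
  /-- derivative bounds of the third integrand -/
  hessSq_bound : ∀ d V, Nice d V → CurveBound (pathLaw V τ a) a b
    (fun u p => hessAvg V u 0 (Φ d V u p).1 (hessAvg V u 0 (Φ d V u p).1 (Φ d V u p).2))
    (fun k u => C k * ((d : ℝ) + 1) ^ 2 / min u (τ - u) ^ k)

/-- The start of the backward path read off an outcome. -/
noncomputable def backPt {d : ℕ} (s₁ : ℝ) (ω : Rand d) : Euc d × Euc d × Euc d :=
  (ω.1, ω.1 + √s₁ • ω.2 0, ω.2 1)

end Vale.Agent.P347
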