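import Vale.Agent.P347.ScoreField

/-!
The exact gadget paths and the backward flow of the levels: existence, integral equations and the
laws they transport.
-/

namespace Vale.Agent.P347

open MeasureTheory ProbabilityTheory Filter Set
open scoped Gradient RealInnerProductSpace ContDiff Topology ENNReal

variable {d : ℕ}

namespace Gadget

open Vale.Agent.P347.Flow

/-- The fundamental theorem of calculus along a solution. -/
lemma integral_of_deriv {E : Type*} [NormedAddCommGroup E] [NormedSpace ℝ E] [CompleteSpace E]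
    {a b : ℝ} {f f' : ℝ → E} (hd : ∀ u ∈ Icc a b, HasDerivWithinAt f (f' u) (Icc a b) u)
    (hc : ContinuousOn f' (Icc a b)) {t₀ s : ℝ} (ht₀ : t₀ ∈ Icc a b) (hs : s ∈ Icc a b) :
    ∫ u in t₀..s, f' u = f s - f t₀ := by
  have hsub : uIcc t₀ s ⊆ Icc a b := uIcc_subset_Icc ht₀ hs
  refine intervalIntegral.integral_eq_sub_of_hasDeriv_right
    (fun u hu => (hd u (hsub hu)).continuousWithinAt.mono hsub) (fun u hu => ?_)
    ((hc.mono hsub).intervalIntegrable)
  have hu1 : a < u := (le_min ht₀.1 hs.1).trans_lt hu.1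
  have hu2 : u < b := hu.2.trans_le (max_le ht₀.2 hs.2)
  exact ((hd u ⟨hu1.le, hu2.le⟩).hasDerivAt (Icc_mem_nhds hu1 hu2)).hasDerivWithinAt

/-- The index type of a pair of points. -/
abbrev Pair (d : ℕ) : Type := Fin d ⊕ Fin d

/-- A pair of points as one point of a Euclidean space. -/
noncomputable def split (d : ℕ) : Sp (Pair d) ≃L[ℝ] Euc d × Euc d :=
  (PiLp.sumPiLpEquivProdLpPiLp 2 (𝕜 := ℝ) (fun _ : Pair d => ℝ)).toContinuousLinearEquiv.trans
    (WithLp.prodContinuousLinearEquiv 2 ℝ (Euc d) (Euc d))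

lemma split_measurePreserving :
    MeasurePreserving (split d) volume ((volume : Measure (Euc d)).prod volume) :=
  (WithLp.volume_preserving_ofLp (Euc d) (Euc d)).comp
    (PiLp.sumPiLpEquivProdLpPiLp 2 (𝕜 := ℝ) (fun _ : Pair d => ℝ)).measurePreserving

/-- The position of a pair. -/
noncomputable def posL (d : ℕ) : Sp (Pair d) →L[ℝ] Euc d :=
  (ContinuousLinearMap.fst ℝ (Euc d) (Euc d)).comp (split d : Sp (Pair d) →L[ℝ] Euc d × Euc d)

/-- The Gaussian vector of a pair. -/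
noncomputable def velL (d : ℕ) : Sp (Pair d) →L[ℝ] Euc d :=
  (ContinuousLinearMap.snd ℝ (Euc d) (Euc d)).comp (split d : Sp (Pair d) →L[ℝ] Euc d × Euc d)

lemma posL_apply (z : Sp (Pair d)) (i : Fin d) : posL d z i = z (Sum.inl i) := rfl

lemma velL_apply (z : Sp (Pair d)) (i : Fin d) : velL d z i = z (Sum.inr i) := rfl

lemma split_apply (z : Sp (Pair d)) : split d z = (posL d z, velL d z) := rfl

lemma norm_pair_sq (z : Sp (Pair d)) : ‖z‖ ^ 2 = ‖posL d z‖ ^ 2 + ‖velL d z‖ ^ 2 := by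
  simp [EuclideanSpace.norm_sq_eq, Fintype.sum_sum_type, posL_apply, velL_apply]

lemma posL_le (z : Sp (Pair d)) : ‖posL d z‖ ≤ ‖z‖ :=
  le_of_sq_le_sq (by rw [norm_pair_sq z]; nlinarith [norm_nonneg (velL d z)]) (norm_nonneg _)

lemma velL_le (z : Sp (Pair d)) : ‖velL d z‖ ≤ ‖z‖ :=
  le_of_sq_le_sq (by rw [norm_pair_sq z]; nlinarith [norm_nonneg (posL d z)]) (norm_nonneg _)

lemma norm_split_symm_le (q : Euc d × Euc d) : ‖(split d).symm q‖ ≤ ‖q.1‖ + ‖q.2‖ := by
  have h := norm_pair_sq ((split d).symm q)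
  have h' := (split d).apply_symm_apply q
  rw [split_apply] at h'
  have h1 : posL d ((split d).symm q) = q.1 := congrArg Prod.fst h'
  have h2 : velL d ((split d).symm q) = q.2 := congrArg Prod.snd h'
  rw [h1, h2] at h
  refine le_of_sq_le_sq ?_ (by positivity)
  rw [h]
  nlinarith [norm_nonneg q.1, norm_nonneg q.2]

lemma pos_single_inl (i : Fin d) :
    posL d (EuclideanSpace.single (Sum.inl i) 1) = unitVec i ∧
      velL d (EuclideanSpace.single (Sum.inl i) 1) = 0 := by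
  constructor <;> ext j <;> simp [posL_apply, velL_apply, unitVec, PiLp.single_apply]

lemma pos_single_inr (i : Fin d) :
    posL d (EuclideanSpace.single (Sum.inr i) 1) = 0 := by
  ext j; simp [posL_apply]

section Field

variable (V : Euc d → ℝ) (τ κ : ℝ)

/-- The velocity of the position of a gadget path. -/
noncomputable def velY (t : ℝ) (x y ξ : Euc d) : Euc d :=
  (2 * (τ - t))⁻¹ • (x - y) + (1 / 2 : ℝ) • score V t y + κ • fderiv ℝ (score V t) y ξ

/-- The velocity of the Gaussian vector of a gadget path. -/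
noncomputable def velXi (t : ℝ) (x y : Euc d) : Euc d :=
  (2 * κ) • scoreDot V t y + κ • fderiv ℝ (score V t) y ((τ - t)⁻¹ • (x - y) + score V t y)

/-- The field of the gadget paths on triples. -/
noncomputable def triple (t : ℝ) (q : Euc d × Euc d × Euc d) : Euc d × Euc d × Euc d :=
  (0, velY V τ κ t q.1 q.2.1 q.2.2, velXi V τ κ t q.1 q.2.1)

/-- The field of the gadget paths at a fixed endpoint `x`. -/
noncomputable def pairField (x : Euc d) (t : ℝ) (z : Sp (Pair d)) : Sp (Pair d) :=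
  (split d).symm (velY V τ κ t x (posL d z) (velL d z), velXi V τ κ t x (posL d z))

/-- The potential transported by `pairField`. -/
noncomputable def pairPot (x : Euc d) (t : ℝ) (z : Sp (Pair d)) : ℝ :=
  smoothPot V t (posL d z) + (2 * (τ - t))⁻¹ * ‖x - posL d z‖ ^ 2
    + d / 2 * Real.log (τ - t) + 2⁻¹ * ‖velL d z‖ ^ 2

end Field

variable {V : Euc d → ℝ} {τ κ : ℝ}

lemma contDiffOn_inv_sub (c : ℝ) :
    ContDiffOn ℝ ∞ (fun t => (c * (τ - t))⁻¹) {t | c * (τ - t) ≠ 0} :=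
  ((contDiff_const.mul (contDiff_const.sub contDiff_id)).contDiffOn).inv fun _ h => h

lemma tame_inv_sub {c : ℝ} (hc : 0 < c) :
    Tame (ι := Pair d) (Ioo 0 τ) fun t _ => (c * (τ - t))⁻¹ :=
  Tame.time isOpen_Ioo ((contDiffOn_inv_sub c).mono fun _ ht =>
    (mul_pos hc (sub_pos.2 ht.2)).ne')

lemma tame_restrict {ι : Type} [Fintype ι] [DecidableEq ι] {G : Type*} [NormedAddCommGroup G]
    [NormedSpace ℝ G] {I J : Set ℝ} {f : ℝ → Sp ι → G} (hf : Tame I f) (h : J ⊆ I) : Tame J f :=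
  ⟨hf.1.mono (prod_mono_left h), fun n K hK hKJ => hf.2 n K hK (hKJ.trans h)⟩

lemma tame_pos (hU : Weight V) {G : Type*} [NormedAddCommGroup G] [NormedSpace ℝ G]
    {f : ℝ → Euc d → G} (hf : Tame (Ioi 0) f) :
    Tame (Ioo 0 τ) fun t (z : Sp (Pair d)) => f t (posL d z) :=
  have := hU
  (tame_restrict hf Ioo_subset_Ioi_self).comp_clm isOpen_Ioo (posL d)

lemma tame_hess_apply (hU : Weight V) {w : ℝ → Sp (Pair d) → Euc d} (hw : Tame (Ioo 0 τ) w) :
    Tame (Ioo 0 τ) fun t z => fderiv ℝ (score V t) (posL d z) (w t z) := by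
  have h1 := tame_pos (τ := τ) hU ((score_tame hU).fderiv_joint isOpen_Ioi)
  have h2 : Tame (Ioo 0 τ) fun t (z : Sp (Pair d)) => ((0 : ℝ), w t z) :=
    (Tame.const (0 : ℝ)).prodMk hw isOpen_Ioo
  exact (h1.bilin h2 isOpen_Ioo (ContinuousLinearMap.id ℝ _)).of_eq isOpen_Ioo fun t ht z =>
    (score_tame hU).fderiv_space isOpen_Ioi ht.1 (posL d z) (w t z)

lemma pairField_tame (hU : Weight V) (x : Euc d) : Tame (Ioo 0 τ) (pairField V τ κ x) := by
  have hI : IsOpen (Ioo (0 : ℝ) τ) := isOpen_Ioo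
  have hg := tame_pos (τ := τ) hU (score_tame hU)
  have hw : Tame (Ioo 0 τ) fun (_ : ℝ) (z : Sp (Pair d)) => x - posL d z :=
    (Tame.const x).sub (Tame.linear (posL d)) hI
  have h1 : Tame (Ioo 0 τ) fun t z => velY V τ κ t x (posL d z) (velL d z) :=
    ((((tame_inv_sub (d := d) two_pos).bilin hw hI (ContinuousLinearMap.lsmul ℝ ℝ)).add
      (hg.const_smul hI _) hI).add
      ((tame_hess_apply hU (Tame.linear (velL d))).const_smul hI κ) hI)
  have hr : Tame (Ioo 0 τ) fun t (z : Sp (Pair d)) => (τ - t)⁻¹ • (x - posL d z) :=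
    ((tame_inv_sub (d := d) one_pos).bilin hw hI (ContinuousLinearMap.lsmul ℝ ℝ)).of_eq hI
      fun t _ z => by simp
  have h2 : Tame (Ioo 0 τ) fun t z => velXi V τ κ t x (posL d z) :=
    ((tame_pos hU (scoreDot_tame hU)).const_smul hI (2 * κ)).add
      ((tame_hess_apply hU (hr.add hg hI)).const_smul hI κ) hI
  exact (h1.prodMk h2 hI).clm hI ((split d).symm : Euc d × Euc d →L[ℝ] Sp (Pair d))

lemma pairPot_tame (hU : Weight V) (x : Euc d) : Tame (Ioo 0 τ) (pairPot V τ x) := by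
  have hI : IsOpen (Ioo (0 : ℝ) τ) := isOpen_Ioo
  have hw : Tame (Ioo 0 τ) fun (_ : ℝ) (z : Sp (Pair d)) => x - posL d z :=
    (Tame.const x).sub (Tame.linear (posL d)) hI
  have hl : Tame (ι := Pair d) (Ioo 0 τ) fun t _ => (d : ℝ) / 2 * Real.log (τ - t) :=
    Tame.time hI (contDiffOn_const.mul ((contDiff_const.sub contDiff_id).contDiffOn.log
      fun t ht => (sub_pos.2 ht.2).ne'))
  exact (((tame_pos hU (smoothPot_tame hU)).add
    ((tame_inv_sub (d := d) two_pos).mul (hw.norm_sq hI) hI) hI).add hl hI).add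
    ((Tame.const (2 : ℝ)⁻¹).mul ((Tame.linear (velL d)).norm_sq hI) hI) hI

lemma pairPot_coercive (hU : Weight V) (x : Euc d) {J : Set ℝ} (hJ : IsCompact J)
    (hJI : J ⊆ Ioo 0 τ) :
    ∃ c C₀ : ℝ, 0 < c ∧ ∀ t ∈ J, ∀ z, c * ‖z‖ ^ 2 - C₀ ≤ pairPot V τ x t z := by
  obtain ⟨c, C₀, hc, h⟩ := smoothPot_coercive hU hJ (hJI.trans Ioo_subset_Ioi_self)
  obtain ⟨D, hD⟩ := hJ.exists_bound_of_continuousOn (f := fun t => (d : ℝ) / 2 * Real.log (τ - t))
    (continuousOn_const.mul ((continuousOn_const.sub continuousOn_id).log fun t ht =>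
      (sub_pos.2 (hJI ht).2).ne'))
  refine ⟨min c 2⁻¹, C₀ + D, lt_min hc (by norm_num), fun t ht z => ?_⟩
  have h1 : 0 ≤ (2 * (τ - t))⁻¹ * ‖x - posL d z‖ ^ 2 := by
    have := sub_pos.2 (hJI ht).2; positivity
  have h2 := neg_le_of_abs_le ((Real.norm_eq_abs _).symm.trans_le (hD t ht))
  have h3 := h t ht (posL d z)
  rw [pairPot, norm_pair_sq]
  nlinarith [mul_le_mul_of_nonneg_right (min_le_left c 2⁻¹) (sq_nonneg ‖posL d z‖),
    mul_le_mul_of_nonneg_right (min_le_right c 2⁻¹) (sq_nonneg ‖velL d z‖)]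

lemma pairField_continuity (hU : Weight V) (x : Euc d) {t : ℝ} (ht : t ∈ Ioo 0 τ)
    (z : Sp (Pair d)) :
    fderiv ℝ (fun q : ℝ × Sp (Pair d) => pairPot V τ x q.1 q.2) (t, z) (1, pairField V τ κ x t z)
      = ∑ i, fderiv ℝ (fun y => pairField V τ κ x t y i) z (EuclideanSpace.single i 1) := by
  have hI : IsOpen (Ioo (0 : ℝ) τ) := isOpen_Ioo
  obtain ⟨ht0, htτ⟩ := ht
  have hr0 : τ - t ≠ 0 := (sub_pos.2 htτ).ne'
  set y := posL d z with hy
  set ξ := velL d z with hξ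
  set r := τ - t with hr
  set g := score V t y with hg
  set H := fderiv ℝ (score V t) y with hH
  -- the space derivative
  have hg' : HasFDerivAt (smoothPot V t) (innerSL ℝ g) y := by
    refine (((smoothPot_smooth hU ht0).differentiable (by simp)) y).hasFDerivAt.congr_fderiv ?_
    ext v
    simp [hg, score_inner]
  have hP : HasFDerivAt (pairPot V τ x t)
      ((innerSL ℝ g).comp (posL d) + (2 * r)⁻¹ • (2 • (innerSL ℝ (x - y)).comp (-posL d))
        + (2 : ℝ)⁻¹ • (2 • (innerSL ℝ ξ).comp (velL d))) z := by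
    have h1 := hg'.comp z (posL d).hasFDerivAt
    have h2 := (((posL d).hasFDerivAt (x := z)).const_sub x).norm_sq.const_mul (2 * r)⁻¹
    have h3 := ((velL d).hasFDerivAt (x := z)).norm_sq.const_mul (2 : ℝ)⁻¹
    exact ((h1.fun_add h2).add_const _).fun_add h3
  -- the time derivative
  have hT : HasDerivAt (fun s => pairPot V τ x s z)
      ((1 / 2 : ℝ) * lapPot V t y - (1 / 2 : ℝ) * ‖g‖ ^ 2
        + (2 / (2 * r) ^ 2) * ‖x - y‖ ^ 2 + (d : ℝ) / 2 * ((-1) / r)) t := by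
    have h1 : HasDerivAt (fun s => smoothPot V s y)
        ((1 / 2 : ℝ) * lapPot V t y - (1 / 2 : ℝ) * ‖g‖ ^ 2) t := by
      rw [← pdt_smoothPot hU ht0 y]
      exact HasFDerivAt.comp_hasDerivAt (f := fun s : ℝ => (s, y)) t
        ((smoothPot_tame hU).differentiableAt isOpen_Ioi ht0 y).hasFDerivAt
        ((hasDerivAt_id t).prodMk (hasDerivAt_const t y))
    have h2 : HasDerivAt (fun s => (2 * (τ - s))⁻¹) (2 / (2 * r) ^ 2) t :=
      ((((hasDerivAt_id t).const_sub τ).const_mul (2 : ℝ)).inv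
        (mul_ne_zero two_ne_zero hr0)).congr_deriv (by simp [hr])
    have h3 : HasDerivAt (fun s => Real.log (τ - s)) ((-1) / r) t :=
      ((hasDerivAt_id t).const_sub τ).log hr0
    exact ((h1.fun_add (h2.mul_const _)).fun_add (h3.const_mul _)).add_const _
  -- the divergence
  have hdY : ∀ j : Fin d, fderiv ℝ (fun w => pairField V τ κ x t w (Sum.inl j)) z
      (EuclideanSpace.single (Sum.inl j) 1)
      = -(2 * r)⁻¹ + 2⁻¹ * fderiv ℝ (fun w => score V t w j) y (unitVec j)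
        + κ * fderiv ℝ (fun w => fderiv ℝ (fun u => score V t u j) w (unitVec j)) y ξ := by
    intro j
    have hsj : ContDiff ℝ ∞ fun w => score V t w j :=
      ((score_tame hU).component isOpen_Ioi j).contDiff_space (show t ∈ Ioi (0 : ℝ) from ht0)
    have e : (fun w => pairField V τ κ x t w (Sum.inl j))
        = fun w => (2 * r)⁻¹ * (x j - posL d w j) + 2⁻¹ * score V t (posL d w) j
          + κ * fderiv ℝ (fun u => score V t u j) (posL d w) (velL d w) := by
      funext w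
      have hh : fderiv ℝ (fun u => score V t u j) (posL d w) (velL d w)
          = fderiv ℝ (score V t) (posL d w) (velL d w) j := by
        have := (EuclideanSpace.proj (𝕜 := ℝ) j).hasFDerivAt.comp (posL d w)
          ((score_tame hU).differentiableAt_space (I := Ioi 0) ht0 (posL d w)).hasFDerivAt
        simp only [Function.comp_def, PiLp.proj_apply] at this
        rw [this.fderiv]
        rfl
      rw [hh, ← posL_apply]
      show posL d ((split d).symm _) j = _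
      have h' : ∀ q : Euc d × Euc d, posL d ((split d).symm q) = q.1 := fun q => by
        show ((split d) ((split d).symm q)).1 = q.1
        rw [ContinuousLinearEquiv.apply_symm_apply]
      rw [h']
      simp [velY, hr]
    have d1 : HasFDerivAt (fun w => posL d w j)
        ((EuclideanSpace.proj (𝕜 := ℝ) j).comp (posL d)) z :=
      ((EuclideanSpace.proj (𝕜 := ℝ) j).comp (posL d)).hasFDerivAt
    have d2 := ((hsj.differentiable (by simp)) y).hasFDerivAt.comp z (posL d).hasFDerivAt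
    have d3 := (((hsj.fderiv_right (m := ∞) le_rfl).differentiable (by simp) y).hasFDerivAt.comp z
      (posL d).hasFDerivAt).clm_apply (velL d).hasFDerivAt
    simp only [Function.comp_def] at d2 d3
    rw [e, ((((d1.const_sub (x j)).const_mul _).fun_add (d2.const_mul _)).fun_add
      (d3.const_mul κ)).fderiv]
    simp only [add_apply, smul_apply, neg_apply, ContinuousLinearMap.comp_apply,
      ContinuousLinearMap.flip_apply, smul_eq_mul, (pos_single_inl j).1, (pos_single_inl j).2,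
      map_zero, ← hξ, PiLp.proj_apply, zero_add]
    have hcomm := fderiv_dir_comm hsj y ξ (unitVec j)
    rw [fderiv_clm_apply ((hsj.fderiv_right (m := ∞) le_rfl).differentiable (by simp) y)
      (differentiableAt_const _), fderiv_clm_apply
      ((hsj.fderiv_right (m := ∞) le_rfl).differentiable (by simp) y) (differentiableAt_const _)]
      at hcomm
    rw [fderiv_clm_apply ((hsj.fderiv_right (m := ∞) le_rfl).differentiable (by simp) y)
      (differentiableAt_const _)]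
    simp at hcomm ⊢
    simp [hcomm]
  have hdX : ∀ j : Fin d, fderiv ℝ (fun w => pairField V τ κ x t w (Sum.inr j)) z
      (EuclideanSpace.single (Sum.inr j) 1) = 0 := by
    intro j
    have e : (fun w => pairField V τ κ x t w (Sum.inr j))
        = (fun u => velXi V τ κ t x u j) ∘ posL d := by
      funext w
      rw [← velL_apply]
      show ((split d) ((split d).symm _)).2 j = _
      rw [ContinuousLinearEquiv.apply_symm_apply]
      rfl
    have hr' : ContDiff ℝ ∞ fun u => velXi V τ κ t x u j := by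
      have hs := (score_tame hU).contDiff_space (show t ∈ Ioi (0 : ℝ) from ht0)
      have hd := (scoreDot_tame hU).contDiff_space (show t ∈ Ioi (0 : ℝ) from ht0)
      exact (EuclideanSpace.proj (𝕜 := ℝ) j).contDiff.comp ((hd.const_smul _).add
        (((hs.fderiv_right (m := ∞) le_rfl).clm_apply
          (((contDiff_const.sub contDiff_id).const_smul _).add hs)).const_smul _))
    rw [e, fderiv_comp z (hr'.differentiable (by simp) _) (posL d).differentiableAt,
      ContinuousLinearMap.comp_apply, (posL d).fderiv, pos_single_inr, map_zero]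
  have hsum : ∑ j, fderiv ℝ (fun w => fderiv ℝ (fun u => score V t u j) w (unitVec j)) y ξ
      = fderiv ℝ (lapPot V t) y ξ := by
    have hd : ∀ j ∈ (Finset.univ : Finset (Fin d)), DifferentiableAt ℝ
        (fun w => fderiv ℝ (fun u => score V t u j) w (unitVec j)) y := fun j _ =>
      (((score_tame hU).component isOpen_Ioi j).fderiv_space_apply isOpen_Ioi
        (unitVec j)).differentiableAt_space (I := Ioi 0) ht0 y
    rw [← sum_apply, ← fderiv_fun_sum hd]
    congr 2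
    funext w
    exact sum_fderiv_score V t w
  have hdiv : ∑ i, fderiv ℝ (fun w => pairField V τ κ x t w i) z (EuclideanSpace.single i 1)
      = -(d : ℝ) * (2 * r)⁻¹ + 2⁻¹ * lapPot V t y + κ * fderiv ℝ (lapPot V t) y ξ := by
    rw [Fintype.sum_sum_type, Finset.sum_congr rfl fun j _ => hdY j,
      Finset.sum_congr rfl fun j _ => hdX j, Finset.sum_add_distrib, Finset.sum_add_distrib,
      ← Finset.mul_sum, ← Finset.mul_sum, hsum, sum_fderiv_score]
    simp
  -- assemble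
  have hsp := (pairPot_tame (τ := τ) hU x).fderiv_space hI ⟨ht0, htτ⟩ z
    (pairField V τ κ x t z)
  have hb : split d (pairField V τ κ x t z)
      = (velY V τ κ t x y ξ, velXi V τ κ t x y) := (split d).apply_symm_apply _
  rw [split_apply] at hb
  have hb1 : posL d (pairField V τ κ x t z) = velY V τ κ t x y ξ := congrArg Prod.fst hb
  have hb2 : velL d (pairField V τ κ x t z) = velXi V τ κ t x y := congrArg Prod.snd hb
  have hj := ((pairPot_tame (τ := τ) hU x).differentiableAt hI ⟨ht0, htτ⟩ z).hasFDerivAt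
  have hjt := HasFDerivAt.comp_hasDerivAt (f := fun s : ℝ => (s, z)) t hj
    ((hasDerivAt_id t).prodMk (hasDerivAt_const t z))
  simp only [Function.comp_def] at hjt
  rw [show ((1 : ℝ), pairField V τ κ x t z) = (1, 0) + (0, pairField V τ κ x t z) by simp, map_add,
    ← hsp, hP.fderiv, hjt.unique hT, hdiv]
  simp only [add_apply, smul_apply, ContinuousLinearMap.comp_apply, innerSL_apply_apply,
    neg_apply, inner_neg_right, smul_eq_mul, nsmul_eq_mul, Nat.cast_ofNat, hb1, hb2]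
  simp only [velY, velXi, ← hg, ← hH, ← hr, map_add, map_smul, inner_add_right,
    real_inner_smul_right]
  have hdot := scoreDot_inner hU ht0 y ξ
  rw [← hg, ← hH, real_inner_comm ξ (scoreDot V t y)] at hdot
  have e1 : ⟪ξ, H g⟫ = ⟪g, H ξ⟫ := by
    rw [hH, ← fderiv_score_symm hU ht0 y, real_inner_comm]
  have e2 : ⟪ξ, H (x - y)⟫ = ⟪x - y, H ξ⟫ := by
    rw [hH, ← fderiv_score_symm hU ht0 y, real_inner_comm]
  rw [hdot, e1, e2, real_inner_comm g (x - y), real_inner_self_eq_norm_sq,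
    real_inner_self_eq_norm_sq]
  field_simp
  ring

lemma triple_contDiffOn (hU : Weight V) :
    ContDiffOn ℝ 1 (fun q : ℝ × (Euc d × Euc d × Euc d) => triple V τ κ q.1 q.2)
      (Ioo 0 τ ×ˢ univ) := by
  have hg : ContDiffOn ℝ ∞ (fun q : ℝ × (Euc d × Euc d × Euc d) => score V q.1 q.2.2.1)
      (Ioo 0 τ ×ˢ univ) :=
    (score_tame hU).1.comp (f := fun q : ℝ × (Euc d × Euc d × Euc d) => (q.1, q.2.2.1))
      (by fun_prop) fun q hq => ⟨hq.1.1, trivial⟩
  have hgd : ContDiffOn ℝ ∞ (fun q : ℝ × (Euc d × Euc d × Euc d) => scoreDot V q.1 q.2.2.1)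
      (Ioo 0 τ ×ˢ univ) :=
    (scoreDot_tame hU).1.comp (f := fun q : ℝ × (Euc d × Euc d × Euc d) => (q.1, q.2.2.1))
      (by fun_prop) fun q hq => ⟨hq.1.1, trivial⟩
  have hH : ContDiffOn ℝ ∞ (fun q : ℝ × (Euc d × Euc d × Euc d) =>
      fderiv ℝ (fun p : ℝ × Euc d => score V p.1 p.2) (q.1, q.2.2.1)) (Ioo 0 τ ×ˢ univ) :=
    ((score_tame hU).fderiv_joint isOpen_Ioi).1.comp
      (f := fun q : ℝ × (Euc d × Euc d × Euc d) => (q.1, q.2.2.1)) (by fun_prop)
      fun q hq => ⟨hq.1.1, trivial⟩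
  have hw : ContDiffOn ℝ ∞ (fun q : ℝ × (Euc d × Euc d × Euc d) => q.2.1 - q.2.2.1)
      (Ioo 0 τ ×ˢ univ) := by fun_prop
  have hi : ∀ c : ℝ, 0 < c → ContDiffOn ℝ ∞
      (fun q : ℝ × (Euc d × Euc d × Euc d) => (c * (τ - q.1))⁻¹) (Ioo 0 τ ×ˢ univ) := fun c hc =>
    (contDiffOn_inv_sub c).comp contDiff_fst.contDiffOn
      fun q hq => (mul_pos hc (sub_pos.2 hq.1.2)).ne'
  have hH1 := hH.clm_apply ((contDiffOn_const (c := (0 : ℝ))).prodMk
    (show ContDiffOn ℝ ∞ (fun q : ℝ × (Euc d × Euc d × Euc d) => q.2.2.2) (Ioo 0 τ ×ˢ univ) by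
      fun_prop))
  have hH2 := hH.clm_apply ((contDiffOn_const (c := (0 : ℝ))).prodMk
    (((hi 1 one_pos).smul hw).add hg))
  have h := (contDiffOn_const (c := (0 : Euc d))).prodMk
    ((((hi 2 two_pos).smul hw).add (hg.const_smul (1 / 2 : ℝ))).add (hH1.const_smul κ) |>.prodMk
      ((hgd.const_smul (2 * κ)).add (hH2.const_smul κ)))
  refine (h.of_le (by simp)).congr fun q hq => ?_
  simp only [triple, velY, velXi, (score_tame hU).fderiv_space isOpen_Ioi hq.1.1, one_mul,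
    Pi.smul_apply']

lemma triple_growth (hU : Weight V) {a b : ℝ} (ha : 0 < a) (hbτ : b < τ)
    (hH : ∀ t ∈ Icc a b, ∀ y, ‖fderiv ℝ (score V t) y‖ ≤ 2) {D : ℝ} (hD : 0 ≤ D)
    (hL : ∀ t ∈ Icc a b, ∀ y, ‖fderiv ℝ (lapPot V t) y‖ ≤ D) :
    ∃ C, 0 ≤ C ∧ ∀ t ∈ Icc a b, ∀ x y ξ : Euc d,
      ‖velY V τ κ t x y ξ‖ ≤ C * (1 + ‖x‖ + ‖y‖ + ‖ξ‖) ∧
        ‖velXi V τ κ t x y‖ ≤ C * (1 + ‖x‖ + ‖y‖) := by
  obtain ⟨G, hG0, hG⟩ := score_growth hU ha hH
  set R := (τ - b)⁻¹ with hR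
  have hR0 : 0 ≤ R := inv_nonneg.2 (sub_nonneg.2 hbτ.le)
  have hk := abs_nonneg κ
  refine ⟨R + G + 2 + 2 * |κ| + |κ| * (D + 6 * (G + 2) + 2 * R), by positivity,
    fun t ht x y ξ => ?_⟩
  have hr : (τ - b) ≤ τ - t := by linarith [ht.2]
  have hrp : 0 < τ - b := sub_pos.2 hbτ
  have hi1 : ‖(τ - t)⁻¹ • (x - y)‖ ≤ R * (‖x‖ + ‖y‖) := by
    rw [norm_smul, norm_inv, Real.norm_eq_abs, abs_of_pos (hrp.trans_le hr)]
    exact mul_le_mul (inv_anti₀ hrp hr) (norm_sub_le _ _) (norm_nonneg _) hR0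
  have hi2 : ‖(2 * (τ - t))⁻¹ • (x - y)‖ ≤ R * (‖x‖ + ‖y‖) := by
    rw [norm_smul, norm_inv, Real.norm_eq_abs, abs_of_pos (by linarith)]
    exact mul_le_mul (inv_anti₀ hrp (by linarith)) (norm_sub_le _ _) (norm_nonneg _) hR0
  have hg := hG t ht y
  have hHu : ∀ u, ‖fderiv ℝ (score V t) y u‖ ≤ 2 * ‖u‖ := fun u =>
    (ContinuousLinearMap.le_opNorm _ _).trans
      (mul_le_mul_of_nonneg_right (hH t ht y) (norm_nonneg _))
  have hdot : ‖scoreDot V t y‖ ≤ D / 2 + 2 * (G + 2 * ‖y‖) := by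
    set w := scoreDot V t y with hw
    have h1 : ‖w‖ ^ 2 ≤ (D / 2 + 2 * (G + 2 * ‖y‖)) * ‖w‖ := by
      rw [← real_inner_self_eq_norm_sq, scoreDot_inner hU (ha.trans_le ht.1) y w]
      have a1 : |fderiv ℝ (lapPot V t) y w| ≤ D * ‖w‖ :=
        (ContinuousLinearMap.le_opNorm _ _).trans
          (mul_le_mul_of_nonneg_right (hL t ht y) (norm_nonneg _))
      have a2 : |⟪score V t y, fderiv ℝ (score V t) y w⟫| ≤ (G + 2 * ‖y‖) * (2 * ‖w‖) :=
        (abs_real_inner_le_norm _ _).trans (mul_le_mul hg (hHu w) (norm_nonneg _) (by positivity))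
      nlinarith [abs_le.1 a1, abs_le.1 a2]
    rcases (norm_nonneg w).eq_or_lt with h | h
    · rw [← h]; positivity
    · nlinarith
  have hnx := norm_nonneg x
  have hny := norm_nonneg y
  have hnξ := norm_nonneg ξ
  constructor
  · refine (norm_add₃_le).trans ?_
    rw [norm_smul (1 / 2 : ℝ), norm_smul κ, Real.norm_eq_abs, Real.norm_eq_abs,
      abs_of_pos (show (0 : ℝ) < 1 / 2 by norm_num)]
    nlinarith [mul_le_mul_of_nonneg_left (hHu ξ) hk, mul_nonneg hk hnx, mul_nonneg hk hny,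
      mul_nonneg hR0 hnξ, mul_nonneg hG0 hnx, mul_nonneg hG0 hny, mul_nonneg hG0 hnξ,
      mul_nonneg (mul_nonneg hk (show 0 ≤ D + 6 * (G + 2) + 2 * R by positivity))
        (show 0 ≤ 1 + ‖x‖ + ‖y‖ + ‖ξ‖ by positivity)]
  · refine (norm_add_le _ _).trans ?_
    rw [norm_smul (2 * κ), norm_smul κ, Real.norm_eq_abs, Real.norm_eq_abs, abs_mul, abs_two]
    have h4 := (hHu ((τ - t)⁻¹ • (x - y) + score V t y)).trans
      (mul_le_mul_of_nonneg_left ((norm_add_le _ _).trans (add_le_add hi1 hg)) zero_le_two)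
    calc 2 * |κ| * ‖scoreDot V t y‖ + |κ| * ‖fderiv ℝ (score V t) y _‖
        ≤ 2 * |κ| * (D / 2 + 2 * (G + 2 * ‖y‖))
          + |κ| * (2 * (R * (‖x‖ + ‖y‖) + (G + 2 * ‖y‖))) := by gcongr
      _ = |κ| * (D + 6 * G + 12 * ‖y‖ + 2 * R * (‖x‖ + ‖y‖)) := by ring
      _ ≤ |κ| * ((D + 6 * (G + 2) + 2 * R) * (1 + ‖x‖ + ‖y‖)) := by
          refine mul_le_mul_of_nonneg_left ?_ hk
          nlinarith [mul_nonneg hD hnx, mul_nonneg hD hny, mul_nonneg hG0 hnx, mul_nonneg hG0 hny]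
      _ ≤ _ := by
          rw [← mul_assoc]
          exact mul_le_mul_of_nonneg_right (le_add_of_nonneg_left (by positivity)) (by positivity)

/-- Pushforward of a tilted measure along a measure preserving map. -/
lemma map_tilted {α β : Type*} [MeasurableSpace α] [MeasurableSpace β] {μ : Measure α}
    {ν : Measure β} {e : α → β} (he : MeasurePreserving e μ ν) {f : β → ℝ} (hf : Measurable f) :
    (μ.tilted (f ∘ e)).map e = ν.tilted f := by
  have hint : ∫ x, Real.exp (f (e x)) ∂μ = ∫ y, Real.exp (f y) ∂ν := by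
    rw [← he.map_eq]
    exact (integral_map he.measurable.aemeasurable
      (Real.measurable_exp.comp hf).aestronglyMeasurable).symm
  ext s hs
  have hm : Measurable fun y => ENNReal.ofReal (Real.exp (f y) / ∫ y, Real.exp (f y) ∂ν) :=
    (hf.exp.div_const _).ennreal_ofReal
  rw [Measure.map_apply he.measurable hs, Measure.tilted, Measure.tilted,
    withDensity_apply _ (he.measurable hs), withDensity_apply _ hs,
    ← he.setLIntegral_comp_preimage hs hm]
  simp only [Function.comp_apply, hint]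

/-- Products of tilted measures. -/
lemma tilted_prod {α β : Type*} [MeasurableSpace α] [MeasurableSpace β] (μ : Measure α)
    (ν : Measure β) [SFinite μ] [SFinite ν] {f : α → ℝ} {g : β → ℝ} (hf : Measurable f)
    (hg : Measurable g) :
    (μ.tilted f).prod (ν.tilted g) = (μ.prod ν).tilted fun p => f p.1 + g p.2 := by
  rw [Measure.tilted, Measure.tilted, prod_withDensity (hf.exp.div_const _).ennreal_ofReal
    (hg.exp.div_const _).ennreal_ofReal, Measure.tilted]
  congr 1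
  funext p
  simp only [Real.exp_add, integral_prod_mul (fun a => Real.exp (f a)) fun b => Real.exp (g b)]
  rw [← ENNReal.ofReal_mul' (div_nonneg (Real.exp_nonneg _)
    (integral_nonneg fun b => Real.exp_nonneg _)), div_mul_div_comm]

lemma tilted_add_const {α : Type*} [MeasurableSpace α] (μ : Measure α) (f : α → ℝ) (c : ℝ) :
    μ.tilted (fun x => f x + c) = μ.tilted f := by
  simp only [Measure.tilted, Real.exp_add, integral_mul_const]
  congr 1
  funext x
  rw [mul_div_mul_right _ _ (Real.exp_pos c).ne']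

lemma law_eq (hU : Weight V) (x : Euc d) {t : ℝ} (ht : t ∈ Ioo 0 τ) :
    (postKernel V τ t x).prod (gauss d)
      = (volume.tilted fun z => -pairPot V τ x t z).map (split d) := by
  have hc := (smoothPot_smooth hU ht.1).continuous
  rw [postKernel, gauss_eq_gibbs, gibbs, gibbs,
    tilted_prod _ _ (by fun_prop) (by fun_prop), ← map_tilted split_measurePreserving
      (by fun_prop), ← tilted_add_const _ _ (-((d : ℝ) / 2 * Real.log (τ - t)))]
  congr 2
  funext z
  simp only [Function.comp_apply, split_apply, pairPot]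
  ring

section Paths

variable {a b t₀ : ℝ} {Ψ : ℝ → Euc d × Euc d × Euc d → Euc d × Euc d × Euc d}

lemma path_fst (hΨd : ∀ p, IsSol a b (triple V τ κ) fun t => Ψ t p) (hΨ0 : ∀ p, Ψ t₀ p = p)
    (ht₀ : t₀ ∈ Icc a b) (p : Euc d × Euc d × Euc d) {s : ℝ} (hs : s ∈ Icc a b) :
    (Ψ s p).1 = p.1 := by
  have hd : ∀ u ∈ Icc a b, HasDerivWithinAt (fun u => (Ψ u p).1) (0 : Euc d) (Icc a b) u :=
    fun u hu => (hΨd p u hu).fst
  have := (convex_Icc a b).norm_image_sub_le_of_norm_hasDerivWithin_le hd (C := 0)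
    (fun u _ => by simp) ht₀ hs
  rw [zero_mul, norm_le_zero_iff, sub_eq_zero] at this
  rw [this, hΨ0]

lemma path_deriv (hΨd : ∀ p, IsSol a b (triple V τ κ) fun t => Ψ t p) (hΨ0 : ∀ p, Ψ t₀ p = p)
    (ht₀ : t₀ ∈ Icc a b) (p : Euc d × Euc d × Euc d) {s : ℝ} (hs : s ∈ Icc a b) :
    HasDerivWithinAt (fun u => (Ψ u p).2.1)
        (velY V τ κ s p.1 (Ψ s p).2.1 (Ψ s p).2.2) (Icc a b) s ∧
      HasDerivWithinAt (fun u => (Ψ u p).2.2)
        (velXi V τ κ s p.1 (Ψ s p).2.1) (Icc a b) s := by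
  have h1 := (hΨd p s hs).snd.fst
  have h2 := (hΨd p s hs).snd.snd
  rw [← path_fst hΨd hΨ0 ht₀ p hs]
  exact ⟨h1, h2⟩

lemma path_continuity (hU : Weight V) (ha : 0 < a)
    (hΨd : ∀ p, IsSol a b (triple V τ κ) fun t => Ψ t p) (hΨ0 : ∀ p, Ψ t₀ p = p)
    (ht₀ : t₀ ∈ Icc a b) (p : Euc d × Euc d × Euc d) :
    ContinuousOn (fun u => score V u (Ψ u p).2.1) (Icc a b) ∧
      ContinuousOn (fun u => fderiv ℝ (score V u) (Ψ u p).2.1 (Ψ u p).2.2) (Icc a b) ∧
      ContinuousOn (fun u => fderiv ℝ (score V u) (Ψ u p).2.1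
        (fderiv ℝ (score V u) (Ψ u p).2.1 (Ψ u p).2.2)) (Icc a b) := by
  have hcurve : ContinuousOn (fun u => (u, (Ψ u p).2.1)) (Icc a b) := fun u hu =>
    continuousWithinAt_id.prodMk (path_deriv hΨd hΨ0 ht₀ p hu).1.continuousWithinAt
  have hmaps : MapsTo (fun u => (u, (Ψ u p).2.1)) (Icc a b)
      (Ioi (0 : ℝ) ×ˢ (univ : Set (Euc d))) := fun u hu => ⟨ha.trans_le hu.1, trivial⟩
  have hJ : ContinuousOn
      (fun u => fderiv ℝ (fun q : ℝ × Euc d => score V q.1 q.2) (u, (Ψ u p).2.1)) (Icc a b) :=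
    ContinuousOn.comp (g := fun q : ℝ × Euc d => fderiv ℝ (fun q : ℝ × Euc d => score V q.1 q.2)
        (q.1, q.2)) (f := fun u => (u, (Ψ u p).2.1))
      ((score_tame hU).fderiv_joint isOpen_Ioi).1.continuousOn hcurve hmaps
  have hcH : ∀ w : ℝ → Euc d, ContinuousOn w (Icc a b) →
      ContinuousOn (fun u => fderiv ℝ (score V u) (Ψ u p).2.1 (w u)) (Icc a b) := fun w hw =>
    (hJ.clm_apply ((continuousOn_const (c := (0 : ℝ))).prodMk hw)).congr fun u hu =>
      (score_tame hU).fderiv_space isOpen_Ioi (ha.trans_le hu.1) (Ψ u p).2.1 (w u)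
  have hcX : ContinuousOn (fun u => (Ψ u p).2.2) (Icc a b) :=
    fun u hu => (path_deriv hΨd hΨ0 ht₀ p hu).2.continuousWithinAt
  have hcg : ContinuousOn (fun u => score V u (Ψ u p).2.1) (Icc a b) :=
    ContinuousOn.comp (g := fun q : ℝ × Euc d => score V q.1 q.2)
      (f := fun u => (u, (Ψ u p).2.1)) (score_tame hU).1.continuousOn hcurve hmaps
  exact ⟨hcg, hcH _ hcX, hcH _ (hcH _ hcX)⟩

lemma path_position (hU : Weight V) (ha : 0 < a) (hbτ : b < τ)
    (hΨd : ∀ p, IsSol a b (triple V τ κ) fun t => Ψ t p) (hΨ0 : ∀ p, Ψ t₀ p = p)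
    (ht₀ : t₀ ∈ Icc a b) (p : Euc d × Euc d × Euc d) {s : ℝ} (hs : s ∈ Icc a b) :
    (Ψ s p).2.1 = p.1 + √((τ - s) / (τ - t₀)) • (p.2.1 - p.1)
      + ∫ u in t₀..s, √((τ - s) / (τ - u)) •
          ((1 / 2 : ℝ) • score V u (Ψ u p).2.1
            + κ • hessAvg V u 0 (Ψ u p).2.1 (Ψ u p).2.2) := by
  have hlt : ∀ t ∈ Icc a b, t < τ := fun t ht => ht.2.trans_lt hbτ
  obtain ⟨hcg, hcHξ, -⟩ := path_continuity hU ha hΨd hΨ0 ht₀ p
  simp only [hessAvg_zero]
  have hw : ∀ u ∈ Icc a b, HasDerivWithinAt (fun u => (√(τ - u))⁻¹ • ((Ψ u p).2.1 - p.1))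
      ((√(τ - u))⁻¹ • ((1 / 2 : ℝ) • score V u (Ψ u p).2.1
        + κ • fderiv ℝ (score V u) (Ψ u p).2.1 (Ψ u p).2.2)) (Icc a b) u := fun u hu => by
    have hr : 0 < τ - u := sub_pos.2 (hlt u hu)
    have hsq : 0 < √(τ - u) := Real.sqrt_pos.2 hr
    have h1 : HasDerivAt (fun u => (√(τ - u))⁻¹) (1 / (2 * (τ - u)) * (√(τ - u))⁻¹) u := by
      refine ((((hasDerivAt_id u).const_sub τ).sqrt hr.ne').inv hsq.ne').congr_deriv ?_
      simp only [id_eq]
      field_simp
      rw [Real.sq_sqrt hr.le]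
    refine (h1.hasDerivWithinAt.smul ((path_deriv hΨd hΨ0 ht₀ p hu).1.sub_const p.1)).congr_deriv ?_
    simp only [velY]
    have : (2 * (τ - u))⁻¹ = 1 / (2 * (τ - u)) := (one_div _).symm
    rw [this]
    module
  have hc : ContinuousOn (fun u => (√(τ - u))⁻¹ • ((1 / 2 : ℝ) • score V u (Ψ u p).2.1
      + κ • fderiv ℝ (score V u) (Ψ u p).2.1 (Ψ u p).2.2)) (Icc a b) := by
    refine ((continuous_const.sub continuous_id).sqrt.continuousOn.inv₀ fun u hu =>
      (Real.sqrt_pos.2 (sub_pos.2 (hlt u hu))).ne').smul ((hcg.const_smul (1 / 2 : ℝ)).add (hcHξ.const_smul κ))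
  have hI := integral_of_deriv hw hc ht₀ hs
  have hs0 : 0 < √(τ - s) := Real.sqrt_pos.2 (sub_pos.2 (hlt s hs))
  have key : ∀ u, √((τ - s) / (τ - u)) = √(τ - s) * (√(τ - u))⁻¹ := fun u => by
    rw [Real.sqrt_div (sub_nonneg.2 (hlt s hs).le), div_eq_mul_inv]
  simp only [key, mul_smul, intervalIntegral.integral_smul, hI, hΨ0]
  rw [smul_sub √(τ - s), smul_inv_smul₀ hs0.ne']
  abel

lemma path_vector (hU : Weight V) (ha : 0 < a) (hbτ : b < τ)
    (hΨd : ∀ p, IsSol a b (triple V τ κ) fun t => Ψ t p) (hΨ0 : ∀ p, Ψ t₀ p = p)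
    (ht₀ : t₀ ∈ Icc a b) (p : Euc d × Euc d × Euc d) {s : ℝ} (hs : s ∈ Icc a b) :
    if κ = 0 then (Ψ s p).2.2 = p.2.2
    else (-(1 / (2 * κ))) • (Ψ s p).2.2 + score V s (Ψ s p).2.1
      = (-(1 / (2 * κ))) • p.2.2 + score V t₀ p.2.1
        + κ • ∫ u in t₀..s,
          hessAvg V u 0 (Ψ u p).2.1 (hessAvg V u 0 (Ψ u p).2.1 (Ψ u p).2.2) := by
  have hpos : ∀ t ∈ Icc a b, 0 < t := fun t ht => ha.trans_le ht.1
  have hlt : ∀ t ∈ Icc a b, t < τ := fun t ht => ht.2.trans_lt hbτ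
  obtain ⟨-, -, hcHH⟩ := path_continuity hU ha hΨd hΨ0 ht₀ p
  simp only [hessAvg_zero]
  by_cases hκ : κ = 0
  · rw [if_pos hκ]
    have hd : ∀ u ∈ Icc a b, HasDerivWithinAt (fun u => (Ψ u p).2.2) (0 : Euc d) (Icc a b) u :=
      fun u hu => by simpa [velXi, hκ] using (path_deriv hΨd hΨ0 ht₀ p hu).2
    have := (convex_Icc a b).norm_image_sub_le_of_norm_hasDerivWithin_le hd (C := 0)
      (fun u _ => by simp) ht₀ hs
    rw [zero_mul, norm_le_zero_iff, sub_eq_zero] at this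
    simp only [this, hΨ0]
  · rw [if_neg hκ]
    have hw : ∀ u ∈ Icc a b, HasDerivWithinAt
        (fun u => (-(1 / (2 * κ))) • (Ψ u p).2.2 + score V u (Ψ u p).2.1)
        (κ • fderiv ℝ (score V u) (Ψ u p).2.1
          (fderiv ℝ (score V u) (Ψ u p).2.1 (Ψ u p).2.2)) (Icc a b) u := fun u hu => by
      have hS := ((score_tame hU).differentiableAt isOpen_Ioi (hpos u hu)
        (Ψ u p).2.1).hasFDerivAt.comp_hasDerivWithinAt
        (f := fun u => (u, (Ψ u p).2.1)) u ((hasDerivWithinAt_id u _).prodMk (path_deriv hΨd hΨ0 ht₀ p hu).1)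
      refine (((path_deriv hΨd hΨ0 ht₀ p hu).2.const_smul (-(1 / (2 * κ)))).add hS).congr_deriv ?_
      have hr : τ - u ≠ 0 := (sub_pos.2 (hlt u hu)).ne'
      set y := (Ψ u p).2.1
      set w := velY V τ κ u p.1 y (Ψ u p).2.2 with hwdef
      rw [show ((1 : ℝ), w) = (1, 0) + (0, w) by simp, map_add,
        ← (score_tame hU).fderiv_space isOpen_Ioi (hpos u hu), ← scoreDot, hwdef, velY, velXi]
      simp only [map_add, map_smul]
      match_scalars <;> field_simp <;> ring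
    have hc : ContinuousOn (fun u => κ • fderiv ℝ (score V u) (Ψ u p).2.1
        (fderiv ℝ (score V u) (Ψ u p).2.1 (Ψ u p).2.2)) (Icc a b) :=
      hcHH.const_smul κ
    have hI := integral_of_deriv hw hc ht₀ hs
    rw [intervalIntegral.integral_smul] at hI
    rw [hI, hΨ0]
    abel

lemma path_law (hU : Weight V) (ha : 0 < a) (hab : a ≤ b) (hbτ : b < τ) {K C : ℝ} (hK0 : 0 ≤ K)
    (hK : ∀ t ∈ Icc a b, ∀ x y ξ : Euc d,
      ‖velY V τ κ t x y ξ‖ ≤ K * (1 + ‖x‖ + ‖y‖ + ‖ξ‖) ∧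
        ‖velXi V τ κ t x y‖ ≤ K * (1 + ‖x‖ + ‖y‖))
    {v : ℕ → ℝ → Euc d × Euc d × Euc d → Euc d × Euc d × Euc d}
    (hv : Approx a b (triple V τ κ) C v)
    (hΨc : ContinuousOn (fun q : ℝ × (Euc d × Euc d × Euc d) => Ψ q.1 q.2) (Icc a b ×ˢ univ))
    (hΨd : ∀ p, IsSol a b (triple V τ κ) fun t => Ψ t p) (hΨ0 : ∀ p, Ψ t₀ p = p)
    (ht₀ : t₀ ∈ Icc a b) (x : Euc d) {s : ℝ} (hs : s ∈ Icc a b) :
    ((postKernel V τ t₀ x).prod (gauss d)).map (fun q => (Ψ s (x, q.1, q.2)).2)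
      = (postKernel V τ s x).prod (gauss d) := by
  have hsub : Icc a b ⊆ Ioo 0 τ := fun t ht => ⟨ha.trans_le ht.1, ht.2.trans_lt hbτ⟩
  have hPg : ∀ t ∈ Icc a b, ∀ z, ‖pairField V τ κ x t z‖ ≤ 4 * K * (1 + ‖x‖) * (1 + ‖z‖) := by
    intro t ht z
    refine (norm_split_symm_le _).trans ?_
    obtain ⟨h1, h2⟩ := hK t ht x (posL d z) (velL d z)
    have hz1 := mul_le_mul_of_nonneg_left (posL_le z) hK0
    have hz2 := mul_le_mul_of_nonneg_left (velL_le z) hK0
    nlinarith [mul_nonneg hK0 (norm_nonneg x), mul_nonneg (mul_nonneg hK0 (norm_nonneg x))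
      (norm_nonneg z), mul_nonneg hK0 (norm_nonneg z)]
  obtain ⟨Φ, hΦc, hΦ0, hΦd, hΦm⟩ := potential_flow isOpen_Ioo hsub hab
    (pairPot_tame (τ := τ) hU x) (pairField_tame hU x) hPg
    (fun J hJ hJI => pairPot_coercive hU x hJ hJI)
    (fun t ht z => pairField_continuity hU x (hsub ht) z) ht₀
  have hmΦ : Measurable (Φ s) := (hΦc.comp_continuous (continuous_const.prodMk continuous_id)
    fun _ => ⟨hs, trivial⟩).measurable
  have hmΨ : Measurable fun q : Euc d × Euc d => (Ψ s (x, q.1, q.2)).2 :=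
    ((continuous_snd.comp_continuousOn hΨc).comp_continuous
      (continuous_const.prodMk (by fun_prop : Continuous fun q : Euc d × Euc d => (x, q.1, q.2)))
      fun _ => ⟨hs, trivial⟩).measurable
  have heq : (fun q : Euc d × Euc d => (Ψ s (x, q.1, q.2)).2) ∘ split d = split d ∘ Φ s := by
    funext z
    have hsol : IsSol a b (triple V τ κ) fun u => (x, split d (Φ u z)) := fun u hu => by
      have := (hasDerivWithinAt_const u (Icc a b) x).prodMk
        ((split d).hasFDerivAt.comp_hasDerivWithinAt u (hΦd z u hu))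
      refine this.congr_deriv ?_
      simp [triple, pairField, split_apply]
    have hs' := hv.eqOn (hΨd (x, (split d z).1, (split d z).2)) hsol ht₀
      (by simp [hΨ0, hΦ0]) hs
    simp only [Function.comp_apply]
    exact congrArg Prod.snd hs'
  rw [law_eq hU x (hsub ht₀), law_eq hU x (hsub hs),
    Measure.map_map hmΨ (split d).continuous.measurable, heq,
    ← Measure.map_map (split d).continuous.measurable hmΦ, hΦm s hs]

end Paths

end Gadget

open Gadget Vale.Agent.P347.Flow in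
/-- The exact gadget paths: existence, the integral equations and the transported laws. -/
theorem gadget_flow (hT : TensorBoundStatement) :
    ∃ c₀ : ℝ, 0 < c₀ ∧ ∀ (d : ℕ) (V : Euc d → ℝ), NicePot d V 1 2 →
      ∀ τ a b κ t₀ : ℝ, 0 < a → a ≤ b → b < τ → τ ≤ c₀ → (t₀ = a ∨ t₀ = b) →
        ∃ Φ : ℝ → Euc d × Euc d × Euc d → Euc d × Euc d,
          ContinuousOn (fun q : ℝ × (Euc d × Euc d × Euc d) => Φ q.1 q.2)
            (Set.Icc a b ×ˢ Set.univ) ∧
          (∀ p, Φ t₀ p = (p.2.1, p.2.2)) ∧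
          (∀ p, ∀ s ∈ Set.Icc a b,
            (Φ s p).1 = p.1 + √((τ - s) / (τ - t₀)) • (p.2.1 - p.1)
              + ∫ u in t₀..s, √((τ - s) / (τ - u)) •
                  ((1 / 2 : ℝ) • score V u (Φ u p).1
                    + κ • hessAvg V u 0 (Φ u p).1 (Φ u p).2)) ∧
          (∀ p, ∀ s ∈ Set.Icc a b,
            if κ = 0 then (Φ s p).2 = p.2.2
            else (-(1 / (2 * κ))) • (Φ s p).2 + score V s (Φ s p).1
              = (-(1 / (2 * κ))) • p.2.2 + score V t₀ p.2.1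
                + κ • ∫ u in t₀..s,
                  hessAvg V u 0 (Φ u p).1 (hessAvg V u 0 (Φ u p).1 (Φ u p).2)) ∧
          (∀ x, ∀ s ∈ Set.Icc a b,
            ((postKernel V τ t₀ x).prod (gauss d)).map (fun q => Φ s (x, q.1, q.2))
              = (postKernel V τ s x).prod (gauss d)) := by
  obtain ⟨c₁, hc₁, hHess⟩ := exists_hessian_level
  obtain ⟨C₃, hLap⟩ := exists_lapPot_bound hT
  refine ⟨min c₁ (1 / 200), by positivity, fun d V hV τ a b κ t₀ ha hab hbτ hτ hend => ?_⟩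
  have hU := hV.weight
  have hτ1 : τ ≤ c₁ := hτ.trans (min_le_left _ _)
  have hτ2 : τ ≤ 1 / 200 := hτ.trans (min_le_right _ _)
  have ht₀ : t₀ ∈ Icc a b := by
    rcases hend with rfl | rfl
    · exact left_mem_Icc.2 hab
    · exact right_mem_Icc.2 hab
  have hpos : ∀ t ∈ Icc a b, 0 < t := fun t ht => ha.trans_le ht.1
  have hlt : ∀ t ∈ Icc a b, t < τ := fun t ht => ht.2.trans_lt hbτ
  have hsub : Icc a b ⊆ Ioo 0 τ := fun t ht => ⟨hpos t ht, hlt t ht⟩
  have hH : ∀ t ∈ Icc a b, ∀ y, ‖fderiv ℝ (score V t) y‖ ≤ 2 := fun t ht y =>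
    hHess d V hV t (hpos t ht) (by linarith [hlt t ht]) y
  have hL : ∀ t ∈ Icc a b, ∀ y, ‖fderiv ℝ (lapPot V t) y‖ ≤ d * (d * |C₃ * 2 / √a ^ 1|) :=
    fun t ht y => by
    refine (hLap d V hV t (hpos t ht) (by linarith [hlt t ht]) y).trans ?_
    simp only [abs_div, abs_of_nonneg (Real.sqrt_nonneg _), pow_one]
    have : 0 < √a := Real.sqrt_pos.2 ha
    gcongr
    exact ht.1
  obtain ⟨K, hK0, hK⟩ := triple_growth (κ := κ) hU ha hbτ hH (by positivity) hL
  have hgrow : ∀ t ∈ Icc a b, ∀ q, ‖triple V τ κ t q‖ ≤ 3 * K * (1 + ‖q‖) := by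
    rintro t ht ⟨x, y, ξ⟩
    obtain ⟨h1, h2⟩ := hK t ht x y ξ
    have hx : ‖x‖ ≤ ‖(x, y, ξ)‖ := norm_fst_le (x, y, ξ)
    have hy : ‖y‖ ≤ ‖(x, y, ξ)‖ := (norm_fst_le (y, ξ)).trans (norm_snd_le (x, y, ξ))
    have hξ : ‖ξ‖ ≤ ‖(x, y, ξ)‖ := (norm_snd_le (y, ξ)).trans (norm_snd_le (x, y, ξ))
    rw [triple, Prod.norm_def, Prod.norm_def, norm_zero]
    refine max_le (by positivity) (max_le (h1.trans ?_) (h2.trans ?_))
    all_goals nlinarith [norm_nonneg ξ]
  obtain ⟨v, hv⟩ := exists_approx isOpen_Ioo hsub (triple_contDiffOn hU) (by positivity) hgrow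
  obtain ⟨Ψ, hΨc, hΨ0, hΨd⟩ := hv.exists_flow ht₀
  exact ⟨fun s p => (Ψ s p).2, continuous_snd.comp_continuousOn hΨc,
    fun p => by simp [hΨ0], fun p s hs => path_position hU ha hbτ hΨd hΨ0 ht₀ p hs,
    fun p s hs => path_vector hU ha hbτ hΨd hΨ0 ht₀ p hs,
    fun x s hs => path_law hU ha hab hbτ hK0 hK hv hΨc hΨd hΨ0 ht₀ x hs⟩

open Gadget Vale.Agent.P347.Flow in
/-- The backward flow of the levels. -/
theorem levelFlow_exists :
    ∃ c₀ : ℝ, 0 < c₀ ∧ ∀ (d : ℕ) (V : Euc d → ℝ), NicePot d V 1 2 →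
      ∀ a b : ℝ, 0 < a → a ≤ b → b ≤ c₀ →
        ∃ Φ : ℝ → Euc d → Euc d,
          ContinuousOn (fun q : ℝ × Euc d => Φ q.1 q.2) (Set.Icc a b ×ˢ Set.univ) ∧
          (∀ y, ∀ s ∈ Set.Icc a b,
            Φ s y = y + ∫ u in b..s, (1 / 2 : ℝ) • score V u (Φ u y)) ∧
          (∀ s ∈ Set.Icc a b, (levelLaw V b).map (Φ s) = levelLaw V s) := by
  obtain ⟨c₁, hc₁, hHess⟩ := exists_hessian_level
  refine ⟨c₁, hc₁, fun d V hV a b ha hab hb => ?_⟩
  have hU := hV.weight
  have hsub : Icc a b ⊆ Ioi 0 := fun t ht => ha.trans_le ht.1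
  obtain ⟨G, hG0, hG⟩ := score_growth hU ha
    fun t ht y => hHess d V hV t (hsub ht) (ht.2.trans hb) y
  have hg : ∀ t ∈ Icc a b, ∀ y, ‖(1 / 2 : ℝ) • score V t y‖ ≤ (G + 1) * (1 + ‖y‖) := by
    intro t ht y
    rw [norm_smul, Real.norm_eq_abs, abs_of_pos (by norm_num : (0 : ℝ) < 1 / 2)]
    nlinarith [hG t ht y, norm_nonneg y]
  have hce : ∀ t ∈ Icc a b, ∀ y,
      fderiv ℝ (fun q : ℝ × Euc d => smoothPot V q.1 q.2) (t, y) (1, (1 / 2 : ℝ) • score V t y)
        = ∑ i, fderiv ℝ (fun z => ((1 / 2 : ℝ) • score V t z) i) y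
            (EuclideanSpace.single i 1) := by
    intro t ht y
    rw [show ((1 : ℝ), (1 / 2 : ℝ) • score V t y)
      = (1, 0) + (1 / 2 : ℝ) • (0, score V t y) by simp, map_add, map_smul,
      ← (smoothPot_tame hU).fderiv_space isOpen_Ioi (hsub ht), pdt_smoothPot hU (hsub ht),
      ← score_inner, real_inner_self_eq_norm_sq, smul_eq_mul, ← sum_fderiv_score V t y,
      sub_add_cancel, Finset.mul_sum]
    refine Finset.sum_congr rfl fun i _ => ?_
    have hd := ((score_tame hU).component isOpen_Ioi i).differentiableAt_space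
      (I := Ioi 0) (hsub ht) y
    simp only [PiLp.smul_apply, smul_eq_mul]
    rw [fderiv_const_mul hd]
    rfl
  obtain ⟨Φ, hΦc, hΦ0, hΦd, hΦm⟩ := potential_flow isOpen_Ioi hsub hab (smoothPot_tame hU)
    ((score_tame hU).const_smul isOpen_Ioi (1 / 2 : ℝ)) hg
    (fun J hJ hJI => smoothPot_coercive hU hJ hJI) hce (right_mem_Icc.2 hab)
  refine ⟨Φ, hΦc, fun y s hs => ?_, fun s hs => hΦm s hs⟩
  have hc : ContinuousOn (fun u => (1 / 2 : ℝ) • score V u (Φ u y)) (Icc a b) :=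
    ((score_tame hU).1.continuousOn.comp
      (continuousOn_id.prodMk fun u hu => (hΦd y u hu).continuousWithinAt)
      fun u hu => ⟨hsub hu, trivial⟩).const_smul (1 / 2 : ℝ)
  rw [integral_of_deriv (hΦd y) hc (right_mem_Icc.2 hab) hs, hΦ0, add_sub_cancel]

end Vale.Agent.P347
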