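import Vale.Agent.P347.PostCov
import Vale.Agent.P347.CalcIdent

/-!
The backward equation for posterior means: Duhamel's formula along the smoothed potentials.
-/

namespace Vale.Agent.P347

open MeasureTheory ProbabilityTheory Filter Set
open scoped Gradient RealInnerProductSpace ContDiff Topology

variable {d : ℕ} {F : Type} [NormedAddCommGroup F] [NormedSpace ℝ F] {U : Euc d → ℝ}

/-- The space-time derivative in the time direction. -/
noncomputable def pdt (G : ℝ → Euc d → F) (t : ℝ) (x : Euc d) : F :=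
  fderiv ℝ (fun q : ℝ × Euc d => G q.1 q.2) (t, x) (1, 0)

/-- The defect of `G` from solving `∂ₜG = ½ΔG - ∇uₜ · ∇G`, where `uₜ` is the smoothed potential. -/
noncomputable def defect (U : Euc d → ℝ) (G : ℝ → Euc d → F) (t : ℝ) (x : Euc d) : F :=
  pdt G t x - (1 / 2 : ℝ) • lapF (G t) x
    + ∑ i, fderiv ℝ (smoothPot U t) x (unitVec i) • fderiv ℝ (G t) x (unitVec i)

lemma lapF_eq_sum {f : Euc d → F} (hf : ContDiff ℝ ∞ f) (x : Euc d) :
    lapF f x = ∑ i, fderiv ℝ (fun y => fderiv ℝ f y (unitVec i)) x (unitVec i) := by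
  refine Finset.sum_congr rfl fun i _ => ?_
  rw [fderiv_clm_apply ((hf.fderiv_right (m := ∞) le_rfl).differentiable (by simp) x)
    (differentiableAt_const _)]
  simp

lemma lapF_smul {a : Euc d → ℝ} {f : Euc d → F} (ha : ContDiff ℝ ∞ a) (hf : ContDiff ℝ ∞ f)
    (x : Euc d) :
    lapF (fun y => a y • f y) x = lapF a x • f x
      + (2 : ℝ) • ∑ i, fderiv ℝ a x (unitVec i) • fderiv ℝ f x (unitVec i) + a x • lapF f x := by
  have hda := ha.differentiable (by simp)
  have hdf := hf.differentiable (by simp)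
  have hda2 : ∀ i, Differentiable ℝ fun y => fderiv ℝ a y (unitVec i) := fun i =>
    ((ha.fderiv_right (m := ∞) le_rfl).clm_apply contDiff_const).differentiable (by simp)
  have hdf2 : ∀ i, Differentiable ℝ fun y => fderiv ℝ f y (unitVec i) := fun i =>
    ((hf.fderiv_right (m := ∞) le_rfl).clm_apply contDiff_const).differentiable (by simp)
  rw [lapF_eq_sum (f := fun y => a y • f y) (ha.smul hf), lapF_eq_sum ha, lapF_eq_sum hf, Finset.smul_sum, Finset.sum_smul,
    Finset.smul_sum, ← Finset.sum_add_distrib, ← Finset.sum_add_distrib]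
  refine Finset.sum_congr rfl fun i _ => ?_
  have e : (fun y => fderiv ℝ (fun y => a y • f y) y (unitVec i))
      = fun y => a y • fderiv ℝ f y (unitVec i) + fderiv ℝ a y (unitVec i) • f y := by
    funext y
    rw [fderiv_fun_smul (hda y) (hdf y)]
    simp
  have d1 : DifferentiableAt ℝ (fun y => a y • fderiv ℝ f y (unitVec i)) x :=
    (hda x).smul (hdf2 i x)
  have d2 : DifferentiableAt ℝ (fun y => fderiv ℝ a y (unitVec i) • f y) x :=
    (hda2 i x).smul (hdf x)
  rw [e, fderiv_fun_add d1 d2,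
    fderiv_fun_smul (hda x) (hdf2 i x), fderiv_fun_smul (hda2 i x) (hdf x), two_smul]
  simp
  abel

lemma tame_tameN {G : ℝ → Euc d → F} {I : Set ℝ} (hG : Tame I G) (n : ℕ) :
    TameN I n fun p : ℝ × Euc d => G p.1 p.2 := by
  refine ⟨hG.1.of_le (mod_cast le_top), fun J hJ hJI => ?_⟩
  obtain ⟨C, p, hC, h⟩ := hG.bound_upTo n hJ hJI
  exact ⟨C, p, hC, h⟩

lemma Tame.temperate {G : ℝ → Euc d → F} {I : Set ℝ} (hG : Tame I G) (hI : IsOpen I) {t : ℝ}
    (ht : t ∈ I) : Function.HasTemperateGrowth (G t) :=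
  temperate_slice hI (tame_tameN hG) ht

/-- Differentiation of a backward heat integral, before integrating by parts. -/
lemma hasDerivAt_heat_backward_aux [CompleteSpace F] {f : ℝ → Euc d → F} {I : Set ℝ}
    (hI : IsOpen I) (hf : ContDiffOn ℝ ∞ (fun p : ℝ × Euc d => f p.1 p.2) (I ×ˢ univ))
    (hb : ∀ J : Set ℝ, IsCompact J → J ⊆ I → ∃ C : ℝ, ∀ r ∈ J, ∀ x,
      ‖f r x‖ ≤ C ∧ ‖fderiv ℝ (fun p : ℝ × Euc d => f p.1 p.2) (r, x)‖ ≤ C)
    {s t : ℝ} (hs : s ∈ I) (hst : s < t) (y : Euc d) :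
    HasDerivAt (fun r => heat (t - r) (f r) y)
      (∫ η, fderiv ℝ (fun p : ℝ × Euc d => f p.1 p.2) (s, y + √(t - s) • η)
        (1, (-1 / (2 * √(t - s))) • η) ∂(gauss d)) s := by
  set f' : ℝ × Euc d → F := fun p => f p.1 p.2 with hf'
  obtain ⟨δ, hδ, hball⟩ := Metric.isOpen_iff.1 hI s hs
  set ε := min (δ / 2) ((t - s) / 2) with hε
  have hε0 : 0 < ε := lt_min (by linarith) (by linarith)
  have hJI : Set.Icc (s - ε) (s + ε) ⊆ I := fun r hr => hball (by
    rw [Metric.mem_ball, Real.dist_eq, abs_lt]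
    constructor <;> linarith [hr.1, hr.2, min_le_left (δ / 2) ((t - s) / 2)])
  obtain ⟨C, hC⟩ := hb _ isCompact_Icc hJI
  have hU : IsOpen (I ×ˢ (univ : Set (Euc d))) := hI.prod isOpen_univ
  have hdiff : ∀ r ∈ I, ∀ x, HasFDerivAt f' (fderiv ℝ f' (r, x)) (r, x) := fun r hr x =>
    ((hf.differentiableOn (by simp)).differentiableAt (hU.mem_nhds ⟨hr, trivial⟩)).hasFDerivAt
  have hC0 : 0 ≤ C :=
    (norm_nonneg _).trans (hC s ⟨by linarith, by linarith⟩ 0).1
  have hts : 0 < (t - s) / 2 := by linarith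
  set K := C * (1 + ‖(1 / (2 * √((t - s) / 2)) : ℝ)‖) with hK
  have hint : Integrable (fun η : Euc d => K * (1 + ‖η‖)) (gauss d) :=
    ((integrable_const (1 : ℝ)).add
      (by simpa using gauss_integrable_norm_pow (d := d) 1)).const_mul K
  have hcont : ∀ r ∈ I, Continuous fun η : Euc d => f r (y + √(t - r) • η) := fun r hr =>
    hf.continuousOn.comp_continuous (f := fun η : Euc d => (r, y + √(t - r) • η)) (by fun_prop)
      fun η => ⟨hr, trivial⟩
  have hsmem : s ∈ Set.Icc (s - ε) (s + ε) := ⟨by linarith, by linarith⟩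
  refine (hasDerivAt_integral_of_dominated_loc_of_deriv_le (μ := gauss d) (x₀ := s)
    (s := Set.Ioo (s - ε) (s + ε)) (F := fun r η => f r (y + √(t - r) • η))
    (F' := fun r η => fderiv ℝ f' (r, y + √(t - r) • η) (1, (-1 / (2 * √(t - r))) • η))
    (bound := fun η => K * (1 + ‖η‖)) (Ioo_mem_nhds (by linarith) (by linarith)) ?_ ?_ ?_ ?_ hint
    ?_).2
  · filter_upwards [hI.mem_nhds hs] with r hr using (hcont r hr).aestronglyMeasurable
  · exact Integrable.mono' (integrable_const C) (hcont s hs).aestronglyMeasurable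
      (.of_forall fun η => (hC s hsmem _).1)
  · refine Continuous.aestronglyMeasurable ?_
    exact ((hf.continuousOn_fderiv_of_isOpen hU (by simp)).comp_continuous
      (f := fun η : Euc d => (s, y + √(t - s) • η)) (by fun_prop)
      fun η => ⟨hs, trivial⟩).clm_apply (by fun_prop)
  · refine .of_forall fun η r hr => ?_
    have hrt : (t - s) / 2 ≤ t - r := by linarith [hr.2, min_le_right (δ / 2) ((t - s) / 2)]
    refine (ContinuousLinearMap.le_opNorm _ _).trans ?_
    rw [hK, mul_assoc]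
    refine mul_le_mul (hC r (Ioo_subset_Icc_self hr) _).2 ?_ (norm_nonneg _) hC0
    refine max_le ?_ ?_
    · rw [norm_one]
      nlinarith [norm_nonneg η, norm_nonneg (1 / (2 * √((t - s) / 2)) : ℝ)]
    · simp only [norm_smul, norm_div, norm_neg, norm_one, norm_mul, Real.norm_two]
      have h3 : √((t - s) / 2) ≤ √(t - r) := Real.sqrt_le_sqrt hrt
      have h4 : 0 < √((t - s) / 2) := Real.sqrt_pos.2 hts
      rw [Real.norm_of_nonneg (Real.sqrt_nonneg _), Real.norm_of_nonneg h4.le]
      calc 1 / (2 * √(t - r)) * ‖η‖ ≤ 1 / (2 * √((t - s) / 2)) * ‖η‖ := by gcongr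
        _ ≤ (1 + 1 / (2 * √((t - s) / 2))) * (1 + ‖η‖) := by
          nlinarith [norm_nonneg η, one_div_pos.2 (mul_pos two_pos h4)]
  · refine .of_forall fun η r hr => ?_
    have hrt : 0 < t - r := by linarith [hr.2, min_le_right (δ / 2) ((t - s) / 2)]
    have h1 : HasDerivAt (fun r => (r, y + √(t - r) • η))
        ((1 : ℝ), (-1 / (2 * √(t - r))) • η) r :=
      (hasDerivAt_id r).prodMk
        ((((hasDerivAt_id r).const_sub t).sqrt hrt.ne').smul_const η |>.const_add y)
    exact (hdiff r (hJI (Ioo_subset_Icc_self hr)) _).comp_hasDerivAt r h1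

/-- Differentiation of a backward heat integral. -/
lemma hasDerivAt_heat_backward [CompleteSpace F] {f : ℝ → Euc d → F} {I : Set ℝ}
    (hI : IsOpen I) (hf : ContDiffOn ℝ ∞ (fun p : ℝ × Euc d => f p.1 p.2) (I ×ˢ univ))
    (hb : ∀ J : Set ℝ, IsCompact J → J ⊆ I → ∃ C : ℝ, ∀ r ∈ J, ∀ x,
      ‖f r x‖ ≤ C ∧ ‖fderiv ℝ (fun p : ℝ × Euc d => f p.1 p.2) (r, x)‖ ≤ C)
    (hbs : ∀ r ∈ I, BddSmooth (f r)) {s t : ℝ} (hs : s ∈ I) (hst : s < t) (y : Euc d) :
    HasDerivAt (fun r => heat (t - r) (f r) y)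
      (heat (t - s) (fun x => pdt f s x - (1 / 2 : ℝ) • lapF (f s) x) y) s := by
  set f' : ℝ × Euc d → F := fun p => f p.1 p.2 with hf'
  set g := f s with hg
  have hgs := hbs s hs
  have hts : 0 < t - s := sub_pos.2 hst
  have hU : IsOpen (I ×ˢ (univ : Set (Euc d))) := hI.prod isOpen_univ
  -- integration by parts, from the uniqueness of the derivative for `g` constant in time
  have hg2 : ∀ p : ℝ × Euc d, HasFDerivAt (fun p : ℝ × Euc d => g p.2)
      ((fderiv ℝ g p.2).comp (ContinuousLinearMap.snd ℝ ℝ (Euc d))) p := fun p =>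
    (hgs.differentiable p.2).hasFDerivAt.comp p hasFDerivAt_snd
  have hgb : ∀ J : Set ℝ, IsCompact J → J ⊆ (univ : Set ℝ) → ∃ C : ℝ, ∀ r ∈ J, ∀ x,
      ‖g x‖ ≤ C ∧ ‖fderiv ℝ (fun p : ℝ × Euc d => g p.2) (r, x)‖ ≤ C := by
    intro J _ _
    obtain ⟨C, hC0, hC⟩ := hgs.norm_le
    obtain ⟨D, hD0, hD⟩ := hgs.fderiv.norm_le
    refine ⟨max C D, fun r _ x => ⟨(hC x).trans (le_max_left _ _), ?_⟩⟩
    rw [(hg2 (r, x)).fderiv]
    refine (ContinuousLinearMap.opNorm_comp_le _ _).trans ?_
    exact (mul_le_of_le_one_right (norm_nonneg _) (ContinuousLinearMap.norm_snd_le _ _ _)).trans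
      ((hD x).trans (le_max_right _ _))
  have k1 := hasDerivAt_heat_backward_aux (f := fun _ : ℝ => g) isOpen_univ
    (hgs.smooth.comp contDiff_snd).contDiffOn hgb (mem_univ s) hst y
  have k2 : HasDerivAt (fun r => heat (t - r) g y)
      (-((1 / 2 : ℝ) • heat (t - s) (lapF g) y)) s := by
    simpa [Function.comp_def, hg] using (heat_hasDerivAt hgs hts y).scomp s ((hasDerivAt_id s).const_sub t)
  have key := k1.unique k2
  -- split the derivative into the time and space parts
  have hdiff : ∀ x, HasFDerivAt f' (fderiv ℝ f' (s, x)) (s, x) := fun x =>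
    ((hf.differentiableOn (by simp)).differentiableAt (hU.mem_nhds ⟨hs, trivial⟩)).hasFDerivAt
  have hsp : ∀ x v, fderiv ℝ g x v = fderiv ℝ f' (s, x) (0, v) := fun x v => by
    have h := (hdiff x).comp x (hasFDerivAt_prodMk_right (𝕜 := ℝ) s x)
    have h' : HasFDerivAt g ((fderiv ℝ f' (s, x)).comp (ContinuousLinearMap.inr ℝ ℝ (Euc d))) x := h
    rw [h'.fderiv]
    rfl
  refine (hasDerivAt_heat_backward_aux hI hf hb hs hst y).congr_deriv ?_
  have hsplit : ∀ η : Euc d,
      fderiv ℝ f' (s, y + √(t - s) • η) (1, (-1 / (2 * √(t - s))) • η)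
      = pdt f s (y + √(t - s) • η)
        + fderiv ℝ (fun p : ℝ × Euc d => g p.2) (s, y + √(t - s) • η)
            (1, (-1 / (2 * √(t - s))) • η) := by
    intro η
    rw [(hg2 _).fderiv, ContinuousLinearMap.comp_apply, ContinuousLinearMap.coe_snd', hsp,
      pdt, ← map_add]
    simp [hf']
  obtain ⟨C, hC⟩ := hb {s} isCompact_singleton (by simpa using hs)
  have hc : Continuous fun x => pdt f s x :=
    ((hf.continuousOn_fderiv_of_isOpen hU (by simp)).comp_continuous
      (f := fun x : Euc d => (s, x)) (by fun_prop) fun x => ⟨hs, trivial⟩).clm_apply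
        continuous_const
  have hi1 : Integrable (fun η => pdt f s (y + √(t - s) • η)) (gauss d) :=
    Integrable.mono' (integrable_const C) (hc.comp (by fun_prop)).aestronglyMeasurable
      (.of_forall fun η => ((fderiv ℝ f' _).le_opNorm _).trans
        ((mul_le_of_le_one_right (norm_nonneg _) (by simp [Prod.norm_def])).trans
          (hC s rfl _).2))
  obtain ⟨D, hD0, hD⟩ := hgs.fderiv.norm_le
  have hi2 : Integrable (fun η => fderiv ℝ (fun p : ℝ × Euc d => g p.2) (s, y + √(t - s) • η)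
      (1, (-1 / (2 * √(t - s))) • η)) (gauss d) := by
    have e : (fun η => fderiv ℝ (fun p : ℝ × Euc d => g p.2) (s, y + √(t - s) • η)
        (1, (-1 / (2 * √(t - s))) • η))
        = fun η => (-1 / (2 * √(t - s))) • fderiv ℝ g (y + √(t - s) • η) η := by
      funext η
      simp [(hg2 _).fderiv]
    rw [e]
    have hcg := hgs.fderiv.continuous
    refine Integrable.smul _ (gauss_integrable_of_growth (by fun_prop) (C := D) (n := 1) fun η => ?_)
    rw [pow_one]
    exact ((fderiv ℝ g _).le_opNorm η).trans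
      (mul_le_mul (hD _) (by linarith) (norm_nonneg _) hD0)
  refine (integral_congr_ae (.of_forall hsplit)).trans ?_
  rw [integral_add hi1 hi2, key, ← sub_eq_add_neg]
  rw [heat, heat, ← integral_smul]
  exact (integral_sub hi1 ((hgs.lapF.heat_integrable _ y).smul (1 / 2 : ℝ))).symm

/-- The smoothed density times a tame field is bounded, locally uniformly in time. -/
lemma density_smul_bound (hU : Weight U) {G : ℝ → Euc d → F} (hG : Tame (Ioi 0) G) {J : Set ℝ}
    (hJ : IsCompact J) (hJI : J ⊆ Ioi 0) :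
    ∃ C : ℝ, ∀ r ∈ J, ∀ x, ‖smoothDensity U r x • G r x‖ ≤ C := by
  obtain ⟨T, hT⟩ := hJ.bddAbove
  obtain ⟨c, M, hc, hM, hup⟩ := smoothDensity_upper hU T
  obtain ⟨C, p, hC, hb⟩ := hG.bound_upTo 0 hJ hJI
  obtain ⟨K, hK⟩ : ∃ K, ∀ z : Euc d, Real.exp (-(c * ‖z‖ ^ 2)) * (1 + ‖z‖) ^ p ≤ K :=
    Weight.exp_mul_pow_le (U := fun z : Euc d => c * ‖z‖ ^ 2)
      ⟨(Function.HasTemperateGrowth.const c).mul (Function.hasTemperateGrowth_norm_sq _),
        c, 0, hc, fun z => by simp⟩ p
  refine ⟨M * C * K, fun r hr x => ?_⟩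
  rw [norm_smul, Real.norm_eq_abs, abs_of_pos (smoothDensity_pos hU r x)]
  have h1 : ‖G r x‖ ≤ C * (1 + ‖x‖) ^ p := by simpa using hb 0 le_rfl r hr x
  calc smoothDensity U r x * ‖G r x‖
      ≤ M * Real.exp (-(c * ‖x‖ ^ 2)) * (C * (1 + ‖x‖) ^ p) :=
        mul_le_mul (hup r ⟨(hJI hr).le, hT hr⟩ x) h1 (norm_nonneg _) (by positivity)
    _ = M * C * (Real.exp (-(c * ‖x‖ ^ 2)) * (1 + ‖x‖) ^ p) := by ring
    _ ≤ M * C * K := mul_le_mul_of_nonneg_left (hK x) (by positivity)

lemma postMean_smoothPot_eq (hU : Weight U) {r t : ℝ} (hr : 0 ≤ r) (hrt : r ≤ t)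
    (φ : Euc d → F) (y : Euc d) :
    postMean (smoothPot U r) (t - r) φ y
      = (smoothDensity U t y)⁻¹ • heat (t - r) (fun x => smoothDensity U r x • φ x) y := by
  have h : smoothDensity (smoothPot U r) (t - r) y = smoothDensity U t y := by
    rw [← exp_neg_smoothPot (hU.smoothPot hr), ← exp_neg_smoothPot hU,
      smoothPot_semigroup hU hr (sub_nonneg.2 hrt), add_sub_cancel]
  rw [postMean, h]
  simp only [exp_neg_smoothPot hU]

lemma smoothPot_smooth (hU : Weight U) {t : ℝ} (ht : 0 < t) : ContDiff ℝ ∞ (smoothPot U t) :=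
  (smoothPot_tame hU).contDiff_space ht

lemma tame_grad (hU : Weight U) (i : Fin d) :
    Tame (Ioi 0) fun t x => fderiv ℝ (smoothPot U t) x (unitVec i) :=
  (smoothPot_tame hU).fderiv_space_apply isOpen_Ioi (unitVec i)

lemma Tame.defect {G : ℝ → Euc d → F} (hG : Tame (Ioi 0) G) (hU : Weight U) :
    Tame (Ioi 0) (defect U G) := by
  have hI : IsOpen (Ioi (0 : ℝ)) := isOpen_Ioi
  refine ((((hG.fderiv_apply (Tame.const ((1 : ℝ), (0 : Euc d))) hI).sub
    ((Tame.sum Finset.univ hI fun i _ => (hG.fderiv_space_apply hI (unitVec i)).fderiv_space_apply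
      hI (unitVec i)).const_smul hI (1 / 2 : ℝ)) hI).add
    (Tame.sum Finset.univ hI fun i _ => (tame_grad hU i).bilin
      (hG.fderiv_space_apply hI (unitVec i)) hI (ContinuousLinearMap.lsmul ℝ ℝ)) hI)).of_eq hI
    fun t ht x => ?_
  simp [Vale.Agent.P347.defect, pdt, lapF_eq_sum (hG.contDiff_space ht)]

lemma contDiffOn_density_smul (hU : Weight U) {G : ℝ → Euc d → F} (hG : Tame (Ioi 0) G) :
    ContDiffOn ℝ ∞ (fun p : ℝ × Euc d => smoothDensity U p.1 p.2 • G p.1 p.2)
      (Ioi (0 : ℝ) ×ˢ univ) := by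
  refine ContDiffOn.smul ?_ hG.1
  exact (Real.contDiff_exp.comp_contDiffOn (smoothPot_tame hU).1.neg).congr fun p _ =>
    (exp_neg_smoothPot hU p.1 p.2).symm

lemma fderiv_smoothDensity_joint (hU : Weight U) {t : ℝ} (ht : 0 < t) (x : Euc d) :
    HasFDerivAt (fun p : ℝ × Euc d => smoothDensity U p.1 p.2)
      (-(smoothDensity U t x • fderiv ℝ (fun p : ℝ × Euc d => smoothPot U p.1 p.2) (t, x)))
      (t, x) := by
  refine (hasFDerivAt_smoothDensity hU ht x).congr_fderiv ?_
  rw [(hasFDerivAt_smoothPot hU ht x).fderiv, smul_neg, neg_neg]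

lemma pdt_smoothDensity (hU : Weight U) {t : ℝ} (ht : 0 < t) (x : Euc d) :
    pdt (smoothDensity U) t x = (1 / 2 : ℝ) * lapF (smoothDensity U t) x := by
  have hb := hU.bddSmooth_exp
  have h1 : fderiv ℝ (fun p : ℝ × Euc d => heat p.1 (fun z => Real.exp (-U z)) p.2) (t, x) (1, 0)
      = (1 / 2 : ℝ) * heat t (lapF fun z => Real.exp (-U z)) x := by
    rw [(heat_hasFDerivAt_joint hb ht x).fderiv]
    simp
  refine h1.trans (congrArg _ ?_)
  have e : smoothDensity U t = heat t fun z => Real.exp (-U z) := rfl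
  rw [e, lapF, heat_fderiv hb, heat_fderiv hb.fderiv]
  have hi : ∀ i : Fin d, Integrable (fun η => fderiv ℝ (fderiv ℝ fun z => Real.exp (-U z))
      (x + √t • η) (unitVec i) (unitVec i)) (gauss d) := fun i =>
    ((hb.fderiv.fderiv.clm (ContinuousLinearMap.apply ℝ (Euc d →L[ℝ] ℝ) (unitVec i))).clm
      (ContinuousLinearMap.apply ℝ ℝ (unitVec i))).heat_integrable t x
  refine (integral_finsetSum _ fun i _ => hi i).trans (Finset.sum_congr rfl fun i _ => ?_)
  refine (heat_clm (hb.fderiv.fderiv.clm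
    (ContinuousLinearMap.apply ℝ (Euc d →L[ℝ] ℝ) (unitVec i)))
    (ContinuousLinearMap.apply ℝ ℝ (unitVec i)) t x).trans ?_
  rw [heat_clm hb.fderiv.fderiv (ContinuousLinearMap.apply ℝ (Euc d →L[ℝ] ℝ) (unitVec i)) t x]
  rfl

lemma fderiv_smoothDensity_space (hU : Weight U) {t : ℝ} (ht : 0 < t) :
    fderiv ℝ (smoothDensity U t)
      = fun x => -(smoothDensity U t x • fderiv ℝ (smoothPot U t) x) := by
  funext x
  have e : smoothDensity U t = fun x => Real.exp ((-smoothPot U t) x) :=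
    funext fun x => (exp_neg_smoothPot hU t x).symm
  have h := ((smoothPot_smooth hU ht).differentiable (by simp) x).hasFDerivAt.neg.exp.fderiv
  rw [e, h, ← smul_neg]

lemma pdt_density_smul (hU : Weight U) {G : ℝ → Euc d → F} (hG : Tame (Ioi 0) G) {t : ℝ}
    (ht : 0 < t) (x : Euc d) :
    pdt (fun r z => smoothDensity U r z • G r z) t x
        - (1 / 2 : ℝ) • lapF (fun z => smoothDensity U t z • G t z) x
      = smoothDensity U t x • defect U G t x := by
  have hq : ContDiff ℝ ∞ (smoothDensity U t) := by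
    rw [show smoothDensity U t = fun x => Real.exp (-smoothPot U t x) from
      funext fun x => (exp_neg_smoothPot hU t x).symm]
    exact Real.contDiff_exp.comp (smoothPot_smooth hU ht).neg
  have hGd : DifferentiableAt ℝ (fun p : ℝ × Euc d => G p.1 p.2) (t, x) :=
    hG.differentiableAt isOpen_Ioi ht x
  have hqd := (fderiv_smoothDensity_joint hU ht x).differentiableAt
  have e1 : pdt (fun r z => smoothDensity U r z • G r z) t x
      = smoothDensity U t x • pdt G t x + pdt (smoothDensity U) t x • G t x := by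
    simp [pdt, fderiv_fun_smul hqd hGd]
  rw [e1, lapF_smul hq (hG.contDiff_space ht), pdt_smoothDensity hU ht,
    fderiv_smoothDensity_space hU ht, defect]
  simp only [neg_apply, smul_apply, smul_eq_mul, smul_add, smul_sub, Finset.smul_sum, smul_smul,
    neg_smul, smul_neg, Finset.sum_neg_distrib]
  simp only [show ∀ c : ℝ, 1 / 2 * (2 * c) = c from fun c => by ring,
    mul_comm (smoothDensity U t x) (1 / 2 : ℝ)]
  abel

variable [CompleteSpace F]

lemma bddSmooth_density_smul (hU : Weight U) {G : ℝ → Euc d → F} (hG : Tame (Ioi 0) G) {t : ℝ}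
    (ht : 0 < t) : BddSmooth fun z => smoothDensity U t z • G t z := by
  simpa only [exp_neg_smoothPot hU] using
    (hU.smoothPot ht.le).bddSmooth_smul (hG.temperate isOpen_Ioi ht)

/-- The backward equation. -/
lemma hasDerivAt_heat_density (hU : Weight U) {G : ℝ → Euc d → F} (hG : Tame (Ioi 0) G)
    {s t : ℝ} (hs : 0 < s) (hst : s < t) (y : Euc d) :
    HasDerivAt (fun r => heat (t - r) (fun z => smoothDensity U r z • G r z) y)
      (heat (t - s) (fun z => smoothDensity U s z • defect U G s z) y) s := by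
  have hI : IsOpen (Ioi (0 : ℝ)) := isOpen_Ioi
  set H : ℝ → Euc d → ((ℝ × Euc d) →L[ℝ] F) := fun r z =>
    fderiv ℝ (fun p : ℝ × Euc d => G p.1 p.2) (r, z)
      - ContinuousLinearMap.smulRightL ℝ (ℝ × Euc d) F
          (fderiv ℝ (fun p : ℝ × Euc d => smoothPot U p.1 p.2) (r, z)) (G r z) with hH
  have hHt : Tame (Ioi 0) H := (hG.fderiv_joint hI).sub
    (((smoothPot_tame hU).fderiv_joint hI).bilin hG hI
      (ContinuousLinearMap.smulRightL ℝ (ℝ × Euc d) F)) hI
  have hb : ∀ J : Set ℝ, IsCompact J → J ⊆ Ioi 0 → ∃ C : ℝ, ∀ r ∈ J, ∀ x,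
      ‖smoothDensity U r x • G r x‖ ≤ C ∧
      ‖fderiv ℝ (fun p : ℝ × Euc d => smoothDensity U p.1 p.2 • G p.1 p.2) (r, x)‖ ≤ C := by
    intro J hJ hJI
    obtain ⟨C₁, h₁⟩ := density_smul_bound hU hG hJ hJI
    obtain ⟨C₂, h₂⟩ := density_smul_bound hU hHt hJ hJI
    refine ⟨max C₁ C₂, fun r hr x => ⟨(h₁ r hr x).trans (le_max_left _ _), ?_⟩⟩
    refine le_of_eq_of_le ?_ ((h₂ r hr x).trans (le_max_right C₁ C₂))
    congr 1
    have hd := fderiv_smoothDensity_joint hU (hJI hr) x
    rw [fderiv_fun_smul hd.differentiableAt (hG.differentiableAt hI (hJI hr) x), hd.fderiv]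
    ext q <;> simp [hH, smul_sub, smul_smul, sub_eq_add_neg]
  have h := hasDerivAt_heat_backward hI (contDiffOn_density_smul hU hG) hb
    (fun r hr => bddSmooth_density_smul hU hG hr) (show s ∈ Ioi (0 : ℝ) from hs) hst y
  refine h.congr_deriv ?_
  exact integral_congr_ae (.of_forall fun η => pdt_density_smul hU hG hs _)

omit [CompleteSpace F] in
lemma continuousOn_heat_density (hU : Weight U) {G : ℝ → Euc d → F} (hG : Tame (Ioi 0) G)
    {a t : ℝ} (ha : 0 < a) (y : Euc d) :
    ContinuousOn (fun r => heat (t - r) (fun z => smoothDensity U r z • G r z) y) (Icc a t) := by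
  obtain ⟨C, hC⟩ := density_smul_bound hU hG isCompact_Icc
    (J := Icc a t) (fun r hr => lt_of_lt_of_le ha hr.1)
  have hc := (contDiffOn_density_smul hU hG).continuousOn
  have hmem : ∀ r ∈ Icc a t, ∀ x : Euc d, (r, x) ∈ Ioi (0 : ℝ) ×ˢ (univ : Set (Euc d)) :=
    fun r hr x => ⟨lt_of_lt_of_le ha hr.1, trivial⟩
  refine continuousOn_of_dominated (bound := fun _ => C) (fun r hr => ?_)
    (fun r hr => .of_forall fun η => hC r hr _) (integrable_const C) (.of_forall fun η => ?_)
  · exact (hc.comp_continuous (f := fun η : Euc d => (r, y + √(t - r) • η)) (by fun_prop)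
      fun η => hmem r hr _).aestronglyMeasurable
  · exact hc.comp (f := fun r : ℝ => (r, y + √(t - r) • η)) (by fun_prop)
      fun r hr => hmem r hr _

omit [CompleteSpace F] in
lemma continuousOn_postMean_level (hU : Weight U) {G : ℝ → Euc d → F} (hG : Tame (Ioi 0) G)
    {a t : ℝ} (ha : 0 < a) (y : Euc d) :
    ContinuousOn (fun r => postMean (smoothPot U r) (t - r) (G r) y) (Icc a t) :=
  ((continuousOn_heat_density hU hG ha y).const_smul (smoothDensity U t y)⁻¹).congr fun r hr =>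
    postMean_smoothPot_eq hU (ha.le.trans hr.1) hr.2 _ y

/-- The time derivative of the posterior expectation of a moving test field. -/
lemma hasDerivAt_postMean_backward (hU : Weight U) {G : ℝ → Euc d → F} (hG : Tame (Ioi 0) G)
    {s t : ℝ} (hs : 0 < s) (hst : s < t) (y : Euc d) :
    HasDerivAt (fun r => postMean (smoothPot U r) (t - r) (G r) y)
      (postMean (smoothPot U s) (t - s) (defect U G s) y) s := by
  rw [postMean_smoothPot_eq hU hs.le hst.le]
  refine ((hasDerivAt_heat_density hU hG hs hst y).const_smul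
    (smoothDensity U t y)⁻¹).congr_of_eventuallyEq ?_
  filter_upwards [Ioo_mem_nhds hs hst] with r hr using
    postMean_smoothPot_eq hU hr.1.le hr.2.le _ y

/-- Duhamel's formula. -/
theorem postMean_duhamel (hU : Weight U) {G : ℝ → Euc d → F} (hG : Tame (Ioi 0) G)
    {a t : ℝ} (ha : 0 < a) (hat : a ≤ t) (y : Euc d) :
    G t y = postMean (smoothPot U a) (t - a) (G a) y
      + ∫ r in a..t, postMean (smoothPot U r) (t - r) (defect U G r) y := by
  have hc := continuousOn_postMean_level hU hG ha (t := t) y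
  have hc' := continuousOn_postMean_level hU (hG.defect hU) ha (t := t) y
  have hend : postMean (smoothPot U t) (t - t) (G t) y = G t y := by
    rw [postMean_smoothPot_eq hU (ha.le.trans hat) le_rfl]
    simp [smul_smul, inv_mul_cancel₀ (smoothDensity_pos hU t y).ne']
  rw [intervalIntegral.integral_eq_sub_of_hasDerivAt_of_le hat hc
    (fun r hr => hasDerivAt_postMean_backward hU hG (ha.trans hr.1) hr.2 y)
    (hc'.intervalIntegrable_of_Icc hat), hend]
  abel

end Vale.Agent.P347
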