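import Vale.Agent.P347.CalcDefs

/-!
Finite order version of `Tame`, for proofs by induction on the order.
-/

namespace Vale.Agent.P347

open Set
open scoped ContDiff

variable {ι : Type} [Fintype ι] {F G K : Type*}
  [NormedAddCommGroup F] [NormedSpace ℝ F] [NormedAddCommGroup G] [NormedSpace ℝ G]
  [NormedAddCommGroup K] [NormedSpace ℝ K]

/-- `C^n` on `I × Sp ι` with polynomially bounded derivatives up to order `n`. -/
structure TameN (I : Set ℝ) (n : ℕ) (g : ℝ × Sp ι → F) : Prop where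
  smooth : ContDiffOn ℝ n g (I ×ˢ univ)
  growth : ∀ J : Set ℝ, IsCompact J → J ⊆ I → ∃ (C : ℝ) (p : ℕ), 0 ≤ C ∧
    ∀ i ≤ n, ∀ t ∈ J, ∀ x : Sp ι, ‖iteratedFDeriv ℝ i g (t, x)‖ ≤ C * (1 + ‖x‖) ^ p

variable {I : Set ℝ} {n : ℕ} {g : ℝ × Sp ι → F}

lemma bound_mono {C C' : ℝ} {p p' : ℕ} (hC : 0 ≤ C) (hC' : C ≤ C') (hp : p ≤ p') (x : Sp ι) :
    C * (1 + ‖x‖) ^ p ≤ C' * (1 + ‖x‖) ^ p' :=
  mul_le_mul hC' (pow_le_pow_right₀ (by linarith [norm_nonneg x]) hp) (by positivity)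
    (hC.trans hC')

lemma TameN.of_base (hc : ContinuousOn g (I ×ˢ univ))
    (hb : ∀ J : Set ℝ, IsCompact J → J ⊆ I → ∃ (C : ℝ) (p : ℕ),
      ∀ t ∈ J, ∀ x : Sp ι, ‖g (t, x)‖ ≤ C * (1 + ‖x‖) ^ p) : TameN I 0 g := by
  refine ⟨by simpa using hc, fun J hJ hJI => ?_⟩
  obtain ⟨C, p, h⟩ := hb J hJ hJI
  refine ⟨max C 0, p, le_max_right _ _, fun i hi t ht x => ?_⟩
  obtain rfl : i = 0 := by omega
  rw [norm_iteratedFDeriv_zero]
  exact (h t ht x).trans (mul_le_mul_of_nonneg_right (le_max_left _ _) (by positivity))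

lemma TameN.step (hI : IsOpen I) (hd : DifferentiableOn ℝ g (I ×ˢ univ))
    (hb : ∀ J : Set ℝ, IsCompact J → J ⊆ I → ∃ (C : ℝ) (p : ℕ),
      ∀ t ∈ J, ∀ x : Sp ι, ‖g (t, x)‖ ≤ C * (1 + ‖x‖) ^ p)
    (hf : TameN I n (fderiv ℝ g)) : TameN I (n + 1) g := by
  refine ⟨?_, fun J hJ hJI => ?_⟩
  · push_cast
    exact (contDiffOn_succ_iff_fderiv_of_isOpen (hI.prod isOpen_univ)).2
      ⟨hd, by simp, hf.smooth⟩
  · obtain ⟨C, p, h⟩ := hb J hJ hJI
    obtain ⟨D, q, hD, h'⟩ := hf.growth J hJ hJI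
    refine ⟨max (max C 0) D, max p q, le_max_of_le_right hD, fun i hi t ht x => ?_⟩
    rcases i with _ | i
    · rw [norm_iteratedFDeriv_zero]
      refine (h t ht x).trans ((mul_le_mul_of_nonneg_right (le_max_left C 0) (by positivity)).trans ?_)
      exact bound_mono (le_max_right _ _) (le_max_left _ _) (le_max_left _ _) x
    · rw [← norm_iteratedFDeriv_fderiv]
      exact (h' i (by omega) t ht x).trans (bound_mono hD (le_max_right _ _) (le_max_right _ _) x)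

lemma TameN.congr (hI : IsOpen I) (hg : TameN I n g) {g' : ℝ × Sp ι → F}
    (h : ∀ q ∈ I ×ˢ (univ : Set (Sp ι)), g' q = g q) : TameN I n g' := by
  refine ⟨hg.smooth.congr h, fun J hJ hJI => ?_⟩
  obtain ⟨C, p, hC, hb⟩ := hg.growth J hJ hJI
  refine ⟨C, p, hC, fun i hi t ht x => ?_⟩
  have : iteratedFDeriv ℝ i g' (t, x) = iteratedFDeriv ℝ i g (t, x) :=
    (Filter.EventuallyEq.iteratedFDeriv ℝ
      (Filter.eventually_of_mem ((hI.prod isOpen_univ).mem_nhds ⟨hJI ht, trivial⟩) h) i).eq_of_nhds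
  rw [this]
  exact hb i hi t ht x

lemma TameN.clm (hI : IsOpen I) (hg : TameN I n g) (T : F →L[ℝ] G) :
    TameN I n fun q => T (g q) := by
  refine ⟨T.contDiff.comp_contDiffOn hg.smooth, fun J hJ hJI => ?_⟩
  obtain ⟨C, p, hC, hb⟩ := hg.growth J hJ hJI
  refine ⟨‖T‖ * C, p, by positivity, fun i hi t ht x => ?_⟩
  have hat : ContDiffAt ℝ n g (t, x) :=
    hg.smooth.contDiffAt ((hI.prod isOpen_univ).mem_nhds ⟨hJI ht, trivial⟩)
  exact (T.norm_iteratedFDeriv_comp_left hat (by exact_mod_cast hi)).trans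
    (by rw [mul_assoc]; exact mul_le_mul_of_nonneg_left (hb i hi t ht x) (norm_nonneg T))

lemma TameN.add (hI : IsOpen I) (hg : TameN I n g) {g' : ℝ × Sp ι → F} (hg' : TameN I n g') :
    TameN I n fun q => g q + g' q := by
  refine ⟨hg.smooth.add hg'.smooth, fun J hJ hJI => ?_⟩
  obtain ⟨C, p, hC, hb⟩ := hg.growth J hJ hJI
  obtain ⟨D, q, hD, hb'⟩ := hg'.growth J hJ hJI
  refine ⟨C + D, max p q, by positivity, fun i hi t ht x => ?_⟩
  have hn := (hI.prod isOpen_univ).mem_nhds (x := (t, x)) ⟨hJI ht, trivial⟩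
  rw [show (fun q => g q + g' q) = g + g' from rfl,
    iteratedFDeriv_add_apply ((hg.smooth.contDiffAt hn).of_le (by exact_mod_cast hi))
      ((hg'.smooth.contDiffAt hn).of_le (by exact_mod_cast hi))]
  refine (norm_add_le _ _).trans ((add_le_add (hb i hi t ht x) (hb' i hi t ht x)).trans ?_)
  rw [add_mul]
  exact add_le_add (bound_mono hC le_rfl (le_max_left _ _) x)
    (bound_mono hD le_rfl (le_max_right _ _) x)

lemma TameN.neg (hI : IsOpen I) (hg : TameN I n g) : TameN I n fun q => -g q := by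
  simpa using hg.clm hI (-(ContinuousLinearMap.id ℝ F))

lemma TameN.bilin (hI : IsOpen I) (B : F →L[ℝ] G →L[ℝ] K) (hg : TameN I n g)
    {g' : ℝ × Sp ι → G} (hg' : TameN I n g') : TameN I n fun q => B (g q) (g' q) := by
  refine ⟨B.isBoundedBilinearMap.contDiff.comp_contDiffOn (hg.smooth.prodMk hg'.smooth),
    fun J hJ hJI => ?_⟩
  obtain ⟨C, p, hC, hb⟩ := hg.growth J hJ hJI
  obtain ⟨D, q, hD, hb'⟩ := hg'.growth J hJ hJI
  refine ⟨‖B‖ * (2 ^ n * (C * D)), p + q, by positivity, fun i hi t ht x => ?_⟩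
  have ho : IsOpen (I ×ˢ (univ : Set (Sp ι))) := hI.prod isOpen_univ
  have hm : (t, x) ∈ I ×ˢ (univ : Set (Sp ι)) := ⟨hJI ht, trivial⟩
  have key := B.norm_iteratedFDerivWithin_le_of_bilinear hg.smooth hg'.smooth ho.uniqueDiffOn hm
    (n := i) (by exact_mod_cast hi)
  rw [iteratedFDerivWithin_of_isOpen i ho hm] at key
  refine key.trans ?_
  rw [mul_assoc ‖B‖]
  refine mul_le_mul_of_nonneg_left ?_ (norm_nonneg B)
  calc ∑ j ∈ Finset.range (i + 1), (i.choose j : ℝ)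
          * ‖iteratedFDerivWithin ℝ j g (I ×ˢ univ) (t, x)‖
          * ‖iteratedFDerivWithin ℝ (i - j) g' (I ×ˢ univ) (t, x)‖
      ≤ ∑ j ∈ Finset.range (i + 1), (i.choose j : ℝ) * (C * D * (1 + ‖x‖) ^ (p + q)) := by
        refine Finset.sum_le_sum fun j hj => ?_
        rw [iteratedFDerivWithin_of_isOpen j ho hm, iteratedFDerivWithin_of_isOpen (i - j) ho hm,
          mul_assoc]
        refine mul_le_mul_of_nonneg_left ?_ (Nat.cast_nonneg _)
        refine (mul_le_mul (hb j ((Nat.lt_succ_iff.1 (Finset.mem_range.1 hj)).trans hi) t ht x)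
          (hb' (i - j) ((Nat.sub_le _ _).trans hi) t ht x) (norm_nonneg _) (by positivity)).trans_eq ?_
        rw [pow_add]; ring
    _ = 2 ^ i * (C * D * (1 + ‖x‖) ^ (p + q)) := by
        rw [← Finset.sum_mul]
        congr 1
        exact_mod_cast Nat.sum_range_choose i
    _ ≤ 2 ^ n * (C * D) * (1 + ‖x‖) ^ (p + q) := by
        rw [← mul_assoc (2 ^ i : ℝ)]
        gcongr
        norm_num

lemma tame_of_tameN {f : ℝ → Sp ι → F} (h : ∀ n, TameN I n fun q : ℝ × Sp ι => f q.1 q.2) :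
    Tame I f := by
  refine ⟨contDiffOn_infty.2 fun n => (h n).smooth, fun n J hJ hJI => ?_⟩
  obtain ⟨C, p, -, hb⟩ := (h n).growth J hJ hJI
  exact ⟨C, p, hb n le_rfl⟩

end Vale.Agent.P347
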