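import Vale.Agent.P347.HeatWeight
import Vale.Agent.P347.HeatTameN

/-!
The smoothed density, posterior means, and regularity of the smoothed potential.
-/

namespace Vale.Agent.P347

open MeasureTheory ProbabilityTheory Filter Set
open scoped Gradient RealInnerProductSpace ContDiff Topology

variable {d : ℕ} {F G : Type*} [NormedAddCommGroup F] [NormedSpace ℝ F]
  [NormedAddCommGroup G] [NormedSpace ℝ G] {U : Euc d → ℝ}

lemma temperate_fderiv {φ : Euc d → F} (hφ : Function.HasTemperateGrowth φ) :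
    Function.HasTemperateGrowth (fderiv ℝ φ) := by
  refine ⟨hφ.1.fderiv_right le_rfl, fun n => ?_⟩
  obtain ⟨k, C, h⟩ := hφ.2 (n + 1)
  exact ⟨k, C, fun x => by rw [norm_iteratedFDeriv_fderiv]; exact h x⟩

lemma temperate_clm {φ : Euc d → F} (hφ : Function.HasTemperateGrowth φ) (T : F →L[ℝ] G) :
    Function.HasTemperateGrowth fun x => T (φ x) :=
  T.hasTemperateGrowth.comp hφ

lemma temperate_growth {φ : Euc d → F} (hφ : Function.HasTemperateGrowth φ) :
    ∃ (k : ℕ) (C : ℝ), 0 ≤ C ∧ ∀ x, ‖φ x‖ ≤ C * (1 + ‖x‖) ^ k := by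
  obtain ⟨k, C, hC, h⟩ := hφ.norm_iteratedFDeriv_le_uniform 0
  exact ⟨k, C, hC, fun x => by simpa using h 0 le_rfl x⟩

lemma Weight.continuous (hU : Weight U) : Continuous U := hU.temperate.1.continuous

lemma Weight.differentiable (hU : Weight U) : Differentiable ℝ U :=
  hU.temperate.1.differentiable (by simp)

lemma Weight.exp_neg_pos_integrable (hU : Weight U) (t : ℝ) (y : Euc d) :
    Integrable (fun η => Real.exp (-U (y + √t • η))) (gauss d) :=
  hU.bddSmooth_exp.heat_integrable t y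

lemma smoothDensity_pos (hU : Weight U) (t : ℝ) (y : Euc d) : 0 < smoothDensity U t y :=
  integral_exp_pos (hU.exp_neg_pos_integrable t y)

lemma exp_neg_smoothPot (hU : Weight U) (t : ℝ) (y : Euc d) :
    Real.exp (-smoothPot U t y) = smoothDensity U t y := by
  simp [smoothPot, Real.exp_log (smoothDensity_pos hU t y)]

lemma smoothPot_zero (U : Euc d → ℝ) : smoothPot U 0 = U := by
  funext y
  simp [smoothPot, smoothDensity]

lemma smoothPot_semigroup (hU : Weight U) {r s : ℝ} (hr : 0 ≤ r) (hs : 0 ≤ s) :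
    smoothPot (smoothPot U r) s = smoothPot U (r + s) := by
  funext y
  obtain ⟨C, -, hC⟩ := hU.bddSmooth_exp.norm_le
  rw [smoothPot, smoothPot, smoothDensity]
  simp only [exp_neg_smoothPot hU]
  congr 2
  exact (heat_semigroup hU.bddSmooth_exp.continuous hC hs hr y).trans (by rw [add_comm]; rfl)

lemma heat_continuousOn_weighted (hU : Weight U) {φ : Euc d → F}
    (hφ : Function.HasTemperateGrowth φ) :
    Continuous fun p : ℝ × Euc d => heat p.1 (fun z => Real.exp (-U z) • φ z) p.2 := by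
  obtain ⟨C, -, hC⟩ := (hU.bddSmooth_smul hφ).norm_le
  exact heat_continuous (hU.bddSmooth_smul hφ).continuous hC

lemma smoothDensity_continuous (hU : Weight U) :
    Continuous fun p : ℝ × Euc d => smoothDensity U p.1 p.2 := by
  obtain ⟨C, -, hC⟩ := hU.bddSmooth_exp.norm_le
  exact heat_continuous hU.bddSmooth_exp.continuous hC

set_option linter.unusedVariables false in
lemma smoothPot_continuous (hU : Weight U) :
    Continuous fun p : ℝ × Euc d => smoothPot U p.1 p.2 :=
  ((smoothDensity_continuous hU).log fun p => (smoothDensity_pos hU _ _).ne').neg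

set_option linter.unusedVariables false in
lemma postMean_continuous (hU : Weight U) {φ : Euc d → F} (hφ : Function.HasTemperateGrowth φ) :
    Continuous fun p : ℝ × Euc d => postMean U p.1 φ p.2 :=
  ((smoothDensity_continuous hU).inv₀ fun p => (smoothDensity_pos hU _ _).ne').smul
    (heat_continuousOn_weighted hU hφ)

lemma exists_gauss_ball (d : ℕ) : ∃ ρ : ℝ, 0 ≤ ρ ∧
    0 < (gauss d).real (Metric.closedBall (0 : Euc d) ρ) := by
  by_contra h
  push Not at h
  have h0 : ∀ n : ℕ, (gauss d) (Metric.closedBall (0 : Euc d) n) = 0 := fun n => by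
    refine (measureReal_eq_zero_iff).1 ?_
    exact le_antisymm (h n n.cast_nonneg) measureReal_nonneg
  have : (gauss d) (⋃ n : ℕ, Metric.closedBall (0 : Euc d) n) = 0 := measure_iUnion_null h0
  rw [Metric.iUnion_closedBall_nat, measure_univ] at this
  exact one_ne_zero this

/-- Lower bound on the smoothed density, uniformly on bounded times. -/
lemma smoothDensity_lower (hU : Weight U) (T : ℝ) :
    ∃ (b m : ℝ) (k : ℕ), 0 ≤ b ∧ 0 < m ∧ ∀ t ≤ T, ∀ y : Euc d,
      m * Real.exp (-(b * (1 + ‖y‖) ^ k)) ≤ smoothDensity U t y := by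
  obtain ⟨k, C, hC, h⟩ := temperate_growth hU.temperate
  obtain ⟨ρ, hρ, hμ⟩ := exists_gauss_ball d
  refine ⟨C * (1 + √T * ρ) ^ k, _, k, by positivity, hμ, fun t ht y => ?_⟩
  set S := Metric.closedBall (0 : Euc d) ρ
  have hS : ∀ η ∈ S, Real.exp (-(C * (1 + √T * ρ) ^ k * (1 + ‖y‖) ^ k))
      ≤ Real.exp (-U (y + √t • η)) := fun η hη => by
    rw [Real.exp_le_exp, neg_le_neg_iff, mul_assoc, ← mul_pow]
    refine (le_abs_self _).trans ((h _).trans ?_)
    gcongr
    have h1 : ‖√t • η‖ ≤ √T * ρ := by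
      rw [norm_smul, Real.norm_eq_abs, abs_of_nonneg (Real.sqrt_nonneg _)]
      exact mul_le_mul (Real.sqrt_le_sqrt ht) (by simpa [S] using hη) (norm_nonneg _)
        (Real.sqrt_nonneg _)
    have h2 : 0 ≤ √T * ρ := by positivity
    nlinarith [norm_add_le y (√t • η), norm_nonneg y]
  calc (gauss d).real S * Real.exp (-(C * (1 + √T * ρ) ^ k * (1 + ‖y‖) ^ k))
      = ∫ η in S, Real.exp (-(C * (1 + √T * ρ) ^ k * (1 + ‖y‖) ^ k)) ∂(gauss d) := by
        rw [setIntegral_const, smul_eq_mul]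
    _ ≤ ∫ η in S, Real.exp (-U (y + √t • η)) ∂(gauss d) :=
        setIntegral_mono_on (integrable_const _).integrableOn
          (hU.exp_neg_pos_integrable t y).integrableOn measurableSet_closedBall hS
    _ ≤ _ := setIntegral_le_integral (hU.exp_neg_pos_integrable t y)
        (.of_forall fun η => (Real.exp_pos _).le)

/-- Gaussian upper bound on the smoothed density, uniformly on bounded times. -/
lemma smoothDensity_upper (hU : Weight U) (T : ℝ) :
    ∃ (c M : ℝ), 0 < c ∧ 0 < M ∧ ∀ t ∈ Set.Icc 0 T, ∀ y : Euc d,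
      smoothDensity U t y ≤ M * Real.exp (-(c * ‖y‖ ^ 2)) := by
  obtain ⟨c₀, C, hc₀, h⟩ := hU.coercive
  obtain ⟨a, ha, hint⟩ := IsGaussian.exists_integrable_exp_sq (gauss d)
  set c := min c₀ (a / (|T| + 1)) with hc
  have hc0 : 0 < c := lt_min hc₀ (by positivity)
  have hE : 0 < ∫ η, Real.exp (a * ‖η‖ ^ 2) ∂(gauss d) := integral_exp_pos hint
  refine ⟨c / 2, Real.exp C * ∫ η, Real.exp (a * ‖η‖ ^ 2) ∂(gauss d), by positivity,
    mul_pos (Real.exp_pos _) hE, fun t ht y => ?_⟩
  rw [mul_right_comm, ← integral_const_mul]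
  refine integral_mono (hU.exp_neg_pos_integrable t y) (hint.const_mul _) fun η => ?_
  dsimp only
  rw [← Real.exp_add, ← Real.exp_add, Real.exp_le_exp]
  have h1 : ‖y‖ ^ 2 / 2 ≤ ‖y + √t • η‖ ^ 2 + t * ‖η‖ ^ 2 := by
    have h3 : ‖y‖ ≤ ‖y + √t • η‖ + √t * ‖η‖ := by
      refine (norm_le_norm_add_norm_sub' y (y + √t • η)).trans (le_of_eq ?_)
      simp [norm_smul, abs_of_nonneg (Real.sqrt_nonneg t)]
    have h4 := Real.sq_sqrt ht.1
    nlinarith [norm_nonneg y, sq_nonneg (‖y + √t • η‖ - √t * ‖η‖)]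
  have h5 : c * t ≤ a := by
    calc c * t ≤ a / (|T| + 1) * (|T| + 1) :=
          mul_le_mul (min_le_right _ _) (by linarith [le_abs_self T, ht.2]) ht.1 (by positivity)
      _ = a := by field_simp
  have h6 := mul_le_mul_of_nonneg_right (min_le_left c₀ (a / (|T| + 1))) (sq_nonneg ‖y + √t • η‖)
  nlinarith [h (y + √t • η), mul_le_mul_of_nonneg_left h1 hc0.le,
    mul_le_mul_of_nonneg_right h5 (sq_nonneg ‖η‖)]

/-- Posterior means of functions of polynomial growth grow polynomially. -/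
lemma heat_moment_le (hU : Weight U) (T : ℝ) (p : ℕ) :
    ∃ (k : ℕ) (K : ℝ), 0 ≤ K ∧ ∀ t ≤ T, ∀ y : Euc d,
      heat t (fun z => Real.exp (-U z) * (1 + ‖z‖) ^ p) y
        ≤ K * (1 + ‖y‖) ^ k * smoothDensity U t y := by
  obtain ⟨b, m, k, hb, hm, hlow⟩ := smoothDensity_lower hU T
  obtain ⟨c, C, hc, hco⟩ := hU.coercive
  -- the weight with half the coercivity
  obtain ⟨M, hM⟩ : ∃ M, ∀ z : Euc d, Real.exp (-(c / 2 * ‖z‖ ^ 2 - C)) * (1 + ‖z‖) ^ p ≤ M :=
    Weight.exp_mul_pow_le (U := fun z : Euc d => c / 2 * ‖z‖ ^ 2 - C)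
      ⟨((Function.HasTemperateGrowth.const (c / 2)).mul (Function.hasTemperateGrowth_norm_sq _)).sub
        (Function.HasTemperateGrowth.const C), c / 2, C, by positivity, fun z => le_rfl⟩ p
  have hM0 : 0 ≤ M := le_trans (by positivity) (hM 0)
  set R₀ := √(2 * b / c) with hR₀
  refine ⟨k * p, (2 + R₀) ^ p + M / m, by positivity, fun t ht y => ?_⟩
  have hq := smoothDensity_pos hU t y
  set s := (1 + ‖y‖) ^ k with hs
  have hs1 : 1 ≤ s := one_le_pow₀ (by linarith [norm_nonneg y])
  have hpt : ∀ z : Euc d, Real.exp (-U z) * (1 + ‖z‖) ^ p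
      ≤ ((2 + R₀) * s) ^ p * Real.exp (-U z) + M * Real.exp (-(b * s)) := fun z => by
    rcases le_or_gt ‖z‖ (R₀ * s) with hz | hz
    · have h1 : (1 + ‖z‖) ^ p ≤ ((2 + R₀) * s) ^ p :=
        pow_le_pow_left₀ (by positivity) (by linarith) p
      nlinarith [mul_le_mul_of_nonneg_left h1 (Real.exp_pos (-U z)).le,
        mul_nonneg hM0 (Real.exp_pos (-(b * s))).le]
    · have h1 : b * s ≤ c / 2 * ‖z‖ ^ 2 := by
        have h2 : R₀ ^ 2 = 2 * b / c := Real.sq_sqrt (by positivity)
        calc b * s = c / 2 * (R₀ ^ 2 * s) := by rw [h2]; field_simp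
          _ ≤ c / 2 * (R₀ * s) ^ 2 := by
            refine mul_le_mul_of_nonneg_left ?_ (by positivity)
            rw [mul_pow]
            exact mul_le_mul_of_nonneg_left (le_self_pow₀ hs1 two_ne_zero) (sq_nonneg R₀)
          _ ≤ c / 2 * ‖z‖ ^ 2 := by gcongr
      have h3 : Real.exp (-U z) ≤ Real.exp (-(c / 2 * ‖z‖ ^ 2 - C)) * Real.exp (-(b * s)) := by
        rw [← Real.exp_add, Real.exp_le_exp]
        linarith [hco z]
      calc Real.exp (-U z) * (1 + ‖z‖) ^ p
          ≤ Real.exp (-(c / 2 * ‖z‖ ^ 2 - C)) * Real.exp (-(b * s)) * (1 + ‖z‖) ^ p :=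
            mul_le_mul_of_nonneg_right h3 (by positivity)
        _ ≤ M * Real.exp (-(b * s)) := by
            rw [mul_right_comm]
            exact mul_le_mul_of_nonneg_right (hM z) (Real.exp_pos _).le
        _ ≤ _ := le_add_of_nonneg_left (by positivity)
  obtain ⟨M', hM'⟩ := hU.exp_mul_pow_le p
  have hint : Integrable (fun η => Real.exp (-U (y + √t • η)) * (1 + ‖y + √t • η‖) ^ p) (gauss d) :=
    heat_integrable (f := fun z => Real.exp (-U z) * (1 + ‖z‖) ^ p)
      (by have := hU.continuous; fun_prop) (C := M')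
      (fun z => by rw [Real.norm_eq_abs, abs_of_nonneg (by positivity)]; exact hM' z) t y
  have hint2 := (hU.exp_neg_pos_integrable t y).const_mul (((2 + R₀) * s) ^ p)
  calc heat t (fun z => Real.exp (-U z) * (1 + ‖z‖) ^ p) y
      ≤ ∫ η, (((2 + R₀) * s) ^ p * Real.exp (-U (y + √t • η)) + M * Real.exp (-(b * s))) ∂(gauss d) :=
        integral_mono hint (hint2.add (integrable_const _)) fun η => hpt _
    _ = ((2 + R₀) * s) ^ p * smoothDensity U t y + M * Real.exp (-(b * s)) := by
        rw [integral_add hint2 (integrable_const _), integral_const_mul, integral_const]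
        simp only [probReal_univ, one_smul]
        rfl
    _ ≤ ((2 + R₀) ^ p + M / m) * (1 + ‖y‖) ^ (k * p) * smoothDensity U t y := by
        have h1 : M * Real.exp (-(b * s)) ≤ M / m * smoothDensity U t y := by
          rw [div_mul_eq_mul_div, le_div_iff₀ hm, mul_assoc]
          exact mul_le_mul_of_nonneg_left (by linarith [hlow t ht y]) hM0
        have h2 : M / m * smoothDensity U t y
            ≤ M / m * (1 + ‖y‖) ^ (k * p) * smoothDensity U t y :=
          mul_le_mul_of_nonneg_right (le_mul_of_one_le_right (by positivity)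
            (one_le_pow₀ (by linarith [norm_nonneg y]))) hq.le
        rw [mul_pow, hs, ← pow_mul, ← hs]
        nlinarith

lemma postMean_growth (hU : Weight U) {φ : Euc d → F} (hφ : Function.HasTemperateGrowth φ) (T : ℝ) :
    ∃ (k : ℕ) (K : ℝ), 0 ≤ K ∧ ∀ t ≤ T, ∀ y : Euc d,
      ‖postMean U t φ y‖ ≤ K * (1 + ‖y‖) ^ k := by
  obtain ⟨p, C, hC, hφb⟩ := temperate_growth hφ
  obtain ⟨k, K, hK, hmom⟩ := heat_moment_le hU T p
  refine ⟨k, C * K, by positivity, fun t ht y => ?_⟩
  have hq := smoothDensity_pos hU t y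
  rw [postMean, norm_smul, norm_inv, Real.norm_eq_abs, abs_of_pos hq, inv_mul_le_iff₀ hq]
  obtain ⟨M, hM⟩ := hU.exp_mul_pow_le p
  have hint : Integrable (fun η => Real.exp (-U (y + √t • η)) * (1 + ‖y + √t • η‖) ^ p) (gauss d) :=
    heat_integrable (f := fun z => Real.exp (-U z) * (1 + ‖z‖) ^ p)
      (by have := hU.continuous; fun_prop) (C := M)
      (fun z => by rw [Real.norm_eq_abs, abs_of_nonneg (by positivity)]; exact hM z) t y
  calc ‖heat t (fun z => Real.exp (-U z) • φ z) y‖
      ≤ ∫ η, C * (Real.exp (-U (y + √t • η)) * (1 + ‖y + √t • η‖) ^ p) ∂(gauss d) :=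
        norm_integral_le_of_norm_le (hint.const_mul C) (.of_forall fun η => by
          rw [norm_smul, Real.norm_eq_abs, abs_of_pos (Real.exp_pos _)]
          nlinarith [mul_le_mul_of_nonneg_left (hφb (y + √t • η))
            (Real.exp_pos (-U (y + √t • η))).le])
    _ = C * heat t (fun z => Real.exp (-U z) * (1 + ‖z‖) ^ p) y := integral_const_mul _ _
    _ ≤ C * (K * (1 + ‖y‖) ^ k * smoothDensity U t y) :=
        mul_le_mul_of_nonneg_left (hmom t ht y) hC
    _ = _ := by ring

/-- `e^{U} ∇ (e^{-U} φ)`. -/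
noncomputable def wgrad (U : Euc d → ℝ) (φ : Euc d → F) (z : Euc d) : Euc d →L[ℝ] F :=
  fderiv ℝ φ z - (fderiv ℝ U z).smulRight (φ z)

/-- `e^{U} Δ (e^{-U} φ)`. -/
noncomputable def wlap (U : Euc d → ℝ) (φ : Euc d → F) (z : Euc d) : F :=
  ∑ i, wgrad U (wgrad U φ) z (unitVec i) (unitVec i)

lemma wgrad_temperate (hU : Weight U) {φ : Euc d → F} (hφ : Function.HasTemperateGrowth φ) :
    Function.HasTemperateGrowth (wgrad U φ) :=
  (temperate_fderiv hφ).sub
    ((ContinuousLinearMap.smulRightL ℝ (Euc d) F).bilinear_hasTemperateGrowth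
      (temperate_fderiv hU.temperate) hφ)

lemma wlap_temperate (hU : Weight U) {φ : Euc d → F} (hφ : Function.HasTemperateGrowth φ) :
    Function.HasTemperateGrowth (wlap U φ) :=
  Function.HasTemperateGrowth.sum fun i _ =>
    temperate_clm (temperate_clm (wgrad_temperate hU (wgrad_temperate hU hφ))
      (ContinuousLinearMap.apply ℝ (Euc d →L[ℝ] F) (unitVec i)))
      (ContinuousLinearMap.apply ℝ F (unitVec i))

lemma fderiv_weighted (hU : Weight U) {φ : Euc d → F} (hφ : Differentiable ℝ φ) :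
    fderiv ℝ (fun z => Real.exp (-U z) • φ z) = fun z => Real.exp (-U z) • wgrad U φ z := by
  funext z
  rw [show (fun z => Real.exp (-U z) • φ z) = (fun x => Real.exp ((-U) x)) • φ from rfl,
    ((hU.differentiable z).hasFDerivAt.neg.exp.smul (hφ z).hasFDerivAt).fderiv]
  ext v
  simp [wgrad, smul_sub, mul_smul]
  abel

lemma lapF_weighted (hU : Weight U) {φ : Euc d → F} (hφ : Function.HasTemperateGrowth φ) :
    lapF (fun z => Real.exp (-U z) • φ z) = fun z => Real.exp (-U z) • wlap U φ z := by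
  funext z
  simp only [lapF, wlap, Finset.smul_sum]
  refine Finset.sum_congr rfl fun i _ => ?_
  rw [fderiv_weighted hU (hφ.1.differentiable (by simp)),
    fderiv_weighted hU ((wgrad_temperate hU hφ).1.differentiable (by simp))]
  simp

/-- The linear map assembling a time derivative and a space derivative. -/
noncomputable def coprodL (F : Type*) [NormedAddCommGroup F] [NormedSpace ℝ F] (d : ℕ) :
    (F × (Euc d →L[ℝ] F)) →L[ℝ] (ℝ × Euc d →L[ℝ] F) :=
  ((ContinuousLinearMap.smulRightL ℝ (ℝ × Euc d) F (ContinuousLinearMap.fst ℝ ℝ (Euc d))).comp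
      ((1 / 2 : ℝ) • ContinuousLinearMap.id ℝ F)).comp (ContinuousLinearMap.fst ℝ F _)
  + ((ContinuousLinearMap.compL ℝ (ℝ × Euc d) (Euc d) F).flip
      (ContinuousLinearMap.snd ℝ ℝ (Euc d))).comp (ContinuousLinearMap.snd ℝ F _)

/-- Space-time derivative of `q_t`, divided by `q_t`. -/
noncomputable def dpost (U : Euc d → ℝ) (φ : Euc d → F) (p : ℝ × Euc d) : ℝ × Euc d →L[ℝ] F :=
  coprodL F d (postMean U p.1 (wlap U φ) p.2, postMean U p.1 (wgrad U φ) p.2)

variable [CompleteSpace F]

lemma hasFDerivAt_weighted (hU : Weight U) {φ : Euc d → F} (hφ : Function.HasTemperateGrowth φ)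
    {t : ℝ} (ht : 0 < t) (y : Euc d) :
    HasFDerivAt (fun p : ℝ × Euc d => heat p.1 (fun z => Real.exp (-U z) • φ z) p.2)
      (smoothDensity U t y • dpost U φ (t, y)) (t, y) := by
  refine (heat_hasFDerivAt_joint (hU.bddSmooth_smul hφ) ht y).congr_fderiv ?_
  rw [lapF_weighted hU hφ, fderiv_weighted hU (hφ.1.differentiable (by simp))]
  have hq := (smoothDensity_pos hU t y).ne'
  ext q <;> simp [dpost, coprodL, postMean, smul_smul, mul_inv_cancel₀ hq] <;>
    rw [mul_left_comm, mul_inv_cancel₀ hq, mul_one]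

lemma hasFDerivAt_smoothDensity (hU : Weight U) {t : ℝ} (ht : 0 < t) (y : Euc d) :
    HasFDerivAt (fun p : ℝ × Euc d => smoothDensity U p.1 p.2)
      (smoothDensity U t y • dpost U (fun _ => (1 : ℝ)) (t, y)) (t, y) := by
  simpa [smoothDensity] using
    hasFDerivAt_weighted hU (Function.HasTemperateGrowth.const (E := Euc d) (1 : ℝ)) ht y

lemma hasFDerivAt_postMean (hU : Weight U) {φ : Euc d → F} (hφ : Function.HasTemperateGrowth φ)
    {t : ℝ} (ht : 0 < t) (y : Euc d) :
    HasFDerivAt (fun p : ℝ × Euc d => postMean U p.1 φ p.2)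
      (dpost U φ (t, y) - (dpost U (fun _ => (1 : ℝ)) (t, y)).smulRight (postMean U t φ y)) (t, y) := by
  have hq := (smoothDensity_pos hU t y).ne'
  refine (((hasDerivAt_inv hq).comp_hasFDerivAt (t, y) (hasFDerivAt_smoothDensity hU ht y)).smul
    (hasFDerivAt_weighted hU hφ ht y)).congr_fderiv ?_
  refine ContinuousLinearMap.ext fun q => ?_
  simp only [add_apply, sub_apply, smul_apply, ContinuousLinearMap.smulRight_apply, smul_smul,
    postMean, Function.comp_apply, smul_eq_mul, inv_mul_cancel₀ hq, one_smul]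
  rw [sub_eq_add_neg, ← neg_smul]
  congr 2
  field_simp

lemma postMean_tameN (n : ℕ) :
    ∀ {F : Type} [NormedAddCommGroup F] [NormedSpace ℝ F] [CompleteSpace F] (U : Euc d → ℝ),
      Weight U → ∀ φ : Euc d → F, Function.HasTemperateGrowth φ →
        TameN (Ioi 0) n fun p : ℝ × Euc d => postMean U p.1 φ p.2 := by
  induction n with
  | zero =>
    intro F _ _ _ U hU φ hφ
    refine TameN.of_base (postMean_continuous hU hφ).continuousOn fun J hJ _ => ?_
    obtain ⟨T, hT⟩ := hJ.bddAbove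
    obtain ⟨k, K, -, h⟩ := postMean_growth hU hφ T
    exact ⟨K, k, fun t ht y => h t (hT ht) y⟩
  | succ n ih =>
    intro F _ _ _ U hU φ hφ
    have h1 := Function.HasTemperateGrowth.const (E := Euc d) (1 : ℝ)
    refine TameN.step isOpen_Ioi (fun p hp =>
      (hasFDerivAt_postMean hU hφ hp.1 p.2).differentiableAt.differentiableWithinAt) ?_ ?_
    · intro J hJ _
      obtain ⟨T, hT⟩ := hJ.bddAbove
      obtain ⟨k, K, -, h⟩ := postMean_growth hU hφ T
      exact ⟨K, k, fun t ht y => h t (hT ht) y⟩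
    · have e1 : TameN (Ioi 0) n fun p : ℝ × Euc d => dpost U φ p :=
        (((ih U hU _ (wlap_temperate hU hφ)).clm isOpen_Ioi
          (ContinuousLinearMap.inl ℝ F (Euc d →L[ℝ] F))).add isOpen_Ioi
          ((ih U hU _ (wgrad_temperate hU hφ)).clm isOpen_Ioi
            (ContinuousLinearMap.inr ℝ F (Euc d →L[ℝ] F)))).clm isOpen_Ioi (coprodL F d) |>.congr
          isOpen_Ioi fun p _ => by simp [dpost]
      have e2 : TameN (Ioi 0) n fun p : ℝ × Euc d => dpost U (fun _ => (1 : ℝ)) p :=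
        (((ih U hU _ (wlap_temperate hU h1)).clm isOpen_Ioi
          (ContinuousLinearMap.inl ℝ ℝ (Euc d →L[ℝ] ℝ))).add isOpen_Ioi
          ((ih U hU _ (wgrad_temperate hU h1)).clm isOpen_Ioi
            (ContinuousLinearMap.inr ℝ ℝ (Euc d →L[ℝ] ℝ)))).clm isOpen_Ioi (coprodL ℝ d) |>.congr
          isOpen_Ioi fun p _ => by simp [dpost]
      exact (e1.add isOpen_Ioi ((e2.bilin isOpen_Ioi
        (ContinuousLinearMap.smulRightL ℝ (ℝ × Euc d) F) (ih U hU φ hφ)).neg isOpen_Ioi)).congr
        isOpen_Ioi fun p hp => by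
          rw [(hasFDerivAt_postMean hU hφ hp.1 p.2).fderiv]
          simp [sub_eq_add_neg]

omit [CompleteSpace F] in
lemma hasFDerivAt_smoothPot (hU : Weight U) {t : ℝ} (ht : 0 < t) (y : Euc d) :
    HasFDerivAt (fun p : ℝ × Euc d => smoothPot U p.1 p.2)
      (-dpost U (fun _ => (1 : ℝ)) (t, y)) (t, y) := by
  have hq := (smoothDensity_pos hU t y).ne'
  refine ((hasFDerivAt_smoothDensity hU ht y).log hq).neg.congr_fderiv ?_
  rw [inv_smul_smul₀ hq]

omit [CompleteSpace F] in
lemma smoothPot_tameN (hU : Weight U) (n : ℕ) :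
    TameN (Ioi 0) n fun p : ℝ × Euc d => smoothPot U p.1 p.2 := by
  have base : ∀ J : Set ℝ, IsCompact J → J ⊆ Ioi 0 → ∃ (C : ℝ) (p : ℕ),
      ∀ t ∈ J, ∀ x : Euc d, ‖smoothPot U t x‖ ≤ C * (1 + ‖x‖) ^ p := by
    intro J hJ hJI
    obtain ⟨T, hT⟩ := hJ.bddAbove
    obtain ⟨b, m, k, hb, hm, hlow⟩ := smoothDensity_lower hU T
    obtain ⟨c, M, hc, hM, hup⟩ := smoothDensity_upper hU T
    refine ⟨|Real.log M| + |Real.log m| + b, k, fun t ht x => ?_⟩
    have h1 := Real.log_le_log (by positivity) (hlow t (hT ht) x)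
    rw [Real.log_mul hm.ne' (Real.exp_pos _).ne', Real.log_exp] at h1
    have h2 := Real.log_le_log (smoothDensity_pos hU t x) (hup t ⟨(hJI ht).le, hT ht⟩ x)
    rw [Real.log_mul hM.ne' (Real.exp_pos _).ne', Real.log_exp] at h2
    have hs : 1 ≤ (1 + ‖x‖) ^ k := one_le_pow₀ (by linarith [norm_nonneg x])
    rw [Real.norm_eq_abs, smoothPot, abs_neg, abs_le]
    constructor <;> nlinarith [le_abs_self (Real.log M), neg_abs_le (Real.log m),
      mul_le_mul_of_nonneg_left hs (abs_nonneg (Real.log M)),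
      mul_le_mul_of_nonneg_left hs (abs_nonneg (Real.log m)), mul_nonneg hc.le (sq_nonneg ‖x‖),
      abs_nonneg (Real.log M), abs_nonneg (Real.log m)]
  cases n with
  | zero => exact TameN.of_base (smoothPot_continuous hU).continuousOn base
  | succ n =>
    have h1 := Function.HasTemperateGrowth.const (E := Euc d) (1 : ℝ)
    refine TameN.step isOpen_Ioi (fun p hp =>
      (hasFDerivAt_smoothPot hU hp.1 p.2).differentiableAt.differentiableWithinAt) base ?_
    exact (((((postMean_tameN n U hU _ (wlap_temperate hU h1)).clm isOpen_Ioi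
          (ContinuousLinearMap.inl ℝ ℝ (Euc d →L[ℝ] ℝ))).add isOpen_Ioi
          ((postMean_tameN n U hU _ (wgrad_temperate hU h1)).clm isOpen_Ioi
            (ContinuousLinearMap.inr ℝ ℝ (Euc d →L[ℝ] ℝ)))).clm isOpen_Ioi (coprodL ℝ d)).neg
          isOpen_Ioi).congr isOpen_Ioi fun p hp => by
        rw [(hasFDerivAt_smoothPot hU hp.1 p.2).fderiv]
        simp [dpost]

omit [CompleteSpace F] in
/-- Regularity of the smoothed potential in time and space. -/
lemma smoothPot_tame (hU : Weight U) : Tame (Ioi 0) (smoothPot U) :=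
  tame_of_tameN (smoothPot_tameN hU)

omit [CompleteSpace F] in
lemma temperate_slice {I : Set ℝ} (hI : IsOpen I) {f : ℝ → Euc d → F}
    (hf : ∀ n, TameN I n fun p : ℝ × Euc d => f p.1 p.2) {t : ℝ} (ht : t ∈ I) :
    Function.HasTemperateGrowth (f t) := by
  have hg : ∀ n : ℕ, ∀ x : Euc d,
      ContDiffAt ℝ n (fun p : ℝ × Euc d => f p.1 p.2) ((t, 0) + (0, x)) := fun n x =>
    (hf n).smooth.contDiffAt ((hI.prod isOpen_univ).mem_nhds ⟨by simpa using ht, trivial⟩)
  have e : f t = (fun q : ℝ × Euc d => f ((t, 0) + q).1 ((t, 0) + q).2)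
      ∘ ⇑(ContinuousLinearMap.inr ℝ ℝ (Euc d)) := by funext x; simp
  have hsm : ContDiff ℝ ∞ (f t) := contDiff_infty.2 fun n => contDiff_iff_contDiffAt.2 fun x => by
    have h := (hg n x).comp x ((contDiffAt_const (c := ((t, 0) : ℝ × Euc d))).add
      (contDiffAt_const (c := (0 : ℝ))|>.prodMk contDiffAt_id))
    simpa [Function.comp_def] using h
  refine ⟨hsm, fun n => ?_⟩
  obtain ⟨C, p, hC, hb⟩ := (hf n).growth {t} isCompact_singleton (by simpa using ht)
  refine ⟨p, C, fun x => ?_⟩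
  have h1 : ContDiffAt ℝ n (fun q : ℝ × Euc d => f ((t, 0) + q).1 ((t, 0) + q).2) (0, x) :=
    (hg n x).comp (0, x) (contDiffAt_const.add contDiffAt_id)
  have ho : IsOpen ((fun q : ℝ × Euc d => (t, 0) + q) ⁻¹' (I ×ˢ univ)) :=
    (hI.prod isOpen_univ).preimage (by fun_prop)
  set G : ℝ × Euc d → F := fun q => f ((t, 0) + q).1 ((t, 0) + q).2 with hG
  have hGs : ContDiffOn ℝ n G ((fun q : ℝ × Euc d => (t, 0) + q) ⁻¹' (I ×ˢ univ)) :=
    (hf n).smooth.comp (f := fun q : ℝ × Euc d => (t, 0) + q)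
      ((contDiff_const.add contDiff_id).contDiffOn) fun q hq => hq
  have key := (ContinuousLinearMap.inr ℝ ℝ (Euc d)).iteratedFDerivWithin_comp_right
    (f := G) (n := (n : ℕ∞)) hGs
    ho.uniqueDiffOn (ho.preimage (by fun_prop)).uniqueDiffOn
    (x := x) (by simpa using ht) (i := n) le_rfl
  rw [← e, iteratedFDerivWithin_of_isOpen n (ho.preimage (by fun_prop)) (by simpa using ht),
    iteratedFDerivWithin_of_isOpen n ho (by simpa using ht)] at key
  rw [key]
  refine (ContinuousMultilinearMap.norm_compContinuousLinearMap_le _ _).trans ?_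
  refine (mul_le_of_le_one_right (norm_nonneg _) (Finset.prod_le_one (fun _ _ => norm_nonneg _)
    fun _ _ => ContinuousLinearMap.opNorm_le_bound _ zero_le_one fun z => by
      simp [Prod.norm_def])).trans ?_
  rw [iteratedFDeriv_comp_add_left' (f := fun p : ℝ × Euc d => f p.1 p.2) n (t, 0)]
  simpa using hb n le_rfl t rfl x

omit [CompleteSpace F] in
/-- The smoothed potential is again a weight. -/
lemma Weight.smoothPot (hU : Weight U) {t : ℝ} (ht : 0 ≤ t) : Weight (smoothPot U t) := by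
  rcases ht.eq_or_lt with rfl | ht'
  · rwa [smoothPot_zero]
  refine ⟨temperate_slice isOpen_Ioi (smoothPot_tameN hU) ht', ?_⟩
  obtain ⟨c, M, hc, hM, hup⟩ := smoothDensity_upper hU t
  refine ⟨c, Real.log M, hc, fun x => ?_⟩
  have h2 := Real.log_le_log (smoothDensity_pos hU t x) (hup t ⟨ht, le_rfl⟩ x)
  rw [Real.log_mul hM.ne' (Real.exp_pos _).ne', Real.log_exp] at h2
  rw [Vale.Agent.P347.smoothPot]
  linarith

omit [CompleteSpace F] in
lemma fderiv_smoothPot (hU : Weight U) (t : ℝ) (y : Euc d) :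
    fderiv ℝ (smoothPot U t) y = postMean U t (fderiv ℝ U) y := by
  have hb := hU.bddSmooth_exp
  have hq := (smoothDensity_pos hU t y).ne'
  have hw : fderiv ℝ (fun z => Real.exp (-U z))
      = fun z => -(Real.exp (-U z) • fderiv ℝ U z) := by
    funext z
    rw [show (fun z => Real.exp (-U z)) = fun x => Real.exp ((-U) x) from rfl,
      (hU.differentiable z).hasFDerivAt.neg.exp.fderiv, smul_neg]
    rfl
  have h1 := ((heat_hasFDerivAt hb t y).log hq).neg
  refine h1.fderiv.trans ?_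
  rw [hw]
  simp [postMean, smoothDensity, heat, integral_neg]

omit [CompleteSpace F] in
/-- The score is the posterior mean of the gradient. -/
lemma score_eq_postMean (hU : Weight U) (t : ℝ) (y : Euc d) :
    score U t y = postMean U t (∇ U) y := by
  have hb := hU.bddSmooth_smul (temperate_fderiv hU.temperate)
  rw [score, gradient, fderiv_smoothPot hU t y, postMean, map_smul]
  congr 1
  refine ((InnerProductSpace.toDual ℝ (Euc d)).symm.toContinuousLinearEquiv.toContinuousLinearMap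
    |>.integral_comp_comm (hb.heat_integrable t y)).symm.trans ?_
  refine integral_congr_ae (.of_forall fun η => ?_)
  simp [gradient, map_smul]

end Vale.Agent.P347
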