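import Vale.Agent.P347.Basic

/-!
The heat semigroup on functions all of whose derivatives are bounded.
-/

namespace Vale.Agent.P347

open MeasureTheory ProbabilityTheory Filter Set
open scoped Gradient RealInnerProductSpace ContDiff Topology

variable {d : ℕ} {F G : Type*} [NormedAddCommGroup F] [NormedSpace ℝ F]
  [NormedAddCommGroup G] [NormedSpace ℝ G]

/-- Smooth with every derivative bounded. -/
structure BddSmooth (f : Euc d → F) : Prop where
  smooth : ContDiff ℝ ∞ f
  bdd : ∀ n : ℕ, ∃ C : ℝ, ∀ x, ‖iteratedFDeriv ℝ n f x‖ ≤ C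

lemma BddSmooth.continuous {f : Euc d → F} (hf : BddSmooth f) : Continuous f :=
  hf.smooth.continuous

lemma BddSmooth.differentiable {f : Euc d → F} (hf : BddSmooth f) : Differentiable ℝ f :=
  hf.smooth.differentiable (by simp)

lemma BddSmooth.norm_le {f : Euc d → F} (hf : BddSmooth f) :
    ∃ C : ℝ, 0 ≤ C ∧ ∀ x, ‖f x‖ ≤ C := by
  obtain ⟨C, hC⟩ := hf.bdd 0
  exact ⟨max C 0, le_max_right _ _, fun x => le_max_of_le_left (by simpa using hC x)⟩

lemma BddSmooth.fderiv {f : Euc d → F} (hf : BddSmooth f) : BddSmooth (fderiv ℝ f) where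
  smooth := hf.smooth.fderiv_right le_rfl
  bdd n := by
    obtain ⟨C, hC⟩ := hf.bdd (n + 1)
    exact ⟨C, fun x => by rw [norm_iteratedFDeriv_fderiv]; exact hC x⟩

lemma BddSmooth.clm {f : Euc d → F} (hf : BddSmooth f) (T : F →L[ℝ] G) :
    BddSmooth fun x => T (f x) where
  smooth := T.contDiff.comp hf.smooth
  bdd n := by
    obtain ⟨C, hC⟩ := hf.bdd n
    exact ⟨‖T‖ * C, fun x => (T.norm_iteratedFDeriv_comp_left hf.smooth.contDiffAt
      (by exact_mod_cast le_top)).trans (mul_le_mul_of_nonneg_left (hC x) (norm_nonneg T))⟩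

lemma BddSmooth.add {f g : Euc d → F} (hf : BddSmooth f) (hg : BddSmooth g) :
    BddSmooth fun x => f x + g x where
  smooth := hf.smooth.add hg.smooth
  bdd n := by
    obtain ⟨C, hC⟩ := hf.bdd n
    obtain ⟨D, hD⟩ := hg.bdd n
    refine ⟨C + D, fun x => ?_⟩
    rw [show (fun x => f x + g x) = f + g from rfl,
      iteratedFDeriv_add_apply (hf.smooth.of_le (by exact_mod_cast le_top)).contDiffAt
      (hg.smooth.of_le (by exact_mod_cast le_top)).contDiffAt]
    exact (norm_add_le _ _).trans (add_le_add (hC x) (hD x))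

lemma BddSmooth.const (c : F) : BddSmooth fun _ : Euc d => c where
  smooth := contDiff_const
  bdd n := by
    rcases eq_or_ne n 0 with rfl | hn
    · exact ⟨‖c‖, fun x => by simp⟩
    · exact ⟨0, fun x => by simp [iteratedFDeriv_const_of_ne hn]⟩

lemma BddSmooth.sum {α : Type*} (s : Finset α) {f : α → Euc d → F}
    (hf : ∀ i ∈ s, BddSmooth (f i)) : BddSmooth fun x => ∑ i ∈ s, f i x := by
  classical
  induction s using Finset.induction with
  | empty => simpa using BddSmooth.const (d := d) (0 : F)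
  | insert a s ha ih =>
    simp only [Finset.sum_insert ha]
    exact (hf a (Finset.mem_insert_self a s)).add
      (ih fun i hi => hf i (Finset.mem_insert_of_mem hi))

/-- The coordinate vectors. -/
noncomputable abbrev unitVec (i : Fin d) : Euc d := EuclideanSpace.single i 1

lemma sum_inner_smul_unitVec (x : Euc d) : ∑ i, ⟪unitVec i, x⟫ • unitVec i = x := by
  have := (EuclideanSpace.basisFun (Fin d) ℝ).sum_repr' x
  simpa using this

/-- The Laplacian. -/
noncomputable def lapF (f : Euc d → F) (x : Euc d) : F :=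
  ∑ i, fderiv ℝ (fderiv ℝ f) x (unitVec i) (unitVec i)

lemma BddSmooth.lapF {f : Euc d → F} (hf : BddSmooth f) : BddSmooth (lapF f) :=
  BddSmooth.sum _ fun i _ =>
    (hf.fderiv.fderiv.clm (ContinuousLinearMap.apply ℝ (Euc d →L[ℝ] F) (unitVec i))).clm
      (ContinuousLinearMap.apply ℝ F (unitVec i))

omit [NormedSpace ℝ F] in
lemma heat_integrable {f : Euc d → F} (hf : Continuous f) {C : ℝ} (hC : ∀ x, ‖f x‖ ≤ C)
    (t : ℝ) (y : Euc d) : Integrable (fun η => f (y + √t • η)) (gauss d) :=
  Integrable.mono' (integrable_const C) (by fun_prop) (.of_forall fun η => hC _)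

lemma BddSmooth.heat_integrable {f : Euc d → F} (hf : BddSmooth f) (t : ℝ) (y : Euc d) :
    Integrable (fun η => f (y + √t • η)) (gauss d) := by
  obtain ⟨C, -, hC⟩ := hf.norm_le
  exact Vale.Agent.P347.heat_integrable hf.continuous hC t y

lemma heat_norm_le {f : Euc d → F} {C : ℝ} (hC : ∀ x, ‖f x‖ ≤ C) (t : ℝ) (y : Euc d) :
    ‖heat t f y‖ ≤ C := by
  refine (norm_integral_le_of_norm_le_const (.of_forall fun η => hC _)).trans ?_
  simp

@[simp] lemma heat_zero [CompleteSpace F] (f : Euc d → F) (y : Euc d) : heat 0 f y = f y := by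
  simp [heat]

lemma heat_continuous {f : Euc d → F} (hf : Continuous f) {C : ℝ} (hC : ∀ x, ‖f x‖ ≤ C) :
    Continuous fun p : ℝ × Euc d => heat p.1 f p.2 := by
  refine continuous_of_dominated (bound := fun _ => C) (fun p => by fun_prop)
    (fun p => .of_forall fun η => hC _) (integrable_const C) (.of_forall fun η => ?_)
  fun_prop

lemma heat_clm [CompleteSpace F] [CompleteSpace G] {f : Euc d → F} (hf : BddSmooth f)
    (T : F →L[ℝ] G) (t : ℝ) (y : Euc d) : heat t (fun x => T (f x)) y = T (heat t f y) :=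
  T.integral_comp_comm (hf.heat_integrable t y)

lemma heat_semigroup [CompleteSpace F] {f : Euc d → F} (hf : Continuous f) {C : ℝ}
    (hC : ∀ x, ‖f x‖ ≤ C) {s t : ℝ} (hs : 0 ≤ s) (ht : 0 ≤ t) (y : Euc d) :
    heat s (heat t f) y = heat (s + t) f y := by
  rcases eq_or_lt_of_le (add_nonneg hs ht) with h | h
  · obtain rfl : s = 0 := by linarith
    simp
  have hint : Integrable (fun p : Euc d × Euc d => f (y + (√s • p.1 + √t • p.2)))
      ((gauss d).prod (gauss d)) :=
    Integrable.mono' (integrable_const C) (by fun_prop) (.of_forall fun p => hC _)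
  have h1 : heat s (heat t f) y
      = ∫ p, f (y + (√s • p.1 + √t • p.2)) ∂((gauss d).prod (gauss d)) := by
    rw [integral_prod _ hint]
    simp only [heat, add_assoc]
  set c := √s / √(s + t) with hc
  have hst : 0 < √(s + t) := Real.sqrt_pos.2 h
  have hc1 : c ≤ 1 := (div_le_one hst).2 (Real.sqrt_le_sqrt (by linarith))
  have hc0 : 0 ≤ c := by positivity
  have hcos : √(s + t) * Real.cos (Real.arccos c) = √s := by
    rw [Real.cos_arccos (by linarith) hc1, hc]; field_simp
  have hsin : √(s + t) * Real.sin (Real.arccos c) = √t := by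
    rw [Real.sin_arccos, ← Real.sqrt_mul h.le, hc, div_pow, Real.sq_sqrt hs, Real.sq_sqrt h.le]
    congr 1
    field_simp
    ring
  rw [h1]
  have h2 := integral_rotation (Real.arccos c) (d := d)
    (G := fun p => f (y + √(s + t) • p.1)) (by fun_prop)
  simp only [ContinuousLinearMap.rotation_apply, smul_add, smul_smul, hcos, hsin] at h2
  rw [h2, heat, integral_fun_fst (μ := gauss d) (ν := gauss d) (fun x => f (y + √(s + t) • x))]
  simp

lemma heat_hasFDerivAt {f : Euc d → F} (hf : BddSmooth f) (t : ℝ) (y : Euc d) :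
    HasFDerivAt (heat t f) (heat t (fderiv ℝ f) y) y := by
  obtain ⟨C, -, hC⟩ := hf.fderiv.norm_le
  have hc := hf.continuous
  have hc' := hf.fderiv.continuous
  exact hasFDerivAt_integral_of_dominated_of_fderiv_le (F := fun y η => f (y + √t • η))
    (F' := fun y η => fderiv ℝ f (y + √t • η)) (bound := fun _ => C) univ_mem
    (.of_forall fun y => by fun_prop) (hf.heat_integrable t y) (by fun_prop)
    (.of_forall fun η y _ => hC _) (integrable_const C)
    (.of_forall fun η y _ => by
      simpa [Function.comp_def] using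
        ((hf.differentiable _).hasFDerivAt.comp y ((hasFDerivAt_id y).add_const (√t • η))))

lemma heat_fderiv {f : Euc d → F} (hf : BddSmooth f) (t : ℝ) :
    fderiv ℝ (heat t f) = heat t (fderiv ℝ f) :=
  funext fun y => (heat_hasFDerivAt hf t y).fderiv

lemma heat_bddSmooth {f : Euc d → F} (hf : BddSmooth f) (t : ℝ) : BddSmooth (heat t f) := by
  have h : ∀ (n : ℕ), ∀ {F : Type _} [NormedAddCommGroup F] [NormedSpace ℝ F] (f : Euc d → F),
      BddSmooth f → ContDiff ℝ n (heat t f) ∧ ∃ C, ∀ x, ‖iteratedFDeriv ℝ n (heat t f) x‖ ≤ C := by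
    intro n
    induction n with
    | zero =>
      intro F _ _ f hf
      obtain ⟨C, -, hC⟩ := hf.norm_le
      refine ⟨?_, C, fun x => by simpa using heat_norm_le hC t x⟩
      simpa using! (heat_continuous hf.continuous hC).comp
        (continuous_const.prodMk continuous_id)
    | succ n ih =>
      intro F _ _ f hf
      obtain ⟨h1, C, hC⟩ := ih _ hf.fderiv
      refine ⟨?_, C, fun x => ?_⟩
      · push_cast
        exact contDiff_succ_iff_fderiv.2 ⟨fun y => (heat_hasFDerivAt hf t y).differentiableAt,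
          by simp, by rwa [heat_fderiv hf t]⟩
      · rw [← norm_iteratedFDeriv_fderiv, heat_fderiv hf t]; exact hC x
  exact ⟨contDiff_infty.2 fun n => (h n f hf).1, fun n => (h n f hf).2⟩

lemma gauss_ibp_vec [CompleteSpace F] {f : Euc d → F} (hf : BddSmooth f) (v : Euc d) :
    ∫ x, ⟪v, x⟫ • f x ∂(gauss d) = ∫ x, fderiv ℝ f x v ∂(gauss d) := by
  obtain ⟨C, hC0, hC⟩ := hf.norm_le
  obtain ⟨D, hD0, hD⟩ := hf.fderiv.norm_le
  have hc := hf.continuous
  have hc' := hf.fderiv.continuous
  have h1 : Integrable (fun x => ⟪v, x⟫ • f x) (gauss d) := by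
    refine gauss_integrable_of_growth (by fun_prop) (C := ‖v‖ * C) (n := 1) fun x => ?_
    rw [norm_smul, Real.norm_eq_abs, pow_one]
    calc |⟪v, x⟫| * ‖f x‖ ≤ ‖v‖ * ‖x‖ * C := by
          gcongr
          · exact abs_real_inner_le_norm v x
          · exact hC x
      _ ≤ ‖v‖ * C * (1 + ‖x‖) := by nlinarith [norm_nonneg v, mul_nonneg (norm_nonneg v) hC0]
  have h2 : Integrable (fun x => fderiv ℝ f x v) (gauss d) :=
    Integrable.mono' (integrable_const (D * ‖v‖)) (by fun_prop)
      (.of_forall fun x => ((fderiv ℝ f x).le_opNorm v).trans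
        (mul_le_mul_of_nonneg_right (hD x) (norm_nonneg v)))
  rw [SeparatingDual.eq_iff_forall_dual_eq (R := ℝ)]
  intro L
  rw [← L.integral_comp_comm h1, ← L.integral_comp_comm h2]
  have hd : ∀ x, fderiv ℝ (fun z => L (f z)) x v = L (fderiv ℝ f x v) := fun x => by
    have := (L.hasFDerivAt.comp x (hf.differentiable x).hasFDerivAt).fderiv
    simp only [Function.comp_def] at this
    rw [this]; rfl
  obtain ⟨M, -, hM⟩ := (hf.clm L).fderiv.norm_le
  have key := gauss_ibp (f := fun z => L (f z)) ((hf.clm L).smooth.of_le (by simp)) hM v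
  simp only [hd] at key
  simp only [map_smul, smul_eq_mul]
  rw [← key]
  exact integral_congr_ae (.of_forall fun x => mul_comm _ _)

lemma heat_hasFDerivAt_joint [CompleteSpace F] {f : Euc d → F} (hf : BddSmooth f) {t : ℝ}
    (ht : 0 < t) (y : Euc d) :
    HasFDerivAt (fun p : ℝ × Euc d => heat p.1 f p.2)
      ((ContinuousLinearMap.fst ℝ ℝ (Euc d)).smulRight ((1 / 2 : ℝ) • heat t (lapF f) y)
        + (heat t (fderiv ℝ f) y).comp (ContinuousLinearMap.snd ℝ ℝ (Euc d))) (t, y) := by
  obtain ⟨D, hD0, hD⟩ := hf.fderiv.norm_le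
  have hc := hf.continuous
  have hc' := hf.fderiv.continuous
  set A : ℝ × Euc d → Euc d → (ℝ × Euc d →L[ℝ] Euc d) := fun p η =>
    ContinuousLinearMap.snd ℝ ℝ (Euc d)
      + (ContinuousLinearMap.fst ℝ ℝ (Euc d)).smulRight ((1 / (2 * √p.1)) • η) with hA
  set B : ℝ × Euc d → Euc d → (ℝ × Euc d →L[ℝ] F) := fun p η =>
    (fderiv ℝ f (p.2 + √p.1 • η)).comp (A p η) with hB
  have hs : Set.Ioi (t / 2) ×ˢ (univ : Set (Euc d)) ∈ 𝓝 (t, y) :=
    (isOpen_Ioi.prod isOpen_univ).mem_nhds ⟨show t / 2 < t by linarith, trivial⟩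
  have hAc : Continuous fun η => A (t, y) η := by
    simp only [hA]
    exact continuous_const.add ((ContinuousLinearMap.smulRightL ℝ (ℝ × Euc d) (Euc d)
      (ContinuousLinearMap.fst ℝ ℝ (Euc d))).continuous.comp (by fun_prop))
  have hBc : Continuous fun η => B (t, y) η := by
    simp only [hB]
    exact (hc'.comp (by fun_prop)).clm_comp hAc
  have hbound : ∀ η, ∀ p ∈ Set.Ioi (t / 2) ×ˢ (univ : Set (Euc d)),
      ‖B p η‖ ≤ D * (1 + ‖η‖ / (2 * √(t / 2))) := by
    intro η p hp
    refine (ContinuousLinearMap.opNorm_comp_le _ _).trans (mul_le_mul (hD _) ?_ (norm_nonneg _) hD0)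
    refine (norm_add_le _ _).trans (add_le_add (ContinuousLinearMap.norm_snd_le _ _ _) ?_)
    rw [ContinuousLinearMap.norm_smulRight_apply, norm_smul, Real.norm_eq_abs,
      abs_of_nonneg (by positivity)]
    calc ‖ContinuousLinearMap.fst ℝ ℝ (Euc d)‖ * (1 / (2 * √p.1) * ‖η‖)
        ≤ 1 * (1 / (2 * √p.1) * ‖η‖) :=
          mul_le_mul_of_nonneg_right (ContinuousLinearMap.norm_fst_le _ _ _) (by positivity)
      _ ≤ ‖η‖ / (2 * √(t / 2)) := by
          rw [one_mul, one_div_mul_eq_div]
          have h2 : 0 < √(t / 2) := Real.sqrt_pos.2 (by linarith)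
          have h3 : √(t / 2) ≤ √p.1 := Real.sqrt_le_sqrt (le_of_lt hp.1)
          gcongr
  have hint : Integrable (fun η : Euc d => D * (1 + ‖η‖ / (2 * √(t / 2)))) (gauss d) :=
    (((integrable_const (1 : ℝ)).add
      ((by simpa using gauss_integrable_norm_pow (d := d) 1 : Integrable (fun η : Euc d => ‖η‖)
        (gauss d)).div_const _))).const_mul D
  have hBint : Integrable (fun η => B (t, y) η) (gauss d) :=
    Integrable.mono' hint hBc.aestronglyMeasurable
      (.of_forall fun η => hbound η _ ⟨show t / 2 < t by linarith, trivial⟩)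
  have key := hasFDerivAt_integral_of_dominated_of_fderiv_le (μ := gauss d)
    (F := fun (p : ℝ × Euc d) η => f (p.2 + √p.1 • η)) (F' := B) hs
    (.of_forall fun p => by fun_prop) (hf.heat_integrable t y) hBc.aestronglyMeasurable
    (.of_forall fun η p hp => hbound η p hp) hint
    (.of_forall fun η p hp => by
      have hp0 : 0 < p.1 := by
        have : t / 2 < p.1 := hp.1
        linarith
      have h1 : HasFDerivAt (fun p : ℝ × Euc d => p.2 + √p.1 • η) (A p η) p := by
        refine (hasFDerivAt_snd.add (((Real.hasDerivAt_sqrt hp0.ne').hasFDerivAt.comp p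
          hasFDerivAt_fst).smul_const η)).congr_fderiv ?_
        simp only [hA]
        ext q <;> simp [mul_smul]
      exact (hf.differentiable _).hasFDerivAt.comp p h1)
  refine key.congr_fderiv (ContinuousLinearMap.ext fun q => ?_)
  rw [ContinuousLinearMap.integral_apply hBint]
  have hI1 : Integrable (fun η => fderiv ℝ f (y + √t • η) q.2) (gauss d) :=
    (hf.fderiv.clm (ContinuousLinearMap.apply ℝ F q.2)).heat_integrable t y
  have hI2 : ∀ i : Fin d, Integrable
      (fun η => ⟪unitVec i, η⟫ • fderiv ℝ f (y + √t • η) (unitVec i)) (gauss d) := fun i => by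
    obtain ⟨C, hC0, hC⟩ := (hf.fderiv.clm (ContinuousLinearMap.apply ℝ F (unitVec i))).norm_le
    refine gauss_integrable_of_growth (by fun_prop) (C := C) (n := 1) fun x => ?_
    rw [norm_smul, Real.norm_eq_abs, pow_one]
    have h := abs_real_inner_le_norm (unitVec i) x
    simp only [unitVec, PiLp.norm_single, norm_one, one_mul] at h
    calc |⟪unitVec i, x⟫| * ‖fderiv ℝ f (y + √t • x) (unitVec i)‖ ≤ ‖x‖ * C :=
          mul_le_mul h (hC _) (norm_nonneg _) (norm_nonneg _)
      _ ≤ C * (1 + ‖x‖) := by nlinarith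
  have hsplit : (fun η => B (t, y) η q) = fun η => fderiv ℝ f (y + √t • η) q.2
      + (q.1 / (2 * √t)) • ∑ i, ⟪unitVec i, η⟫ • fderiv ℝ f (y + √t • η) (unitVec i) := by
    funext η
    have e : ∑ i, ⟪unitVec i, η⟫ • fderiv ℝ f (y + √t • η) (unitVec i)
        = fderiv ℝ f (y + √t • η) η := by
      simp only [← map_smul, ← map_sum, sum_inner_smul_unitVec]
    rw [e]
    simp only [hB, hA, ContinuousLinearMap.comp_apply, add_apply,
      ContinuousLinearMap.coe_snd', ContinuousLinearMap.smulRight_apply,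
      ContinuousLinearMap.coe_fst', map_add, map_smul, smul_smul]
    congr 2
    ring
  have hI3 : Integrable (fun η => (q.1 / (2 * √t)) •
      ∑ i, ⟪unitVec i, η⟫ • fderiv ℝ f (y + √t • η) (unitVec i)) (gauss d) :=
    Integrable.smul (q.1 / (2 * √t)) (integrable_finsetSum Finset.univ fun i _ => hI2 i)
  rw [hsplit, integral_add hI1 hI3, integral_smul, integral_finsetSum _ fun i _ => hI2 i]
  have hibp : ∀ i : Fin d, ∫ η, ⟪unitVec i, η⟫ • fderiv ℝ f (y + √t • η) (unitVec i) ∂(gauss d)
      = √t • heat t (fun z => fderiv ℝ (fderiv ℝ f) z (unitVec i) (unitVec i)) y := by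
    intro i
    have hg := hf.fderiv.clm (ContinuousLinearMap.apply ℝ F (unitVec i))
    have hcomp : BddSmooth fun η : Euc d => fderiv ℝ f (y + √t • η) (unitVec i) := by
      refine ⟨hg.smooth.comp (by fun_prop), fun n => ?_⟩
      obtain ⟨C, hC⟩ := hg.bdd n
      refine ⟨C * (∏ _i : Fin n, ‖(√t • ContinuousLinearMap.id ℝ (Euc d))‖), fun x => ?_⟩
      have e := (√t • ContinuousLinearMap.id ℝ (Euc d)).iteratedFDeriv_comp_right
        (f := fun z => fderiv ℝ f (y + z) (unitVec i)) (hg.smooth.comp (by fun_prop)) x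
        (i := n) (by exact_mod_cast le_top)
      have e' : ((fun z => fderiv ℝ f (y + z) (unitVec i)) ∘ ⇑(√t • ContinuousLinearMap.id ℝ (Euc d)))
          = fun η : Euc d => fderiv ℝ f (y + √t • η) (unitVec i) := by
        funext η; simp
      rw [e'] at e
      rw [e]
      refine (ContinuousMultilinearMap.norm_compContinuousLinearMap_le _ _).trans ?_
      gcongr
      rw [iteratedFDeriv_comp_add_left' (f := fun z => fderiv ℝ f z (unitVec i)) n y]
      exact hC _
    rw [gauss_ibp_vec hcomp, heat, ← integral_smul]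
    refine integral_congr_ae (.of_forall fun η => ?_)
    have h1 : HasFDerivAt (fun η : Euc d => y + √t • η) (√t • ContinuousLinearMap.id ℝ (Euc d)) η :=
      ((hasFDerivAt_id η).const_smul (√t)).const_add y
    have h2 := ((ContinuousLinearMap.apply ℝ F (unitVec i)).hasFDerivAt.comp η
      ((hf.fderiv.differentiable (y + √t • η)).hasFDerivAt.comp η h1)).fderiv
    simp only [Function.comp_def, ContinuousLinearMap.apply_apply] at h2
    simp only [h2]
    simp
  simp only [hibp, ← Finset.smul_sum, smul_smul]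
  have hlap : heat t (lapF f) y
      = ∑ i, heat t (fun z => fderiv ℝ (fderiv ℝ f) z (unitVec i) (unitVec i)) y :=
    integral_finsetSum _ fun i _ =>
      ((hf.fderiv.fderiv.clm (ContinuousLinearMap.apply ℝ (Euc d →L[ℝ] F) (unitVec i))).clm
        (ContinuousLinearMap.apply ℝ F (unitVec i))).heat_integrable t y
  rw [hlap]
  simp only [add_apply, ContinuousLinearMap.comp_apply,
    ContinuousLinearMap.coe_snd', ContinuousLinearMap.smulRight_apply,
    ContinuousLinearMap.coe_fst', smul_smul]
  rw [show q.1 / (2 * √t) * √t = q.1 * (1 / 2) by field_simp,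
    show (∫ η, fderiv ℝ f (y + √t • η) q.2 ∂(gauss d)) = heat t (fderiv ℝ f) y q.2 from
      (ContinuousLinearMap.apply ℝ F q.2).integral_comp_comm (hf.fderiv.heat_integrable t y)]
  abel

/-- The heat equation. -/
lemma heat_hasDerivAt [CompleteSpace F] {f : Euc d → F} (hf : BddSmooth f) {t : ℝ}
    (ht : 0 < t) (y : Euc d) :
    HasDerivAt (fun s => heat s f y) ((1 / 2 : ℝ) • heat t (lapF f) y) t := by
  simpa [Function.comp_def] using (heat_hasFDerivAt_joint hf ht y).comp_hasDerivAt t
    ((hasDerivAt_id t).prodMk (hasDerivAt_const t y))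

end Vale.Agent.P347
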