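import Vale.Agent.P347.HeatSmooth

/-!
Gaussian weights `exp (-U)` times functions of polynomial growth.
-/

namespace Vale.Agent.P347

open MeasureTheory ProbabilityTheory Filter Set
open scoped Gradient RealInnerProductSpace ContDiff Topology

variable {d : ℕ} {F : Type*} [NormedAddCommGroup F] [NormedSpace ℝ F]

/-- A temperate potential dominating a positive quadratic. -/
structure Weight (U : Euc d → ℝ) : Prop where
  temperate : Function.HasTemperateGrowth U
  coercive : ∃ c C : ℝ, 0 < c ∧ ∀ x, c * ‖x‖ ^ 2 - C ≤ U x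

lemma norm_iteratedFDeriv_exp (i : ℕ) (s : ℝ) :
    ‖iteratedFDeriv ℝ i Real.exp s‖ = Real.exp s := by
  rw [norm_iteratedFDeriv_eq_norm_iteratedDeriv, iteratedDeriv_eq_iterate, Real.iter_deriv_exp,
    Real.norm_eq_abs, abs_of_pos (Real.exp_pos s)]

lemma Weight.exp_mul_pow_le {U : Euc d → ℝ} (hU : Weight U) (p : ℕ) :
    ∃ M : ℝ, ∀ x, Real.exp (-U x) * (1 + ‖x‖) ^ p ≤ M := by
  obtain ⟨c, C, hc, h⟩ := hU.coercive
  refine ⟨Real.exp (C + (p : ℝ) ^ 2 / (4 * c)), fun x => ?_⟩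
  have h1 : (1 + ‖x‖) ^ p ≤ Real.exp ((p : ℝ) * ‖x‖) := by
    rw [Real.exp_nat_mul]
    exact pow_le_pow_left₀ (by positivity) (by linarith [Real.add_one_le_exp ‖x‖]) p
  refine (mul_le_mul_of_nonneg_left h1 (Real.exp_pos _).le).trans ?_
  rw [← Real.exp_add, Real.exp_le_exp]
  have h2 : (p : ℝ) * ‖x‖ - c * ‖x‖ ^ 2 ≤ (p : ℝ) ^ 2 / (4 * c) := by
    rw [le_div_iff₀ (by positivity)]
    nlinarith [sq_nonneg ((p : ℝ) - 2 * c * ‖x‖)]
  linarith [h x]

lemma Weight.norm_iteratedFDeriv_exp_le {U : Euc d → ℝ} (hU : Weight U) (N : ℕ) :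
    ∃ (k : ℕ) (C : ℝ), 0 ≤ C ∧ ∀ n ≤ N, ∀ x,
      ‖iteratedFDeriv ℝ n (fun z => Real.exp (-U z)) x‖
        ≤ Real.exp (-U x) * (C * (1 + ‖x‖) ^ k) := by
  obtain ⟨k, C, hC, h⟩ := hU.temperate.neg.norm_iteratedFDeriv_le_uniform N
  refine ⟨k * N, (Nat.factorial N : ℝ) * (max C 1) ^ N, by positivity, fun n hn x => ?_⟩
  set D := max C 1 * (1 + ‖x‖) ^ k with hD
  have hD1 : 1 ≤ D := one_le_mul_of_one_le_of_one_le (le_max_right _ _)
    (one_le_pow₀ (by linarith [norm_nonneg x]))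
  have key := norm_iteratedFDeriv_comp_le (g := Real.exp) (f := -U) (N := ∞)
    Real.contDiff_exp hU.temperate.neg.1 (n := n) (by exact_mod_cast le_top) x
    (C := Real.exp (-U x)) (D := D) (fun i _ => by simp [norm_iteratedFDeriv_exp])
    (fun i hi hin => ((h i (hin.trans hn) x).trans
      (mul_le_mul_of_nonneg_right (le_max_left _ _) (by positivity))).trans
        (le_self_pow₀ hD1 (by omega)))
  refine key.trans ?_
  calc (Nat.factorial n : ℝ) * Real.exp (-U x) * D ^ n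
      ≤ (Nat.factorial N : ℝ) * Real.exp (-U x) * D ^ N := by
        gcongr
    _ = _ := by rw [hD, mul_pow, ← pow_mul]; ring

lemma Weight.bddSmooth_smul {U : Euc d → ℝ} (hU : Weight U) {φ : Euc d → F}
    (hφ : Function.HasTemperateGrowth φ) : BddSmooth fun z => Real.exp (-U z) • φ z := by
  refine ⟨(Real.contDiff_exp.comp hU.temperate.1.neg).smul hφ.1, fun n => ?_⟩
  obtain ⟨k, C, hC, h⟩ := hU.norm_iteratedFDeriv_exp_le n
  obtain ⟨l, D, hD, h'⟩ := hφ.norm_iteratedFDeriv_le_uniform n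
  obtain ⟨M, hM⟩ := hU.exp_mul_pow_le (k + l)
  refine ⟨∑ i ∈ Finset.range (n + 1), (n.choose i : ℝ) * (C * D * M), fun x => ?_⟩
  refine (norm_iteratedFDeriv_smul_le (N := ∞) ((Real.contDiff_exp.comp hU.temperate.1.neg)) hφ.1 x
    (by exact_mod_cast le_top)).trans (Finset.sum_le_sum fun i hi => ?_)
  rw [mul_assoc]
  refine mul_le_mul_of_nonneg_left ?_ (Nat.cast_nonneg _)
  refine (mul_le_mul (h i (Nat.lt_succ_iff.1 (Finset.mem_range.1 hi)) x)
    (h' (n - i) (Nat.sub_le _ _) x) (norm_nonneg _) (by positivity)).trans ?_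
  calc Real.exp (-U x) * (C * (1 + ‖x‖) ^ k) * (D * (1 + ‖x‖) ^ l)
      = C * D * (Real.exp (-U x) * (1 + ‖x‖) ^ (k + l)) := by rw [pow_add]; ring
    _ ≤ C * D * M := mul_le_mul_of_nonneg_left (hM x) (by positivity)

lemma Weight.bddSmooth_exp {U : Euc d → ℝ} (hU : Weight U) :
    BddSmooth fun z => Real.exp (-U z) := by
  simpa using hU.bddSmooth_smul (Function.HasTemperateGrowth.const (E := Euc d) (1 : ℝ))

/-- A symmetric form whose quadratic form lies between `0` and `L ‖v‖²` has norm at most `L`. -/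
lemma bilin_le_of_quad {E : Type*} [NormedAddCommGroup E] [NormedSpace ℝ E]
    {B : E →L[ℝ] E →L[ℝ] ℝ} {L : ℝ} (hsymm : ∀ u v, B u v = B v u) (h0 : ∀ v, 0 ≤ B v v)
    (h1 : ∀ v, B v v ≤ L * ‖v‖ ^ 2) (u v : E) : |B u v| ≤ L * ‖u‖ * ‖v‖ := by
  have hsq : (B u v) ^ 2 ≤ B u u * B v v := by
    have hd := discrim_le_zero (a := B v v) (b := 2 * B u v) (c := B u u) fun s => by
      have := h0 (u + s • v)
      simp only [map_add, map_smul, add_apply, smul_apply, smul_eq_mul,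
        hsymm v u] at this
      nlinarith
    rw [discrim] at hd
    nlinarith
  rcases eq_or_ne v 0 with rfl | hv
  · simp
  have hv' : 0 < ‖v‖ := norm_pos_iff.2 hv
  have hL : 0 ≤ L := by
    have := (h0 v).trans (h1 v)
    exact nonneg_of_mul_nonneg_left this (by positivity)
  refine abs_le_of_sq_le_sq (hsq.trans ?_) (by positivity)
  calc B u u * B v v ≤ (L * ‖u‖ ^ 2) * (L * ‖v‖ ^ 2) :=
        mul_le_mul (h1 u) (h1 v) (h0 v) (by positivity)
    _ = _ := by ring

namespace NicePot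

variable {V : Euc d → ℝ} {l L : ℝ}

lemma l_le_L (hV : NicePot d V l L) {v : Euc d} (hv : v ≠ 0) : l ≤ L :=
  le_of_mul_le_mul_right ((hV.hessian_lower 0 v).trans (hV.hessian_upper 0 v))
    (by positivity)

lemma hessian_symm (hV : NicePot d V l L) (x u v : Euc d) :
    fderiv ℝ (fderiv ℝ V) x u v = fderiv ℝ (fderiv ℝ V) x v u :=
  (hV.smooth.contDiffAt.isSymmSndFDerivAt (by simp only [minSmoothness_of_isRCLikeNormedField]; exact ENat.LEInfty.out)) u v

lemma hessian_le (hV : NicePot d V l L) (x u v : Euc d) :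
    |fderiv ℝ (fderiv ℝ V) x u v| ≤ L * ‖u‖ * ‖v‖ :=
  bilin_le_of_quad (hV.hessian_symm x)
    (fun v => le_trans (mul_nonneg hV.pos.le (sq_nonneg _)) (hV.hessian_lower x v))
    (hV.hessian_upper x) u v

lemma hessian_norm_le (hV : NicePot d V l L) (x : Euc d) :
    ‖fderiv ℝ (fderiv ℝ V) x‖ ≤ max L 0 := by
  refine ContinuousLinearMap.opNorm_le_bound₂ _ (le_max_right _ _) fun u v => ?_
  rw [Real.norm_eq_abs]
  exact (hV.hessian_le x u v).trans (by gcongr; exact le_max_left _ _)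

lemma contDiff_fderiv (hV : NicePot d V l L) : ContDiff ℝ ∞ (fderiv ℝ V) :=
  hV.smooth.fderiv_right le_rfl

lemma fderiv_temperate (hV : NicePot d V l L) : Function.HasTemperateGrowth (fderiv ℝ V) := by
  have h2 : BddSmooth (fderiv ℝ (fderiv ℝ V)) := by
    refine ⟨hV.contDiff_fderiv.fderiv_right le_rfl, fun n => ?_⟩
    rcases Nat.eq_zero_or_pos n with rfl | hn
    · exact ⟨max L 0, fun x => by simpa using hV.hessian_norm_le x⟩
    · obtain ⟨C, hC⟩ := hV.higher (n + 2) (by omega)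
      exact ⟨C, fun x => by
        rw [norm_iteratedFDeriv_fderiv, norm_iteratedFDeriv_fderiv]; exact hC x⟩
  have hd : Differentiable ℝ (fderiv ℝ V) := hV.contDiff_fderiv.differentiable (by simp)
  refine Function.HasTemperateGrowth.of_fderiv (k := 1) (C := ‖fderiv ℝ V 0‖ + max L 0) ?_ hd
    fun x => ?_
  · exact ⟨h2.smooth, fun n => (h2.bdd n).elim fun C hC => ⟨0, C, fun x => by simpa using hC x⟩⟩
  · have h := Convex.norm_image_sub_le_of_norm_fderiv_le (fun y _ => hd y)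
      (fun y _ => hV.hessian_norm_le y) convex_univ (Set.mem_univ (0 : Euc d)) (Set.mem_univ x)
    rw [sub_zero] at h
    rw [pow_one]
    nlinarith [norm_le_norm_add_norm_sub' (fderiv ℝ V x) (fderiv ℝ V 0), norm_nonneg x,
      norm_nonneg (fderiv ℝ V 0), le_max_right L 0]

lemma fderiv_norm_le (hV : NicePot d V l L) (x : Euc d) :
    ‖fderiv ℝ V x‖ ≤ ‖fderiv ℝ V 0‖ + max L 0 * ‖x‖ := by
  have h := Convex.norm_image_sub_le_of_norm_fderiv_le
    (fun y _ => hV.contDiff_fderiv.differentiable (by simp) y)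
    (fun y _ => hV.hessian_norm_le y) convex_univ (Set.mem_univ (0 : Euc d)) (Set.mem_univ x)
  rw [sub_zero] at h
  linarith [norm_le_norm_add_norm_sub' (fderiv ℝ V x) (fderiv ℝ V 0)]

lemma quadratic_lower (hV : NicePot d V l L) (x : Euc d) :
    V 0 + fderiv ℝ V 0 x + l / 2 * ‖x‖ ^ 2 ≤ V x := by
  have hd : Differentiable ℝ V := hV.smooth.differentiable (by simp)
  have hd' : Differentiable ℝ (fderiv ℝ V) := hV.contDiff_fderiv.differentiable (by simp)
  have hline : ∀ s : ℝ, HasDerivAt (fun s : ℝ => s • x) x s := fun s => by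
    simpa using (hasDerivAt_id s).smul_const x
  set h : ℝ → ℝ := fun s => V (s • x) - s * fderiv ℝ V 0 x - l / 2 * ‖x‖ ^ 2 * s ^ 2 with hh
  set g : ℝ → ℝ := fun s => fderiv ℝ V (s • x) x - fderiv ℝ V 0 x - l * ‖x‖ ^ 2 * s with hg
  have hgd : ∀ s, HasDerivAt h (g s) s := fun s => by
    have h1 := (hd _).hasFDerivAt.comp_hasDerivAt s (hline s)
    refine ((h1.sub ((hasDerivAt_id s).mul_const (fderiv ℝ V 0 x))).sub
      ((hasDerivAt_pow 2 s).const_mul (l / 2 * ‖x‖ ^ 2))).congr_deriv ?_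
    simp [hg]
    ring
  have hg' : ∀ s, HasDerivAt g (fderiv ℝ (fderiv ℝ V) (s • x) x x - l * ‖x‖ ^ 2) s := fun s => by
    have h1 := ((hd' _).hasFDerivAt.comp_hasDerivAt s (hline s)).clm_apply (hasDerivAt_const s x)
    refine ((h1.sub_const (fderiv ℝ V 0 x)).sub
      ((hasDerivAt_id s).const_mul (l * ‖x‖ ^ 2))).congr_deriv ?_
    simp
  have gmono : Monotone g := monotone_of_hasDerivAt_nonneg hg'
    fun s => sub_nonneg.2 (hV.hessian_lower _ x)
  have g0 : g 0 = 0 := by simp [hg]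
  have hmono : MonotoneOn h (Set.Icc 0 1) := monotoneOn_of_hasDerivWithinAt_nonneg (convex_Icc 0 1)
    (fun s _ => (hgd s).continuousAt.continuousWithinAt) (fun s _ => (hgd s).hasDerivWithinAt)
    fun s hs => by
      rw [interior_Icc] at hs
      rw [← g0]; exact gmono hs.1.le
  have := hmono (Set.left_mem_Icc.2 zero_le_one) (Set.right_mem_Icc.2 zero_le_one) zero_le_one
  simp [hh] at this
  linarith

lemma weight (hV : NicePot d V l L) : Weight V := by
  refine ⟨?_, l / 4, |V 0| + ‖fderiv ℝ V 0‖ ^ 2 / l, by linarith [hV.pos], fun x => ?_⟩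
  · refine Function.HasTemperateGrowth.of_fderiv (k := 2)
      (C := |V 0| + ‖fderiv ℝ V 0‖ + max L 0) hV.fderiv_temperate
      (hV.smooth.differentiable (by simp)) fun x => ?_
    have hd : Differentiable ℝ V := hV.smooth.differentiable (by simp)
    have h := (convex_closedBall (0 : Euc d) ‖x‖).norm_image_sub_le_of_norm_fderiv_le
      (fun y _ => hd y) (C := ‖fderiv ℝ V 0‖ + max L 0 * ‖x‖) (fun y hy => by
        refine (hV.fderiv_norm_le y).trans (by gcongr; simpa using hy))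
      (x := 0) (y := x) (by simp) (by simp)
    rw [sub_zero] at h
    have h2 := norm_le_norm_add_norm_sub' (V x) (V 0)
    simp only [Real.norm_eq_abs] at h h2 ⊢
    have hr := norm_nonneg x
    have hL := le_max_right L 0
    have hA := abs_nonneg (V 0)
    have hB := norm_nonneg (fderiv ℝ V 0)
    nlinarith [mul_nonneg hA hr, mul_nonneg hB hr, mul_nonneg hL hr,
      mul_nonneg (mul_nonneg hA hr) hr, mul_nonneg (mul_nonneg hB hr) hr,
      mul_nonneg (mul_nonneg hL hr) hr]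
  · have h1 := hV.quadratic_lower x
    have h2 : |fderiv ℝ V 0 x| ≤ ‖fderiv ℝ V 0‖ * ‖x‖ := (fderiv ℝ V 0).le_opNorm x
    have h3 : ‖fderiv ℝ V 0‖ * ‖x‖ ≤ l / 4 * ‖x‖ ^ 2 + ‖fderiv ℝ V 0‖ ^ 2 / l := by
      rw [← sub_le_iff_le_add', le_div_iff₀ hV.pos]
      nlinarith [sq_nonneg (2 * ‖fderiv ℝ V 0‖ - l * ‖x‖)]
    linarith [neg_abs_le (V 0), neg_abs_le (fderiv ℝ V 0 x)]

end NicePot

end Vale.Agent.P347
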