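import Vale.Agent.P347.Approx
import Vale.Agent.P347.Basic

/-!
The analytic inputs of the sampler construction of P347, as propositions (no proofs here).
-/

namespace Vale.Agent.P347

open MeasureTheory ProbabilityTheory
open scoped Gradient RealInnerProductSpace

variable {d : ℕ}

/-- `heat ρ (score V (t + ρ))`, the Gaussian average of a later score seen from level `t`. -/
noncomputable def scoreAvg (V : Euc d → ℝ) (t ρ : ℝ) (y : Euc d) : Euc d :=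
  heat ρ (score V (t + ρ)) y

/-- The derivative of `scoreAvg` in space; for `ρ = 0` the Hessian of the smoothed potential. -/
noncomputable def hessAvg (V : Euc d → ℝ) (t ρ : ℝ) (y : Euc d) : Euc d →L[ℝ] Euc d :=
  fderiv ℝ (scoreAvg V t ρ) y

/-- The law of the point at level `s` given the point `x` at level `τ`. -/
noncomputable def postKernel (V : Euc d → ℝ) (τ s : ℝ) (x : Euc d) : Measure (Euc d) :=
  gibbs fun y => smoothPot V s y + ‖x - y‖ ^ 2 / (2 * (τ - s))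

/-- The joint law of the point at level `τ`, the point at level `s` and a Gaussian vector. -/
noncomputable def pathLaw (V : Euc d → ℝ) (τ s : ℝ) : Measure (Euc d × Euc d × Euc d) :=
  ((levelLaw V s).prod ((gauss d).prod (gauss d))).map
    fun p => (p.1 + √(τ - s) • p.2.1, p.1, p.2.2)

/-- A random curve on `[a, b]` with derivatives of every order bounded in mean by `B`. -/
def CurveBound {Ω : Type*} [TopologicalSpace Ω] [MeasurableSpace Ω] (μ : Measure Ω) (a b : ℝ)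
    (G : ℝ → Ω → Euc d) (B : ℕ → ℝ → ℝ) : Prop :=
  ∃ D : ℕ → ℝ → Ω → Euc d, (∀ t ∈ Set.Icc a b, ∀ ω, D 0 t ω = G t ω) ∧
    (∀ k, ContinuousOn (fun p : ℝ × Ω => D k p.1 p.2) (Set.Icc a b ×ˢ Set.univ)) ∧
    (∀ k, ∀ t ∈ Set.Icc a b, ∀ ω,
      HasDerivWithinAt (fun u => D k u ω) (D (k + 1) t ω) (Set.Icc a b) t) ∧
    ∀ k, ∀ t ∈ Set.Icc a b,
      Integrable (fun ω => ‖D k t ω‖) μ ∧ ∫ ω, ‖D k t ω‖ ∂μ ≤ B k t

/-- Elementary facts about the levels. -/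
def LevelFactsStatement : Prop :=
  ∃ c₀ C : ℝ, 0 < c₀ ∧ 0 < C ∧ ∀ (d : ℕ) (V : Euc d → ℝ), NicePot d V 1 2 → ∇ V 0 = 0 →
    (∀ t : ℝ, 0 ≤ t → t ≤ c₀ →
      IsProbabilityMeasure (levelLaw V t) ∧
      (∀ p : ℕ, Integrable (fun y => ‖y‖ ^ p) (levelLaw V t)) ∧
      ∫ y, ‖y‖ ∂(levelLaw V t) ≤ C * (d + 1) ∧
      (∀ r : ℝ, 0 ≤ r → t + r ≤ c₀ →
        ((levelLaw V t).prod (gauss d)).map (fun p => p.1 + √r • p.2) = levelLaw V (t + r))) ∧
    levelLaw V 0 = gibbs V ∧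
    (∀ t ρ : ℝ, 0 < t → 0 ≤ ρ → t + ρ ≤ c₀ →
      Differentiable ℝ (scoreAvg V t ρ) ∧
      Continuous (hessAvg V t ρ) ∧
      (∀ y a b : Euc d, ⟪hessAvg V t ρ y a, b⟫ = ⟪a, hessAvg V t ρ y b⟫) ∧
      (∀ y, ‖hessAvg V t ρ y‖ ≤ 2) ∧
      (∀ a b, ‖scoreAvg V t ρ a - scoreAvg V t ρ b‖ ≤ 2 * ‖a - b‖) ∧
      (∀ y, scoreAvg V t 0 y = score V t y) ∧
      ∫ y, ‖scoreAvg V t ρ y‖ ∂(levelLaw V t) ≤ C * (d + 1)) ∧
    (∀ t : ℝ, 0 < t → t ≤ c₀ →
      ∫ y, ‖score V t y - ∇ V y‖ ∂(levelLaw V t) ≤ C * (d + 1) * √t)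

/-- Smoothing turns dual Lipschitz closeness into total variation, at a small cost. -/
def SmoothingStatement : Prop :=
  ∃ c₀ C : ℝ, 0 < c₀ ∧ 0 < C ∧ ∀ (d : ℕ) (V : Euc d → ℝ), NicePot d V 1 2 → ∇ V 0 = 0 →
    ∀ (ν : Measure (Euc d)) (E s : ℝ), IsProbabilityMeasure ν →
      Integrable (fun y => ‖y‖) ν → 0 < s → s ≤ c₀ → DualClose ν (gibbs V) E →
        ∀ B : Set (Euc d), MeasurableSet B →
          |((ν.prod (gauss d)).map fun p => p.1 + √s • p.2).real B - (gibbs V).real B|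
            ≤ C * E / √s + C * (d + 1) ^ 2 * √s

/-- The posterior kernels: disintegration, martingale property, behaviour at the top. -/
def KernelStatement : Prop :=
  ∃ c₀ C : ℝ, 0 < c₀ ∧ 0 < C ∧ ∀ (d : ℕ) (V : Euc d → ℝ), NicePot d V 1 2 → ∇ V 0 = 0 →
    ∀ τ s : ℝ, 0 < s → s < τ → τ ≤ c₀ →
      (∀ x, IsProbabilityMeasure (postKernel V τ s x)) ∧
      (∀ x, Integrable (fun y => ‖y‖) (postKernel V τ s x)) ∧
      (∀ F : Euc d × Euc d × Euc d → ℝ, Integrable F (pathLaw V τ s) →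
        (∀ᵐ x ∂(levelLaw V τ),
          Integrable (fun p => F (x, p.1, p.2)) ((postKernel V τ s x).prod (gauss d))) ∧
        Integrable (fun x => ∫ p, F (x, p.1, p.2) ∂((postKernel V τ s x).prod (gauss d)))
          (levelLaw V τ) ∧
        ∫ x, ∫ p, F (x, p.1, p.2) ∂((postKernel V τ s x).prod (gauss d)) ∂(levelLaw V τ)
          = ∫ q, F q ∂(pathLaw V τ s)) ∧
      (∀ x, ∫ y, score V s y ∂(postKernel V τ s x) = score V τ x) ∧
      (τ ≤ 2 * s → ∃ e : Euc d → ℝ, Integrable e (levelLaw V τ) ∧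
        ∫ x, e x ∂(levelLaw V τ) ≤ C * (d + 1) ^ 3 * √(τ - s) ∧
        ∀ x, DualClose ((postKernel V τ s x).map fun y => (√(τ - s))⁻¹ • (y - x)) (gauss d) (e x))

/-- The cleaning curve `ν ↦ heat ν (score (t + ν))`. -/
def CleanCurveStatement : Prop :=
  ∃ c₀ : ℝ, 0 < c₀ ∧ ∃ C : ℕ → ℝ, ∀ (d : ℕ) (V : Euc d → ℝ), NicePot d V 1 2 → ∇ V 0 = 0 →
    ∀ t : ℝ, 0 < t → t ≤ c₀ →
      CurveBound (levelLaw V t) 0 t (fun ν z => scoreAvg V t ν z)
        fun k _ => C k * ((d : ℝ) + 1) ^ 2 / t ^ k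

/-- The two extraction curves, whose first derivative at `0` is a Hessian applied to a vector. -/
def ExtractCurveStatement : Prop :=
  ∃ c₀ : ℝ, 0 < c₀ ∧ ∃ C : ℕ → ℝ, ∀ (d : ℕ) (V : Euc d → ℝ), NicePot d V 1 2 → ∇ V 0 = 0 →
    (∀ t : ℝ, 0 < t → t ≤ c₀ →
      CurveBound ((levelLaw V t).prod (gauss d)) (-√t) (√t)
          (fun lam p => score V (t + lam ^ 2) (p.1 + lam • p.2))
          (fun k _ => C k * ((d : ℝ) + 1) ^ 2 / √t ^ k) ∧
        ∀ p : Euc d × Euc d, HasDerivAt (fun lam : ℝ => score V (t + lam ^ 2) (p.1 + lam • p.2))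
          (hessAvg V t 0 p.1 p.2) 0) ∧
    ∀ t ρ : ℝ, 0 < t → 0 < ρ → ρ ≤ t → t ≤ c₀ →
      CurveBound ((levelLaw V t).prod (gauss d)) (-√ρ) (√ρ)
          (fun lam p => scoreAvg V (t + lam ^ 2) (ρ - lam ^ 2) (p.1 + lam • p.2))
          (fun k _ => C k * ((d : ℝ) + 1) ^ 2 / √t ^ k) ∧
        ∀ p : Euc d × Euc d,
          HasDerivAt (fun lam : ℝ => scoreAvg V (t + lam ^ 2) (ρ - lam ^ 2) (p.1 + lam • p.2))
            (hessAvg V t ρ p.1 p.2) 0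

/-- The exact gadget paths below level `τ`, started at `t₀`, with state `(x, y, ξ)`. -/
def GadgetPathStatement : Prop :=
  ∃ c₀ : ℝ, 0 < c₀ ∧ ∃ C : ℕ → ℝ, ∀ (d : ℕ) (V : Euc d → ℝ), NicePot d V 1 2 → ∇ V 0 = 0 →
    ∀ τ a b κ t₀ : ℝ, 0 < a → a ≤ b → b < τ → τ ≤ c₀ → κ ^ 2 * τ ≤ 1 →
      (t₀ = a ∨ t₀ = b) →
      ∃ Φ : ℝ → Euc d × Euc d × Euc d → Euc d × Euc d,
        ContinuousOn (fun q : ℝ × (Euc d × Euc d × Euc d) => Φ q.1 q.2)
          (Set.Icc a b ×ˢ Set.univ) ∧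
        (∀ p, Φ t₀ p = (p.2.1, p.2.2)) ∧
        (∀ p, ∀ s ∈ Set.Icc a b,
          (Φ s p).1 = p.1 + √((τ - s) / (τ - t₀)) • (p.2.1 - p.1)
            + ∫ u in t₀..s, √((τ - s) / (τ - u)) •
                ((1 / 2 : ℝ) • score V u (Φ u p).1
                  + κ • hessAvg V u 0 (Φ u p).1 (Φ u p).2)) ∧
        (∀ p, ∀ s ∈ Set.Icc a b,
          if κ = 0 then (Φ s p).2 = p.2.2
          else (-(1 / (2 * κ))) • (Φ s p).2 + score V s (Φ s p).1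
            = (-(1 / (2 * κ))) • p.2.2 + score V t₀ p.2.1
              + κ • ∫ u in t₀..s,
                hessAvg V u 0 (Φ u p).1 (hessAvg V u 0 (Φ u p).1 (Φ u p).2)) ∧
        (∀ x, ∀ s ∈ Set.Icc a b,
          ((postKernel V τ t₀ x).prod (gauss d)).map (fun q => Φ s (x, q.1, q.2))
            = (postKernel V τ s x).prod (gauss d)) ∧
        CurveBound (pathLaw V τ t₀) a b (fun u p => score V u (Φ u p).1)
          (fun k u => C k * ((d : ℝ) + 1) ^ 2 / min u (τ - u) ^ k) ∧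
        CurveBound (pathLaw V τ t₀) a b (fun u p => hessAvg V u 0 (Φ u p).1 (Φ u p).2)
          (fun k u => C k * ((d : ℝ) + 1) ^ 2 / min u (τ - u) ^ k) ∧
        CurveBound (pathLaw V τ t₀) a b
          (fun u p => hessAvg V u 0 (Φ u p).1 (hessAvg V u 0 (Φ u p).1 (Φ u p).2))
          (fun k u => C k * ((d : ℝ) + 1) ^ 2 / min u (τ - u) ^ k)

/-- The backward flow of the levels. -/
def LevelFlowStatement : Prop :=
  ∃ c₀ : ℝ, 0 < c₀ ∧ ∃ C : ℕ → ℝ, ∀ (d : ℕ) (V : Euc d → ℝ), NicePot d V 1 2 → ∇ V 0 = 0 →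
    ∀ a b : ℝ, 0 < a → a ≤ b → b ≤ c₀ →
      ∃ Φ : ℝ → Euc d → Euc d,
        ContinuousOn (fun q : ℝ × Euc d => Φ q.1 q.2) (Set.Icc a b ×ˢ Set.univ) ∧
        (∀ y, ∀ s ∈ Set.Icc a b,
          Φ s y = y + ∫ u in b..s, (1 / 2 : ℝ) • score V u (Φ u y)) ∧
        (∀ s ∈ Set.Icc a b, (levelLaw V b).map (Φ s) = levelLaw V s) ∧
        CurveBound (levelLaw V b) a b (fun u y => score V u (Φ u y))
          (fun k u => C k * ((d : ℝ) + 1) ^ 2 / u ^ k)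

/-- The exact cleaning paths in the radius `r ∈ [0, √ν]`, with state `(z, w, ξ)`, started at
`√ν`; the position at radius `r` is `z + r • w`. -/
def CleanPathStatement : Prop :=
  ∃ c₀ : ℝ, 0 < c₀ ∧ ∃ C : ℕ → ℝ, ∀ (d : ℕ) (V : Euc d → ℝ), NicePot d V 1 2 → ∇ V 0 = 0 →
    ∀ τ ν δe : ℝ, 0 < τ → 0 < ν → ν ≤ τ → τ ≤ c₀ → τ ≤ δe →
      ∃ Φ : ℝ → Euc d × Euc d × Euc d → Euc d × Euc d,
        ContinuousOn (fun q : ℝ × (Euc d × Euc d × Euc d) => Φ q.1 q.2)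
          (Set.Icc 0 √ν ×ˢ Set.univ) ∧
        (∀ p, Φ √ν p = (p.2.1, p.2.2)) ∧
        let pos : ℝ → Euc d × Euc d × Euc d → Euc d := fun r p => p.1 + r • (Φ r p).1
        let H : ℝ → Euc d × Euc d × Euc d → Euc d →L[ℝ] Euc d := fun r p =>
          hessAvg V (τ + r ^ 2) (ν - r ^ 2) (pos r p)
        (∀ p, ∀ r ∈ Set.Icc 0 √ν,
          (Φ r p).1 = p.2.1 + (√δe)⁻¹ • ∫ u in √ν..r, H u p (Φ u p).2) ∧
        (∀ p, ∀ r ∈ Set.Icc 0 √ν,
          √δe • (Φ r p).2 + scoreAvg V (τ + r ^ 2) (ν - r ^ 2) (pos r p)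
            = √δe • p.2.2 + score V (τ + ν) (p.1 + √ν • p.2.1)
              + (√δe)⁻¹ • ∫ u in √ν..r, u • H u p (H u p (Φ u p).2)) ∧
        (∀ z, ∀ r ∈ Set.Icc 0 √ν,
          ((gauss d).prod (gauss d)).map (fun q => Φ r (z, q.1, q.2))
            = (gauss d).prod (gauss d)) ∧
        CurveBound ((levelLaw V τ).prod ((gauss d).prod (gauss d))) 0 √ν
          (fun u p => H u p (Φ u p).2)
          (fun k _ => C k * ((d : ℝ) + 1) ^ 2 / √τ ^ k) ∧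
        CurveBound ((levelLaw V τ).prod ((gauss d).prod (gauss d))) 0 √ν
          (fun u p => H u p (H u p (Φ u p).2))
          (fun k _ => C k * ((d : ℝ) + 1) ^ 2 / √τ ^ k)

end Vale.Agent.P347
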