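import Vale.Agent.P347.LevelPot

/-!
Gaussian smoothing turns dual Lipschitz closeness into total variation.
-/

namespace Vale.Agent.P347

open MeasureTheory ProbabilityTheory Filter Set
open scoped Gradient RealInnerProductSpace ContDiff Topology NNReal

variable {d : ℕ} {V : Euc d → ℝ}

lemma gauss_sq_le (d : ℕ) : ∫ η, ‖η‖ ^ 2 ∂(gauss d) ≤ (d : ℝ) := by
  have e : ∀ x : Euc d, ‖x‖ ^ 2 = ∑ i, ⟪unitVec i, x⟫ * ⟪unitVec i, x⟫ := fun x => by
    rw [← real_inner_self_eq_norm_sq]
    refine (congrArg (⟪·, x⟫) (sum_inner_smul_unitVec x)).symm.trans ?_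
    simp [sum_inner, real_inner_smul_left]
  simp only [e]
  rw [integral_finsetSum]
  · simp only [gauss_integral_inner_mul_inner, sum_inner_unitVec_self, le_refl]
  · intro i _
    refine gauss_integrable_of_growth (by fun_prop) (C := 1) (n := 2) fun x => ?_
    have h := abs_real_inner_le_norm (unitVec i) x
    simp only [unitVec, PiLp.norm_single, norm_one, one_mul] at h
    rw [Real.norm_eq_abs, abs_mul]
    nlinarith [abs_nonneg (⟪unitVec i, x⟫ : ℝ), norm_nonneg x]

/-- The likelihood ratio of a shifted Gaussian. -/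
noncomputable def shiftRatio (δ u : Euc d) : ℝ := Real.exp (⟪δ, u⟫ - ‖δ‖ ^ 2 / 2)

lemma gauss_integral_shift (δ : Euc d) (g : Euc d → ℝ) :
    ∫ η, g (η + δ) ∂(gauss d) = ∫ u, shiftRatio δ u * g u ∂(gauss d) := by
  rw [gauss_integral_eq, gauss_integral_eq]
  congr 1
  rw [← integral_add_right_eq_self
    (fun u => Real.exp (-(‖u‖ ^ 2 / 2)) • (shiftRatio δ u * g u)) δ]
  refine integral_congr_ae (.of_forall fun x => ?_)
  simp only [smul_eq_mul, shiftRatio, ← mul_assoc, ← Real.exp_add]
  congr 2
  rw [norm_add_sq_real, inner_add_right, real_inner_self_eq_norm_sq, real_inner_comm]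
  ring

lemma shiftRatio_integral (δ : Euc d) : ∫ u, shiftRatio δ u ∂(gauss d) = 1 := by
  have h := gauss_integral_shift δ (fun _ => (1 : ℝ))
  simpa using h.symm

lemma shiftRatio_integrable (δ : Euc d) : Integrable (shiftRatio δ) (gauss d) := by
  by_contra h
  have := shiftRatio_integral δ
  rw [integral_undef h] at this
  exact zero_ne_one this

lemma shiftRatio_sq (δ u : Euc d) :
    shiftRatio δ u ^ 2 = Real.exp (‖δ‖ ^ 2) * shiftRatio ((2 : ℝ) • δ) u := by
  rw [shiftRatio, shiftRatio, ← Real.exp_nat_mul, ← Real.exp_add, real_inner_smul_left, norm_smul,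
    mul_pow]
  norm_num
  ring

/-- Translations move the Gaussian law by at most twice their length in total variation. -/
lemma gauss_shift_le (δ : Euc d) {g : Euc d → ℝ} (hg : Measurable g) (h0 : ∀ x, 0 ≤ g x)
    (h1 : ∀ x, g x ≤ 1) :
    |∫ η, g (η + δ) ∂(gauss d) - ∫ η, g η ∂(gauss d)| ≤ 2 * ‖δ‖ := by
  have hb : ∀ x, ‖g x‖ ≤ 1 := fun x => by rw [Real.norm_eq_abs, abs_of_nonneg (h0 x)]; exact h1 x
  rcases lt_or_ge 1 ‖δ‖ with hδ | hδ
  · have hu : ∀ c : Euc d, 0 ≤ ∫ η, g (η + c) ∂(gauss d) ∧ ∫ η, g (η + c) ∂(gauss d) ≤ 1 :=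
      fun c => ⟨integral_nonneg fun η => h0 _, (le_abs_self _).trans (by
        simpa using norm_integral_le_of_norm_le_const (μ := gauss d) (f := fun η => g (η + c))
          (C := 1) (.of_forall fun η => hb _))⟩
    have h2 := hu 0
    simp only [add_zero] at h2
    rw [abs_le]
    constructor <;> linarith [hu δ]
  rcases eq_or_ne δ 0 with rfl | hne
  · simp
  have hn : 0 < ‖δ‖ := norm_pos_iff.2 hne
  have hL := shiftRatio_integrable δ
  have hgi : Integrable g (gauss d) :=
    (integrable_const 1).mono' hg.aestronglyMeasurable (.of_forall hb)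
  have hLg : Integrable (fun u => shiftRatio δ u * g u) (gauss d) :=
    hL.mul_bdd hg.aestronglyMeasurable (.of_forall hb)
  have hsq : Integrable (fun u => shiftRatio δ u ^ 2) (gauss d) := by
    simp only [shiftRatio_sq]
    exact (shiftRatio_integrable _).const_mul _
  have hd2 : Integrable (fun u => (shiftRatio δ u - 1) ^ 2) (gauss d) :=
    ((hsq.sub (hL.const_mul 2)).add (integrable_const 1)).congr
      (.of_forall fun u => by simp only [Pi.add_apply, Pi.sub_apply]; ring)
  have he : ∫ u, (shiftRatio δ u - 1) ^ 2 ∂(gauss d) = Real.exp (‖δ‖ ^ 2) - 1 := by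
    have hA : Integrable (fun u => shiftRatio δ u ^ 2 - 2 * shiftRatio δ u) (gauss d) :=
      hsq.sub (hL.const_mul 2)
    simp only [sub_sq, mul_one, one_pow]
    rw [integral_add hA (integrable_const 1), integral_sub hsq (hL.const_mul 2),
      integral_const_mul, shiftRatio_integral]
    simp only [shiftRatio_sq]
    rw [integral_const_mul, shiftRatio_integral]
    simp
    ring
  have hd2' : ∫ u, (shiftRatio δ u - 1) ^ 2 ∂(gauss d) ≤ 2 * ‖δ‖ ^ 2 := by
    rw [he]
    have h := Real.abs_exp_sub_one_le (x := ‖δ‖ ^ 2)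
      (by rw [abs_pow, abs_norm]; exact pow_le_one₀ (norm_nonneg δ) hδ)
    rw [abs_pow, abs_norm] at h
    linarith [le_abs_self (Real.exp (‖δ‖ ^ 2) - 1)]
  rw [gauss_integral_shift, ← integral_sub hLg hgi]
  calc |∫ u, shiftRatio δ u * g u - g u ∂(gauss d)|
      ≤ ∫ u, ((2 * ‖δ‖)⁻¹ * (shiftRatio δ u - 1) ^ 2 + ‖δ‖ / 2) ∂(gauss d) := by
        refine abs_integral_le_integral_abs.trans (integral_mono (hLg.sub hgi).abs
          ((hd2.const_mul _).add (integrable_const _)) fun u => ?_)
        dsimp only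
        rw [show shiftRatio δ u * g u - g u = (shiftRatio δ u - 1) * g u by ring, abs_mul,
          abs_of_nonneg (h0 u)]
        refine (mul_le_of_le_one_right (abs_nonneg _) (h1 u)).trans ?_
        rw [← sub_nonneg, show (2 * ‖δ‖)⁻¹ * (shiftRatio δ u - 1) ^ 2 + ‖δ‖ / 2
          - |shiftRatio δ u - 1| = (|shiftRatio δ u - 1| - ‖δ‖) ^ 2 / (2 * ‖δ‖) by
          rw [sub_sq |shiftRatio δ u - 1|, sq_abs]; field_simp; ring]
        positivity
    _ ≤ _ := by
        rw [integral_add (hd2.const_mul _) (integrable_const _), integral_const_mul]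
        simp only [integral_const, probReal_univ, one_smul]
        have : (2 * ‖δ‖)⁻¹ * ∫ u, (shiftRatio δ u - 1) ^ 2 ∂(gauss d) ≤ ‖δ‖ := by
          rw [inv_mul_le_iff₀ (by positivity)]
          linarith
        linarith

/-- Translations of a Gibbs law of a potential with two-sided growth control. -/
lemma gibbs_shift_le (hP : LevelPot V) (hV : ∀ x, ‖∇ V x‖ ≤ 2 * ‖x‖) (v : Euc d)
    {g : Euc d → ℝ} (hg : Measurable g) (h0 : ∀ x, 0 ≤ g x) (h1 : ∀ x, g x ≤ 1) :
    |∫ z, g (z + v) ∂(gibbs V) - ∫ z, g z ∂(gibbs V)|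
      ≤ 4 * ‖v‖ * (∫ z, ‖z‖ ∂(gibbs V) + ‖v‖) := by
  have hW := hP.weight
  have hb : ∀ x, ‖g x‖ ≤ 1 := fun x => by rw [Real.norm_eq_abs, abs_of_nonneg (h0 x)]; exact h1 x
  set Z := ∫ x, Real.exp (-V x) with hZ
  have hZ0 : 0 < Z := hW.integral_exp_pos
  set w : Euc d → ℝ := fun z => 2 * ‖v‖ * (‖z‖ + ‖v‖) with hw
  have hwi : Integrable fun z => Real.exp (-V z) * w z := by
    have h := hW.integrable_exp_smul (f := w) (by fun_prop) (C := 2 * ‖v‖ * (1 + ‖v‖)) (p := 1)
      fun z => by
        rw [Real.norm_eq_abs, abs_of_nonneg (by positivity)]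
        simp only [hw, pow_one, mul_assoc]
        gcongr
        nlinarith [norm_nonneg z, norm_nonneg v, mul_nonneg (norm_nonneg z) (norm_nonneg v)]
    simpa using h
  have hgi : ∀ c : Euc d, Integrable fun z => Real.exp (-V z) * g (z + c) := fun c =>
    hW.integrable_exp.mul_bdd ((hg.comp (measurable_add_const c)).aestronglyMeasurable)
      (.of_forall fun z => hb _)
  have hkey : ∀ z, |Real.exp (-V (z - v)) - Real.exp (-V z)|
      ≤ Real.exp (-V (z - v)) * w (z - v) + Real.exp (-V z) * w z := by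
    intro z
    have hd : ∀ a u : Euc d, |V (a + u) - V a| ≤ 2 * ‖u‖ * (‖a‖ + ‖u‖) := fun a u => by
      have h := hP.taylor a u
      have h' := abs_real_inner_le_norm (∇ V a) u
      have h'' := mul_le_mul_of_nonneg_right (hV a) (norm_nonneg u)
      rw [abs_le] at h h' ⊢
      constructor <;> linarith
    have hab : ∀ a b : ℝ, a ≤ b →
        |Real.exp a - Real.exp b| ≤ |a - b| * Real.exp b := fun a b hab => by
      rw [abs_of_nonpos (by linarith [Real.exp_le_exp.2 hab]), abs_of_nonpos (by linarith)]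
      have h := Real.add_one_le_exp (a - b)
      have e : Real.exp a = Real.exp (a - b) * Real.exp b := by rw [← Real.exp_add]; ring_nf
      nlinarith [Real.exp_pos b]
    have h2 := hd (z - v) v
    have h3 := hd z (-v)
    rw [sub_add_cancel] at h2
    rw [← sub_eq_add_neg, norm_neg] at h3
    have hp1 : 0 ≤ Real.exp (-V (z - v)) * w (z - v) := by positivity
    have hp2 : 0 ≤ Real.exp (-V z) * w z := by positivity
    rcases le_total (-V (z - v)) (-V z) with hle | hle
    · refine (hab _ _ hle).trans ?_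
      rw [neg_sub_neg, abs_sub_comm]
      simp only [hw] at hp1 hp2 ⊢
      nlinarith [mul_le_mul_of_nonneg_right h3 (Real.exp_pos (-V z)).le]
    · rw [abs_sub_comm]
      refine (hab _ _ hle).trans ?_
      rw [neg_sub_neg, abs_sub_comm]
      simp only [hw] at hp1 hp2 ⊢
      nlinarith [mul_le_mul_of_nonneg_right h2 (Real.exp_pos (-V (z - v))).le]
  have e1 : ∫ z, g (z + v) ∂(gibbs V) = Z⁻¹ * ∫ z, Real.exp (-V (z - v)) * g z := by
    rw [integral_gibbs_eq, ← integral_add_right_eq_self
      (fun z => Real.exp (-V (z - v)) * g z) v]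
    simp [hZ]
  have hwv : Integrable fun z => Real.exp (-V (z - v)) * w (z - v) := hwi.comp_sub_right v
  rw [e1, integral_gibbs_eq V g, ← mul_sub, ← integral_sub
    (by simpa using (hgi v).comp_sub_right v) (by simpa using hgi 0), abs_mul,
    abs_of_pos (inv_pos.2 hZ0)]
  calc Z⁻¹ * |∫ z, Real.exp (-V (z - v)) * g z - Real.exp (-V z) * g z|
      ≤ Z⁻¹ * ∫ z, (Real.exp (-V (z - v)) * w (z - v) + Real.exp (-V z) * w z) := by
        refine mul_le_mul_of_nonneg_left (norm_integral_le_of_norm_le
          (f := fun z => Real.exp (-V (z - v)) * g z - Real.exp (-V z) * g z) (hwv.add hwi)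
          (.of_forall fun z => ?_)) (inv_pos.2 hZ0).le
        rw [← sub_mul, norm_mul, Real.norm_eq_abs]
        exact (mul_le_of_le_one_right (abs_nonneg _) (hb z)).trans (hkey z)
    _ = 2 * ∫ z, w z ∂(gibbs V) := by
        rw [integral_add hwv hwi, integral_sub_right_eq_self
          (fun z => Real.exp (-V z) * w z) v, integral_gibbs_eq]
        ring
    _ = _ := by
        have := hW.isProbabilityMeasure
        simp only [hw]
        rw [integral_const_mul, integral_add hW.integrable_norm (integrable_const _)]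
        simp
        ring

theorem smoothing : SmoothingStatement := by
  obtain ⟨c₀, hc₀, hc1, hlev⟩ := exists_levelPot
  refine ⟨c₀, 8, hc₀, by norm_num, fun d V hV h0 ν E s hν hνi hs hsc hE B hB => ?_⟩
  have hP := hlev d V hV 0 le_rfl hc₀.le
  rw [smoothPot_zero] at hP
  have := hV.weight.isProbabilityMeasure
  set r := √s with hr
  have hr0 : 0 < r := Real.sqrt_pos.2 hs
  have hr1 : r ≤ 1 := Real.sqrt_le_one.2 (hsc.trans hc1)
  set g : Euc d → ℝ := B.indicator 1 with hg
  have hgm : Measurable g := measurable_one.indicator hB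
  have hg0 : ∀ x, 0 ≤ g x := fun x => indicator_nonneg (fun _ _ => zero_le_one) x
  have hg1 : ∀ x, g x ≤ 1 := fun x => indicator_le_self' (fun _ _ => zero_le_one) x
  have hgb : ∀ x, ‖g x‖ ≤ 1 := fun x => by
    rw [Real.norm_eq_abs, abs_of_nonneg (hg0 x)]; exact hg1 x
  set h : Euc d → ℝ := fun x => ∫ η, g (x + r • η) ∂(gauss d) with hh
  have hlip : ∀ a b, |h a - h b| ≤ 2 / r * ‖a - b‖ := fun a b => by
    have hsh := gauss_shift_le (r⁻¹ • (a - b)) (g := fun η => g (b + r • η))
      (hgm.comp (by fun_prop)) (fun x => hg0 _) (fun x => hg1 _)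
    rw [norm_smul, Real.norm_eq_abs, abs_of_pos (inv_pos.2 hr0)] at hsh
    convert hsh using 1
    · simp only [hh]
      congr 2
      refine integral_congr_ae (.of_forall fun η => ?_)
      dsimp only
      rw [smul_add, smul_inv_smul₀ hr0.ne']
      congr 1
      abel
    · ring
  have hLip : LipschitzWith 1 fun x => r / 2 * h x :=
    LipschitzWith.of_dist_le_mul fun a b => by
      rw [Real.dist_eq, dist_eq_norm, NNReal.coe_one, one_mul, ← mul_sub, abs_mul,
        abs_of_pos (by positivity : 0 < r / 2)]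
      calc r / 2 * |h a - h b| ≤ r / 2 * (2 / r * ‖a - b‖) := by gcongr; exact hlip a b
        _ = ‖a - b‖ := by field_simp
  have hE1 := hE _ hLip
  rw [integral_const_mul, integral_const_mul, ← mul_sub, abs_mul,
    abs_of_pos (by positivity : 0 < r / 2)] at hE1
  have hclose : |∫ x, h x ∂ν - ∫ x, h x ∂(gibbs V)| ≤ 2 * E / r := by
    rw [le_div_iff₀ hr0]
    linarith
  have hconv : ∀ μ : Measure (Euc d), IsProbabilityMeasure μ →
      ((μ.prod (gauss d)).map fun p => p.1 + r • p.2).real B = ∫ x, h x ∂μ := by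
    intro μ _
    rw [← integral_indicator_one hB, integral_map (by fun_prop) hgm.aestronglyMeasurable]
    exact integral_prod _ ((integrable_const (1 : ℝ)).mono'
      (hgm.comp (by fun_prop)).aestronglyMeasurable (.of_forall fun p => hgb _))
  have hG2 : Integrable (fun p : Euc d × Euc d => g (p.1 + r • p.2))
      ((gibbs V).prod (gauss d)) :=
    (integrable_const (1 : ℝ)).mono' (hgm.comp (by fun_prop)).aestronglyMeasurable
      (.of_forall fun p => hgb _)
  have hgi : Integrable g (gibbs V) :=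
    (integrable_const (1 : ℝ)).mono' hgm.aestronglyMeasurable (.of_forall hgb)
  have hM := target_norm_le hV h0
  set D : ℝ := (d : ℝ) + 1 with hD
  have hi1 := gauss_integrable_norm (d := d)
  have hi2 := gauss_integrable_norm_pow (d := d) 2
  have hpi : |∫ x, h x ∂(gibbs V) - (gibbs V).real B| ≤ 8 * D ^ 2 * r := by
    rw [← integral_indicator_one hB]
    change |∫ x, ∫ η, g (x + r • η) ∂(gauss d) ∂(gibbs V) - ∫ z, g z ∂(gibbs V)| ≤ _
    rw [integral_integral_swap hG2]
    calc |∫ η, ∫ z, g (z + r • η) ∂(gibbs V) ∂(gauss d) - ∫ z, g z ∂(gibbs V)|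
        = |∫ η, (∫ z, g (z + r • η) ∂(gibbs V) - ∫ z, g z ∂(gibbs V)) ∂(gauss d)| := by
          rw [integral_sub hG2.integral_prod_right (integrable_const _)]
          simp
      _ ≤ ∫ η, (4 * r * D * ‖η‖ + 4 * r ^ 2 * ‖η‖ ^ 2) ∂(gauss d) := by
          refine norm_integral_le_of_norm_le (f := fun η =>
              ∫ z, g (z + r • η) ∂(gibbs V) - ∫ z, g z ∂(gibbs V))
            ((hi1.const_mul (4 * r * D)).add (hi2.const_mul (4 * r ^ 2)))
            (.of_forall fun η => ?_)
          refine (gibbs_shift_le hP (gradient_upper hV h0) (r • η) hgm hg0 hg1).trans ?_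
          rw [norm_smul, Real.norm_eq_abs, abs_of_pos hr0]
          nlinarith [mul_nonneg (mul_nonneg hr0.le (norm_nonneg η)) (sub_nonneg.2 hM)]
      _ ≤ _ := by
          rw [integral_add (hi1.const_mul _) (hi2.const_mul _), integral_const_mul,
            integral_const_mul]
          have hD1 : 1 ≤ D := by rw [hD]; simp
          have h1 := gauss_norm_le d
          have h2 := gauss_sq_le d
          rw [← hD] at h1
          have h3 : (∫ η, ‖η‖ ^ 2 ∂(gauss d)) ≤ D ^ 2 := by nlinarith
          have h4 : r ^ 2 ≤ r := by nlinarith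
          nlinarith [mul_le_mul_of_nonneg_left h1 (by positivity : 0 ≤ 4 * r * D),
            mul_le_mul h4 h3 (integral_nonneg fun η => by positivity) hr0.le]
  rw [hconv ν hν]
  calc |∫ x, h x ∂ν - (gibbs V).real B|
      ≤ |∫ x, h x ∂ν - ∫ x, h x ∂(gibbs V)| + |∫ x, h x ∂(gibbs V) - (gibbs V).real B| :=
        abs_sub_le _ _ _
    _ ≤ 2 * E / r + 8 * D ^ 2 * r := add_le_add hclose hpi
    _ ≤ 8 * E / r + 8 * D ^ 2 * r := by
        have := hE.nonneg
        gcongr
        linarith

end Vale.Agent.P347
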