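import Vale.Agent.P347.LevelPot
import Vale.Agent.P347.Smoothing

/-!
The posterior kernels between two levels.
-/

namespace Vale.Agent.P347

open MeasureTheory ProbabilityTheory Filter Set
open scoped Gradient RealInnerProductSpace ContDiff Topology

variable {d : ℕ} {U V : Euc d → ℝ}

/-! ### Moments -/

lemma Weight.integral_fourth_le (hU : Weight U) {b : ℝ}
    (h : ∀ x, 1 / 2 * ‖x‖ ^ 2 - b ≤ ⟪x, ∇ U x⟫) :
    ∫ x, ‖x‖ ^ 4 ∂(gibbs U) ≤ (2 * (d + 2) + 2 * b) * ∫ x, ‖x‖ ^ 2 ∂(gibbs U) := by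
  have := hU.isProbabilityMeasure
  have hid : Function.HasTemperateGrowth (fun x : Euc d => x) :=
    (ContinuousLinearMap.id ℝ (Euc d)).hasTemperateGrowth
  have hΦ : Function.HasTemperateGrowth fun x : Euc d => ‖x‖ ^ 2 • x :=
    (ContinuousLinearMap.lsmul ℝ ℝ : ℝ →L[ℝ] Euc d →L[ℝ] Euc d).bilinear_hasTemperateGrowth
      (Function.hasTemperateGrowth_norm_sq _) hid
  have e := hU.ibp_inner hΦ
  have ediv : ∀ x : Euc d,
      ∑ i, ⟪fderiv ℝ (fun x : Euc d => ‖x‖ ^ 2 • x) x (unitVec i), unitVec i⟫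
        = ((d : ℝ) + 2) * ‖x‖ ^ 2 := fun x => by
    have hd : HasFDerivAt (fun x : Euc d => ‖x‖ ^ 2 • x) _ x :=
      ((hasFDerivAt_id x).norm_sq).smul (hasFDerivAt_id x)
    have hx : ∑ i, ⟪unitVec i, x⟫ * ⟪unitVec i, x⟫ = ‖x‖ ^ 2 := by
      rw [← real_inner_self_eq_norm_sq]
      refine Eq.trans ?_ (congrArg (⟪·, x⟫) (sum_inner_smul_unitVec x))
      simp [sum_inner, real_inner_smul_left]
    have hc : ∀ i : Fin d, ⟪x, (unitVec i : Euc d)⟫ = ⟪unitVec i, x⟫ := fun i =>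
      real_inner_comm _ _
    rw [hd.fderiv]
    simp [inner_add_left, real_inner_smul_left, Finset.sum_add_distrib, hc,
      mul_assoc, ← Finset.mul_sum]
    linear_combination (2 : ℝ) * hx
  simp only [ediv, integral_const_mul] at e
  have h4 := hU.integrable_norm_moment 4
  have h2 := hU.integrable_norm_moment 2
  have hi : Integrable (fun x => 1 / 2 * ‖x‖ ^ 4 - b * ‖x‖ ^ 2) (gibbs U) :=
    (h4.const_mul _).sub (h2.const_mul _)
  have hr : Integrable (fun x => ⟪‖x‖ ^ 2 • x, ∇ U x⟫) (gibbs U) :=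
    hU.integrable_temperate ((innerSL ℝ).bilinear_hasTemperateGrowth hΦ hU.gradient_temperate)
  have key := integral_mono hi hr fun x => by
    dsimp only
    rw [real_inner_smul_left]
    calc 1 / 2 * ‖x‖ ^ 4 - b * ‖x‖ ^ 2 = ‖x‖ ^ 2 * (1 / 2 * ‖x‖ ^ 2 - b) := by ring
      _ ≤ _ := mul_le_mul_of_nonneg_left (h x) (sq_nonneg _)
  rw [integral_sub (h4.const_mul _) (h2.const_mul _), integral_const_mul, integral_const_mul,
    e] at key
  linarith

/-- The potential of the rescaled posterior law. -/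
noncomputable def topPot (U : Euc d → ℝ) (r : ℝ) (x w : Euc d) : ℝ :=
  ‖w‖ ^ 2 / 2 + U (x + r • w)

lemma topPot_weight (h : LevelPot U) (r : ℝ) (x : Euc d) : Weight (topPot U r x) := by
  obtain ⟨c, C, hc, hco⟩ := h.weight.coercive
  refine ⟨?_, 1 / 2, C, by norm_num, fun w => ?_⟩
  · have h1 : Function.HasTemperateGrowth fun w : Euc d => ‖w‖ ^ 2 / 2 := by
      simpa [div_eq_mul_inv] using! (Function.hasTemperateGrowth_norm_sq (Euc d)).mul
        (Function.HasTemperateGrowth.const ((2 : ℝ)⁻¹))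
    exact h1.add (h.weight.temperate.comp ((Function.HasTemperateGrowth.const x).add
      (r • ContinuousLinearMap.id ℝ (Euc d)).hasTemperateGrowth))
  · have := hco (x + r • w)
    have : 0 ≤ c * ‖x + r • w‖ ^ 2 := by positivity
    unfold topPot
    linarith

lemma topPot_inner (h : LevelPot U) {r : ℝ} (hr : 0 < r) (x w : Euc d) :
    1 / 2 * ‖w‖ ^ 2 - (r * ‖∇ U x‖) ^ 2 / 2 ≤ ⟪w, ∇ (topPot U r x) w⟫ := by
  have h1 : HasFDerivAt (fun w : Euc d => ‖w‖ ^ 2 / 2) _ w :=
    ((hasFDerivAt_id w).norm_sq).mul_const (2 : ℝ)⁻¹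
  have h2 : HasFDerivAt (fun w : Euc d => U (x + r • w)) _ w :=
    (h.weight.differentiable _).hasFDerivAt.comp w
      (((hasFDerivAt_id w).const_smul r).const_add x)
  have e : ⟪w, ∇ (topPot U r x) w⟫ = ‖w‖ ^ 2 + r * ⟪∇ U (x + r • w), w⟫ := by
    rw [real_inner_comm, inner_gradient, inner_gradient,
      show topPot U r x = fun w => ‖w‖ ^ 2 / 2 + U (x + r • w) from rfl, (h1.fun_add h2).fderiv]
    simp
  rw [e]
  have hm := h.gradient_mono (x + r • w) x
  rw [add_sub_cancel_left, real_inner_smul_right, inner_sub_left] at hm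
  have hm' : ⟪∇ U x, w⟫ ≤ ⟪∇ U (x + r • w), w⟫ := by
    have := (mul_nonneg_iff_of_pos_left hr).1 hm
    linarith
  have hc : -(‖∇ U x‖ * ‖w‖) ≤ ⟪∇ U x, w⟫ :=
    (abs_le.1 (abs_real_inner_le_norm (∇ U x) w)).1
  nlinarith [sq_nonneg (‖w‖ - r * ‖∇ U x‖), mul_le_mul_of_nonneg_left (hc.trans hm') hr.le]

lemma gauss_tilted_eq_topPot (U : Euc d → ℝ) (r : ℝ) (x : Euc d) :
    ((gauss d).tilted fun w => -U (x + r • w)) = gibbs (topPot U r x) := by
  rw [gauss_eq_gibbs, gibbs, tilted_tilted (integrable_gauss_density d), gibbs]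
  congr 1
  funext w
  simp [topPot]
  ring

lemma post_map_eq (h : LevelPot U) {δ : ℝ} (hδ : 0 < δ) (x : Euc d) :
    (gibbs (postPot U δ x)).map (fun y => (√δ)⁻¹ • (y - x)) = gibbs (topPot U (√δ) x) := by
  rw [gibbs_postPot_eq h.weight hδ x, Measure.map_map (by fun_prop) (by fun_prop),
    ← gauss_tilted_eq_topPot]
  convert Measure.map_id using 1
  congr 1
  funext η
  simp [inv_smul_smul₀ (Real.sqrt_pos.2 hδ).ne']

/-! ### Closeness to the Gaussian at the top -/

lemma gauss_half_sq_bound (w : Euc d) :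
    1 / 2 * ‖w‖ ^ 2 - 0 ≤ ⟪w, ∇ (fun x : Euc d => ‖x‖ ^ 2 / 2) w⟫ := by
  have h1 : HasFDerivAt (fun w : Euc d => ‖w‖ ^ 2 / 2) _ w :=
    ((hasFDerivAt_id w).norm_sq).mul_const (2 : ℝ)⁻¹
  rw [real_inner_comm, inner_gradient, h1.fderiv]
  simp
  nlinarith [sq_nonneg ‖w‖]

lemma gauss_half_sq_weight (d : ℕ) : Weight fun x : Euc d => ‖x‖ ^ 2 / 2 := by
  refine ⟨?_, 1 / 2, 0, by norm_num, fun w => le_of_eq (by ring)⟩
  simpa [div_eq_mul_inv] using! (Function.hasTemperateGrowth_norm_sq (Euc d)).mul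
    (Function.HasTemperateGrowth.const ((2 : ℝ)⁻¹))

/-- Moment bounds for the two laws compared at the top. -/
lemma top_moments {W : Euc d → ℝ} (hW : Weight W) {b : ℝ}
    (h : ∀ w, 1 / 2 * ‖w‖ ^ 2 - b ≤ ⟪w, ∇ W w⟫) (hb0 : 0 ≤ b) (hb : b ≤ 1 / 2) :
    ∫ w, ‖w‖ ^ 2 ∂(gibbs W) ≤ 2 * ((d : ℝ) + 1) ∧ ∫ w, ‖w‖ ∂(gibbs W) ≤ 3 * ((d : ℝ) + 1) ∧
      ∫ w, ‖w‖ ^ 3 ∂(gibbs W) ≤ 6 * ((d : ℝ) + 1) ^ 2 := by
  have := hW.isProbabilityMeasure
  have hd : (0 : ℝ) ≤ d := Nat.cast_nonneg d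
  have h2 : ∫ w, ‖w‖ ^ 2 ∂(gibbs W) ≤ 2 * ((d : ℝ) + 1) := by
    linarith [hW.integral_sq_le h]
  refine ⟨h2, ?_, ?_⟩
  · linarith [integral_norm_le_sq (hW.integrable_norm_moment 2)]
  · have h4 : ∫ w, ‖w‖ ^ 4 ∂(gibbs W) ≤ 10 * ((d : ℝ) + 1) ^ 2 := by
      refine (hW.integral_fourth_le h).trans ?_
      nlinarith [mul_le_mul_of_nonneg_left h2 (by positivity : 0 ≤ 2 * ((d : ℝ) + 2) + 2 * b)]
    have hm : ∫ w, ‖w‖ ^ 3 ∂(gibbs W)
        ≤ 1 / 2 * ∫ w, ‖w‖ ^ 2 ∂(gibbs W) + 1 / 2 * ∫ w, ‖w‖ ^ 4 ∂(gibbs W) := by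
      rw [← integral_const_mul, ← integral_const_mul, ← integral_add
        ((hW.integrable_norm_moment 2).const_mul _) ((hW.integrable_norm_moment 4).const_mul _)]
      exact integral_mono (hW.integrable_norm_moment 3)
        (((hW.integrable_norm_moment 2).const_mul _).add
          ((hW.integrable_norm_moment 4).const_mul _))
        fun w => by dsimp only; nlinarith [sq_nonneg (‖w‖ * (‖w‖ - 1))]
    nlinarith

lemma abs_exp_sub_one_le_mul (A : ℝ) :
    |Real.exp (-A) - 1| ≤ |A| * (1 + Real.exp (-A)) := by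
  have h1 := Real.add_one_le_exp (-A)
  have h2 := Real.add_one_le_exp A
  have hE := Real.exp_pos (-A)
  have e : Real.exp A * Real.exp (-A) = 1 := by rw [← Real.exp_add]; simp
  have h3 : Real.exp (-A) * (A + 1) ≤ 1 := by nlinarith
  rw [abs_le]
  constructor
  · nlinarith [le_abs_self A, mul_nonneg (abs_nonneg A) hE.le]
  · nlinarith [mul_le_mul_of_nonneg_right (neg_le_abs A) hE.le, abs_nonneg A]

lemma Weight.integral_linearisation_le {W : Euc d → ℝ} (hW : Weight W) {A : Euc d → ℝ}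
    (hAc : Continuous A) {G δ : ℝ} (_hG : 0 ≤ G) (_hδ : 0 ≤ δ)
    (hA : ∀ w, |A w| ≤ G * ‖w‖ + 2 * δ * ‖w‖ ^ 2) :
    Integrable (fun w => |A w|) (gibbs W) ∧ Integrable (fun w => ‖w‖ * |A w|) (gibbs W) ∧
      ∫ w, |A w| ∂(gibbs W)
        ≤ G * ∫ w, ‖w‖ ∂(gibbs W) + 2 * δ * ∫ w, ‖w‖ ^ 2 ∂(gibbs W) ∧
      ∫ w, ‖w‖ * |A w| ∂(gibbs W)
        ≤ G * ∫ w, ‖w‖ ^ 2 ∂(gibbs W) + 2 * δ * ∫ w, ‖w‖ ^ 3 ∂(gibbs W) := by
  have m1 : Integrable (fun w => G * ‖w‖ + 2 * δ * ‖w‖ ^ 2) (gibbs W) :=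
    (hW.integrable_norm.const_mul G).add ((hW.integrable_norm_moment 2).const_mul _)
  have m2 : Integrable (fun w => G * ‖w‖ ^ 2 + 2 * δ * ‖w‖ ^ 3) (gibbs W) :=
    ((hW.integrable_norm_moment 2).const_mul G).add ((hW.integrable_norm_moment 3).const_mul _)
  have hle : ∀ w, ‖w‖ * |A w| ≤ G * ‖w‖ ^ 2 + 2 * δ * ‖w‖ ^ 3 := fun w =>
    (mul_le_mul_of_nonneg_left (hA w) (norm_nonneg w)).trans_eq (by ring)
  have i1 : Integrable (fun w => |A w|) (gibbs W) :=
    m1.mono' (by fun_prop) (.of_forall fun w => by rw [Real.norm_eq_abs, abs_abs]; exact hA w)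
  have i2 : Integrable (fun w => ‖w‖ * |A w|) (gibbs W) :=
    m2.mono' (by fun_prop) (.of_forall fun w => by
      rw [Real.norm_eq_abs, abs_of_nonneg (by positivity)]; exact hle w)
  refine ⟨i1, i2, (integral_mono i1 m1 hA).trans_eq ?_, (integral_mono i2 m2 hle).trans_eq ?_⟩
  · rw [integral_add (hW.integrable_norm.const_mul G) ((hW.integrable_norm_moment 2).const_mul _),
      integral_const_mul, integral_const_mul]
  · rw [integral_add ((hW.integrable_norm_moment 2).const_mul G)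
      ((hW.integrable_norm_moment 3).const_mul _), integral_const_mul, integral_const_mul]

/-- First moments suffice when the drift or the step is not small. -/
lemma top_close_large {W : Euc d → ℝ} (hW : Weight W) {r g : ℝ} (hr0 : 0 < r) (hr1 : r ≤ 1)
    (hg0 : 0 ≤ g) (hWb : ∀ w, 1 / 2 * ‖w‖ ^ 2 - (r * g) ^ 2 / 2 ≤ ⟪w, ∇ W w⟫)
    (hcase : ¬(r * g ≤ 1 ∧ r ^ 2 * ((d : ℝ) + 1) ≤ 1))
    {F : Euc d → ℝ} (hFb : ∀ w, |F w| ≤ ‖w‖) :
    |∫ y, F y ∂(gibbs W) - ∫ y, F y ∂(gauss d)|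
      ≤ 150 * r * (((d : ℝ) + 1) ^ 2 * g + ((d : ℝ) + 1) ^ 3) := by
  have := hW.isProbabilityMeasure
  set D : ℝ := (d : ℝ) + 1 with hD
  have hD1 : 1 ≤ D := by rw [hD]; simp
  set G := r * g with hG
  have hG0 : 0 ≤ G := mul_nonneg hr0.le hg0
  have hsq : ∫ w, ‖w‖ ^ 2 ∂(gibbs W) ≤ 2 * D + G ^ 2 := by
    linarith [hW.integral_sq_le hWb]
  have hmom : ∫ w, ‖w‖ ∂(gibbs W) ≤ 2 * D + G := by
    calc ∫ w, ‖w‖ ∂(gibbs W)
        ≤ ∫ w, ((2 * (G + 1))⁻¹ * ‖w‖ ^ 2 + (G + 1) / 2) ∂(gibbs W) := by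
          refine integral_mono hW.integrable_norm
            (((hW.integrable_norm_moment 2).const_mul _).add (integrable_const _)) fun w => ?_
          rw [← sub_nonneg, show (2 * (G + 1))⁻¹ * ‖w‖ ^ 2 + (G + 1) / 2 - ‖w‖
            = (‖w‖ - (G + 1)) ^ 2 / (2 * (G + 1)) by field_simp; ring]
          positivity
      _ ≤ (2 * (G + 1))⁻¹ * (2 * D + G ^ 2) + (G + 1) / 2 := by
          rw [integral_add ((hW.integrable_norm_moment 2).const_mul _) (integrable_const _),
            integral_const_mul]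
          simp only [integral_const, probReal_univ, one_smul]
          gcongr
      _ ≤ _ := by
          have : (2 * (G + 1))⁻¹ * (2 * D + G ^ 2) ≤ D + G / 2 := by
            rw [inv_mul_le_iff₀ (by positivity)]
            nlinarith
          linarith
  have h1 : |∫ y, F y ∂(gibbs W)| ≤ ∫ y, ‖y‖ ∂(gibbs W) :=
    norm_integral_le_of_norm_le (f := F) hW.integrable_norm (.of_forall hFb)
  have h2 : |∫ y, F y ∂(gauss d)| ≤ ∫ y, ‖y‖ ∂(gauss d) :=
    norm_integral_le_of_norm_le (f := F) gauss_integrable_norm (.of_forall hFb)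
  have hgauss1 : ∫ w, ‖w‖ ∂(gauss d) ≤ D := gauss_norm_le d
  refine (abs_sub _ _).trans ((add_le_add h1 h2).trans ((add_le_add hmom hgauss1).trans ?_))
  have hD2 : D ≤ D ^ 2 := le_self_pow₀ hD1 two_ne_zero
  have hD3 : D ^ 2 ≤ D ^ 3 := pow_le_pow_right₀ hD1 (by norm_num)
  rcases not_and_or.1 hcase with hc | hc
  · have hG1 := le_of_lt (not_le.1 hc)
    have : 2 * D + G + D ≤ 4 * D ^ 2 * G := by
      nlinarith [mul_le_mul_of_nonneg_left hG1 (by positivity : (0:ℝ) ≤ D),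
        mul_le_mul_of_nonneg_right hD2 hG0]
    nlinarith [mul_nonneg hr0.le (by positivity : (0:ℝ) ≤ D ^ 3)]
  · have : D ≤ r * D ^ 2 := by
      have h1 : D ≤ r ^ 2 * D ^ 2 := by nlinarith [not_le.1 hc]
      nlinarith [mul_le_mul_of_nonneg_right (by nlinarith : r ^ 2 ≤ r) (sq_nonneg D)]
    nlinarith [mul_le_mul_of_nonneg_left hD3 hr0.le,
      mul_le_mul_of_nonneg_right (hD1.trans hD2) hG0]

/-- A Gaussian exponential moment is bounded below through the mean. -/
lemma gauss_exp_lower {A : Euc d → ℝ} (hAint : Integrable A (gauss d))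
    (hEint : Integrable (fun w => Real.exp (-A w)) (gauss d))
    (hm2 : ∫ w, A w ∂(gauss d) ≤ 2) : 1 ≤ 8 * ∫ w, Real.exp (-A w) ∂(gauss d) := by
  set m := ∫ w, A w ∂(gauss d) with hm
  set N := ∫ w, Real.exp (-A w) ∂(gauss d)
  have hlow : Real.exp (-m) ≤ N := by
    calc Real.exp (-m) = ∫ w, Real.exp (-m) * (1 - (A w - m)) ∂(gauss d) := by
          have hi : Integrable (fun w => A w - m) (gauss d) := hAint.sub (integrable_const m)
          rw [integral_const_mul, integral_sub (integrable_const 1) hi,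
            integral_sub hAint (integrable_const m)]
          simp [hm]
      _ ≤ N := integral_mono
          (((integrable_const 1).sub (hAint.sub (integrable_const m))).const_mul _) hEint
          fun w => by
            dsimp only
            rw [show -A w = -m + -(A w - m) by ring, Real.exp_add]
            exact mul_le_mul_of_nonneg_left (by linarith [Real.add_one_le_exp (-(A w - m))])
              (Real.exp_pos _).le
  have h2 : Real.exp 2 ≤ 8 := by
    rw [show (2 : ℝ) = 1 + 1 by norm_num, Real.exp_add]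
    nlinarith [Real.exp_one_lt_d9, Real.exp_pos 1]
  have h3 : Real.exp (-2) ≤ N := (Real.exp_le_exp.2 (by linarith)).trans hlow
  have h4 : Real.exp 2 * Real.exp (-2) = 1 := by rw [← Real.exp_add]; simp
  nlinarith [Real.exp_pos (-2 : ℝ)]

/-- Comparison of a tilted Gaussian with the Gaussian through the size of the tilt. -/
lemma tilt_compare {A F : Euc d → ℝ} {ν : Measure (Euc d)} [IsProbabilityMeasure ν]
    (eA : (gauss d).tilted (fun w => -A w) = ν)
    (hEint : Integrable (fun w => Real.exp (-A w)) (gauss d))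
    (hN : 1 ≤ 8 * ∫ w, Real.exp (-A w) ∂(gauss d))
    (hFb : ∀ w, |F w| ≤ ‖w‖) (hFg : Integrable F (gauss d)) (hFW : Integrable F ν)
    (iQ1 : Integrable (fun w => |A w|) (gauss d))
    (iQ2 : Integrable (fun w => ‖w‖ * |A w|) (gauss d))
    (iW1 : Integrable (fun w => |A w|) ν) (iW2 : Integrable (fun w => ‖w‖ * |A w|) ν) :
    |∫ y, F y ∂ν - ∫ y, F y ∂(gauss d)|
      ≤ 8 * ∫ w, ‖w‖ * |A w| ∂(gauss d) + ∫ w, ‖w‖ * |A w| ∂ν
        + (8 * ∫ w, |A w| ∂(gauss d) + ∫ w, |A w| ∂ν) * ∫ w, ‖w‖ ∂(gauss d) := by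
  set N := ∫ w, Real.exp (-A w) ∂(gauss d) with hNdef
  have hN0 : 0 < N := by linarith
  have hNinv : N⁻¹ ≤ 8 := by
    rw [inv_le_iff_one_le_mul₀ hN0]; linarith
  have etilt : ∀ φ : Euc d → ℝ,
      ∫ w, φ w ∂ν = N⁻¹ * ∫ w, Real.exp (-A w) * φ w ∂(gauss d) := by
    intro φ
    rw [← eA, integral_tilted, ← integral_const_mul]
    refine integral_congr_ae (.of_forall fun w => ?_)
    simp only [smul_eq_mul, hNdef]
    ring
  have itilt : ∀ φ : Euc d → ℝ, Integrable φ ν →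
      Integrable (fun w => Real.exp (-A w) * φ w) (gauss d) := fun φ hφ => by
    rw [← eA] at hφ
    simpa using (integrable_tilted_iff hEint φ).1 hφ
  set S1 := ∫ w, |A w| ∂(gauss d)
  set S2 := ∫ w, ‖w‖ * |A w| ∂(gauss d)
  set T1 := ∫ w, |A w| ∂ν with hT1def
  set T2 := ∫ w, ‖w‖ * |A w| ∂ν with hT2def
  set M := ∫ w, ‖w‖ ∂(gauss d)
  have eT1 : N * T1 = ∫ w, Real.exp (-A w) * |A w| ∂(gauss d) := by
    rw [hT1def, etilt, mul_inv_cancel_left₀ hN0.ne']
  have eT2 : N * T2 = ∫ w, Real.exp (-A w) * (‖w‖ * |A w|) ∂(gauss d) := by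
    rw [hT2def, etilt, mul_inv_cancel_left₀ hN0.ne']
  have hA1 : |1 - N| ≤ S1 + N * T1 := by
    rw [eT1, abs_sub_comm, ← integral_add iQ1 (itilt _ iW1),
      show N - 1 = ∫ w, (Real.exp (-A w) - 1) ∂(gauss d) by
        rw [integral_sub hEint (integrable_const 1)]; simp [hNdef]]
    refine norm_integral_le_of_norm_le (f := fun w => Real.exp (-A w) - 1) (iQ1.add (itilt _ iW1))
      (.of_forall fun w => ?_)
    simp only [Real.norm_eq_abs]
    linarith [abs_exp_sub_one_le_mul (A w)]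
  have hnum : |∫ w, (Real.exp (-A w) - N) * F w ∂(gauss d)| ≤ S2 + N * T2 + |1 - N| * M := by
    have hi : Integrable (fun w => ‖w‖ * |A w| + Real.exp (-A w) * (‖w‖ * |A w|)) (gauss d) :=
      iQ2.add (itilt _ iW2)
    rw [eT2, ← integral_add iQ2 (itilt _ iW2), ← integral_const_mul,
      ← integral_add hi (gauss_integrable_norm.const_mul _)]
    refine norm_integral_le_of_norm_le (f := fun w => (Real.exp (-A w) - N) * F w)
      (hi.add (gauss_integrable_norm.const_mul _))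
      (.of_forall fun w => ?_)
    simp only [Real.norm_eq_abs, abs_mul]
    calc |Real.exp (-A w) - N| * |F w|
        ≤ (|A w| * (1 + Real.exp (-A w)) + |1 - N|) * ‖w‖ := by
          refine mul_le_mul ?_ (hFb w) (abs_nonneg _) (by positivity)
          exact (abs_sub_le _ 1 _).trans (add_le_add (abs_exp_sub_one_le_mul _) le_rfl)
      _ = _ := by ring
  have ediff : ∫ y, F y ∂ν - ∫ y, F y ∂(gauss d)
      = N⁻¹ * ∫ w, (Real.exp (-A w) - N) * F w ∂(gauss d) := by
    simp only [sub_mul]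
    rw [integral_sub (itilt F hFW) (hFg.const_mul N), integral_const_mul, mul_sub, ← etilt,
      inv_mul_cancel_left₀ hN0.ne']
  rw [ediff, abs_mul, abs_of_pos (inv_pos.2 hN0)]
  have hM0 : 0 ≤ M := integral_nonneg fun _ => norm_nonneg _
  have hS1 : 0 ≤ S1 := integral_nonneg fun _ => abs_nonneg _
  have hS2 : 0 ≤ S2 := integral_nonneg fun _ => by positivity
  calc N⁻¹ * |∫ w, (Real.exp (-A w) - N) * F w ∂(gauss d)|
      ≤ N⁻¹ * (S2 + N * T2 + (S1 + N * T1) * M) := by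
        refine mul_le_mul_of_nonneg_left (hnum.trans ?_) (inv_pos.2 hN0).le
        gcongr
    _ = N⁻¹ * S2 + T2 + (N⁻¹ * S1 + T1) * M := by field_simp
    _ ≤ _ := by gcongr

/-- The small drift bound in terms of the moments. -/
lemma top_small_arith {D G δ r g S1 S2 T1 T2 M : ℝ} (hD1 : 1 ≤ D) (hg0 : 0 ≤ g) (hr0 : 0 < r)
    (hr1 : r ≤ 1) (hδ : δ = r ^ 2) (hG : G = r * g) (hM0 : 0 ≤ M) (hM : M ≤ D)
    (hS2 : S2 ≤ 2 * D * G + 12 * δ * D ^ 2) (hT2 : T2 ≤ 2 * D * G + 12 * δ * D ^ 2)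
    (hS1 : S1 ≤ 3 * D * G + 4 * δ * D) (hT1 : T1 ≤ 3 * D * G + 4 * δ * D) :
    8 * S2 + T2 + (8 * S1 + T1) * M ≤ 150 * r * (D ^ 2 * g + D ^ 3) := by
  subst hδ hG
  have h0 : (8 * S1 + T1) * M ≤ 9 * (3 * D * (r * g) + 4 * r ^ 2 * D) * D :=
    mul_le_mul (by linarith) hM hM0 (by positivity)
  have h1 : D * (r * g) ≤ D ^ 2 * (r * g) :=
    mul_le_mul_of_nonneg_right (le_self_pow₀ hD1 two_ne_zero) (by positivity)
  have h2 : r ^ 2 * D ^ 2 ≤ r * D ^ 3 :=
    mul_le_mul (by nlinarith) (pow_le_pow_right₀ hD1 (by norm_num)) (by positivity) hr0.le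
  linarith [mul_nonneg (mul_nonneg hr0.le hg0) (sq_nonneg D),
    (by positivity : 0 ≤ r * D ^ 3), (by ring : 9 * (3 * D * (r * g) + 4 * r ^ 2 * D) * D
      = 27 * (D ^ 2 * (r * g)) + 36 * (r ^ 2 * D ^ 2)),
    (by ring : 150 * r * (D ^ 2 * g + D ^ 3) = 150 * (D ^ 2 * (r * g)) + 150 * (r * D ^ 3))]

/-- The rescaled posterior law is close to the Gaussian. -/
lemma top_close (h : LevelPot U) {δ : ℝ} (hδ : 0 < δ) (hδ1 : δ ≤ 1) (x : Euc d) :
    DualClose ((gibbs (postPot U δ x)).map fun y => (√δ)⁻¹ • (y - x)) (gauss d)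
      (150 * √δ * (((d : ℝ) + 1) ^ 2 * ‖∇ U x‖ + ((d : ℝ) + 1) ^ 3)) := by
  rw [post_map_eq h hδ x]
  intro f hf
  set r := √δ with hr
  have hr0 : 0 < r := Real.sqrt_pos.2 hδ
  have hr2 : r ^ 2 = δ := Real.sq_sqrt hδ.le
  have hr1 : r ≤ 1 := Real.sqrt_le_one.2 hδ1
  set g := ‖∇ U x‖ with hg
  have hg0 : 0 ≤ g := norm_nonneg _
  have hD1 : (1 : ℝ) ≤ (d : ℝ) + 1 := by simp
  have hW : Weight (topPot U r x) := topPot_weight h r x
  have hWb := topPot_inner h hr0 x
  set W := topPot U r x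
  have := hW.isProbabilityMeasure
  set F : Euc d → ℝ := fun w => f w - f 0 with hF
  have hFc : Continuous F := by have := hf.continuous; fun_prop
  have hFb : ∀ w, |F w| ≤ ‖w‖ := fun w => by simpa [hF] using lipschitz_abs_sub hf w 0
  have hFW : Integrable F (gibbs W) :=
    hW.integrable_norm.mono' hFc.aestronglyMeasurable (.of_forall hFb)
  have hFg : Integrable F (gauss d) :=
    gauss_integrable_norm.mono' hFc.aestronglyMeasurable (.of_forall hFb)
  have e : ∀ (μ : Measure (Euc d)) [IsProbabilityMeasure μ], Integrable F μ →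
      ∫ y, f y ∂μ = f 0 + ∫ y, F y ∂μ := fun μ _ hi => by
    rw [show (∫ y, f y ∂μ) = ∫ y, (f 0 + F y) ∂μ from
      integral_congr_ae (.of_forall fun y => by simp [hF]),
      integral_add (integrable_const _) hi]
    simp
  rw [e _ hFW, e _ hFg, add_sub_add_left_eq_sub]
  by_cases hcase : r * g ≤ 1 ∧ r ^ 2 * ((d : ℝ) + 1) ≤ 1
  swap
  · exact top_close_large hW hr0 hr1 hg0 hWb hcase hFb
  obtain ⟨hG1, hδD⟩ := hcase
  have hG0 : 0 ≤ r * g := mul_nonneg hr0.le hg0
  set A : Euc d → ℝ := fun w => U (x + r • w) - U x with hA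
  have hUc := h.weight.continuous
  have hAc : Continuous A := by fun_prop
  have hAlin : ∀ w, |A w - r * ⟪∇ U x, w⟫| ≤ 2 * δ * ‖w‖ ^ 2 := fun w => by
    have := h.taylor x (r • w)
    rw [real_inner_smul_right, norm_smul, Real.norm_eq_abs, abs_of_pos hr0, mul_pow, hr2] at this
    simp only [hA]
    linarith
  have hAb : ∀ w, |A w| ≤ r * g * ‖w‖ + 2 * δ * ‖w‖ ^ 2 := fun w => by
    have h1 := abs_sub_abs_le_abs_sub (A w) (r * ⟪∇ U x, w⟫)
    have h2 : |r * ⟪∇ U x, w⟫| ≤ r * g * ‖w‖ := by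
      rw [abs_mul, abs_of_pos hr0, mul_assoc]
      exact mul_le_mul_of_nonneg_left (abs_real_inner_le_norm _ _) hr0.le
    linarith [hAlin w]
  have hEint : Integrable (fun w => Real.exp (-A w)) (gauss d) := by
    refine ((h.weight.bddSmooth_exp.heat_integrable δ x).const_mul (Real.exp (U x))).congr
      (.of_forall fun w => ?_)
    simp only [hA, ← hr, ← Real.exp_add]
    ring_nf
  have eA : ((gauss d).tilted fun w => -A w) = gibbs W := by
    rw [← gauss_tilted_eq_topPot]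
    simp only [Measure.tilted, hA]
    congr 1
    funext w
    have e : ∀ v : Euc d, Real.exp (-(U (x + r • v) - U x))
        = Real.exp (U x) * Real.exp (-U (x + r • v)) := fun v => by
      rw [← Real.exp_add]; ring_nf
    simp only [e]
    rw [integral_const_mul, mul_div_mul_left _ _ (Real.exp_pos (U x)).ne']
  have hQ := gauss_half_sq_weight d
  obtain ⟨w2, w1, w3⟩ := top_moments hW hWb (by positivity)
    (div_le_div_of_nonneg_right (pow_le_one₀ hG0 hG1) zero_le_two)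
  obtain ⟨q2, q1, q3⟩ := top_moments hQ gauss_half_sq_bound le_rfl (by norm_num)
  obtain ⟨iW1, iW2, bW1, bW2⟩ := hW.integral_linearisation_le hAc hG0 hδ.le hAb
  obtain ⟨iQ1, iQ2, bQ1, bQ2⟩ := hQ.integral_linearisation_le hAc hG0 hδ.le hAb
  rw [← gauss_eq_gibbs] at q1 q2 q3 iQ1 iQ2 bQ1 bQ2
  have hAint : Integrable A (gauss d) :=
    iQ1.mono' hAc.aestronglyMeasurable (.of_forall fun w => le_rfl)
  have hm2 : ∫ w, A w ∂(gauss d) ≤ 2 := by
    have hzero : ∫ w, ⟪∇ U x, w⟫ ∂(gauss d) = 0 :=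
      Poincare.integral_linear_gauss (innerSL ℝ (∇ U x))
    have hi1 : Integrable (fun w => r * ⟪∇ U x, w⟫) (gauss d) :=
      ((innerSL ℝ (∇ U x)).integrable_comp IsGaussian.integrable_id).const_mul r
    have hi2 : Integrable (fun w => 2 * δ * ‖w‖ ^ 2) (gauss d) :=
      (gauss_integrable_norm_pow 2).const_mul _
    calc ∫ w, A w ∂(gauss d) ≤ ∫ w, (r * ⟪∇ U x, w⟫ + 2 * δ * ‖w‖ ^ 2) ∂(gauss d) :=
          integral_mono hAint (hi1.add hi2) fun w => by linarith [(abs_le.1 (hAlin w)).2]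
      _ ≤ _ := by
          rw [integral_add hi1 hi2, integral_const_mul, hzero, integral_const_mul, ← hr2]
          nlinarith [gauss_sq_le d, sq_nonneg r]
  refine (tilt_compare eA hEint (gauss_exp_lower hAint hEint hm2) hFb hFg hFW iQ1 iQ2 iW1
    iW2).trans (top_small_arith hD1 hg0 hr0 hr1 hr2.symm rfl (integral_nonneg fun _ => norm_nonneg _)
      (gauss_norm_le d) ?_ ?_ ?_ ?_)
  · nlinarith [mul_le_mul_of_nonneg_left q2 hG0, mul_le_mul_of_nonneg_left q3 hδ.le]
  · nlinarith [mul_le_mul_of_nonneg_left w2 hG0, mul_le_mul_of_nonneg_left w3 hδ.le]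
  · nlinarith [mul_le_mul_of_nonneg_left q1 hG0, mul_le_mul_of_nonneg_left q2 hδ.le]
  · nlinarith [mul_le_mul_of_nonneg_left w1 hG0, mul_le_mul_of_nonneg_left w2 hδ.le]

theorem kernelFacts : KernelStatement := by
  obtain ⟨c₀, hc₀, hc1, hlev⟩ := exists_levelPot
  refine ⟨c₀, 750, hc₀, by norm_num, fun d V hV h0 τ s hs hsτ hτ => ?_⟩
  set δ := τ - s with hδdef
  have hδ : 0 < δ := sub_pos.2 hsτ
  have hδ1 : δ ≤ 1 := by linarith
  have hP := hlev d V hV s hs.le (hsτ.le.trans hτ)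
  have hU := hP.weight
  have hsm : smoothPot (smoothPot V s) δ = smoothPot V τ := by
    rw [smoothPot_semigroup hV.weight hs.le hδ.le, hδdef, add_sub_cancel]
  have hK : ∀ x, postKernel V τ s x = gibbs (postPot (smoothPot V s) δ x) := fun x => by
    unfold postKernel postPot
    simp only [← hδdef, norm_sub_rev x]
  refine ⟨fun x => ?_, fun x => ?_, fun F hF => ?_, fun x => ?_, fun _ => ?_⟩
  · rw [hK]; exact (hU.postPot hδ x).isProbabilityMeasure
  · rw [hK]; exact (hU.postPot hδ x).integrable_norm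
  · simp only [hK, levelLaw, ← hsm]
    exact disintegrate hU hδ hF
  · rw [hK, ← postMean_eq_gibbs (smoothPot V s) (score V s) hδ x]
    change postMean (smoothPot V s) δ (∇ (smoothPot V s)) x = _
    rw [← score_eq_postMean hU, score, hsm, score]
  · have := hU.isProbabilityMeasure
    have hUτ := hU.smoothPot hδ.le
    have hprobτ := hUτ.isProbabilityMeasure
    have hs0 : Continuous fun x => ‖score V s x‖ := hP.gradient_continuous.norm
    have hgi : Integrable (fun x => ‖score V s x‖) (gibbs (smoothPot (smoothPot V s) δ)) :=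
      hUτ.integrable_gibbs hs0 (C := ‖score V s 0‖ + 2) (p := 1) fun x => by
        rw [norm_norm, pow_one]
        have := hP.gradient_norm_le x 0
        rw [sub_zero] at this
        change ‖score V s x‖ ≤ ‖score V s 0‖ + 2 * ‖x‖ at this
        nlinarith [norm_nonneg x, norm_nonneg (score V s 0),
          mul_nonneg (norm_nonneg (score V s 0)) (norm_nonneg x)]
    refine ⟨fun x => 150 * √δ * (((d : ℝ) + 1) ^ 2 * ‖score V s x‖ + ((d : ℝ) + 1) ^ 3),
      ?_, ?_, fun x => ?_⟩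
    · rw [levelLaw, ← hsm]
      exact ((hgi.const_mul _).add (integrable_const _)).const_mul _
    · rw [levelLaw, ← hsm, integral_const_mul,
        integral_add (hgi.const_mul _) (integrable_const _), integral_const_mul]
      simp only [integral_const, probReal_univ, one_smul]
      have hsi : Integrable (fun x => ‖score V s x‖) (gibbs (smoothPot V s)) :=
        (hU.integrable_temperate hU.gradient_temperate).norm
      have hni := (gauss_integrable_norm (d := d)).comp_snd (gibbs (smoothPot V s))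
      have hbound : ∫ x, ‖score V s x‖ ∂(gibbs (smoothPot (smoothPot V s) δ))
          ≤ 4 * ((d : ℝ) + 1) := by
        rw [integral_gibbs_smoothPot hU hδ.le hs0]
        calc ∫ p : Euc d × Euc d, ‖score V s (p.1 + √δ • p.2)‖
              ∂((gibbs (smoothPot V s)).prod (gauss d))
            ≤ ∫ p : Euc d × Euc d, (‖score V s p.1‖ + 2 * ‖p.2‖)
              ∂((gibbs (smoothPot V s)).prod (gauss d)) := by
              refine integral_mono_of_nonneg (.of_forall fun p => norm_nonneg _)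
                ((hsi.comp_fst _).add (hni.const_mul 2)) (.of_forall fun p => ?_)
              refine (hP.gradient_norm_le _ p.1).trans (add_le_add le_rfl ?_)
              rw [add_sub_cancel_left, norm_smul, Real.norm_eq_abs,
                abs_of_nonneg (Real.sqrt_nonneg δ)]
              exact mul_le_mul_of_nonneg_left
                (mul_le_of_le_one_left (norm_nonneg _) (Real.sqrt_le_one.2 hδ1)) zero_le_two
          _ ≤ _ := by
              rw [integral_add (hsi.comp_fst _) (hni.const_mul 2), integral_const_mul,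
                integral_fun_fst (μ := gibbs (smoothPot V s)) (ν := gauss d) (fun z => ‖score V s z‖),
                integral_fun_snd (μ := gibbs (smoothPot V s)) (ν := gauss d) (‖·‖)]
              simp only [probReal_univ, one_smul]
              have h1 : ∫ y, ‖score V s y‖ ∂(gibbs (smoothPot V s)) ≤ 2 * ((d : ℝ) + 1) :=
                levelLaw_score_le hV h0 hs
              linarith [gauss_norm_le d]
      calc 150 * √δ * (((d : ℝ) + 1) ^ 2
              * ∫ x, ‖score V s x‖ ∂(gibbs (smoothPot (smoothPot V s) δ)) + ((d : ℝ) + 1) ^ 3)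
          ≤ 150 * √δ * (((d : ℝ) + 1) ^ 2 * (4 * ((d : ℝ) + 1)) + ((d : ℝ) + 1) ^ 3) := by
            gcongr
        _ = _ := by ring
    · rw [hK]
      exact top_close hP hδ hδ1 x

end Vale.Agent.P347
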