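import Vale.Agent.P347.LevelPot

/-!
Elementary facts about the levels.
-/

namespace Vale.Agent.P347

open MeasureTheory ProbabilityTheory Filter Set
open scoped Gradient RealInnerProductSpace ContDiff Topology

variable {d : ℕ} {U V : Euc d → ℝ}

lemma LevelPot.gradient_growth (h : LevelPot U) (y η : Euc d) (r : ℝ) :
    ‖∇ U (y + r • η)‖ ≤ (‖∇ U y‖ + 2 * |r|) * (1 + ‖η‖ ^ 1) := by
  refine (h.gradient_norm_le _ y).trans ?_
  rw [add_sub_cancel_left, norm_smul, Real.norm_eq_abs, pow_one]
  nlinarith [norm_nonneg η, norm_nonneg (∇ U y), abs_nonneg r,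
    mul_nonneg (norm_nonneg (∇ U y)) (norm_nonneg η)]

lemma LevelPot.heat_gradient_integrable (h : LevelPot U) (ρ : ℝ) (y : Euc d) :
    Integrable (fun η => ∇ U (y + √ρ • η)) (gauss d) :=
  gauss_integrable_of_growth (h.gradient_continuous.comp (by fun_prop)).aestronglyMeasurable
    fun η => h.gradient_growth y η √ρ

lemma LevelPot.hessian_integrable (h : LevelPot U) (ρ : ℝ) (y : Euc d) :
    Integrable (fun η => fderiv ℝ (∇ U) (y + √ρ • η)) (gauss d) :=
  Integrable.mono' (integrable_const (2 : ℝ))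
    (((temperate_fderiv h.weight.gradient_temperate).1.continuous).comp
      (by fun_prop)).aestronglyMeasurable
    (.of_forall fun η => h.norm_fderiv_gradient_le _)

lemma LevelPot.heat_gradient_hasFDerivAt (h : LevelPot U) (ρ : ℝ) (y : Euc d) :
    HasFDerivAt (heat ρ (∇ U)) (heat ρ (fderiv ℝ (∇ U)) y) y :=
  hasFDerivAt_integral_of_dominated_of_fderiv_le (F := fun y η => ∇ U (y + √ρ • η))
    (F' := fun y η => fderiv ℝ (∇ U) (y + √ρ • η)) (bound := fun _ => (2 : ℝ)) univ_mem
    (.of_forall fun _ => (h.gradient_continuous.comp (by fun_prop)).aestronglyMeasurable)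
    (h.heat_gradient_integrable ρ y) (h.hessian_integrable ρ y).1
    (.of_forall fun _ _ _ => h.norm_fderiv_gradient_le _) (integrable_const 2)
    (.of_forall fun η y _ => by
      simpa [Function.comp_def] using (h.gradient_differentiable _).hasFDerivAt.comp y
        ((hasFDerivAt_id y).add_const (√ρ • η)))

lemma LevelPot.heat_gradient_facts (h : LevelPot U) (ρ : ℝ) :
    Differentiable ℝ (heat ρ (∇ U)) ∧
      Continuous (fderiv ℝ (heat ρ (∇ U))) ∧
      (∀ y a b, ⟪fderiv ℝ (heat ρ (∇ U)) y a, b⟫ = ⟪a, fderiv ℝ (heat ρ (∇ U)) y b⟫) ∧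
      (∀ y, ‖fderiv ℝ (heat ρ (∇ U)) y‖ ≤ 2) ∧
      ∀ a b, ‖heat ρ (∇ U) a - heat ρ (∇ U) b‖ ≤ 2 * ‖a - b‖ := by
  have he : fderiv ℝ (heat ρ (∇ U)) = heat ρ (fderiv ℝ (∇ U)) :=
    funext fun y => (h.heat_gradient_hasFDerivAt ρ y).fderiv
  have hd : Differentiable ℝ (heat ρ (∇ U)) := fun y =>
    (h.heat_gradient_hasFDerivAt ρ y).differentiableAt
  have hb : ∀ y, ‖fderiv ℝ (heat ρ (∇ U)) y‖ ≤ 2 := fun y => by
    rw [he]; exact heat_norm_le h.norm_fderiv_gradient_le ρ y
  refine ⟨hd, ?_, fun y a b => ?_, hb, fun a b => ?_⟩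
  · rw [he]
    exact (heat_continuous (temperate_fderiv h.weight.gradient_temperate).1.continuous
      h.norm_fderiv_gradient_le).comp ((continuous_const (y := ρ)).prodMk continuous_id)
  · have hi := h.hessian_integrable ρ y
    rw [he, heat, ContinuousLinearMap.integral_apply hi, ContinuousLinearMap.integral_apply hi,
      real_inner_comm, ← integral_inner (hi.apply_continuousLinearMap a),
      ← integral_inner (hi.apply_continuousLinearMap b)]
    refine integral_congr_ae (.of_forall fun η => ?_)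
    dsimp only
    rw [real_inner_comm, h.inner_fderiv_symm]
  · exact convex_univ.norm_image_sub_le_of_norm_fderiv_le (fun x _ => hd x)
      (fun x _ => hb x) (mem_univ b) (mem_univ a)

lemma scoreAvg_eq (V : Euc d → ℝ) (t ρ : ℝ) : scoreAvg V t ρ = heat ρ (∇ (smoothPot V (t + ρ))) :=
  rfl

lemma levelLaw_semigroup (hV : NicePot d V 1 2) {t r : ℝ} (ht : 0 ≤ t) (hr : 0 ≤ r) :
    ((levelLaw V t).prod (gauss d)).map (fun p => p.1 + √r • p.2) = levelLaw V (t + r) := by
  rw [levelLaw, gibbs_map_noise (hV.weight.smoothPot ht) hr, smoothPot_semigroup hV.weight ht hr,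
    levelLaw]

lemma levelLaw_score_avg_le (hV : NicePot d V 1 2) (h0 : ∇ V 0 = 0) {t ρ : ℝ} (ht : 0 < t)
    (hρ : 0 ≤ ρ) : ∫ y, ‖scoreAvg V t ρ y‖ ∂(levelLaw V t) ≤ 2 * ((d : ℝ) + 1) := by
  have hs : 0 < t + ρ := by linarith
  have hW := hV.weight.smoothPot ht.le
  have hWs := hV.weight.smoothPot hs.le
  have := hW.isProbabilityMeasure
  have hc : Continuous fun y => ‖score V (t + ρ) y‖ := hWs.gradient_temperate.1.continuous.norm
  have hi : Integrable (fun y => ‖score V (t + ρ) y‖) (gibbs (smoothPot V (t + ρ))) :=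
    (hWs.integrable_temperate hWs.gradient_temperate).norm
  rw [← smoothPot_semigroup hV.weight ht.le hρ] at hi
  have hp := integrable_gibbs_smoothPot hW hρ hc hi
  calc ∫ y, ‖scoreAvg V t ρ y‖ ∂(levelLaw V t)
      ≤ ∫ y, ∫ η, ‖score V (t + ρ) (y + √ρ • η)‖ ∂(gauss d) ∂(gibbs (smoothPot V t)) :=
        integral_mono_of_nonneg (.of_forall fun y => norm_nonneg _) hp.integral_prod_left
          (.of_forall fun y => norm_integral_le_integral_norm _)
    _ = ∫ y, ‖score V (t + ρ) y‖ ∂(levelLaw V (t + ρ)) := by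
        rw [levelLaw, ← smoothPot_semigroup hV.weight ht.le hρ,
          integral_gibbs_smoothPot hW hρ hc, integral_prod _ hp]
    _ ≤ _ := levelLaw_score_le hV h0 hs

lemma levelLaw_score_sub_le (hV : NicePot d V 1 2) (hP : LevelPot (smoothPot V 0)) {t : ℝ}
    (ht : 0 < t) :
    ∫ y, ‖score V t y - ∇ V y‖ ∂(levelLaw V t) ≤ 2 * ((d : ℝ) + 1) * √t := by
  rw [smoothPot_zero] at hP
  have := hV.weight.isProbabilityMeasure
  have hW := hV.weight
  have hη : Integrable (fun p : Euc d × Euc d => 2 * ‖p.1 + √t • p.2 - p.1‖)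
      ((gibbs V).prod (gauss d)) := by
    refine (((gauss_integrable_norm (d := d)).comp_snd (gibbs V)).const_mul (2 * √t)).congr
      (.of_forall fun p => ?_)
    simp [norm_smul, abs_of_nonneg (Real.sqrt_nonneg t), mul_assoc]
  obtain ⟨hi, he⟩ := integral_post_step hW ht (G := fun q => 2 * ‖q.1 - q.2‖) (by fun_prop) hη
  calc ∫ y, ‖score V t y - ∇ V y‖ ∂(levelLaw V t)
      ≤ ∫ x, ∫ y, 2 * ‖x - y‖ ∂(gibbs (postPot V t x)) ∂(gibbs (smoothPot V t)) := by
        refine integral_mono_of_nonneg (.of_forall fun y => norm_nonneg _) hi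
          (.of_forall fun x => ?_)
        have hWp := hW.postPot ht x
        have := hWp.isProbabilityMeasure
        dsimp only
        have e : score V t x - ∇ V x
            = ∫ y, (∇ V y - ∇ V x) ∂(gibbs (postPot V t x)) := by
          rw [score_eq_postMean hW, postMean_eq_gibbs V _ ht,
            integral_sub (hWp.integrable_temperate hW.gradient_temperate) (integrable_const _)]
          simp
        rw [e]
        refine (norm_integral_le_integral_norm _).trans
          (integral_mono_of_nonneg (.of_forall fun y => norm_nonneg _) ?_ (.of_forall fun y => ?_))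
        · exact (((integrable_const x).sub (hWp.integrable_temperate
            (ContinuousLinearMap.id ℝ (Euc d)).hasTemperateGrowth)).norm.const_mul 2)
        · exact (hP.gradient_lipschitz y x).trans_eq (by rw [norm_sub_rev])
    _ = ∫ p : Euc d × Euc d, 2 * ‖p.1 + √t • p.2 - p.1‖ ∂((gibbs V).prod (gauss d)) := he
    _ = 2 * √t * ∫ η, ‖η‖ ∂(gauss d) := by
        simp only [add_sub_cancel_left, norm_smul, Real.norm_eq_abs,
          abs_of_nonneg (Real.sqrt_nonneg t), ← mul_assoc]
        rw [integral_const_mul, integral_fun_snd (μ := gibbs V) (ν := gauss d) (‖·‖)]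
        simp
    _ ≤ _ := by nlinarith [gauss_norm_le d, Real.sqrt_nonneg t]

theorem levelFacts : LevelFactsStatement := by
  obtain ⟨c₀, hc₀, hc1, hlev⟩ := exists_levelPot
  refine ⟨c₀, 2, hc₀, two_pos, fun d V hV h0 => ⟨fun t ht htc => ?_, ?_, fun t ρ ht hρ htc => ?_,
    fun t ht _ => levelLaw_score_sub_le hV (hlev d V hV 0 le_rfl hc₀.le) ht⟩⟩
  · have hW := hV.weight.smoothPot ht
    exact ⟨hW.isProbabilityMeasure, hW.integrable_norm_moment,
      levelLaw_norm_le hV h0 ht (htc.trans hc1), fun r hr _ => levelLaw_semigroup hV ht hr⟩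
  · rw [levelLaw, smoothPot_zero]
  · obtain ⟨h1, h2, h3, h4, h5⟩ :=
      (hlev d V hV (t + ρ) (by linarith) htc).heat_gradient_facts ρ
    refine ⟨h1, h2, h3, h4, h5, fun y => ?_, levelLaw_score_avg_le hV h0 ht hρ⟩
    rw [scoreAvg_eq, heat_zero, add_zero]
    rfl

end Vale.Agent.P347
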