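import Mathlib

/-!
Bilinear bounds for matrices indexed by multi-indices, and splittings of multisets of slots.
-/

namespace Vale.Agent.P347

open Finset

/-- The matrix `M` has operator norm at most `C` from `ℓ²(Y)` to `ℓ²(X)`. -/
def Bil {X Y : Type*} [Fintype X] [Fintype Y] (C : ℝ) (M : X → Y → ℝ) : Prop :=
  ∀ (A : X → ℝ) (B : Y → ℝ),
    |∑ x, ∑ y, M x y * A x * B y| ≤ C * √(∑ x, A x ^ 2) * √(∑ y, B y ^ 2)

namespace Bil

variable {X Y X' Y' : Type*} [Fintype X] [Fintype Y] [Fintype X'] [Fintype Y'] {C D : ℝ}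
  {M N : X → Y → ℝ}

lemma swap (h : Bil C M) : Bil C fun y x => M x y := fun A B => by
  have := h B A
  rw [Finset.sum_comm]
  simp only [mul_right_comm (M _ _) (A _) (B _)]
  calc |∑ x, ∑ y, M x y * B x * A y| ≤ C * √(∑ x, B x ^ 2) * √(∑ y, A y ^ 2) := this
    _ = _ := by ring

lemma mono (h : Bil C M) (hCD : C ≤ D) : Bil D M := fun A B =>
  (h A B).trans (mul_le_mul_of_nonneg_right (mul_le_mul_of_nonneg_right hCD (Real.sqrt_nonneg _))
    (Real.sqrt_nonneg _))

lemma reindex (h : Bil C M) (eX : X' ≃ X) (eY : Y' ≃ Y) :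
    Bil C fun x y => M (eX x) (eY y) := fun A B => by
  rw [Fintype.sum_equiv eX (fun x => ∑ y, M (eX x) (eY y) * A x * B y)
      (fun x => ∑ y, M x y * (A ∘ eX.symm) x * (B ∘ eY.symm) y)
      (fun x => Fintype.sum_equiv eY _ _ fun y => by simp),
    Fintype.sum_equiv eX (fun x => A x ^ 2) (fun x => (A ∘ eX.symm) x ^ 2) (fun x => by simp),
    Fintype.sum_equiv eY (fun y => B y ^ 2) (fun y => (B ∘ eY.symm) y ^ 2) (fun y => by simp)]
  exact h (A ∘ eX.symm) (B ∘ eY.symm)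

lemma congr (h : Bil C M) (he : ∀ x y, N x y = M x y) : Bil C N := fun A B => by
  simp only [he]
  exact h A B

lemma of_empty (hX : IsEmpty X) : Bil C M := fun A B => by simp

lemma zero (hC : 0 ≤ C) : Bil C fun (_ : X) (_ : Y) => (0 : ℝ) := fun A B => by
  simp only [zero_mul, sum_const_zero, abs_zero]
  positivity

lemma add (h : Bil C M) (h' : Bil D N) : Bil (C + D) fun x y => M x y + N x y := fun A B => by
  simp only [add_mul, sum_add_distrib]
  exact (abs_add_le _ _).trans (add_le_add (h A B) (h' A B))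

lemma const_mul (h : Bil C M) (c : ℝ) : Bil (|c| * C) fun x y => c * M x y := fun A B => by
  simp only [mul_assoc c, ← mul_sum, abs_mul]
  exact (mul_le_mul_of_nonneg_left (h A B) (abs_nonneg c)).trans_eq (by simp only [mul_assoc])

lemma sum {α : Type*} (s : Finset α) {C : α → ℝ} {M : α → X → Y → ℝ}
    (h : ∀ a ∈ s, Bil (C a) (M a)) : Bil (∑ a ∈ s, C a) fun x y => ∑ a ∈ s, M a x y := by
  classical
  induction s using Finset.induction_on with
  | empty => simpa using Bil.zero (X := X) (Y := Y) le_rfl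
  | @insert a s ha ih =>
    simp only [sum_insert ha]
    exact (h a (mem_insert_self a s)).add (ih fun b hb => h b (mem_insert_of_mem hb))

/-- The column sums of squares. -/
lemma sum_sq_le (h : Bil C M) (hC : 0 ≤ C) (A : X → ℝ) :
    ∑ y, (∑ x, M x y * A x) ^ 2 ≤ C ^ 2 * ∑ x, A x ^ 2 := by
  set S := ∑ y, (∑ x, M x y * A x) ^ 2 with hS
  have hS0 : 0 ≤ S := sum_nonneg fun y _ => sq_nonneg _
  have key := h A fun y => ∑ x, M x y * A x
  rw [Finset.sum_comm] at key
  simp only [← sum_mul, ← pow_two, ← hS, abs_of_nonneg hS0] at key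
  rcases hS0.eq_or_lt with h0 | h0
  · rw [← h0]; positivity
  have : √S ≤ C * √(∑ x, A x ^ 2) :=
    le_of_mul_le_mul_right (by rwa [Real.mul_self_sqrt hS0]) (Real.sqrt_pos.2 h0)
  calc S = √S ^ 2 := (Real.sq_sqrt hS0).symm
    _ ≤ (C * √(∑ x, A x ^ 2)) ^ 2 := pow_le_pow_left₀ (Real.sqrt_nonneg _) this 2
    _ = _ := by rw [mul_pow, Real.sq_sqrt (sum_nonneg fun x _ => sq_nonneg _)]

lemma of_sum_sq_le (hC : 0 ≤ C) (h : ∀ A : X → ℝ,
    ∑ y, (∑ x, M x y * A x) ^ 2 ≤ C ^ 2 * ∑ x, A x ^ 2) : Bil C M := fun A B => by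
  rw [Finset.sum_comm]
  simp only [← sum_mul]
  have h1 : √(∑ y, (∑ x, M x y * A x) ^ 2) ≤ C * √(∑ x, A x ^ 2) := by
    rw [← Real.sqrt_sq hC, ← Real.sqrt_mul (sq_nonneg C)]
    exact Real.sqrt_le_sqrt (h A)
  rw [abs_le']
  constructor
  · exact (Real.sum_mul_le_sqrt_mul_sqrt _ _ _).trans
      (mul_le_mul_of_nonneg_right h1 (Real.sqrt_nonneg _))
  · rw [← sum_neg_distrib]
    simp only [← neg_mul]
    refine (Real.sum_mul_le_sqrt_mul_sqrt _ _ _).trans ?_
    simp only [neg_sq]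
    exact mul_le_mul_of_nonneg_right h1 (Real.sqrt_nonneg _)

end Bil

/-- Composition along one index. -/
lemma Bil.compose {X₁ X₂ Y₁ Y₂ K : Type*} [Fintype X₁] [Fintype X₂] [Fintype Y₁] [Fintype Y₂]
    [Fintype K] {C D : ℝ} (hC : 0 ≤ C) (hD : 0 ≤ D) {M : X₁ → K × Y₁ → ℝ} {N : K × X₂ → Y₂ → ℝ}
    (hM : Bil C M) (hN : Bil D N) :
    Bil (C * D) fun (x : X₁ × X₂) (y : Y₁ × Y₂) => ∑ k, M x.1 (k, y.1) * N (k, x.2) y.2 := by
  intro A B
  have e : ∑ x : X₁ × X₂, ∑ y : Y₁ × Y₂, (∑ k, M x.1 (k, y.1) * N (k, x.2) y.2) * A x * B y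
      = ∑ x₂, ∑ x₁, ∑ ky : K × Y₁, M x₁ ky * A (x₁, x₂)
          * ∑ y₂, N (ky.1, x₂) y₂ * B (ky.2, y₂) := by
    rw [Fintype.sum_prod_type, Finset.sum_comm]
    refine sum_congr rfl fun x₂ _ => sum_congr rfl fun x₁ _ => ?_
    simp only [Fintype.sum_prod_type, sum_mul, mul_sum]
    conv_lhs => enter [2, y₁]; rw [Finset.sum_comm]
    rw [Finset.sum_comm]
    refine sum_congr rfl fun k _ => sum_congr rfl fun y₁ _ => sum_congr rfl fun y₂ _ => ?_
    ring
  rw [e]
  refine (abs_sum_le_sum_abs _ _).trans ?_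
  have h1 : ∀ x₂, |∑ x₁, ∑ ky : K × Y₁, M x₁ ky * A (x₁, x₂)
      * ∑ y₂, N (ky.1, x₂) y₂ * B (ky.2, y₂)| ≤ C * (√(∑ x₁, A (x₁, x₂) ^ 2)
        * √(∑ ky : K × Y₁, (∑ y₂, N (ky.1, x₂) y₂ * B (ky.2, y₂)) ^ 2)) := fun x₂ => by
    rw [← mul_assoc]
    exact hM (fun x₁ => A (x₁, x₂)) fun ky => ∑ y₂, N (ky.1, x₂) y₂ * B (ky.2, y₂)
  refine (sum_le_sum fun x₂ _ => h1 x₂).trans ?_
  rw [← mul_sum, mul_assoc C D, mul_assoc C]
  refine mul_le_mul_of_nonneg_left ?_ hC
  refine (Real.sum_sqrt_mul_sqrt_le _ (fun _ => sum_nonneg fun _ _ => sq_nonneg _)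
    (fun _ => sum_nonneg fun _ _ => sq_nonneg _)).trans ?_
  rw [mul_comm D, mul_assoc]
  refine mul_le_mul (le_of_eq ?_) ?_ (Real.sqrt_nonneg _) (Real.sqrt_nonneg _)
  · rw [Fintype.sum_prod_type, Finset.sum_comm]
  · rw [← Real.sqrt_sq hD, ← Real.sqrt_mul (sq_nonneg D)]
    refine Real.sqrt_le_sqrt ?_
    calc ∑ x₂, ∑ ky : K × Y₁, (∑ y₂, N (ky.1, x₂) y₂ * B (ky.2, y₂)) ^ 2
        = ∑ y₁, ∑ kx : K × X₂, (∑ y₂, N kx y₂ * B (y₁, y₂)) ^ 2 := by
          simp only [Fintype.sum_prod_type]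
          conv_lhs => enter [2, x₂]; rw [Finset.sum_comm]
          rw [Finset.sum_comm]
          exact sum_congr rfl fun y₁ _ => Finset.sum_comm
      _ ≤ ∑ y₁, D ^ 2 * ∑ y₂, B (y₁, y₂) ^ 2 :=
          sum_le_sum fun y₁ _ => hN.swap.sum_sq_le hD fun y₂ => B (y₁, y₂)
      _ = D ^ 2 * ∑ y, B y ^ 2 := by rw [← mul_sum, Fintype.sum_prod_type]

variable {ι : Type*}

/-- The multiset of values of a multi-index. -/
def mOf {σ : Type*} [Fintype σ] (f : σ → ι) : Multiset ι := (univ : Finset σ).val.map f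

lemma mOf_comp {σ τ : Type*} [Fintype σ] [Fintype τ] (e : σ ≃ τ) (f : τ → ι) :
    mOf (f ∘ e) = mOf f := by
  rw [mOf, mOf, ← Multiset.map_map, Multiset.map_univ_val_equiv]

lemma mOf_fin {n : ℕ} (f : Fin n → ι) : mOf f = (List.ofFn f : Multiset ι) :=
  Fin.univ_val_map f

lemma mOf_unique {σ : Type*} [Fintype σ] [Unique σ] (f : σ → ι) : mOf f = {f default} := by
  simp [mOf, univ_unique]

lemma mOf_option {σ : Type*} [Fintype σ] (f : Option σ → ι) :
    mOf f = f none ::ₘ mOf (f ∘ some) := by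
  simp [mOf, univ_option, Finset.insertNone, Multiset.map_map]

lemma mOf_sum {σ τ : Type*} [Fintype σ] [Fintype τ] (f : σ → ι) (g : τ → ι) :
    mOf (Sum.elim f g) = mOf f + mOf g := by
  simp [mOf, univ_disjSum_univ.symm, Finset.disjSum, Multiset.disjSum, Multiset.map_add,
    Multiset.map_map]

lemma map_val_eq_mOf {σ : Type*} (f : σ → ι) (S : Finset σ) :
    S.val.map f = mOf fun a : ↥S => f a := by
  rw [mOf, univ_eq_attach]
  exact (Multiset.attach_map_val' S.val f).symm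

/-- Splittings of a multiset of slots, indexed by subsets. -/
lemma antidiagonal_map {σ : Type*} [DecidableEq σ] (f : σ → ι) (s : Finset σ) {β : Type*}
    [AddCommMonoid β] (φ : Multiset ι → Multiset ι → β) :
    ((s.val.map f).antidiagonal.map fun p => φ p.1 p.2).sum
      = ∑ S ∈ s.powerset, φ (S.val.map f) ((s \ S).val.map f) := by
  induction s using Finset.induction_on generalizing φ with
  | empty => simp
  | @insert a s ha ih =>
    rw [insert_val_of_notMem ha, Multiset.map_cons, Multiset.antidiagonal_cons, Multiset.map_add,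
      Multiset.sum_add, Multiset.map_map, Multiset.map_map, sum_powerset_insert ha]
    simp only [Function.comp_def, Prod.map_fst, Prod.map_snd, id_eq]
    congr 1
    · rw [ih fun m m' => φ m (f a ::ₘ m')]
      refine sum_congr rfl fun S hS => ?_
      have haS : a ∉ S := fun h => ha (mem_powerset.1 hS h)
      rw [insert_sdiff_of_notMem _ haS, insert_val_of_notMem (by simp [ha]), Multiset.map_cons]
    · rw [ih fun m m' => φ (f a ::ₘ m) m']
      refine sum_congr rfl fun S hS => ?_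
      have haS : a ∉ S := fun h => ha (mem_powerset.1 hS h)
      rw [insert_val_of_notMem haS, Multiset.map_cons,
        show (insert a s) \ insert a S = s \ S by
          ext b; simp only [mem_sdiff, mem_insert]; grind]

/-- The splittings of a two-block multiset of slots. -/
lemma antidiagonal_two {σ τ : Type*} [Fintype σ] [Fintype τ] [DecidableEq σ] [DecidableEq τ]
    (f : σ → ι) (g : τ → ι) {β : Type*} [AddCommMonoid β] (φ : Multiset ι → Multiset ι → β) :
    ((mOf f + mOf g).antidiagonal.map fun p => φ p.1 p.2).sum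
      = ∑ p : Finset σ × Finset τ,
          φ (p.1.val.map f + p.2.val.map g) (p.1ᶜ.val.map f + p.2ᶜ.val.map g) := by
  rw [← mOf_sum, mOf, antidiagonal_map, powerset_univ]
  refine (Equiv.sum_comp Finset.sumEquiv.symm.toEquiv _).symm.trans
    (Fintype.sum_congr _ _ fun p => ?_)
  have e : ∀ p : Finset σ × Finset τ, (Finset.sumEquiv.symm p).val.map (Sum.elim f g)
      = p.1.val.map f + p.2.val.map g := fun p => by
    simp [Finset.disjSum, Multiset.disjSum, Multiset.map_add, Multiset.map_map]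
  have e' : (univ : Finset (σ ⊕ τ)) \ Finset.sumEquiv.symm p
      = Finset.sumEquiv.symm (p.1ᶜ, p.2ᶜ) := by
    ext (a | b) <;> simp
  simp only [RelIso.coe_fn_toEquiv]
  rw [e', e, e]

end Vale.Agent.P347
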