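import Vale.Agent.P347.HeatBackward
import Vale.Agent.P347.SlotSplit

/-!
Higher derivatives of the smoothed potential, indexed by multisets, and their evolution equation.
-/

namespace Vale.Agent.P347

open Set
open scoped ContDiff

variable {d : ℕ} {I : Set ℝ} {u : ℝ → Euc d → ℝ}

/-- Iterated coordinate derivatives along a list of coordinates. -/
noncomputable def pdl (u : ℝ → Euc d → ℝ) : List (Fin d) → ℝ → Euc d → ℝ
  | [] => u
  | i :: l => pd i (pdl u l)

lemma Tame.pdl (hu : Tame I u) (hI : IsOpen I) :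
    ∀ l : List (Fin d), Tame I (pdl u l)
  | [] => hu
  | i :: l => (Tame.pdl hu hI l).pd hI i

lemma pdl_perm (hu : Tame I u) (hI : IsOpen I) {l l' : List (Fin d)} (h : l.Perm l') {t : ℝ}
    (ht : t ∈ I) : ∀ x, pdl u l t x = pdl u l' t x := by
  induction h with
  | nil => exact fun x => rfl
  | cons i _ ih =>
    intro x
    show fderiv ℝ (pdl u _ t) x _ = fderiv ℝ (pdl u _ t) x _
    rw [funext ih]
  | swap i j l =>
    intro x
    exact pd_comm (hu.pdl hI l) ht x j i
  | trans _ _ ih ih' => exact fun x => (ih x).trans (ih' x)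

/-- Coordinate derivatives indexed by a multiset of coordinates. -/
noncomputable def pdm (u : ℝ → Euc d → ℝ) (m : Multiset (Fin d)) : ℝ → Euc d → ℝ :=
  pdl u m.toList

lemma Tame.pdm (hu : Tame I u) (hI : IsOpen I) (m : Multiset (Fin d)) : Tame I (pdm u m) :=
  hu.pdl hI _

lemma pdm_coe (hu : Tame I u) (hI : IsOpen I) (l : List (Fin d)) {t : ℝ} (ht : t ∈ I) (x : Euc d) :
    pdm u (l : Multiset (Fin d)) t x = pdl u l t x :=
  pdl_perm hu hI (Multiset.coe_eq_coe.1 (Multiset.coe_toList _)) ht x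

lemma pdm_cons (hu : Tame I u) (hI : IsOpen I) (i : Fin d) (m : Multiset (Fin d)) {t : ℝ}
    (ht : t ∈ I) (x : Euc d) : pdm u (i ::ₘ m) t x = pd i (pdm u m) t x := by
  have e : i ::ₘ m = ((i :: m.toList : List (Fin d)) : Multiset (Fin d)) := by
    rw [← Multiset.cons_coe, Multiset.coe_toList]
  rw [e, pdm_coe hu hI _ ht]
  rfl

lemma pdm_zero (u : ℝ → Euc d → ℝ) : pdm u 0 = u := by
  simp [pdm, pdl]

lemma pdm_singleton (u : ℝ → Euc d → ℝ) (i : Fin d) : pdm u {i} = pd i u := by
  simp [pdm, pdl]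

lemma pd_congr {g h : ℝ → Euc d → ℝ} {t : ℝ} (e : ∀ x, g t x = h t x) (i : Fin d) (x : Euc d) :
    pd i g t x = pd i h t x := by
  simp only [pd, funext e]

lemma pd_msum {α : Type*} (m : Multiset α) {g : α → ℝ → Euc d → ℝ} (hg : ∀ a, Tame I (g a))
    (hI : IsOpen I) {t : ℝ} (ht : t ∈ I) (x : Euc d) (i : Fin d) :
    pd i (fun r y => (m.map fun a => g a r y).sum) t x = (m.map fun a => pd i (g a) t x).sum := by
  induction m using Multiset.induction_on generalizing x with
  | empty => simp [pd]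
  | cons a m ih =>
    simp only [Multiset.map_cons, Multiset.sum_cons]
    have hm : Tame I fun r y => (m.map fun a => g a r y).sum := by
      clear ih
      induction m using Multiset.induction_on with
      | empty => simpa using Tame.const (ι := Fin d) (I := I) (0 : ℝ)
      | cons b m ih =>
        simp only [Multiset.map_cons, Multiset.sum_cons]
        exact (hg b).add ih hI
    rw [pd_add (hg a) hm ht, ih]

lemma tame_msum {α : Type*} (m : Multiset α) {g : α → ℝ → Euc d → ℝ} (hg : ∀ a, Tame I (g a))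
    (hI : IsOpen I) : Tame I fun r y => (m.map fun a => g a r y).sum := by
  induction m using Multiset.induction_on with
  | empty => simpa using Tame.const (ι := Fin d) (I := I) (0 : ℝ)
  | cons b m ih =>
    simp only [Multiset.map_cons, Multiset.sum_cons]
    exact (hg b).add ih hI

/-- Time and space derivatives commute. -/
lemma pd_pdt {g : ℝ → Euc d → ℝ} (hg : Tame I g) (hI : IsOpen I) {t : ℝ} (ht : t ∈ I)
    (x : Euc d) (i : Fin d) : pd i (pdt g) t x = pdt (pd i g) t x := by
  set G : ℝ × Euc d → ℝ := fun q => g q.1 q.2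
  have hG : ContDiffAt ℝ ∞ G (t, x) := hg.contDiffAt hI ht x
  have hd : DifferentiableAt ℝ (fderiv ℝ G) (t, x) :=
    (hG.fderiv_right (m := ∞) le_rfl).differentiableAt (by simp)
  have hsymm : IsSymmSndFDerivAt ℝ G (t, x) :=
    (hG.of_le (show ((2 : ℕ∞) : WithTop ℕ∞) ≤ ∞ from WithTop.coe_le_coe.2 le_top)).isSymmSndFDerivAt
      (by simp)
  have hc : HasFDerivAt (fun y => fderiv ℝ G (t, y))
      ((fderiv ℝ (fderiv ℝ G) (t, x)).comp (ContinuousLinearMap.inr ℝ ℝ (Euc d))) x :=
    hd.hasFDerivAt.comp x (hasFDerivAt_prodMk_right (𝕜 := ℝ) t x)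
  have h1 : pd i (pdt g) t x = fderiv ℝ (fderiv ℝ G) (t, x) (0, unitVec i) (1, 0) := by
    show fderiv ℝ (fun y => fderiv ℝ G (t, y) (1, 0)) x (unitVec i) = _
    rw [(hc.clm_apply (hasFDerivAt_const ((1 : ℝ), (0 : Euc d)) x)).fderiv]
    simp
  have he : (fun q : ℝ × Euc d => pd i g q.1 q.2) =ᶠ[nhds (t, x)]
      fun q => fderiv ℝ G q (0, unitVec i) := by
    filter_upwards [(hI.prod isOpen_univ).mem_nhds
      (show (t, x) ∈ I ×ˢ (univ : Set (Euc d)) from ⟨ht, mem_univ _⟩)] with q hq
    exact hg.fderiv_space hI hq.1 q.2 (unitVec i)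
  rw [h1, pdt, he.fderiv_eq, fderiv_clm_apply hd (differentiableAt_const _), hsymm.eq]
  simp

/-- The derivatives of a solution of `∂ₜu = ½Δu - ½|∇u|²`. -/
theorem pdt_pdm (hu : Tame I u) (hI : IsOpen I)
    (hpde : ∀ t ∈ I, ∀ x, pdt u t x
      = (1 / 2) * (∑ k, pd k (pd k u) t x) - (1 / 2) * ∑ k, pd k u t x * pd k u t x)
    (m : Multiset (Fin d)) {t : ℝ} (ht : t ∈ I) (x : Euc d) :
    pdt (pdm u m) t x = (1 / 2) * (∑ k, pdm u (k ::ₘ k ::ₘ m) t x)
      - (1 / 2) * (m.antidiagonal.map fun p =>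
          ∑ k, pdm u (k ::ₘ p.1) t x * pdm u (k ::ₘ p.2) t x).sum := by
  induction m using Multiset.induction_on generalizing t x with
  | empty =>
    simp only [Multiset.antidiagonal_zero, Multiset.map_singleton, Multiset.sum_singleton,
      Multiset.cons_zero, pdm_singleton]
    rw [pdm_zero, hpde t ht x]
    congr 2
    refine Finset.sum_congr rfl fun k _ => ?_
    rw [show ({k} : Multiset (Fin d)) = k ::ₘ 0 from rfl, pdm_cons hu hI _ _ ht,
      show k ::ₘ (0 : Multiset (Fin d)) = {k} from rfl, pdm_singleton]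
  | cons i m ih =>
    set S : Multiset (Fin d) × Multiset (Fin d) → ℝ → Euc d → ℝ := fun p r y =>
      ∑ k, pdm u (k ::ₘ p.1) r y * pdm u (k ::ₘ p.2) r y with hS
    have hSt : ∀ p, Tame I (S p) := fun p =>
      Tame.sum Finset.univ hI fun k _ => (hu.pdm hI _).mul (hu.pdm hI _) hI
    have e1 : pdt (pdm u (i ::ₘ m)) t x = pd i (pdt (pdm u m)) t x := by
      rw [pd_pdt (hu.pdm hI m) hI ht]
      show fderiv ℝ _ (t, x) (1, 0) = fderiv ℝ _ (t, x) (1, 0)
      congr 1
      refine Filter.EventuallyEq.fderiv_eq ?_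
      filter_upwards [(hI.prod isOpen_univ).mem_nhds
        (show (t, x) ∈ I ×ˢ (univ : Set (Euc d)) from ⟨ht, mem_univ _⟩)] with q hq
      exact pdm_cons hu hI i m hq.1 q.2
    have hL : Tame I fun r y => (1 / 2 : ℝ) • ∑ k, pdm u (k ::ₘ k ::ₘ m) r y :=
      (Tame.sum Finset.univ hI fun k _ => hu.pdm hI _).const_smul hI _
    have hR : Tame I fun r y => (1 / 2 : ℝ) • (m.antidiagonal.map fun p => S p r y).sum :=
      (tame_msum _ hSt hI).const_smul hI _
    rw [e1, pd_congr (h := fun r y => (1 / 2 : ℝ) • (∑ k, pdm u (k ::ₘ k ::ₘ m) r y)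
      - (1 / 2 : ℝ) • (m.antidiagonal.map fun p => S p r y).sum) (fun y => ih ht y),
      pd_sub hL hR ht]
    have hsm : ∀ {g : ℝ → Euc d → ℝ}, Tame I g →
        pd i (fun r y => (1 / 2 : ℝ) • g r y) t x = (1 / 2) * pd i g t x := fun {g} hg => by
      rw [pd, fderiv_fun_const_smul (hg.differentiableAt_space ht x)]
      simp [pd]
    rw [hsm (Tame.sum Finset.univ hI fun k _ => hu.pdm hI _), hsm (tame_msum _ hSt hI),
      pd_sum Finset.univ (fun k => hu.pdm hI _) ht, pd_msum _ hSt hI ht]
    congr 1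
    · refine congrArg _ (Finset.sum_congr rfl fun k _ => ?_)
      rw [← pdm_cons hu hI _ _ ht, Multiset.cons_swap i k, Multiset.cons_swap i k]
    · refine congrArg _ ?_
      rw [Multiset.antidiagonal_cons, Multiset.map_add, Multiset.sum_add, Multiset.map_map,
        Multiset.map_map, ← Multiset.sum_map_add]
      refine congrArg _ (Multiset.map_congr rfl fun p _ => ?_)
      simp only [hS, Function.comp_apply, Prod.map_fst, Prod.map_snd, id_eq]
      rw [pd_sum Finset.univ (fun k => (hu.pdm hI _).mul (hu.pdm hI _) hI) ht,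
        ← Finset.sum_add_distrib]
      refine Finset.sum_congr rfl fun k _ => ?_
      rw [pd_mul (hu.pdm hI _) (hu.pdm hI _) ht, ← pdm_cons hu hI _ _ ht,
        ← pdm_cons hu hI _ _ ht, Multiset.cons_swap i k, Multiset.cons_swap i k]
      ring

/-- The smoothed potential solves `∂ₜu = ½Δu - ½|∇u|²`. -/
theorem smoothPot_pde {U : Euc d → ℝ} (hU : Weight U) {t : ℝ} (ht : 0 < t) (x : Euc d) :
    pdt (smoothPot U) t x = (1 / 2) * (∑ k, pd k (pd k (smoothPot U)) t x)
      - (1 / 2) * ∑ k, pd k (smoothPot U) t x * pd k (smoothPot U) t x := by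
  set q := smoothDensity U t x
  have hq : 0 < q := smoothDensity_pos hU t x
  have hu := smoothPot_smooth hU ht
  have h1 : pdt (smoothDensity U) t x = -(q * pdt (smoothPot U) t x) := by
    rw [pdt, (fderiv_smoothDensity_joint hU ht x).fderiv]
    simp [pdt, q]
  have h2 : lapF (smoothDensity U t) x
      = ∑ k, (q * (pd k (smoothPot U) t x * pd k (smoothPot U) t x)
          - q * pd k (pd k (smoothPot U)) t x) := by
    have e : smoothDensity U t = fun y => Real.exp (-smoothPot U t y) :=
      funext fun y => (exp_neg_smoothPot hU t y).symm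
    have hqs : ContDiff ℝ ∞ (smoothDensity U t) := by rw [e]; exact Real.contDiff_exp.comp hu.neg
    rw [lapF_eq_sum hqs, fderiv_smoothDensity_space hU ht]
    refine Finset.sum_congr rfl fun k _ => ?_
    have hd1 : DifferentiableAt ℝ (smoothDensity U t) x := hqs.differentiable (by simp) x
    have hd2 : DifferentiableAt ℝ (fun y => fderiv ℝ (smoothPot U t) y (unitVec k)) x :=
      ((hu.fderiv_right (m := ∞) le_rfl).clm_apply contDiff_const).differentiable (by simp) x
    simp only [neg_apply, smul_apply, smul_eq_mul]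
    rw [fderiv_fun_neg, fderiv_fun_mul hd1 hd2, fderiv_smoothDensity_space hU ht]
    simp only [neg_apply, add_apply, smul_apply, smul_eq_mul, q,
      show ∀ (g : ℝ → Euc d → ℝ) (y : Euc d),
        pd k g t y = fderiv ℝ (g t) y (unitVec k) from fun _ _ => rfl,
      show pd k (smoothPot U) t = fun y => fderiv ℝ (smoothPot U t) y (unitVec k) from rfl]
    ring
  have h3 := pdt_smoothDensity hU ht x
  rw [h1, h2, Finset.sum_sub_distrib, ← Finset.mul_sum, ← Finset.mul_sum] at h3
  refine mul_left_cancel₀ hq.ne' ?_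
  linarith

end Vale.Agent.P347
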