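import Vale.Agent.P347.Calc
import Vale.Agent.P347.CoefExpr
import Vale.Agent.P347.SymTensor
import Vale.Agent.P347.PostGibbs

/-!
The levels as a family for the calculus, at unit scale: the structural hypotheses and the
dimension-free bounds on all derivatives of the score.
-/

namespace Vale.Agent.P347

open MeasureTheory Set
open scoped Gradient RealInnerProductSpace ContDiff

variable {d : ℕ} {U : Euc d → ℝ}

lemma Weight.integrable_pow (hU : Weight U) (p : ℕ) :
    Integrable fun x => Real.exp (-U x) * ‖x‖ ^ p := by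
  obtain ⟨c, C, hc, h⟩ := hU.coercive
  obtain ⟨K, hK⟩ : ∃ K, ∀ z : Euc d, Real.exp (-(c / 2 * ‖z‖ ^ 2)) * (1 + ‖z‖) ^ p ≤ K :=
    Weight.exp_mul_pow_le (U := fun z : Euc d => c / 2 * ‖z‖ ^ 2)
      ⟨(Function.HasTemperateGrowth.const (c / 2)).mul (Function.hasTemperateGrowth_norm_sq _),
        c / 2, 0, by linarith, fun z => by simp⟩ p
  have hg : Integrable fun x : Euc d => Real.exp (-(c / 2) * ‖x‖ ^ 2) := by
    have := GaussianFourier.integrable_cexp_neg_mul_sq_norm_add
      (V := Euc d) (b := ((c / 2 : ℝ) : ℂ)) (by simpa using hc) 0 0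
    refine this.norm.congr (.of_forall fun x => ?_)
    simp [Complex.norm_exp, ← Complex.ofReal_pow, Complex.mul_re]
  refine (hg.const_mul (Real.exp C * K)).mono'
    ((hU.temperate.1.continuous.neg.rexp.mul (continuous_norm.pow p)).aestronglyMeasurable)
    (.of_forall fun x => ?_)
  rw [Real.norm_eq_abs, abs_of_nonneg (by positivity)]
  have h1 : Real.exp (-U x) ≤ Real.exp C * Real.exp (-(c / 2) * ‖x‖ ^ 2)
      * Real.exp (-(c / 2 * ‖x‖ ^ 2)) := by
    rw [← Real.exp_add, ← Real.exp_add, Real.exp_le_exp]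
    linarith [h x]
  have h2 : ‖x‖ ^ p ≤ (1 + ‖x‖) ^ p := pow_le_pow_left₀ (norm_nonneg _) (by linarith) p
  refine (mul_le_mul h1 h2 (by positivity) (by positivity)).trans (le_of_eq_of_le
    (mul_assoc _ _ _) ((mul_le_mul_of_nonneg_left (hK x) (by positivity)).trans_eq ?_))
  ring

lemma Weight.integrable_exp_neg (hU : Weight U) : Integrable fun x => Real.exp (-U x) := by
  simpa using hU.integrable_pow 0

lemma Weight.isProbabilityMeasure_gibbs (hU : Weight U) : IsProbabilityMeasure (gibbs U) :=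
  isProbabilityMeasure_tilted hU.integrable_exp_neg

lemma Weight.integrable_norm_pow_gibbs (hU : Weight U) (p : ℕ) :
    Integrable (fun x => ‖x‖ ^ p) (gibbs U) := by
  rw [gibbs, integrable_tilted_iff hU.integrable_exp_neg]
  simpa using hU.integrable_pow p

/-- Integration by parts for tame fields under a Gibbs law. -/
lemma Weight.gibbs_ibp (hU : Weight U) {I : Set ℝ} {f g : ℝ → Euc d → ℝ} (hI : IsOpen I)
    (hf : Tame I f) (hg : Tame I g) {t : ℝ} (ht : t ∈ I) (hgt : g t = U) (i : Fin d) :
    ∫ x, fderiv ℝ (f t) x (EuclideanSpace.single i 1) ∂(gibbs U)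
      = ∫ x, f t x * fderiv ℝ U x (EuclideanSpace.single i 1) ∂(gibbs U) := by
  subst hgt
  set v : Euc d := EuclideanSpace.single i 1
  have := hU.isProbabilityMeasure_gibbs
  have hint : ∀ {q : ℝ → Euc d → ℝ}, Tame I q →
      Integrable fun x => Real.exp (-g t x) * q t x := fun {q} hq => by
    have h := hq.integrable ht (gibbs (g t)) hU.integrable_norm_pow_gibbs
    rw [gibbs, integrable_tilted_iff hU.integrable_exp_neg] at h
    simpa using h
  have hd : Differentiable ℝ (g t) := (hg.contDiff_space ht).differentiable (by simp)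
  have he : ∀ x, fderiv ℝ (fun x => Real.exp (-g t x)) x v
      = -(Real.exp (-g t x) * fderiv ℝ (g t) x v) := fun x => by
    have h : HasFDerivAt (fun x => Real.exp (-g t x))
        (Real.exp (-g t x) • -fderiv ℝ (g t) x) x := (hd x).hasFDerivAt.neg.exp
    rw [h.fderiv]
    simp
  have key := integral_mul_fderiv_eq_neg_fderiv_mul_of_integrable (f := f t)
    (g := fun x => Real.exp (-g t x)) (v := v) (μ := volume)
    ((hint (hf.fderiv_space_apply hI v)).congr (.of_forall fun x => mul_comm _ _))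
    ((hint (hf.mul (hg.fderiv_space_apply hI v) hI)).neg.congr (.of_forall fun x => by
      simp only [Pi.neg_apply, he]; ring))
    ((hint hf).congr (.of_forall fun x => mul_comm _ _))
    (fun x _ => hf.differentiableAt_space ht x) (fun x _ => (hd x).hasFDerivAt.neg.exp.differentiableAt)
  rw [gibbs, integral_tilted, integral_tilted]
  set Z := ∫ y, Real.exp (-g t y)
  have e1 : ∀ x, Real.exp (-g t x) / Z * fderiv ℝ (f t) x v
      = Z⁻¹ * (fderiv ℝ (f t) x v * Real.exp (-g t x)) := fun x => by ring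
  have e2 : ∀ x, Real.exp (-g t x) / Z * (f t x * fderiv ℝ (g t) x v)
      = Z⁻¹ * -(f t x * fderiv ℝ (fun x => Real.exp (-g t x)) x v) := fun x => by
    rw [he]; ring
  refine ((integral_congr_ae (.of_forall e1)).trans ?_).trans
    (integral_congr_ae (.of_forall e2)).symm
  rw [integral_const_mul, integral_const_mul, integral_neg, key, neg_neg]

lemma score_coord (U : Euc d → ℝ) (t : ℝ) (x : Euc d) (i : Fin d) :
    score U t x i = pd i (smoothPot U) t x := by
  have h : ⟪score U t x, EuclideanSpace.single i (1 : ℝ)⟫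
      = fderiv ℝ (smoothPot U t) x (EuclideanSpace.single i 1) :=
    InnerProductSpace.toDual_symm_apply
  rw [EuclideanSpace.inner_single_right] at h
  simpa [pd] using h

lemma tame_score (hU : Weight U) : Tame (Ioi 0) (score U) :=
  Tame.euclidean isOpen_Ioi fun i =>
    ((smoothPot_tame hU).pd isOpen_Ioi i).of_eq isOpen_Ioi fun t _ x => score_coord U t x i

lemma pd_half_score (hU : Weight U) {t : ℝ} (ht : 0 < t) (x : Euc d) (i j : Fin d) :
    pd i (fun s y => ((1 / 2 : ℝ) • score U s y) j) t x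
      = 1 / 2 * pd i (pd j (smoothPot U)) t x := by
  have e : (fun y => ((1 / 2 : ℝ) • score U t y) j) = fun y => 1 / 2 * pd j (smoothPot U) t y :=
    funext fun y => by simp [score_coord]
  rw [pd, e, fderiv_const_mul
    ((((smoothPot_tame hU).pd isOpen_Ioi j).differentiableAt_space ht x))]
  rfl

lemma score_divergence (hU : Weight U) {t : ℝ} (ht : 0 < t) (x : Euc d) :
    fderiv ℝ (fun q : ℝ × Euc d => smoothPot U q.1 q.2) (t, x) (1, (1 / 2 : ℝ) • score U t x)
      - ∑ i, fderiv ℝ (fun y => (1 / 2 : ℝ) • score U t y) x (EuclideanSpace.single i 1) i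
      = 0 := by
  have hT := smoothPot_tame hU
  have hs : DifferentiableAt ℝ (fun y => (1 / 2 : ℝ) • score U t y) x :=
    ((tame_score hU).const_smul isOpen_Ioi (1 / 2 : ℝ)).differentiableAt_space ht x
  have hd : ∀ i, fderiv ℝ (fun y => (1 / 2 : ℝ) • score U t y) x (EuclideanSpace.single i 1) i
      = 1 / 2 * pd i (pd i (smoothPot U)) t x := fun i => by
    rw [← pd_half_score hU ht x i i]
    have h : HasFDerivAt (fun y => ((1 / 2 : ℝ) • score U t y) i)
        ((EuclideanSpace.proj i).comp (fderiv ℝ (fun y => (1 / 2 : ℝ) • score U t y) x)) x :=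
      (EuclideanSpace.proj (𝕜 := ℝ) i).hasFDerivAt.comp x hs.hasFDerivAt
    rw [pd, h.fderiv]
    rfl
  have hj : fderiv ℝ (fun q : ℝ × Euc d => smoothPot U q.1 q.2) (t, x)
      (1, (1 / 2 : ℝ) • score U t x)
      = pdt (smoothPot U) t x + fderiv ℝ (smoothPot U t) x ((1 / 2 : ℝ) • score U t x) := by
    rw [pdt, hT.fderiv_space isOpen_Ioi ht, ← map_add]
    simp
  have hsp : fderiv ℝ (smoothPot U t) x (score U t x)
      = ∑ k, pd k (smoothPot U) t x * pd k (smoothPot U) t x := by
    have e : fderiv ℝ (smoothPot U t) x (score U t x) = ⟪score U t x, score U t x⟫ :=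
      InnerProductSpace.toDual_symm_apply.symm
    rw [e, PiLp.inner_apply]
    exact Finset.sum_congr rfl fun k _ => by simp [score_coord, sq]
  rw [hj, map_smul, hsp, smoothPot_pde hU ht, Finset.sum_congr rfl fun i _ => hd i,
    ← Finset.mul_sum, smul_eq_mul]
  ring

/-- The levels as a family: `μ_t = levelLaw V t` moved by half the score. -/
noncomputable def levelFamily {V : Euc d → ℝ} (hV : Weight V) : Family (Fin d) where
  dom := Ioi 0
  isOpen_dom := isOpen_Ioi
  μ := levelLaw V
  prob _ ht := (hV.smoothPot (le_of_lt ht)).isProbabilityMeasure_gibbs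
  Ψ := smoothPot V
  b t x := (1 / 2 : ℝ) • score V t x
  tame_Ψ := smoothPot_tame hV
  tame_b := (tame_score hV).const_smul isOpen_Ioi _
  integrable_poly _ ht p := (hV.smoothPot (le_of_lt ht)).integrable_norm_pow_gibbs p
  ibp _ ht _f hf i :=
    (hV.smoothPot (le_of_lt ht)).gibbs_ibp isOpen_Ioi hf (smoothPot_tame hV) ht rfl i
  continuity _ ht x y := (score_divergence hV ht x).trans (score_divergence hV ht y).symm

section Rules

variable {V : Euc d → ℝ} (hV : Weight V)

lemma levelFamily_Bc {t : ℝ} (ht : 0 < t) (x : Euc d) (i j : Fin d) :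
    (levelFamily hV).Bc i j t x = 1 / 2 * pd i (pd j (smoothPot V)) t x :=
  pd_half_score hV ht x i j

lemma levelFamily_gradB {t : ℝ} (ht : 0 < t) (x : Euc d) :
    (levelFamily hV).gradB t x = (1 / 2 : ℝ) • derivTen (smoothPot V t) 2 x := by
  ext α
  rw [(levelFamily hV).gradB_apply ht x α, levelFamily_Bc hV ht, PiLp.smul_apply, smul_eq_mul]
  congr 1
  have hα : α = pairIdx (α 0) (α 1) := by funext s; fin_cases s <;> rfl
  conv_rhs => rw [hα]
  exact ((levelFamily hV).hess_apply ht x _ _).symm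

/-- The flow derivative of the score is `-(1/2) δ (∇ score)`. -/
lemma levelFamily_D_score {t : ℝ} (ht : 0 < t) (x : Euc d) :
    (levelFamily hV).D (fun s => derivTen (smoothPot V s) 1) t x
      = (-(1 / 2) : ℝ) • (levelFamily hV).delta (fun s => derivTen (smoothPot V s) 2) t x := by
  set F := levelFamily hV with hF
  have hI : IsOpen (Ioi (0 : ℝ)) := isOpen_Ioi
  have hT := smoothPot_tame hV
  have hD1 : ∀ (s : ℝ), 0 < s → ∀ (y : Euc d) (β : Fin 1 → Fin d),
      derivTen (smoothPot V s) 1 y β = pd (β 0) (smoothPot V) s y := fun s hs y β =>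
    nabla_apply (hT.derivTen hI 0) hs y β
  ext α
  rw [F.D_apply (hT.derivTen hI 1) ht x, PiLp.smul_apply, smul_eq_mul,
    F.delta_apply (hT.derivTen hI 2) ht x]
  have e : F.Ds (fun s y => derivTen (smoothPot V s) 1 y α) t x
      = F.Ds (pd (α 0) (smoothPot V)) t x := by
    simp only [Family.Ds]
    rw [Filter.EventuallyEq.fderiv_eq]
    filter_upwards [(hI.prod isOpen_univ).mem_nhds
      (show (t, x) ∈ Ioi (0 : ℝ) ×ˢ (univ : Set (Euc d)) from ⟨ht, mem_univ _⟩)] with q hq
    exact hD1 q.1 hq.1 q.2 α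
  rw [e, F.Ds_pd hT ht x]
  have h1 : pd (α 0) (F.Ds (smoothPot V)) t x = ∑ j, pd (α 0) (F.Bc j j) t x :=
    F.pd_Ds_potential ht x (α 0)
  rw [h1, ← Finset.sum_sub_distrib, Finset.mul_sum]
  refine Finset.sum_congr rfl fun j _ => ?_
  have hcons : (Fin.cons j α : Fin 2 → Fin d) = pairIdx j (α 0) := by
    funext s; fin_cases s <;> rfl
  have h2 : ∀ y, derivTen (smoothPot V t) 2 y (Fin.cons j α)
      = pd j (pd (α 0) (smoothPot V)) t y := fun y => by
    rw [hcons]; exact F.hess_apply ht y j (α 0)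
  have h3 : pd j (fun s y => derivTen (smoothPot V s) 2 y (Fin.cons j α)) t x
      = pd (α 0) (pd j (pd j (smoothPot V))) t x := by
    rw [pd_congr (h := pd j (pd (α 0) (smoothPot V))) h2,
      pd_congr (h := pd (α 0) (pd j (smoothPot V))) (fun y => pd_comm hT ht y j (α 0)),
      pd_comm (hT.pd hI j) ht x j (α 0)]
  have h4 : pd (α 0) (F.Bc j j) t x = 1 / 2 * pd (α 0) (pd j (pd j (smoothPot V))) t x := by
    rw [pd_congr (h := fun s y => 1 / 2 * pd j (pd j (smoothPot V)) s y)
      (fun y => levelFamily_Bc hV ht y j j)]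
    rw [pd, fderiv_const_mul ((((hT.pd hI j).pd hI j).differentiableAt_space ht x))]
    rfl
  rw [h2, h3, h4, levelFamily_Bc hV ht, pd_comm hT ht x (α 0) j]
  show _ = -(1 / 2) * (pd j (smoothPot V) t x * _ - _)
  ring

/-- The leaf index: the derivative tensors of rank at least two. -/
abbrev LevelLeaf (n : ℕ) : Type := PLift (2 ≤ n)

/-- The derivative tensor leaves. -/
noncomputable def levelL (V : Euc d → ℝ) (n : ℕ) (_ : LevelLeaf n) (t : ℝ) :
    Euc d → Ten (Fin d) n :=
  derivTen (smoothPot V t) n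

end Rules

/-- The gradient rule of the leaves. -/
def levelGrad (n : ℕ) (i : LevelLeaf n) : CExpr LevelLeaf (n + 1) :=
  .leaf ⟨i.down.trans (Nat.le_succ n)⟩

/-- A rank two expression acting on the first slot. -/
def actE {κ : ℕ → Type} {k : ℕ} (e : Fin 1 ⊕ Fin 1 ≃ Fin 2) (hk : 0 < k) (K : CExpr κ 2)
    (f : CExpr κ (k + 1)) : CExpr κ (k + 1) :=
  .perm (finCongr (Nat.add_comm 1 k))
    (.mul e one_pos one_pos hk K (.perm (finCongr (Nat.add_comm k 1)) f))

/-- The second derivative tensor. -/
def hessE : CExpr LevelLeaf 2 := .leaf ⟨le_rfl⟩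

/-- The divergence part of `D` of the derivative tensor of rank `m + 1`. -/
noncomputable def levelMain : (m : ℕ) → CExpr LevelLeaf (m + 2)
  | 0 => .smul (-(1 / 2)) hessE
  | m + 1 => .perm (swap01 (m + 1)) (CExpr.grad levelGrad (levelMain m))

/-- The remainder of `D` of the derivative tensor of rank `m + 1`. -/
noncomputable def levelRest : (m : ℕ) → CExpr LevelLeaf (m + 1)
  | 0 => .zero 1
  | m + 1 => .add (.add (actE splitId (Nat.succ_pos m) hessE (levelMain m))
      (CExpr.grad levelGrad (levelRest m)))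
      (.smul (-1) (actE splitId (Nat.succ_pos m) (.smul (1 / 2) hessE) (.leaf ⟨by omega⟩)))

/-- The divergence rule of the leaves. -/
noncomputable def levelFlow₁ : (n : ℕ) → LevelLeaf n → CExpr LevelLeaf (n + 1)
  | 0, i => absurd i.down (by omega)
  | m + 1, _ => levelMain m

/-- The remainder rule of the leaves. -/
noncomputable def levelFlow₀ : (n : ℕ) → LevelLeaf n → CExpr LevelLeaf n
  | 0, i => absurd i.down (by omega)
  | m + 1, _ => levelRest m

section Flow

variable {V : Euc d → ℝ} (hV : Weight V)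

lemma levelL_tame (hV : Weight V) (n : ℕ) (i : LevelLeaf n) : Tame (Ioi 0) (levelL V n i) :=
  (smoothPot_tame hV).derivTen isOpen_Ioi n

lemma levelFamily_nabla_eq (n : ℕ) (i : LevelLeaf n) (t : ℝ) (x : Euc d) :
    nabla (levelL V n i t) x = (levelGrad n i).eval (levelL V) t x := rfl

lemma levelFamily_tame_eval (hV : Weight V) {n : ℕ} (e : CExpr LevelLeaf n) :
    Tame (Ioi 0) (e.eval (levelL V)) := by
  induction e with
  | leaf i => exact levelL_tame hV _ i
  | zero n => exact Tame.const _
  | add x y ihx ihy => exact ihx.add ihy isOpen_Ioi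
  | smul r x ih => exact ih.const_smul isOpen_Ioi r
  | perm σ x ih => exact ih.perm isOpen_Ioi σ
  | mul e _ _ _ x y ihx ihy => exact ihx.contract ihy isOpen_Ioi e

lemma levelFamily_nabla_eval (hV : Weight V) {n : ℕ} (e : CExpr LevelLeaf n) {t : ℝ} (ht : 0 < t)
    (x : Euc d) :
    nabla (e.eval (levelL V) t) x = (e.grad levelGrad).eval (levelL V) t x := by
  induction e with
  | leaf i => exact levelFamily_nabla_eq _ i t x
  | zero n => exact nabla_const 0 x
  | add p q ihp ihq =>
    simp only [CExpr.grad, CExpr.eval]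
    rw [nabla_add (levelFamily_tame_eval hV p) (levelFamily_tame_eval hV q) ht, ihp, ihq]
  | smul r p ih =>
    simp only [CExpr.grad, CExpr.eval]
    rw [nabla_smul (levelFamily_tame_eval hV p) r ht, ih]
  | perm σ p ih =>
    simp only [CExpr.grad, CExpr.eval]
    rw [nabla_perm (levelFamily_tame_eval hV p) isOpen_Ioi σ ht, ih]
  | mul e ha hb hc p q ihp ihq =>
    simp only [CExpr.grad, CExpr.eval]
    rw [(levelFamily hV).nabla_contract (levelFamily_tame_eval hV p) (levelFamily_tame_eval hV q) e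
      (show t ∈ Ioi 0 from ht), ihp, ihq]

/-- The flow derivative of every derivative tensor. -/
lemma levelFamily_flow (m : ℕ) {t : ℝ} (ht : 0 < t) (x : Euc d) :
    (levelFamily hV).D (fun s => derivTen (smoothPot V s) (m + 1)) t x
      = (levelFamily hV).delta ((levelMain m).eval (levelL V)) t x
        + (levelRest m).eval (levelL V) t x := by
  set F := levelFamily hV with hF
  have hI : IsOpen (Ioi (0 : ℝ)) := isOpen_Ioi
  have hT := smoothPot_tame hV
  induction m generalizing x with
  | zero =>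
    rw [levelFamily_D_score hV ht x]
    simp only [levelMain, levelRest, CExpr.eval, add_zero]
    exact (F.delta_smul (hT.derivTen hI 2) _ ht x).symm
  | succ m ih =>
    have hm : Tame F.dom ((levelMain m).eval (levelL V)) := levelFamily_tame_eval hV _
    have hr : Tame F.dom ((levelRest m).eval (levelL V)) := levelFamily_tame_eval hV _
    show F.D (fun s => nabla (derivTen (smoothPot V s) (m + 1))) t x = _
    rw [F.D_nabla (hT.derivTen hI (m + 1)) ht x,
      show F.D (fun s => derivTen (smoothPot V s) (m + 1)) t = fun y =>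
        F.delta ((levelMain m).eval (levelL V)) t y + (levelRest m).eval (levelL V) t y from
        funext fun y => ih y,
      nabla_add (F.tame_delta hm) hr ht, F.nabla_delta hm ht, levelFamily_nabla_eval hV _ ht,
      levelFamily_gradB hV ht]
    have e : F.delta (fun s y => permTen (swap01 (m + 1)) (nabla ((levelMain m).eval (levelL V) s) y))
        t x = F.delta ((levelMain (m + 1)).eval (levelL V)) t x := by
      ext α
      rw [F.delta_apply ((hm.nabla hI).perm hI _) ht, F.delta_apply (levelFamily_tame_eval hV _) ht]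
      have hy : ∀ y, permTen (swap01 (m + 1)) (nabla ((levelMain m).eval (levelL V) t) y)
          = (levelMain (m + 1)).eval (levelL V) t y := fun y => by
        rw [levelFamily_nabla_eval hV _ ht]
        rfl
      refine Finset.sum_congr rfl fun i _ => ?_
      have e2 : pd i (fun s y => permTen (swap01 (m + 1))
            (nabla ((levelMain m).eval (levelL V) s) y) (Fin.cons i α)) t x
          = pd i (fun s y => (levelMain (m + 1)).eval (levelL V) s y (Fin.cons i α)) t x :=
        pd_congr (fun y => by rw [hy y]) i x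
      rw [hy x, e2]
    rw [e]
    simp only [levelRest, actE, hessE, CExpr.eval, act, levelL, neg_one_smul]
    show _ - permTen _ (contractTen splitId _ (permTen _ (derivTen (smoothPot V t) (m + 2) x))) = _
    rw [show F.Ψ = smoothPot V from rfl]
    abel

end Flow

/-- The bounds on the leaves at unit scale. -/
lemma exists_level_bound (hT : TensorBoundStatement) :
    ∃ c : ℕ → ℝ, (∀ n, 0 ≤ c n) ∧ ∀ (d : ℕ) (V : Euc d → ℝ) (l L : ℝ), NicePot d V l L →
      0 ≤ L → 200 * L ≤ 1 → ∀ t ∈ Icc (1 / 2 : ℝ) 2, ∀ n, 2 ≤ n → ∀ x,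
        AllSplit (c n * L) (derivTen (smoothPot V t) n x) := by
  have h : ∀ n : ℕ, ∃ c : ℝ, 0 ≤ c ∧ (2 ≤ n → ∀ (d : ℕ) (V : Euc d → ℝ) (l L : ℝ),
      NicePot d V l L → 0 ≤ L → 200 * L ≤ 1 → ∀ t ∈ Icc (1 / 2 : ℝ) 2, ∀ x,
        AllSplit (c * L) (derivTen (smoothPot V t) n x)) := by
    intro n
    by_cases hn : 2 ≤ n
    · obtain ⟨C, hC⟩ := hT n hn
      refine ⟨|C| * √2 ^ (n - 2), by positivity, fun _ d V l L hV hL hL' t ht x => ?_⟩
      have ht0 : 0 < t := by linarith [ht.1]
      refine (hC d V l L t hV ht0 (by nlinarith [ht.2]) x).mono ?_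
      have h1 : (√t)⁻¹ ≤ √2 := by
        rw [← Real.sqrt_inv]
        exact Real.sqrt_le_sqrt (by rw [inv_le_comm₀ ht0 two_pos]; linarith [ht.1])
      have h2 : C * L / √t ^ (n - 2) ≤ |C| * L / √t ^ (n - 2) := by
        gcongr; exact le_abs_self C
      refine h2.trans ?_
      rw [div_eq_mul_inv, ← inv_pow, mul_right_comm]
      gcongr
    · exact ⟨0, le_rfl, fun h => absurd h hn⟩
  choose c hc hb using h
  exact ⟨c, hc, fun d V l L hV hL hL' t ht n hn x => hb n hn d V l L hV hL hL' t ht x⟩

/-- The structural hypotheses hold at unit scale with dimension-free constants. -/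
theorem levelFamily_controlled (hT : TensorBoundStatement) :
    ∃ C : ℕ → ℝ, ∀ (d : ℕ) (V : Euc d → ℝ) (l L : ℝ) (hV : NicePot d V l L),
      0 ≤ L → 200 * L ≤ 1 → (levelFamily hV.weight).Controlled (Icc (1 / 2 : ℝ) 2) C := by
  obtain ⟨c, hc, hcb⟩ := exists_level_bound hT
  have hgood := cexpr_good (κ := LevelLeaf) (fun n _ => c n) levelGrad levelFlow₁ levelFlow₀
  have h : ∀ N : ℕ, ∃ C : ℝ, ∀ (d : ℕ) (V : Euc d → ℝ) (l L : ℝ) (hV : NicePot d V l L),
      0 ≤ L → 200 * L ≤ 1 →
      (levelFamily hV.weight).Good (Icc (1 / 2 : ℝ) 2) C N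
        (fun t => derivTen (smoothPot V t) 2) ∧
      (levelFamily hV.weight).Good (Icc (1 / 2 : ℝ) 2) C N
        (fun t x => (1 / 2 : ℝ) • derivTen (smoothPot V t) 2 x) ∧
      (levelFamily hV.weight).Good (Icc (1 / 2 : ℝ) 2) C N
        (fun _ _ => (0 : Ten (Fin d) 3)) := by
    intro N
    obtain ⟨C₂, hC₂, h₂⟩ := hgood N hessE
    obtain ⟨C₃, hC₃, h₃⟩ := hgood N (.smul (1 / 2) hessE)
    refine ⟨C₂ + C₃, fun d V l L hV hL hL' => ?_⟩
    have hJ : Icc (1 / 2 : ℝ) 2 ⊆ (levelFamily hV.weight).dom := fun t ht =>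
      show (0 : ℝ) < t by linarith [ht.1]
    have R : CRules (levelFamily hV.weight) (Icc (1 / 2 : ℝ) 2) (levelL V) (fun n _ => c n)
        levelGrad levelFlow₁ levelFlow₀ := by
      refine ⟨levelL_tame hV.weight, fun n _ => hc n, fun n i t ht x => ?_,
        fun n i t _ x => levelFamily_nabla_eq n i t x, fun n i t ht x => ?_⟩
      · exact (hcb d V l L hV hL hL' t ht n i.down x).mono
          (mul_le_of_le_one_right (hc n) (by linarith))
      · match n, i with
        | 0, i => exact absurd i.down (by omega)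
        | m + 1, _ => exact levelFamily_flow hV.weight m ht x
    exact ⟨(h₂ (Fin d) _ _ _ hJ R).mono (by linarith), (h₃ (Fin d) _ _ _ hJ R).mono (by linarith),
      (Family.good_const N (allSplit_zero (by linarith)) (by linarith))⟩
  choose C hC using h
  refine ⟨C, fun d V l L hV hL hL' => ⟨fun t ht => show (0 : ℝ) < t by linarith [ht.1],
    fun N => ?_⟩⟩
  obtain ⟨h1, h2, h3⟩ := hC N d V l L hV hL hL'
  refine ⟨h1, fun _ _ => 0, fun t x => (1 / 2 : ℝ) • derivTen (smoothPot V t) 2 x, h3, h2,
    fun t ht x => ?_⟩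
  rw [levelFamily_gradB hV.weight ht, (levelFamily hV.weight).delta_zero, zero_add]

lemma AllSplit.norm_sq_le {n : ℕ} {C : ℝ} {T : Ten (Fin d) (n + 2)} (hT : AllSplit C T) :
    ‖T‖ ^ 2 ≤ d * C ^ 2 := by
  set e : Fin (n + 1) ⊕ Fin 1 ≃ Fin (n + 2) := finSumFinEquiv
  have h : ∀ i : Fin d, ∑ α : Fin (n + 1) → Fin d, T (Sum.elim α (fun _ => i) ∘ e.symm) ^ 2
      ≤ C ^ 2 := fun i => by
    refine le_of_eq_of_le ?_
      ((hT.op_bound e fun β => if β = fun _ => i then 1 else 0).trans_eq ?_)
    · simp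
    · simp
  rw [EuclideanSpace.real_norm_sq_eq, sum_sumArrow e, Finset.sum_comm, sum_pi_one]
  refine (Finset.sum_le_sum fun i _ => h i).trans_eq ?_
  simp

lemma nablaIter_derivTen (U : Euc d → ℝ) (i : ℕ) :
    nablaIter (derivTen U 1) i = derivTen U (1 + i) := by
  induction i with
  | zero => rfl
  | succ i ih =>
    show nabla (nablaIter (derivTen U 1) i) = nabla (derivTen U (1 + i))
    rw [ih]

/-- Bounds on all space and flow derivatives of the score at unit scale. -/
theorem levelFamily_reg_score (hT : TensorBoundStatement) (j n : ℕ) :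
    ∃ C : ℝ, 0 ≤ C ∧ ∀ (d : ℕ) (V : Euc d → ℝ) (l L : ℝ) (hV : NicePot d V l L),
      0 ≤ L → 200 * L ≤ 1 → (levelFamily hV.weight).Reg (Icc (1 / 2 : ℝ) 2) j n
        (C * √(L * d)) (fun t => derivTen (smoothPot V t) 1) := by
  obtain ⟨c, hc, hcb⟩ := exists_level_bound hT
  obtain ⟨Cc, hCc⟩ := levelFamily_controlled hT
  induction j generalizing n with
  | zero =>
    refine ⟨1 + √(c 2) + ∑ m ∈ Finset.range (n + 2), c m, ?_, fun d V l L hV hL hL' => ?_⟩
    · have : 0 ≤ ∑ m ∈ Finset.range (n + 2), c m := Finset.sum_nonneg fun m _ => hc m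
      positivity
    set F := levelFamily hV.weight with hF
    set K := 1 + √(c 2) + ∑ m ∈ Finset.range (n + 2), c m with hK
    have hsum0 : 0 ≤ ∑ m ∈ Finset.range (n + 2), c m := Finset.sum_nonneg fun m _ => hc m
    have hT' := smoothPot_tame hV.weight
    refine ⟨hT'.derivTen isOpen_Ioi 1, fun a ha i hi t ht => ?_⟩
    obtain rfl : a = 0 := Nat.le_zero.1 ha
    have ht0 : (0 : ℝ) < t := by linarith [ht.1]
    have := F.prob t ht0
    have hMsq : (K * √(L * d)) ^ 2 = K ^ 2 * L * d := by
      rw [mul_pow, Real.sq_sqrt (by positivity)]; ring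
    simp only [Function.iterate_zero, id_eq]
    rw [hMsq, nablaIter_derivTen]
    rcases i with - | i
    · -- the score itself, by integration by parts
      have hsq : ∀ y, ‖derivTen (smoothPot V t) (1 + 0) y‖ ^ 2
          = ∑ k, pd k (smoothPot V) t y * pd k (smoothPot V) t y := fun y => by
        rw [EuclideanSpace.real_norm_sq_eq, sum_pi_one]
        refine Finset.sum_congr rfl fun k _ => ?_
        have e : derivTen (smoothPot V t) 1 y (fun _ => k) = pd k (smoothPot V) t y :=
          nabla_apply (hT'.derivTen isOpen_Ioi 0) ht0 y _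
        rw [sq, e]
      simp only [hsq]
      have hk : ∀ k : Fin d, ∫ y, pd k (smoothPot V) t y * pd k (smoothPot V) t y ∂(F.μ t)
          ≤ c 2 * L := fun k => by
        have h := F.ibp t ht0 (pd k (smoothPot V)) (hT'.pd isOpen_Ioi k) k
        change ∫ y, pd k (pd k (smoothPot V)) t y ∂(F.μ t)
          = ∫ y, pd k (smoothPot V) t y * pd k (smoothPot V) t y ∂(F.μ t) at h
        rw [← h]
        have hle : ∀ y, |pd k (pd k (smoothPot V)) t y| ≤ c 2 * L := fun y => by
          have hb := hcb d V l L hV hL hL' t ht 2 le_rfl y 1 1 splitId one_pos one_pos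
            (EuclideanSpace.single (fun _ => k) 1) (EuclideanSpace.single (fun _ => k) 1)
          rw [show pd k (pd k (smoothPot V)) t y
            = derivTen (smoothPot V t) 2 y (pairIdx k k) from (F.hess_apply ht0 y k k).symm]
          simpa [sum_pi_one, joinIdx_splitId, PiLp.single_apply, funext_iff] using hb
        refine ((le_abs_self _).trans (norm_integral_le_of_norm_le_const (C := c 2 * L)
          (ae_of_all _ fun y => by rw [Real.norm_eq_abs]; exact hle y))).trans_eq ?_
        simp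
      have hint : ∀ k : Fin d,
          Integrable (fun y => pd k (smoothPot V) t y * pd k (smoothPot V) t y) (F.μ t) := fun k =>
        ((hT'.pd isOpen_Ioi k).mul (hT'.pd isOpen_Ioi k) isOpen_Ioi).integrable ht0 _
          (F.integrable_poly t ht0)
      rw [integral_finsetSum _ fun k _ => hint k]
      refine (Finset.sum_le_sum fun k _ => hk k).trans ?_
      rw [Finset.sum_const, Finset.card_univ, Fintype.card_fin, nsmul_eq_mul]
      have h1 : c 2 ≤ K ^ 2 := by
        calc c 2 = √(c 2) ^ 2 := (Real.sq_sqrt (hc 2)).symm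
          _ ≤ K ^ 2 := pow_le_pow_left₀ (Real.sqrt_nonneg _) (by linarith) 2
      nlinarith [mul_le_mul_of_nonneg_right h1 (mul_nonneg hL d.cast_nonneg)]
    · have hn : 1 + (i + 1) = i + 2 := by omega
      have hb := hcb d V l L hV hL hL' t ht (i + 2) (by omega)
      have hbd : ∀ y, ‖derivTen (smoothPot V t) (1 + (i + 1)) y‖ ^ 2 ≤ K ^ 2 * L * d := fun y => by
        rw [hn]
        refine (hb y).norm_sq_le.trans ?_
        have h1 : c (i + 2) ≤ K := by
          have := Finset.single_le_sum (fun m _ => hc m)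
            (Finset.mem_range.2 (show i + 2 < n + 2 by omega))
          linarith [Real.sqrt_nonneg (c 2)]
        have h2 : c (i + 2) ^ 2 * L ≤ K ^ 2 * 1 :=
          mul_le_mul (pow_le_pow_left₀ (hc _) h1 2) (by linarith) hL (sq_nonneg _)
        nlinarith [mul_le_mul_of_nonneg_right h2 (mul_nonneg hL d.cast_nonneg)]
      refine (integral_mono_of_nonneg (ae_of_all _ fun y => sq_nonneg _) (integrable_const _)
        (ae_of_all _ hbd)).trans_eq ?_
      simp
  | succ j ih =>
    obtain ⟨n₁, N₁, C₁, h₁⟩ := calc_closure Cc j n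
    obtain ⟨n₂, N₂, C₂, h₂⟩ := calc_closure Cc j n₁
    obtain ⟨C₀, hC₀, h₀⟩ := ih n
    obtain ⟨C₃, hC₃, h₃⟩ := ih n₂
    refine ⟨C₀ + |C₁| * |C₂| * C₃, by positivity, fun d V l L hV hL hL' => ?_⟩
    set F := levelFamily hV.weight with hF
    have hF' := hCc d V l L hV hL hL'
    have hM : 0 ≤ C₃ * √(L * d) := by positivity
    have hd := (h₂ _ F _ hF' _ hM).1 1 _ (h₃ d V l L hV hL hL')
    have hd' : F.Reg (Icc (1 / 2 : ℝ) 2) j n₁ (|C₂| * (C₃ * √(L * d))) _ :=
      ⟨hd.1, fun a ha i hi t ht => (hd.2 a ha i hi t ht).trans_eq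
        (by rw [mul_pow C₂, mul_pow |C₂|, sq_abs])⟩
    have hδ := (h₁ _ F _ hF' _ (show 0 ≤ |C₂| * (C₃ * √(L * d)) by positivity)).2.1 1 _ hd'
    have hδ' : F.Reg (Icc (1 / 2 : ℝ) 2) j n (|C₁| * (|C₂| * (C₃ * √(L * d)))) _ :=
      ⟨hδ.1, fun a ha i hi t ht => (hδ.2 a ha i hi t ht).trans_eq
        (by rw [mul_pow C₁, mul_pow |C₁|, sq_abs])⟩
    have hD := ((hδ'.smul hF'.1 (-(1 / 2) : ℝ))).congr hF'.1 fun t ht x =>
      levelFamily_D_score hV.weight ht x
    refine Family.Reg.of_D (((h₀ d V l L hV hL hL').of_le (Nat.zero_le j) le_rfl).mono le_rfl le_rfl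
      (by positivity) ?_) (hD.mono le_rfl le_rfl ?_ ?_)
    · gcongr; exact le_add_of_nonneg_right (by positivity)
    · positivity
    · calc |(-(1 / 2) : ℝ)| * (|C₁| * (|C₂| * (C₃ * √(L * d))))
          ≤ 1 * (|C₁| * (|C₂| * (C₃ * √(L * d)))) := by
            gcongr; norm_num
        _ ≤ _ := by
            have : 0 ≤ C₀ * √(L * d) := by positivity
            nlinarith

end Vale.Agent.P347
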