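import Vale.Agent.P347.Defs
import Vale.Agent.P347.PostGibbs

/-!
At least one query is needed.
-/

namespace Vale.Agent.P347

open MeasureTheory ProbabilityTheory Filter Set
open scoped Gradient RealInnerProductSpace ContDiff Topology

variable {d : ℕ}

lemma quad_hasFDerivAt (a : ℝ) (x : Euc d) :
    HasFDerivAt (fun x : Euc d => a * ‖x‖ ^ 2) ((2 * a) • innerSL ℝ x) x := by
  refine (((hasFDerivAt_id x).norm_sq).const_mul a).congr_fderiv ?_
  ext v
  simp
  ring

lemma admissible_quad {a : ℝ} (ha : 1 / 2 ≤ a) (ha' : a ≤ 1) :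
    Admissible d fun x : Euc d => a * ‖x‖ ^ 2 := by
  have hd1 : fderiv ℝ (fun x : Euc d => a * ‖x‖ ^ 2) = fun x => (2 * a) • innerSL ℝ x :=
    funext fun x => (quad_hasFDerivAt a x).fderiv
  have hd2 : ∀ x v : Euc d,
      iteratedFDeriv ℝ 2 (fun x : Euc d => a * ‖x‖ ^ 2) x (fun _ => v) = 2 * a * ‖v‖ ^ 2 := by
    intro x v
    rw [iteratedFDeriv_two_apply, hd1]
    have h : HasFDerivAt (fun x : Euc d => (2 * a) • innerSL ℝ x)
        ((2 * a) • (innerSL ℝ : Euc d →L[ℝ] Euc d →L[ℝ] ℝ)) x :=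
      (innerSL ℝ : Euc d →L[ℝ] Euc d →L[ℝ] ℝ).hasFDerivAt.const_smul (2 * a)
    rw [h.fderiv]
    change (2 * a) * ⟪v, v⟫ = _
    rw [real_inner_self_eq_norm_sq]
  refine ⟨?_, by simp, ?_, fun x v => ?_, fun x v => ?_⟩
  · exact contDiff_const.mul ((contDiff_id).norm_sq ℝ)
  · rw [gradient, (quad_hasFDerivAt a 0).fderiv]
    simp
  · rw [hd2]
    exact le_mul_of_one_le_left (sq_nonneg _) (by linarith)
  · rw [hd2]
    exact mul_le_mul_of_nonneg_right (by linarith) (sq_nonneg _)

/-- Projection on the first two coordinates. -/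
noncomputable def headTwo (hd : 2 ≤ d) (x : Euc d) : Euc 2 :=
  WithLp.toLp 2 fun i => x (Fin.castLE hd i)

lemma gauss_map_headTwo (hd : 2 ≤ d) : (gauss d).map (headTwo hd) = gauss 2 := by
  have hm : Measurable (headTwo (d := d) hd) := by unfold headTwo; fun_prop
  have := Measure.isProbabilityMeasure_map (μ := gauss d) hm.aemeasurable
  apply Measure.ext_of_charFun
  funext t
  set e : Euc d := ∑ i : Fin 2, t i • EuclideanSpace.single (Fin.castLE hd i) (1 : ℝ) with he
  have hin : ∀ x : Euc d, ⟪headTwo hd x, t⟫ = ⟪x, e⟫ := fun x => by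
    simp [he, inner_add_right, PiLp.inner_apply, headTwo, Fin.sum_univ_two]
    try ring
  have hnorm : ‖e‖ = ‖t‖ := by
    have h : ‖e‖ ^ 2 = ‖t‖ ^ 2 := by
      rw [← real_inner_self_eq_norm_sq, ← hin, EuclideanSpace.real_norm_sq_eq, PiLp.inner_apply]
      simp [he, headTwo, Fin.sum_univ_two, sq]
    exact (sq_eq_sq₀ (norm_nonneg _) (norm_nonneg _)).1 h
  have : charFun ((gauss d).map (headTwo hd)) t = charFun (gauss d) e := by
    rw [charFun_apply, charFun_apply,
      integral_map hm.aemeasurable (Continuous.aestronglyMeasurable (by fun_prop))]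
    simp only [hin]
  rw [this, charFun_stdGaussian, charFun_stdGaussian, hnorm]

lemma integral_mul_exp_Ioi : ∫ y in Ioi (0 : ℝ), y * Real.exp (-(y ^ 2 / 2)) = 1 := by
  have hder : ∀ y ∈ Ici (0 : ℝ),
      HasDerivAt (fun y => -Real.exp (-(y ^ 2 / 2))) (y * Real.exp (-(y ^ 2 / 2))) y := fun y _ => by
    refine (((hasDerivAt_pow 2 y).div_const 2).fun_neg.exp.fun_neg).congr_deriv ?_
    simp
    ring
  have hlim : Tendsto (fun y : ℝ => -Real.exp (-(y ^ 2 / 2))) atTop (𝓝 0) := by
    have h : Tendsto (fun y : ℝ => -(y ^ 2 / 2)) atTop atBot :=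
      tendsto_neg_atTop_atBot.comp ((tendsto_pow_atTop two_ne_zero).atTop_div_const two_pos)
    simpa using (Real.tendsto_exp_atBot.comp h).neg
  rw [integral_Ioi_of_hasDerivAt_of_nonneg' hder
    (fun y hy => mul_nonneg (le_of_lt hy) (Real.exp_pos _).le) hlim]
  simp

/-- The planar Gaussian mass of a centred disc. -/
lemma gauss_disc {R : ℝ} (hR : 0 ≤ R) :
    (gauss 2).real {x | ‖x‖ ≤ R} = 1 - Real.exp (-(R ^ 2 / 2)) := by
  have hS : MeasurableSet {x : Euc 2 | ‖x‖ ≤ R} := measurableSet_le (by fun_prop) (by fun_prop)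
  rw [← integral_indicator_one hS, gauss_integral_eq]
  have e1 : (fun x : Euc 2 => Real.exp (-(‖x‖ ^ 2 / 2)) • ({x : Euc 2 | ‖x‖ ≤ R}).indicator 1 x)
      = fun x => (Iic R).indicator (fun y => Real.exp (-(y ^ 2 / 2))) ‖x‖ := by
    funext x
    by_cases h : ‖x‖ ≤ R <;> simp [h]
  rw [e1, integral_fun_norm_addHaar (μ := (volume : Measure (Euc 2)))
      (fun y => (Iic R).indicator (fun y => Real.exp (-(y ^ 2 / 2))) y),
    integral_fun_norm_addHaar (μ := (volume : Measure (Euc 2)))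
      (fun y => Real.exp (-(y ^ 2 / 2)))]
  simp only [finrank_euclideanSpace_fin, Nat.reduceSub, pow_one, smul_eq_mul, nsmul_eq_mul]
  have e2 : ∫ y in Ioi (0 : ℝ), y * (Iic R).indicator (fun y => Real.exp (-(y ^ 2 / 2))) y
      = 1 - Real.exp (-(R ^ 2 / 2)) := by
    have e : (fun y : ℝ => y * (Iic R).indicator (fun y => Real.exp (-(y ^ 2 / 2))) y)
        = (Iic R).indicator fun y => y * Real.exp (-(y ^ 2 / 2)) := by
      funext y
      by_cases h : y ∈ Iic R <;> simp [h]
    rw [e, setIntegral_indicator measurableSet_Iic, Ioi_inter_Iic,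
      ← intervalIntegral.integral_of_le hR,
      intervalIntegral.integral_eq_sub_of_hasDerivAt (f := fun y => -Real.exp (-(y ^ 2 / 2)))
        (fun y _ => ?_) (by apply Continuous.intervalIntegrable; fun_prop)]
    · simp; ring
    · refine (((hasDerivAt_pow 2 y).div_const 2).fun_neg.exp.fun_neg).congr_deriv ?_
      simp
      ring
  rw [e2, integral_mul_exp_Ioi]
  have hpos : 0 < (volume : Measure (Euc 2)).real (Metric.ball 0 1) :=
    ENNReal.toReal_pos (Metric.measure_ball_pos volume _ one_pos).ne' measure_ball_lt_top.ne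
  field_simp

lemma gibbs_half_sq (d : ℕ) : gibbs (fun x : Euc d => 1 / 2 * ‖x‖ ^ 2) = gauss d := by
  rw [gauss_eq_gibbs]
  congr 1
  funext x
  ring

lemma gibbs_sq (d : ℕ) :
    gibbs (fun x : Euc d => 1 * ‖x‖ ^ 2) = (gauss d).map fun x => (√2)⁻¹ • x := by
  have hc : 0 < (√2 : ℝ)⁻¹ := by positivity
  set c := (√2 : ℝ)⁻¹ with hcdef
  have hc2 : c ^ 2 = 1 / 2 := by rw [hcdef, inv_pow, Real.sq_sqrt two_pos.le]; norm_num
  have hexp : ∀ x : Euc d, Real.exp (-(1 * ‖c • x‖ ^ 2)) = Real.exp (-(‖x‖ ^ 2 / 2)) := fun x => by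
    rw [norm_smul, Real.norm_eq_abs, abs_of_pos hc, mul_pow, hc2]; ring_nf
  have hint : Integrable fun x : Euc d => Real.exp (-(1 * ‖x‖ ^ 2)) := by
    have h := integrable_gauss_density d
    refine h.mono' (by fun_prop) (.of_forall fun x => ?_)
    rw [Real.norm_eq_abs, Real.abs_exp, Real.exp_le_exp]
    nlinarith [sq_nonneg ‖x‖]
  have : IsProbabilityMeasure (gibbs fun x : Euc d => 1 * ‖x‖ ^ 2) :=
    isProbabilityMeasure_tilted hint
  have := Measure.isProbabilityMeasure_map (μ := gauss d) (f := fun x => c • x) (by fun_prop)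
  refine Measure.ext fun S hS => ?_
  rw [← measureReal_eq_measureReal_iff, map_measureReal_apply (by fun_prop) hS,
    ← integral_indicator_one hS,
    ← integral_indicator_one ((by fun_prop : Measurable fun x : Euc d => c • x) hS),
    gauss_integral_eq, gibbs, integral_tilted]
  set g : Euc d → ℝ := fun u => Real.exp (-(1 * ‖u‖ ^ 2)) * S.indicator 1 u
  have hnum : ∫ x : Euc d, Real.exp (-(‖x‖ ^ 2 / 2)) • ((fun x => c • x) ⁻¹' S).indicator 1 x
      = |(c ^ d)⁻¹| * ∫ u, g u := by
    have h := Measure.integral_comp_smul (volume : Measure (Euc d)) g c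
    rw [finrank_euclideanSpace_fin, smul_eq_mul] at h
    rw [← h]
    refine integral_congr_ae (.of_forall fun x => ?_)
    by_cases hx : c • x ∈ S
    · simp [g, hx]; exact (by simpa using (hexp x).symm)
    · simp [g, hx]
  have hden : ∫ x : Euc d, Real.exp (-(‖x‖ ^ 2 / 2))
      = |(c ^ d)⁻¹| * ∫ u : Euc d, Real.exp (-(1 * ‖u‖ ^ 2)) := by
    have h := Measure.integral_comp_smul (volume : Measure (Euc d))
      (fun u => Real.exp (-(1 * ‖u‖ ^ 2))) c
    rw [finrank_euclideanSpace_fin, smul_eq_mul] at h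
    simp only [hexp] at h
    exact h
  rw [hnum, hden, smul_eq_mul, mul_inv, mul_mul_mul_comm,
    inv_mul_cancel₀ (by positivity : |(c ^ d)⁻¹| ≠ 0), one_mul, ← integral_const_mul]
  refine integral_congr_ae (.of_forall fun u => ?_)
  simp only [g, smul_eq_mul]
  ring

/-- No sampler works without queries. -/
theorem not_samples_zero (d : ℕ) (hd : 2 ≤ d) (A : Algorithm d 0) : ¬ A.Samples := by
  intro hA
  set R := √(2 * Real.log 2) with hR
  have hl : 0 ≤ Real.log 2 := Real.log_nonneg one_le_two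
  have hR2 : R ^ 2 = 2 * Real.log 2 := Real.sq_sqrt (by linarith)
  set B : Set (Euc d) := {x | ‖headTwo hd x‖ ≤ R} with hB
  have hm : Measurable (headTwo (d := d) hd) := by unfold headTwo; fun_prop
  have hBm : MeasurableSet B := measurableSet_le hm.norm measurable_const
  have hrun : ∀ V W : Euc d → ℝ, A.run V = A.run W := fun V W => rfl
  have h1 := hA _ (admissible_quad (d := d) (a := 1 / 2) le_rfl (by norm_num)) B hBm
  have h2 := hA _ (admissible_quad (d := d) (a := 1) (by norm_num) le_rfl) B hBm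
  rw [hrun (fun x => 1 / 2 * ‖x‖ ^ 2) (fun x => 1 * ‖x‖ ^ 2), gibbs_half_sq] at h1
  rw [gibbs_sq, map_measureReal_apply (f := fun x : Euc d => (√2 : ℝ)⁻¹ • x) (by fun_prop) hBm]
    at h2
  have p1 : (gauss d).real B = 1 / 2 := by
    have e : (gauss d).real B = ((gauss d).map (headTwo hd)).real {x | ‖x‖ ≤ R} := by
      rw [map_measureReal_apply hm (measurableSet_le (by fun_prop) measurable_const)]
      rfl
    rw [e, gauss_map_headTwo hd, gauss_disc (Real.sqrt_nonneg _), hR2, mul_div_cancel_left₀ _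
      two_ne_zero, Real.exp_neg, Real.exp_log two_pos]
    norm_num
  have p2 : (gauss d).real ((fun x => (√2 : ℝ)⁻¹ • x) ⁻¹' B) = 3 / 4 := by
    have hpre : (fun x : Euc d => (√2 : ℝ)⁻¹ • x) ⁻¹' B
        = headTwo hd ⁻¹' {y | ‖y‖ ≤ √2 * R} := by
      ext x
      have e : headTwo hd ((√2 : ℝ)⁻¹ • x) = (√2 : ℝ)⁻¹ • headTwo hd x := by
        ext i; simp [headTwo]
      simp only [hB, Set.mem_preimage, Set.mem_ofPred_eq, e, norm_smul, Real.norm_eq_abs,
        abs_of_pos (inv_pos.2 (Real.sqrt_pos.2 two_pos))]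
      rw [inv_mul_le_iff₀ (Real.sqrt_pos.2 two_pos)]
    rw [hpre, ← map_measureReal_apply hm (measurableSet_le (by fun_prop) measurable_const),
      gauss_map_headTwo hd, gauss_disc (by positivity), mul_pow, Real.sq_sqrt two_pos.le, hR2,
      mul_div_cancel_left₀ _ two_ne_zero, two_mul, neg_add, Real.exp_add, Real.exp_neg,
      Real.exp_log two_pos]
    norm_num
  rw [p1] at h1
  rw [p2] at h2
  rw [abs_le] at h1 h2
  linarith

/-- When samplers exist, the query complexity is at least one. -/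
theorem one_le_queryComplexity (hd : 2 ≤ d) (h : ∃ q, ∃ A : Algorithm d q, A.Samples) :
    1 ≤ queryComplexity d := by
  by_contra hc
  have h0 : sInf {q : ℕ | ∃ A : Algorithm d q, A.Samples} = 0 := by
    unfold queryComplexity at hc
    omega
  obtain ⟨A', hA'⟩ : 0 ∈ {q : ℕ | ∃ A : Algorithm d q, A.Samples} := h0 ▸ Nat.sInf_mem h
  exact not_samples_zero d hd A' hA'

end Vale.Agent.P347
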