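import Vale.Agent.P347.SpecsRot
import Vale.Agent.P347.HeatWeight

/-!
Gradients of the potentials of the class are gradient oracles.
-/

namespace Vale.Agent.P347

open scoped Gradient RealInnerProductSpace ContDiff

variable {d : ℕ}

/-- A symmetric bilinear form is bounded by any bound for its quadratic form. -/
lemma bilin_le_of_abs_quad {E : Type*} [NormedAddCommGroup E] [InnerProductSpace ℝ E]
    {B : E →L[ℝ] E →L[ℝ] ℝ} {M : ℝ} (hsymm : ∀ u v, B u v = B v u)
    (hq : ∀ v, |B v v| ≤ M * ‖v‖ ^ 2) (u v : E) : |B u v| ≤ M * ‖u‖ * ‖v‖ := by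
  rcases eq_or_ne u 0 with rfl | hu
  · simp
  rcases eq_or_ne v 0 with rfl | hv
  · simp
  have hu' : 0 < ‖u‖ := norm_pos_iff.2 hu
  have hv' : 0 < ‖v‖ := norm_pos_iff.2 hv
  have key : ∀ a b : E, 4 * |B a b| ≤ M * (2 * (‖a‖ ^ 2 + ‖b‖ ^ 2)) := fun a b => by
    have e : 4 * B a b = B (a + b) (a + b) - B (a - b) (a - b) := by
      simp only [map_add, map_sub, add_apply, sub_apply, hsymm b a]
      ring
    have hp := parallelogram_law_with_norm ℝ a b
    calc 4 * |B a b| = |B (a + b) (a + b) - B (a - b) (a - b)| := by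
          rw [← e, abs_mul]; norm_num
      _ ≤ M * ‖a + b‖ ^ 2 + M * ‖a - b‖ ^ 2 := (abs_sub _ _).trans (add_le_add (hq _) (hq _))
      _ = _ := by rw [← mul_add, hp]
  have h := key (‖v‖ • u) (‖u‖ • v)
  simp only [map_smul, smul_apply, smul_eq_mul, norm_smul, norm_norm, abs_mul, abs_norm] at h
  refine le_of_mul_le_mul_left (a := 4 * (‖u‖ * ‖v‖)) ?_ (by positivity)
  nlinarith

/-- Gradients of the potentials of the class are gradient oracles of the class. -/
theorem oracleClass : OracleStatement := by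
  intro d V hV
  set I₂ : Euc d →L[ℝ] Euc d →L[ℝ] ℝ := innerSL ℝ with hI₂
  set ψ : Euc d → StrongDual ℝ (Euc d) := fun x => fderiv ℝ V x - (3 / 2 : ℝ) • I₂ x
  have hc : ContDiff ℝ ∞ (fderiv ℝ V) := hV.contDiff_fderiv
  have hd : ∀ x, HasFDerivAt ψ (fderiv ℝ (fderiv ℝ V) x - (3 / 2 : ℝ) • I₂) x := fun x => by
    refine ((hc.differentiable (by simp) x).hasFDerivAt.sub
      (I₂.hasFDerivAt.const_smul (3 / 2 : ℝ))).congr_fderiv ?_
    simp
  have hb : ∀ x, ‖fderiv ℝ ψ x‖ ≤ 1 / 2 := fun x => by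
    rw [(hd x).fderiv]
    refine ContinuousLinearMap.opNorm_le_bound _ (by norm_num) fun u => ?_
    refine ContinuousLinearMap.opNorm_le_bound _ (by positivity) fun v => ?_
    rw [Real.norm_eq_abs]
    refine bilin_le_of_abs_quad (M := 1 / 2) (fun a b => ?_) (fun a => ?_) u v
    · simp only [sub_apply, smul_apply, hI₂, hV.hessian_symm x a b]
      rw [innerSL_apply_apply, innerSL_apply_apply, real_inner_comm]
    · have h1 := hV.hessian_lower x a
      have h2 := hV.hessian_upper x a
      simp only [sub_apply, smul_apply, smul_eq_mul, hI₂]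
      rw [innerSL_apply_apply, real_inner_self_eq_norm_sq, abs_le]
      constructor <;> linarith
  refine ⟨(LinearIsometryEquiv.continuous _).comp hc.continuous, fun a b => ?_⟩
  have h := (convex_univ : Convex ℝ (Set.univ : Set (Euc d))).norm_image_sub_le_of_norm_fderiv_le
    (f := ψ) (C := 1 / 2) (fun x _ => (hd x).differentiableAt) (fun x _ => hb x)
    (Set.mem_univ b) (Set.mem_univ a)
  refine le_of_eq_of_le ?_ h
  rw [← (InnerProductSpace.toDual ℝ (Euc d)).norm_map]
  congr 1
  ext v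
  simp [gradient, ψ, hI₂]
  rw [innerSL_apply_apply, innerSL_apply_apply]
  ring

end Vale.Agent.P347
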