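import Vale.Agent.P347.OuterSteps

/-!
The outer sampler: backward level steps along a chain, with `d ^ o(1)` queries.
-/

namespace Vale.Agent.P347

open MeasureTheory ProbabilityTheory Filter
open scoped Gradient RealInnerProductSpace Topology

variable {d : ℕ}

lemma outer_levels (hlev : LevelFactsStatement) : ∃ c C : ℝ, 0 < c ∧ 0 ≤ C ∧
    ∀ (d : ℕ) (V : Euc d → ℝ), Nice d V → LevelsOK V c ∧
      (∀ t, 0 ≤ t → t ≤ c → ∫ y, ‖y‖ ∂(levelLaw V t) ≤ C * (d + 1)) ∧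
      levelLaw V 0 = gibbs V := by
  obtain ⟨c, C, hc, hC, h⟩ := hlev
  refine ⟨c, C, hc, hC.le, fun d V hV => ?_⟩
  obtain ⟨h1, h2, -, -⟩ := h d V hV.pot hV.grad_zero
  exact ⟨⟨fun t a b => (h1 t a b).1, fun t a b => by simpa using (h1 t a b).2.1 1,
    fun t r a b e => (h1 t a (by linarith)).2.2.2 r b e⟩, fun t a b => (h1 t a b).2.2.1, h2⟩

lemma repeat_chain (hstep : ChainStepStatement) {c t h ρ D₀ E : ℝ} {Q : ℕ} {eB eN : Expr 1}
    (hρ : 0 ≤ ρ) (hρ1 : ρ ≤ 1) (hE : 0 ≤ E) (ht : 0 ≤ t) (htc : t ≤ c) (hh : 0 ≤ h) (hhc : h ≤ c)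
    (hB : StepOK d eB Q ρ h t E) (hN : StepOK d eN 0 1 t h 0)
    (hlev : ∀ V : Euc d → ℝ, Nice d V → LevelsOK V c)
    (h0 : ∀ V : Euc d → ℝ, Nice d V → ∫ y, ‖y‖ ∂(levelLaw V t) ≤ D₀) :
    ∀ N : ℕ, ∃ es : List (Expr 1), chainQueries es ≤ N * Q ∧ ∀ V : Euc d → ℝ, Nice d V →
      DualClose (chainLaw (∇ V) es) (levelLaw V t) (ρ ^ N * D₀ + N * E)
  | 0 => ⟨[], by simp [chainQueries], fun V hV =>
      ((dualClose_chain_nil (hlev V hV) ht htc).mono (h0 V hV)).mono (by simp)⟩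
  | N + 1 => by
    obtain ⟨es, hq, hd⟩ := repeat_chain hstep hρ hρ1 hE ht htc hh hhc hB hN hlev h0 N
    refine ⟨eB :: eN :: es, ?_, fun V hV => ?_⟩
    · refine (chainQueries_cons_le hB.queries (chainQueries_cons_le hN.queries hq)).trans (le_of_eq ?_)
      ring
    · refine (chain_extend hstep hρ hB hV (hlev V hV) hh hhc
        (chain_extend hstep zero_le_one hN hV (hlev V hV) ht htc (hd V hV))).mono ?_
      push_cast
      rw [pow_succ]
      nlinarith [mul_le_of_le_one_left (mul_nonneg (Nat.cast_nonneg N) hE) hρ1]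

lemma descend_chain (hstep : ChainStepStatement) {c D E : ℝ} {Q T : ℕ} {bs : ℕ → ℝ}
    (hbs : ∀ k, 0 ≤ bs k ∧ bs k ≤ c) (hS : ∀ k, ∃ e, StepOK d e Q 1 (bs k) (bs (k + 1)) E)
    (hlev : ∀ V : Euc d → ℝ, Nice d V → LevelsOK V c) {es₀ : List (Expr 1)}
    (hq₀ : chainQueries es₀ ≤ T)
    (h0 : ∀ V : Euc d → ℝ, Nice d V → DualClose (chainLaw (∇ V) es₀) (levelLaw V (bs 0)) D) :
    ∀ K : ℕ, ∃ es : List (Expr 1), chainQueries es ≤ T + K * Q ∧ ∀ V : Euc d → ℝ, Nice d V →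
      DualClose (chainLaw (∇ V) es) (levelLaw V (bs K)) (D + K * E)
  | 0 => ⟨es₀, by simpa using hq₀, fun V hV => (h0 V hV).mono (by simp)⟩
  | K + 1 => by
    obtain ⟨es, hq, hd⟩ := descend_chain hstep hbs hS hlev hq₀ h0 K
    obtain ⟨e, he⟩ := hS K
    refine ⟨e :: es, (chainQueries_cons_le he.queries hq).trans (le_of_eq (by ring)), fun V hV => ?_⟩
    refine (chain_extend hstep zero_le_one he hV (hlev V hV) (hbs K).1 (hbs K).2 (hd V hV)).mono ?_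
    push_cast
    linarith

lemma step_error {R b h C₁ C D : ℝ} {k P X m : ℕ} (hR : 2 ≤ R) (hb : 0 ≤ b) (hbh : b ≤ h)
    (hh : h = (R ^ m)⁻¹) (hC₁ : 0 ≤ C₁) (hC : 0 ≤ C) (hD : 0 ≤ D) (hX : X ≤ m * (k + 1))
    (hP : X ≤ P) (hL : b / R ≤ 1 / 4) :
    iterErr k (b / R) (C / R ^ X) (C₁ * D) (C₁ * ((b / R) / (b - b / R)) ^ P * D) D
      ≤ (2 ^ (k + 1) * (C₁ * (1 + 2 ^ P)) + C + C₁ * 2 ^ P) * D * (R ^ X)⁻¹ := by
  have hR1 : 1 ≤ R := by linarith
  have hR0 : 0 < R := by linarith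
  set L := b / R with hLdef
  have hL0 : 0 ≤ L := by positivity
  have hLR : L * R = b := div_mul_cancel₀ b hR0.ne'
  set ρ := L / (b - L) with hρdef
  have hρ : 0 ≤ ρ ∧ ρ ≤ 2 / R := by
    have h2L : 2 * L ≤ b := by nlinarith
    rcases eq_or_lt_of_le hb with h0 | hpos
    · have : L = 0 := by rw [hLdef, ← h0]; simp
      simp [hρdef, this]; positivity
    · have hLpos : 0 < L := by positivity
      refine ⟨div_nonneg hL0 (by linarith), ?_⟩
      rw [hρdef, div_le_div_iff₀ (by linarith) hR0]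
      linarith
  have hRX : 0 < R ^ X := by positivity
  have hρP : ρ ^ P ≤ 2 ^ P * (R ^ X)⁻¹ := by
    refine (pow_le_pow_left₀ hρ.1 hρ.2 P).trans ?_
    rw [div_pow, div_eq_mul_inv]
    exact mul_le_mul_of_nonneg_left (inv_anti₀ hRX (pow_le_pow_right₀ hR1 hP)) (by positivity)
  have hρP1 : ρ ^ P ≤ 2 ^ P := by
    refine hρP.trans (mul_le_of_le_one_right (by positivity) ?_)
    exact inv_le_one_of_one_le₀ (one_le_pow₀ hR1)
  have hLh : L ≤ h := (div_le_self hb hR1).trans hbh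
  have hLk : (2 * L) ^ (k + 1) ≤ 2 ^ (k + 1) * (R ^ X)⁻¹ := by
    rw [mul_pow]
    refine mul_le_mul_of_nonneg_left ((pow_le_pow_left₀ hL0 hLh _).trans ?_) (by positivity)
    rw [hh, inv_pow, ← pow_mul]
    exact inv_anti₀ hRX (pow_le_pow_right₀ hR1 hX)
  have hM : C₁ * D + C₁ * ρ ^ P * D ≤ C₁ * (1 + 2 ^ P) * D := by
    have := mul_le_mul_of_nonneg_left hρP1 hC₁
    nlinarith
  have hρP0 : 0 ≤ ρ ^ P := pow_nonneg hρ.1 _
  have h1 : (2 * L) ^ (k + 1) * (C₁ * D + C₁ * ρ ^ P * D)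
      ≤ 2 ^ (k + 1) * (R ^ X)⁻¹ * (C₁ * (1 + 2 ^ P) * D) :=
    mul_le_mul hLk hM (by positivity) (by positivity)
  have h2 : 4 * L * (C / R ^ X * D + C₁ * ρ ^ P * D)
      ≤ C / R ^ X * D + C₁ * (2 ^ P * (R ^ X)⁻¹) * D := by
    refine (mul_le_of_le_one_left (by positivity) (by linarith)).trans ?_
    gcongr
  simp only [iterErr]
  refine (add_le_add h1 h2).trans (le_of_eq ?_)
  rw [div_eq_mul_inv]
  ring

lemma exists_level_step {P N Qe k : ℕ} {R c C C₁ h : ℝ} {X m : ℕ} (q : QRule P N (21 / 20))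
    (hP0 : 0 < P) (hR : 50 ≤ R) (hC : 0 ≤ C) (hC₁ : 0 ≤ C₁) (hh : h = (R ^ m)⁻¹) (hh1 : h ≤ 1 / 2)
    (hhc : h ≤ c) (hX : X ≤ m * (k + 2)) (hP : X ≤ P)
    (hlev : ∀ d V, Nice d V → LevelsOK V c)
    (hflow : ∀ (d : ℕ) (V : Euc d → ℝ) (a b : ℝ), Nice d V → 0 < a → a < b → b ≤ c →
      ∃ Φ : ℝ → Euc d → Euc d,
        FlowData V a b P Φ (C₁ * dimFac d) (C₁ * ((b - a) / a) ^ P * dimFac d))
    (hev : ∀ t v : ℝ, 0 < t → 0 ≤ v → v * R ^ 2 ≤ t → t ≤ h → ∃ ev : Op,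
      OpOK ev Qe (1 / 20) (scoreFam t) (levelFam t) v 1 (C / R ^ X))
    (d : ℕ) (b : ℝ) (hb : 0 < b) (hbh : b ≤ h) :
    ∃ e, StepOK d e ((3 * (N * Qe) + 1) ^ (k + 1)) (1 - b / R / 3) b (b - b / R + (b / R) ^ 2)
      ((2 ^ (k + 2) * (C₁ * (1 + 2 ^ P)) + C + C₁ * 2 ^ P) * dimFac d * (R ^ X)⁻¹) := by
  have hR0 : 0 < R := by linarith
  set L := b / R with hL
  have hLR : L * R = b := div_mul_cancel₀ b hR0.ne'
  have hLpos : 0 < L := by positivity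
  have hLb : 50 * L ≤ b := by nlinarith
  set a := b - L with ha
  have hba : b - a = L := by simp [ha]
  have ha0 : 0 < a := by linarith
  have hL2 : L ^ 2 ≤ L := by nlinarith
  obtain ⟨op, hop⟩ := exists_flow_op (Qe := Qe) (ε := 1 / 20) (Ee := C / R ^ X) hP0 q le_rfl
    (a := a) (b := b) (by linarith) (by rw [hba]; linarith) ⟨by norm_num, le_rfl⟩ (by positivity)
    (fun d V hV => (hlev d V hV).prob b hb.le (hbh.trans hhc))
    (fun t ht => hev t _ (ha0.trans_le ht.1) (sq_nonneg _) (by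
      rw [hba, ← mul_pow, hLR]
      refine le_trans ?_ ht.1
      have : b * b ≤ b * (1 / 2) := mul_le_mul_of_nonneg_left (hbh.trans hh1) hb.le
      rw [sq]; linarith) (ht.2.trans hbh)) k
  rw [hba] at hop
  have h2 := stepOK_flow (d := d) (c := c) (M₀ := C₁ * dimFac d)
    (Eq := C₁ * ((b - a) / a) ^ P * dimFac d) ha0.le (by linarith) (hbh.trans hhc) (by linarith)
    (sq_nonneg L) (by linarith) (by rw [hba]; exact hop)
    (hlev d) (fun V hV => hflow d V a b hV ha0 (by linarith) (hbh.trans hhc))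
  rw [hba] at h2
  refine ⟨_, h2.queries, h2.lip, fun V hV f hf => (h2.transport V hV f hf).trans ?_⟩
  exact step_error (by linarith) hb.le hbh hh hC₁ hC (dimFac_nonneg d) hX hP (by linarith)

lemma one_sub_pow_le {x : ℝ} (hx : x ≤ 1) (N : ℕ) {T : ℝ} (hT : T ≤ N * x) :
    (1 - x) ^ N ≤ Real.exp (-T) := by
  refine (pow_le_pow_left₀ (by linarith) (Real.one_sub_le_exp_neg x) N).trans ?_
  rw [← Real.exp_nat_mul]
  exact Real.exp_le_exp.2 (by linarith)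

lemma exp_log_bound (d : ℕ) {l : ℝ} (hl : Real.log ((d : ℝ) + 1) ≤ l) (i : ℕ) :
    Real.exp (-((i : ℝ) * l)) ≤ (((d : ℝ) + 1) ^ i)⁻¹ := by
  rw [Real.exp_neg]
  refine inv_anti₀ (by positivity) ?_
  rw [Real.exp_nat_mul]
  exact pow_le_pow_left₀ (by positivity) ((Real.log_le_iff_le_exp (by positivity)).1 hl) i

lemma log_ceil_le {θ : ℝ} (hθ : 0 < θ) (hθ1 : θ ≤ 1) {d : ℕ} (hd : 1 ≤ d) :
    ((⌈Real.log ((d : ℝ) + 1)⌉₊ + 1 : ℕ) : ℝ) ≤ (2 / θ + 2) * (d : ℝ) ^ θ := by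
  have hd1 : (1 : ℝ) ≤ d := by exact_mod_cast hd
  have h1 := Real.log_le_rpow_div (x := (d : ℝ) + 1) (by positivity) hθ
  have h2 : ((d : ℝ) + 1) ^ θ ≤ 2 * (d : ℝ) ^ θ := by
    refine (Real.rpow_le_rpow (by positivity) (by linarith : (d : ℝ) + 1 ≤ 2 * d) hθ.le).trans ?_
    rw [Real.mul_rpow (by norm_num) (by positivity)]
    gcongr
    exact Real.rpow_le_self_of_one_le (by norm_num) hθ1
  have h3 : (1 : ℝ) ≤ (d : ℝ) ^ θ := Real.one_le_rpow hd1 hθ.le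
  have h4 := Nat.ceil_lt_add_one (Real.log_nonneg (by linarith : (1 : ℝ) ≤ (d : ℝ) + 1))
  have h5 : ((d : ℝ) + 1) ^ θ / θ ≤ 2 / θ * (d : ℝ) ^ θ :=
    (div_le_div_of_nonneg_right h2 hθ.le).trans (le_of_eq (by ring))
  push_cast
  linarith

lemma eventually_le_rpow {η : ℝ} (hη : 0 < η) (M : ℝ) :
    ∀ᶠ d : ℕ in atTop, M ≤ (d : ℝ) ^ η :=
  ((tendsto_rpow_atTop hη).comp tendsto_natCast_atTop_atTop).eventually (eventually_ge_atTop M)

/-- The chain down to the final level, with its error to the target. -/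
lemma outer_chain (hstep : ChainStepStatement) {c Cl R h E : ℝ} {Qb m N₁ K : ℕ} (hR : 50 ≤ R)
    (hh : h = (R ^ m)⁻¹) (hhc : h ≤ c) (hh1 : h ≤ 1) (hE : 0 ≤ E) (Lg : ℕ)
    (hLg : Real.log ((d : ℝ) + 1) ≤ (Lg : ℝ))
    (hN₁ : 15 * (Lg : ℝ) * R ^ (m + 1) ≤ N₁) (hK : 18 * (Lg : ℝ) * R ≤ K) (hCl : 0 ≤ Cl)
    (hlev : ∀ V : Euc d → ℝ, Nice d V → LevelsOK V c ∧
      (∀ t, 0 ≤ t → t ≤ c → ∫ y, ‖y‖ ∂(levelLaw V t) ≤ Cl * (d + 1)) ∧ levelLaw V 0 = gibbs V)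
    (hsteps : ∀ b : ℝ, 0 < b → b ≤ h →
      ∃ e, StepOK d e Qb (1 - b / R / 3) b (b - b / R + (b / R) ^ 2) E) :
    ∃ es : List (Expr 1), chainQueries es ≤ N₁ * Qb + K * Qb ∧ ∀ V : Euc d → ℝ, Nice d V →
      DualClose (chainLaw (∇ V) es) (gibbs V)
        ((Cl + 1) * (((d : ℝ) + 1) ^ 4)⁻¹ + ((N₁ : ℝ) + K) * E) := by
  have hR0 : 0 < R := by linarith
  have hR1 : 1 ≤ R := by linarith
  have hh0 : 0 < h := by rw [hh]; positivity
  set next : ℝ → ℝ := fun b => b - b / R + (b / R) ^ 2 with hnext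
  have hnext_prop : ∀ b, 0 < b → b ≤ h → 0 < next b ∧ next b ≤ (1 - 1 / (2 * R)) * b := by
    intro b hb hbh
    have h1 : b / R ≤ b / 50 := div_le_div_of_nonneg_left hb.le (by norm_num) hR
    have h2 : b / R * (b / R) ≤ b / R * (1 / 50) :=
      mul_le_mul_of_nonneg_left (by linarith) (by positivity)
    have h3 : 1 / (2 * R) * b = b / R / 2 := by field_simp
    have h4 : 0 ≤ b / R := by positivity
    simp only [hnext, sq]
    constructor
    · linarith [mul_nonneg h4 h4]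
    · rw [sub_mul, one_mul, h3]; linarith
  have hfac : 0 ≤ 1 - 1 / (2 * R) ∧ 1 - 1 / (2 * R) ≤ 1 := by
    have h1 : 1 / (2 * R) ≤ 1 := by rw [div_le_one (by positivity)]; linarith
    have h2 : (0 : ℝ) ≤ 1 / (2 * R) := by positivity
    constructor <;> linarith
  set t₁ := next h with ht₁
  obtain ⟨ht₁0, ht₁h⟩ := hnext_prop h hh0 le_rfl
  have ht₁h' : t₁ ≤ h := ht₁h.trans (mul_le_of_le_one_left hh0.le hfac.2)
  obtain ⟨eB, heB⟩ := hsteps h hh0 le_rfl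
  have heN : StepOK d (noiseExpr (h - t₁)) 0 1 t₁ h 0 := by
    have h1 := stepOK_noise (d := d) (c := c) (fun V hV => (hlev V hV).1) ht₁0.le
      (sub_nonneg.2 ht₁h') (by rw [add_sub_cancel]; exact hhc)
    rwa [add_sub_cancel] at h1
  set x := h / R / 3 with hx
  have hx1 : x ≤ 1 := by
    have : h / R ≤ h := div_le_self hh0.le hR1
    linarith
  have hx0 : 0 ≤ x := by positivity
  obtain ⟨es₁, hes₁q, hes₁⟩ := repeat_chain (d := d) hstep (c := c) (D₀ := Cl * (d + 1))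
    (sub_nonneg.2 hx1) (by linarith) hE ht₁0.le (ht₁h'.trans hhc) hh0.le hhc heB heN
    (fun V hV => (hlev V hV).1) (fun V hV => (hlev V hV).2.1 t₁ ht₁0.le (ht₁h'.trans hhc)) N₁
  set bs : ℕ → ℝ := fun i => next^[i] t₁ with hbs
  have hbsp : ∀ i, 0 < bs i ∧ bs i ≤ (1 - 1 / (2 * R)) ^ i * t₁ ∧ bs i ≤ h := by
    intro i
    induction i with
    | zero => exact ⟨by simpa [hbs] using ht₁0, by simp [hbs], by simpa [hbs] using ht₁h'⟩
    | succ i ih =>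
      obtain ⟨h1, h2, h3⟩ := ih
      obtain ⟨h4, h5⟩ := hnext_prop _ h1 h3
      have e : bs (i + 1) = next (bs i) := by simp only [hbs, Function.iterate_succ_apply']
      rw [e]
      refine ⟨h4, ?_, h5.trans ((mul_le_of_le_one_left h1.le hfac.2).trans h3)⟩
      rw [pow_succ', mul_assoc]
      exact h5.trans (mul_le_mul_of_nonneg_left h2 hfac.1)
  obtain ⟨es, hesq, hes⟩ := descend_chain (d := d) hstep (c := c) (Q := Qb) (E := E) (bs := bs)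
    (fun i => ⟨(hbsp i).1.le, ((hbsp i).2.2).trans hhc⟩)
    (fun i => by
      obtain ⟨e, he⟩ := hsteps (bs i) (hbsp i).1 (hbsp i).2.2
      have heq : bs (i + 1) = next (bs i) := by simp only [hbs, Function.iterate_succ_apply']
      refine ⟨e, he.queries, fun G hG z w ω => (he.lip G hG z w ω).trans ?_, fun V hV f hf => by
        rw [heq]; exact he.transport V hV f hf⟩
      refine mul_le_mul_of_nonneg_right ?_ (norm_nonneg _)
      have : 0 ≤ bs i / R / 3 := by have := (hbsp i).1; positivity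
      linarith)
    (fun V hV => (hlev V hV).1) hes₁q (fun V hV => hes₁ V hV) K
  refine ⟨es, hesq, fun V hV => ?_⟩
  rw [← (hlev V hV).2.2]
  refine ((hes V hV).trans (dualClose_level_zero (hlev V hV).1 (hbsp K).1.le
    ((hbsp K).2.2.trans hhc))).mono ?_
  set w := (d : ℝ) + 1 with hw
  have hw0 : 0 < w := by positivity
  have hρN : (1 - x) ^ N₁ ≤ (w ^ 5)⁻¹ := by
    refine (one_sub_pow_le hx1 N₁ (T := (5 : ℕ) * (Lg : ℝ)) ?_).trans (exp_log_bound d hLg 5)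
    calc ((5 : ℕ) : ℝ) * (Lg : ℝ) = 15 * (Lg : ℝ) * R ^ (m + 1) * x := by
          rw [hx, hh, pow_succ R m]; field_simp; push_cast; ring
      _ ≤ N₁ * x := mul_le_mul_of_nonneg_right hN₁ hx0
  have h1 : (1 - x) ^ N₁ * (Cl * w) ≤ Cl * (w ^ 4)⁻¹ := by
    refine (mul_le_mul_of_nonneg_right hρN (by positivity)).trans (le_of_eq ?_)
    field_simp
  have h2 : (1 - 1 / (2 * R)) ^ K ≤ (w ^ 9)⁻¹ := by
    refine (one_sub_pow_le ?_ K (T := (9 : ℕ) * (Lg : ℝ)) ?_).trans (exp_log_bound d hLg 9)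
    · rw [div_le_one (by positivity)]; linarith
    · calc ((9 : ℕ) : ℝ) * (Lg : ℝ) = 18 * (Lg : ℝ) * R * (1 / (2 * R)) := by field_simp; push_cast; ring
        _ ≤ K * (1 / (2 * R)) := mul_le_mul_of_nonneg_right hK (by positivity)
  have hlow : √(bs K) * √d ≤ (w ^ 4)⁻¹ := by
    have h3 : bs K ≤ (w ^ 9)⁻¹ :=
      (hbsp K).2.1.trans ((mul_le_mul h2 (ht₁h'.trans hh1) ht₁0.le (by positivity)).trans
        (le_of_eq (mul_one _)))
    have h4 : bs K * (d : ℝ) ≤ ((w ^ 4)⁻¹) ^ 2 := by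
      calc bs K * (d : ℝ) ≤ (w ^ 9)⁻¹ * w := mul_le_mul h3 (by linarith) (by positivity) (by positivity)
        _ = _ := by field_simp
    rw [← Real.sqrt_mul (hbsp K).1.le]
    exact Real.sqrt_le_iff.2 ⟨by positivity, h4⟩
  linarith

/-- The numerical bounds of the outer sampler. -/
lemma outer_numeric {θ η B Ce : ℝ} {d m q n N Qe X : ℕ} (hd : 2 ≤ d) (hη : 0 < η)
    (hηm : η * (m : ℝ) = θ) (hθ : θ ≤ 1 / 4) (hθn : 200 ≤ θ * n) (hm : 1 ≤ m)
    (hqm : m + 1 + q * n ≤ 2 * m) (hX : 3 * m * n ≤ 16 * X) (hB : 0 ≤ B) (hCe : 0 ≤ Ce) {Lg : ℝ}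
    (hLg1 : 1 ≤ Lg) (hLgB : Lg ≤ B * (d : ℝ) ^ θ) (hR : 1 ≤ (d : ℝ) ^ η)
    (hQe : (Qe : ℝ) ≤ ((d : ℝ) ^ η) ^ q) (hCq : 60 * B * (3 * (N : ℝ) + 1) ^ n ≤ (d : ℝ) ^ θ) :
    (((⌈15 * Lg * ((d : ℝ) ^ η) ^ (m + 1)⌉₊ + ⌈18 * Lg * (d : ℝ) ^ η⌉₊) * (3 * (N * Qe) + 1) ^ n : ℕ) : ℝ)
        ≤ (d : ℝ) ^ (4 * θ) ∧
      ((⌈15 * Lg * ((d : ℝ) ^ η) ^ (m + 1)⌉₊ : ℝ) + ⌈18 * Lg * (d : ℝ) ^ η⌉₊)
          * (Ce * dimFac d * (((d : ℝ) ^ η) ^ X)⁻¹)
        ≤ 60 * B * Ce * 64 * (((d : ℝ) + 1) ^ 4)⁻¹ := by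
  set R := (d : ℝ) ^ η with hRd
  have hd1 : (1 : ℝ) ≤ d := by exact_mod_cast (show 1 ≤ d by omega)
  have hd2r : (2 : ℝ) ≤ d := by exact_mod_cast hd
  have hR0 : 0 < R := by linarith
  have hRpow : ∀ i : ℕ, R ^ i = (d : ℝ) ^ (η * (i : ℝ)) := fun i => by
    rw [hRd, ← Real.rpow_natCast, ← Real.rpow_mul (Nat.cast_nonneg d)]
  have hm1 : (1 : ℝ) ≤ m := by exact_mod_cast hm
  set N₁ := ⌈15 * Lg * R ^ (m + 1)⌉₊
  set K := ⌈18 * Lg * R⌉₊
  have hT : (N₁ : ℝ) + K ≤ 60 * Lg * R ^ (m + 1) := by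
    have h1 := Nat.ceil_lt_add_one (show 0 ≤ 15 * Lg * R ^ (m + 1) by positivity)
    have h2 := Nat.ceil_lt_add_one (show 0 ≤ 18 * Lg * R by positivity)
    have h3 : R ≤ R ^ (m + 1) := le_self_pow₀ hR (by omega)
    have h4 : (1 : ℝ) ≤ Lg * R ^ (m + 1) := one_le_mul_of_one_le_of_one_le hLg1 (by linarith)
    have h5 : Lg * R ≤ Lg * R ^ (m + 1) := mul_le_mul_of_nonneg_left h3 (by positivity)
    linarith
  have hq2 : ∀ i : ℕ, i ≤ q * n → R ^ (m + 1) * R ^ i ≤ (d : ℝ) ^ (2 * θ) := fun i hi => by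
    rw [← pow_add, hRpow]
    refine Real.rpow_le_rpow_of_exponent_le hd1 ?_
    calc η * ((m + 1 + i : ℕ) : ℝ) ≤ η * (2 * (m : ℝ)) := by
          refine mul_le_mul_of_nonneg_left ?_ hη.le
          exact_mod_cast (show m + 1 + i ≤ 2 * m by omega)
      _ = 2 * θ := by linarith
  constructor
  · have hQb' : (((3 * (N * Qe) + 1) ^ n : ℕ) : ℝ) ≤ (3 * (N : ℝ) + 1) ^ n * R ^ (q * n) := by
      rw [pow_mul, ← mul_pow]
      push_cast
      refine pow_le_pow_left₀ (by positivity) ?_ n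
      have h2 : (1 : ℝ) ≤ R ^ q := one_le_pow₀ hR
      linarith [mul_le_mul_of_nonneg_left hQe (Nat.cast_nonneg (α := ℝ) N)]
    rw [Nat.cast_mul, Nat.cast_add]
    calc ((N₁ : ℝ) + K) * (((3 * (N * Qe) + 1) ^ n : ℕ) : ℝ)
        ≤ 60 * Lg * R ^ (m + 1) * ((3 * (N : ℝ) + 1) ^ n * R ^ (q * n)) :=
          mul_le_mul hT hQb' (by positivity) (by positivity)
      _ = 60 * (3 * (N : ℝ) + 1) ^ n * Lg * (R ^ (m + 1) * R ^ (q * n)) := by ring
      _ ≤ 60 * (3 * (N : ℝ) + 1) ^ n * (B * (d : ℝ) ^ θ) * (d : ℝ) ^ (2 * θ) :=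
          mul_le_mul (mul_le_mul_of_nonneg_left hLgB (by positivity)) (hq2 _ le_rfl) (by positivity)
            (by positivity)
      _ = 60 * B * (3 * (N : ℝ) + 1) ^ n * ((d : ℝ) ^ θ * (d : ℝ) ^ (2 * θ)) := by ring
      _ ≤ (d : ℝ) ^ θ * ((d : ℝ) ^ θ * (d : ℝ) ^ (2 * θ)) :=
          mul_le_mul_of_nonneg_right hCq (by positivity)
      _ = (d : ℝ) ^ (4 * θ) := by
          rw [← Real.rpow_add (by positivity), ← Real.rpow_add (by positivity)]; ring_nf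
  · set w := (d : ℝ) + 1 with hw
    have hRX : (d : ℝ) ^ 37 ≤ R ^ X := by
      rw [hRpow, ← Real.rpow_natCast]
      refine Real.rpow_le_rpow_of_exponent_le hd1 ?_
      have h2 : 3 * (m : ℝ) * n ≤ 16 * (X : ℝ) := by exact_mod_cast hX
      have h3 := mul_le_mul_of_nonneg_left h2 hη.le
      have h4 : η * (3 * (m : ℝ) * n) = 3 * (θ * n) := by rw [← hηm]; ring
      push_cast
      linarith
    have hT3 : (N₁ : ℝ) + K ≤ 60 * B * (d : ℝ) := by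
      refine hT.trans ?_
      have h5 : R ^ (m + 1) ≤ (d : ℝ) ^ (2 * θ) := by simpa using hq2 0 (Nat.zero_le _)
      calc 60 * Lg * R ^ (m + 1) ≤ 60 * (B * (d : ℝ) ^ θ) * (d : ℝ) ^ (2 * θ) := by gcongr
        _ = 60 * B * ((d : ℝ) ^ θ * (d : ℝ) ^ (2 * θ)) := by ring
        _ ≤ _ := by
            refine mul_le_mul_of_nonneg_left ?_ (by positivity)
            rw [← Real.rpow_add (by positivity)]
            conv_rhs => rw [← Real.rpow_one (d : ℝ)]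
            exact Real.rpow_le_rpow_of_exponent_le hd1 (by linarith)
    have hE2 : Ce * dimFac d * (R ^ X)⁻¹ ≤ Ce * w ^ 3 * ((d : ℝ) ^ 37)⁻¹ :=
      mul_le_mul_of_nonneg_left (inv_anti₀ (by positivity) hRX)
        (mul_nonneg hCe (dimFac_nonneg d))
    refine (mul_le_mul hT3 hE2 (by have := dimFac_nonneg d; positivity) (by positivity)).trans ?_
    have h5 : (d : ℝ) * w ^ 3 * ((d : ℝ) ^ 37)⁻¹ ≤ 64 * (w ^ 4)⁻¹ := by
      rw [mul_inv_le_iff₀ (by positivity), mul_assoc, ← div_eq_inv_mul, ← mul_div_assoc,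
        le_div_iff₀ (by positivity)]
      calc (d : ℝ) * w ^ 3 * w ^ 4 = (d : ℝ) * w ^ 7 := by ring
        _ ≤ (d : ℝ) * (2 * (d : ℝ)) ^ 7 := by gcongr; linarith
        _ = 128 * (d : ℝ) ^ 8 := by ring
        _ ≤ 64 * ((d : ℝ) * (d : ℝ) ^ 8) := by
            have := mul_le_mul_of_nonneg_right hd2r (pow_nonneg (Nat.cast_nonneg (α := ℝ) d) 8)
            linarith
        _ ≤ 64 * (d : ℝ) ^ 37 := by
            rw [← pow_succ']
            exact mul_le_mul_of_nonneg_left (pow_le_pow_right₀ hd1 (by norm_num)) (by norm_num)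
    calc 60 * B * (d : ℝ) * (Ce * w ^ 3 * ((d : ℝ) ^ 37)⁻¹)
        = 60 * B * Ce * ((d : ℝ) * w ^ 3 * ((d : ℝ) ^ 37)⁻¹) := by ring
      _ ≤ 60 * B * Ce * (64 * (w ^ 4)⁻¹) := mul_le_mul_of_nonneg_left h5 (by positivity)
      _ = _ := by ring

theorem outer : OuterStatement := by
  intro hrec hin hsm horacle hreal hred hstep ε hε
  obtain ⟨cl, Cl, hcl, hCl, hlev⟩ := outer_levels hin.levels
  obtain ⟨cs, Cs, hcs, hCs, hsmooth⟩ := hsm
  set θ := min ε 1 / 4 with hθdef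
  have hθ : 0 < θ := by positivity
  have hθε : 4 * θ ≤ ε := by rw [hθdef]; linarith [min_le_left ε 1]
  have hθ1 : θ ≤ 1 / 4 := by rw [hθdef]; linarith [min_le_right ε 1]
  obtain ⟨n, hn⟩ : ∃ n, n = ⌈200 / θ⌉₊ + 1 := ⟨_, rfl⟩
  have hnθ : 200 ≤ θ * n := by
    have h1 := Nat.le_ceil (200 / θ)
    rw [div_le_iff₀ hθ] at h1
    rw [hn]; push_cast; nlinarith
  obtain ⟨q, a₀, hq⟩ := hrec n (by omega)
  obtain ⟨a, ha⟩ : ∃ a, a = a₀ + 4 * lossC n + q * n + 11 := ⟨_, rfl⟩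
  obtain ⟨m, hm⟩ : ∃ m, m = 4 * n * a := ⟨_, rfl⟩
  set η := θ / (m : ℝ) with hηdef
  have hna : a ≤ n * a := Nat.le_mul_of_pos_left a (by omega)
  have hm4 : m = 4 * (n * a) := by rw [hm]; ring
  have hqn : q * n + 11 ≤ a := by omega
  have hm0 : (0 : ℝ) < m := by exact_mod_cast (show 0 < m by omega)
  have hη : 0 < η := by positivity
  have hηm : η * (m : ℝ) = θ := div_mul_cancel₀ θ hm0.ne'
  obtain ⟨X, hXdef⟩ : ∃ X, X = accExp n a (n ^ 2) 0 := ⟨_, rfl⟩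
  have hX : X = (a - lossC n) * (n * n) := by simp [hXdef, accExp, sq]
  have hX1 : X ≤ m * n := by
    rw [hX, hm]
    calc (a - lossC n) * (n * n) ≤ a * (n * n) := Nat.mul_le_mul_right _ (Nat.sub_le _ _)
      _ ≤ 4 * (a * (n * n)) := Nat.le_mul_of_pos_left _ (by norm_num)
      _ = _ := by ring
  have hX2 : 3 * m * n ≤ 16 * X := by
    rw [hX, hm]
    calc 3 * (4 * n * a) * n = 4 * (3 * a) * (n * n) := by ring
      _ ≤ 4 * (4 * (a - lossC n)) * (n * n) :=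
          Nat.mul_le_mul_right _ (Nat.mul_le_mul_left _ (by omega))
      _ = _ := by ring
  obtain ⟨C, R₀, hC, hR₀, hev⟩ := hq a (by omega) (1 / 20) (by norm_num)
  obtain ⟨P, hPdef⟩ : ∃ P, P = X + 2 := ⟨_, rfl⟩
  obtain ⟨N, hN, ⟨qr⟩⟩ := exists_qrule P (show (1 : ℝ) < 21 / 20 by norm_num)
  obtain ⟨cf, C₁, hcf, hC₁, hflow⟩ := exists_flowData hin.levelFlow hin.levels (P := P) (by omega)
  obtain ⟨k, hk⟩ : ∃ k, n = k + 1 := ⟨n - 1, by omega⟩
  set c := min cl cf with hc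
  set Ce := 2 ^ (k + 2) * (C₁ * (1 + 2 ^ P)) + C + C₁ * 2 ^ P with hCe
  have hCe0 : 0 ≤ Ce := by positivity
  set B := 2 / θ + 2 with hB
  have hB0 : 0 ≤ B := by positivity
  have hlevc : ∀ (d : ℕ) (V : Euc d → ℝ), Nice d V → LevelsOK V c := fun d V hV =>
    ⟨fun t a b => (hlev d V hV).1.prob t a (b.trans (min_le_left _ _)),
      fun t a b => (hlev d V hV).1.moment t a (b.trans (min_le_left _ _)),
      fun t r a b e => (hlev d V hV).1.semigroup t r a b (e.trans (min_le_left _ _))⟩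
  set Cq := 60 * B * (3 * (N : ℝ) + 1) ^ n with hCq
  set Cd := Cl + 60 * B * Ce * 64 + 1 with hCd
  filter_upwards [eventually_le_rpow hη (max R₀ 50), eventually_le_rpow hη ((2 : ℝ) ^ (n ^ 2 + 1)),
    eventually_le_rpow hη (1 / c), eventually_le_rpow hθ Cq, eventually_ge_atTop 2,
    eventually_ge_atTop ⌈10 * (Cs * (Cd + 1)) + 1 / cs⌉₊]
    with d hRR hR2n hRc hθd hd2 hdbig
  obtain ⟨hRR₀, hR50⟩ := max_le_iff.1 hRR
  set R := (d : ℝ) ^ η with hR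
  have hR1 : 1 ≤ R := by linarith
  have hR0 : 0 < R := by linarith
  set h := (R ^ m)⁻¹ with hh
  have hh0 : 0 < h := by positivity
  have hhR : h ≤ R⁻¹ := inv_anti₀ hR0 (le_self_pow₀ hR1 (by omega))
  have hh1 : h ≤ 1 := hhR.trans (inv_le_one_of_one_le₀ hR1)
  have hh2 : h ≤ 1 / 2 := hhR.trans (by rw [inv_le_comm₀ hR0 (by norm_num)]; norm_num; linarith)
  have hhc : h ≤ c := by
    refine hhR.trans ?_
    rw [inv_le_comm₀ hR0 (by rw [hc]; exact lt_min hcl hcf), ← one_div]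
    exact hRc
  set Qe := ⌊R ^ q⌋₊ with hQe
  have hev' : ∀ t v : ℝ, 0 < t → 0 ≤ v → v * R ^ 2 ≤ t → t ≤ h → ∃ ev : Op,
      OpOK ev Qe (1 / 20) (scoreFam t) (levelFam t) v 1 (C / R ^ X) := by
    intro t v ht hv hvt hth
    have htop : (2 : ℝ) ^ (n ^ 2) * (2 * t) ≤ topLevel n a n R := by
      rw [topLevel, topExp_top n a (by rw [← hm]; omega), ← hm]
      rw [← mul_assoc, ← pow_succ]
      calc (2 : ℝ) ^ (n ^ 2 + 1) * t ≤ R * h := mul_le_mul hR2n hth ht.le hR0.le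
        _ = (R ^ (m - 1))⁻¹ := by
            rw [hh, show R ^ m = R ^ (m - 1) * R by rw [← pow_succ]; congr 1; omega, mul_inv]
            field_simp
    obtain ⟨op, Q, hQ, hop⟩ := hev R hRR₀ 0 t v 1 (Nat.zero_le _) ht hv hvt htop
      (by simp [lad]; exact hR1) (by simp [lad])
    rw [← hXdef] at hop
    exact ⟨op, hop.mono (Nat.le_floor hQ) le_rfl le_rfl⟩
  set Lg := ⌈Real.log ((d : ℝ) + 1)⌉₊ + 1 with hLg
  have hLg1 : Real.log ((d : ℝ) + 1) ≤ (Lg : ℝ) := by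
    rw [hLg]; push_cast; linarith [Nat.le_ceil (Real.log ((d : ℝ) + 1))]
  have hLg0 : (1 : ℝ) ≤ Lg := by
    rw [hLg]; push_cast; linarith [Nat.cast_nonneg (α := ℝ) ⌈Real.log ((d : ℝ) + 1)⌉₊]
  obtain ⟨hnum1, hnum2⟩ := outer_numeric (N := N) (Qe := Qe) (X := X) (Ce := Ce) hd2 hη hηm hθ1 hnθ
    (by omega) (by omega) hX2 hB0 hCe0 hLg0 (log_ceil_le hθ (by linarith) (by omega)) hR1
    (Nat.floor_le (by positivity)) hθd
  set N₁ := ⌈15 * (Lg : ℝ) * R ^ (m + 1)⌉₊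
  set K := ⌈18 * (Lg : ℝ) * R⌉₊
  set E := Ce * dimFac d * (R ^ X)⁻¹ with hE
  obtain ⟨es, hesq, hes⟩ := outer_chain (d := d) hstep (c := c) (Cl := Cl) (R := R) (h := h) (E := E)
    (Qb := (3 * (N * Qe) + 1) ^ n) (N₁ := N₁) (K := K) hR50 hh hhc hh1
    (by have := dimFac_nonneg d; positivity) Lg hLg1 (Nat.le_ceil _) (Nat.le_ceil _) hCl
    (fun V hV => ⟨hlevc d V hV, fun t a b => (hlev d V hV).2.1 t a (b.trans (min_le_left _ _)),
      (hlev d V hV).2.2⟩)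
    (fun b hb hbh => by
      rw [hk, hE, hCe]
      exact exists_level_step qr (by omega) hR50 hC hC₁ hh hh2 hhc
        (hX1.trans (Nat.mul_le_mul_left _ (by omega))) (by omega) hlevc
        (fun d V a b hV ha hab hb => hflow d V a b hV ha hab (hb.trans (min_le_right _ _)))
        hev' d b hb hbh)
  set w := (d : ℝ) + 1 with hw
  have hw0 : 0 < w := by positivity
  set s := (w ^ 6)⁻¹ with hs
  have hbig : 10 * (Cs * (Cd + 1)) + 1 / cs ≤ w := by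
    have := (Nat.ceil_le.1 hdbig)
    linarith
  have hCd0 : 0 ≤ Cs * (Cd + 1) := by positivity
  have hcs' : 0 < 1 / cs := by positivity
  have hw1 : 1 ≤ w := by linarith [Nat.cast_nonneg (α := ℝ) d]
  have hscs : s ≤ cs := by
    rw [hs, inv_le_comm₀ (by positivity) hcs, ← one_div]
    exact le_trans (by linarith) (le_self_pow₀ hw1 (by norm_num))
  have hsqrt : √s = (w ^ 3)⁻¹ := by
    rw [hs, show (w ^ 6)⁻¹ = ((w ^ 3)⁻¹) ^ 2 by rw [inv_pow, ← pow_mul], Real.sqrt_sq (by positivity)]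
  have hfq : chainQueries (noiseExpr s :: es) ≤ (N₁ + K) * (3 * (N * Qe) + 1) ^ n :=
    (chainQueries_cons_le (Q := 0) (by simp [noiseExpr, Expr.queries]) hesq).trans
      (le_of_eq (by rw [zero_add, add_mul]))
  obtain ⟨A, hA⟩ := hreal d _ (noiseExpr s :: es) hfq
  refine ⟨_, A, hnum1.trans (Real.rpow_le_rpow_of_exponent_le
    (by exact_mod_cast (show 1 ≤ d by omega)) hθε), fun V hV Bset hBset => ?_⟩
  have hgc : Continuous (∇ V) := by
    have h1 : Continuous fun x => (InnerProductSpace.toDual ℝ (Euc d)).symm (fderiv ℝ V x) :=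
      (LinearIsometryEquiv.continuous _).comp (hV.smooth.continuous_fderiv (by norm_num))
    exact h1
  rw [hA V hgc]
  refine hred d _ (fun V hp hg Bs hBs => ?_) V hV Bset hBset
  have hN' : Nice d V := ⟨hp, hg, horacle d V hp⟩
  obtain ⟨hprob, hmom, -⟩ := hstep d (∇ V) (noiseExpr s) es hN'.oracle
  have hclose : DualClose (chainLaw (∇ V) es) (gibbs V) (Cd * (w ^ 4)⁻¹) := by
    refine (hes V hN').mono ?_
    rw [hCd]
    linarith
  have hfin := hsmooth d V hp hg (chainLaw (∇ V) es) _ s hprob hmom (by positivity) hscs hclose Bs hBs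
  rw [chainLaw_noise hN'.oracle.continuous]
  refine hfin.trans ?_
  rw [hsqrt]
  have e1 : Cs * (Cd * (w ^ 4)⁻¹) / (w ^ 3)⁻¹ + Cs * ((d : ℝ) + 1) ^ 2 * (w ^ 3)⁻¹
      = Cs * (Cd + 1) / w := by
    rw [← hw]; field_simp
  rw [e1, div_le_iff₀ hw0]
  linarith

end Vale.Agent.P347
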