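import Vale.Agent.P347.PathCleanCurve
import Vale.Agent.P347.CleanFlow
import Vale.Agent.P347.TensorFinal

/-!
The cleaning paths: bounds on all derivatives of the two observed curves, up to the outer radius.
-/

namespace Vale.Agent.P347

open MeasureTheory ProbabilityTheory Set Filter
open scoped RealInnerProductSpace ContDiff Gradient ENNReal Topology

namespace PathC

variable {d : ℕ} {V : Euc d → ℝ}

section Scaling

variable {F : Type} [NormedAddCommGroup F] [NormedSpace ℝ F]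

lemma radAvg_scale {τ : ℝ} (hτ : 0 < τ) (ν : ℝ) {G G' : Euc d → F} {k : ℝ}
    (h : ∀ y, G' y = k • G (√τ • y)) (s : ℝ) (y : Euc d) :
    radAvg (ν / τ) G' (s, y) = k • radAvg ν G (√τ * s, √τ • y) := by
  have e : √(ν - (√τ * s) ^ 2) = √τ * √(ν / τ - s ^ 2) := by
    rw [← Real.sqrt_mul hτ.le, mul_sub, mul_div_cancel₀ _ hτ.ne', mul_pow, Real.sq_sqrt hτ.le]
  simp only [radAvg, avgAt, h, e, smul_add, smul_smul, integral_smul]

lemma fderiv_scale {G G' : Euc d → F} (hG : Differentiable ℝ G) {a k : ℝ}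
    (h : ∀ y, G' y = k • G (a • y)) (y : Euc d) :
    fderiv ℝ G' y = (k * a) • fderiv ℝ G (a • y) := by
  have h1 : HasFDerivAt (fun y : Euc d => k • G (a • y)) _ y :=
    ((hG (a • y)).hasFDerivAt.comp y ((hasFDerivAt_id y).fun_const_smul a)).fun_const_smul k
  rw [show G' = fun y => k • G (a • y) from funext h, h1.fderiv]
  refine ContinuousLinearMap.ext fun v => ?_
  simp [smul_smul]

lemma lapC_scale {G G' : Euc d → F} (hG : Function.HasTemperateGrowth G) {a k : ℝ}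
    (h : ∀ y, G' y = k • G (a • y)) (y : Euc d) :
    lapC G' y = (k * a * a) • lapC G (a • y) := by
  rw [lapC, lapC, Finset.smul_sum]
  refine Finset.sum_congr rfl fun i _ => ?_
  have hd : Differentiable ℝ fun u => fderiv ℝ G u (unitVec i) :=
    (temperate_deriv_clm hG (ContinuousLinearMap.apply ℝ F (unitVec i))).1.differentiable (by simp)
  rw [fderiv_scale hd (G' := fun u => fderiv ℝ G' u (unitVec i)) (a := a) (k := k * a)
    (fun u => by rw [fderiv_scale (hG.1.differentiable (by simp)) h]; rfl) y]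
  rfl

end Scaling

variable {τ ν c : ℝ}

lemma score_scaled (hU : Weight V) (hτ : 0 < τ) {T : ℝ} (hT : 0 < T) (y : Euc d) :
    score (scaleV V τ) (T / τ) y = √τ • score V T (√τ • y) := by
  have e : τ * (T / τ) = T := mul_div_cancel₀ _ hτ.ne'
  rw [score_scaleV hU hτ.le (by rw [e]; exact hT), e]

lemma hm_scale (hU : Weight V) (hτ : 0 < τ) {T : ℝ} (hT : 0 < T) (s : ℝ) (z u : Euc d) :
    hm (scaleV V τ) (T / τ) (ν / τ) (s, (√τ)⁻¹ • z + s • u)
      = τ • hm V T ν (√τ * s, z + (√τ * s) • u) := by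
  rw [hm, hm, radAvg_scale hτ ν (k := τ) (G := fderiv ℝ (score V T)) (fun y => ?_) s,
    smul_add, smul_inv_smul₀ (Real.sqrt_pos.2 hτ).ne', smul_smul]
  rw [fderiv_scale ((score_temperate hU hT).1.differentiable (by simp)) (score_scaled hU hτ hT) y,
    Real.mul_self_sqrt hτ.le]

lemma lm_scale (hU : Weight V) (hτ : 0 < τ) {T : ℝ} (hT : 0 < T) (s : ℝ) (z u : Euc d) :
    lm (scaleV V τ) (T / τ) (ν / τ) (s, (√τ)⁻¹ • z + s • u)
      = (τ * √τ) • lm V T ν (√τ * s, z + (√τ * s) • u) := by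
  rw [lm, lm, radAvg_scale hτ ν (k := τ * √τ) (G := lapC (score V T)) (fun y => ?_) s,
    smul_add, smul_inv_smul₀ (Real.sqrt_pos.2 hτ).ne', smul_smul]
  rw [lapC_scale (score_temperate hU hT) (score_scaled hU hτ hT) y, Real.mul_self_sqrt hτ.le]

/-- A pair as a state. -/
noncomputable def join2 (d : ℕ) : Euc d × Euc d →L[ℝ] Sp (Blk 2 d) :=
  (bincl 0).comp (ContinuousLinearMap.fst ℝ (Euc d) (Euc d))
    + (bincl 1).comp (ContinuousLinearMap.snd ℝ (Euc d) (Euc d))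

lemma bproj_join2 (q : Euc d × Euc d) :
    pw d (join2 d q) = q.1 ∧ pxi d (join2 d q) = q.2 := by
  constructor <;> simp [join2, map_add, bproj_bincl]

lemma join2_proj (x : Sp (Blk 2 d)) : join2 d (pw d x, pxi d x) = x := by
  ext ⟨k, i⟩
  fin_cases k <;> simp [join2]

/-- The law of a state is the product of two standard Gaussians. -/
lemma gauss_map_join2 (t : ℝ) :
    ((gauss d).prod (gauss d)).map (join2 d) = volume.tilted fun x => -pot d t x := by
  set A : (Euc d × Euc d) ≃L[ℝ] Sp (Blk 2 d) :=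
    ContinuousLinearEquiv.equivOfInverse (join2 d) ((pw d).prod (pxi d))
      (fun q => Prod.ext (bproj_join2 q).1 (bproj_join2 q).2) join2_proj with hA
  have : (volume : Measure (Euc d × Euc d)).IsAddHaarMeasure := by
    rw [Measure.volume_eq_prod]
    exact Measure.prod.instIsAddHaarMeasure _ _
  have hf : Measurable fun x : Sp (Blk 2 d) => -pot d t x := by
    unfold pot; fun_prop
  have key := map_tilted_linearEquiv A hf
  have hp : (gauss d).prod (gauss d)
      = (volume : Measure (Euc d × Euc d)).tilted ((fun x => -pot d t x) ∘ A) := by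
    rw [gauss_eq_gibbs, gibbs, Gadget.tilted_prod _ _ (by fun_prop) (by fun_prop),
      ← Measure.volume_eq_prod]
    congr 1
    funext q
    show _ = -pot d t (join2 d q)
    rw [pot, norm_sq_blocks, Fin.sum_univ_two, (bproj_join2 q).1, (bproj_join2 q).2]
    ring
  rw [← key, ← hp]
  rfl

/-- The bound at one radius and one base point, in the original scale. -/
lemma inner_bound (hU : Weight V) (hV : NicePot d V 1 2) (hτ : 0 < τ) (hτ' : 800 * τ ≤ 1)
    (hν : 0 < ν) (hντ : ν ≤ τ) (hc : |c| * √τ ≤ 1) {j : ℕ} {C : ℝ} (hC0 : 0 ≤ C)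
    (hC : ∀ (V : Euc d → ℝ) (σ : ℝ) (hV : NicePot d V σ (σ * 2)) (T ν c : ℝ) (z : Euc d)
      (hT : 0 < T) (s : ℝ), 1 ≤ T → 200 * (σ * T) ≤ 1 → ν ≤ 1 → s ∈ Ioo (-√ν) √ν →
      |c| * σ ≤ 1 →
      (family hV.weight hT ν c z).Reg {s} j 0 (C * √d) (fun t x => σ⁻¹ • oH V T ν z t x) ∧
      (family hV.weight hT ν c z).Reg {s} j 0 (C * √d)
        (fun t x => (σ⁻¹ * σ⁻¹) • oHH V T ν z t x))
    (z : Euc d) {r : ℝ} (hr : r ∈ Ioo (-√ν) √ν) :
    ∫⁻ q, ENNReal.ofReal ‖(ext V (τ + ν) ν c)^[j] (gH V (τ + ν) ν) (r, (z, q))‖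
        ∂((gauss d).prod (gauss d)) ≤ ENNReal.ofReal (C * √d / √τ ^ j) ∧
      ∫⁻ q, ENNReal.ofReal ‖(ext V (τ + ν) ν c)^[j] (gHH V (τ + ν) ν) (r, (z, q))‖
        ∂((gauss d).prod (gauss d)) ≤ ENNReal.ofReal (C * √d / √τ ^ j) := by
  set T := τ + ν with hTdef
  have hT : 0 < T := by linarith
  have hsτ : 0 < √τ := Real.sqrt_pos.2 hτ
  have hV' : NicePot d (scaleV V τ) τ (τ * 2) := by simpa using hV.scaleV hτ
  have hT' : 0 < T / τ := div_pos hT hτ
  have hT1 : 1 ≤ T / τ := (one_le_div hτ).2 (by linarith)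
  have hsL : 200 * (τ * (T / τ)) ≤ 1 := by rw [mul_div_cancel₀ _ hτ.ne']; linarith
  have hν' : ν / τ ≤ 1 := (div_le_one hτ).2 hντ
  have hsq : √(ν / τ) = √ν / √τ := Real.sqrt_div hν.le τ
  have hdom : ∀ s ∈ Ioo (-√(ν / τ)) √(ν / τ), √τ * s ∈ Ioo (-√ν) √ν := fun s hs => by
    rw [hsq, mem_Ioo, ← neg_div] at hs
    rw [mul_comm]
    exact ⟨(div_lt_iff₀ hsτ).1 hs.1, (lt_div_iff₀ hsτ).1 hs.2⟩
  have hs : r / √τ ∈ Ioo (-√(ν / τ)) √(ν / τ) := by
    rw [hsq, mem_Ioo, ← neg_div]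
    exact ⟨div_lt_div_of_pos_right hr.1 hsτ, div_lt_div_of_pos_right hr.2 hsτ⟩
  have hc' : |c / √τ| * τ ≤ 1 := by
    rw [abs_div, abs_of_pos hsτ, div_mul_eq_mul_div, mul_div_assoc, Real.div_sqrt]
    exact hc
  obtain ⟨r1, r2⟩ := hC (scaleV V τ) τ hV' (T / τ) (ν / τ) (c / √τ) ((√τ)⁻¹ • z) hT' (r / √τ)
    hT1 hsL hν' hs hc'
  set F := family hU hT ν c z with hF
  set F' := family hV'.weight hT' (ν / τ) (c / √τ) ((√τ)⁻¹ • z) with hF'
  have hvel : ∀ s ∈ F'.dom, ∀ x, F'.b s x = √τ • F.b (√τ * s) x := by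
    intro s hs x
    have h1 := field_eq_vel hV'.weight hT' (c := c / √τ) (z := (√τ)⁻¹ • z) hs x
    have h2 := field_eq_vel hU hT (c := c) (z := z) (hdom s hs) x
    have e1 := congrArg (fun q : Tri d => q.2.1) h1
    have e2 := congrArg (fun q : Tri d => q.2.1) h2
    have f1 := congrArg (fun q : Tri d => q.2.2) h1
    have f2 := congrArg (fun q : Tri d => q.2.2) h2
    simp only [vel, posC, emb, hm_scale hU hτ hT, lm_scale hU hτ hT, smul_apply, smul_smul]
      at e1 e2 f1 f2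
    have hsc : c / √τ * τ = √τ * c := by
      rw [div_mul_eq_mul_div, mul_div_assoc, Real.div_sqrt, mul_comm]
    refine (join2_proj (F'.b s x)).symm.trans (.trans ?_ (join2_proj (√τ • F.b (√τ * s) x)))
    congr 1
    refine Prod.ext ?_ ?_
    · show pw d (F'.b s x) = pw d (√τ • F.b (√τ * s) x)
      rw [map_smul, show F'.b s x = field (scaleV V τ) (T / τ) (ν / τ) (c / √τ) ((√τ)⁻¹ • z) s x
        from rfl, show F.b (√τ * s) x = field V T ν c z (√τ * s) x from rfl, e1, e2, smul_smul, hsc]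
    · show pxi d (F'.b s x) = pxi d (√τ • F.b (√τ * s) x)
      rw [map_smul, show F'.b s x = field (scaleV V τ) (T / τ) (ν / τ) (c / √τ) ((√τ)⁻¹ • z) s x
        from rfl, show F.b (√τ * s) x = field V T ν c z (√τ * s) x from rfl, f1, f2]
      simp only [smul_sub, smul_smul]
      congr 2
      rw [show c / √τ * (s * (τ * √τ)) = (c / √τ * τ) * (√τ * s) by ring, hsc]
      ring
  have hμ' : ∀ u, ((gauss d).prod (gauss d)).map (join2 d) = F.μ u := gauss_map_join2
  have hu : √τ * (r / √τ) = r := mul_div_cancel₀ r hsτ.ne'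
  have hμ : (F'.μ (r / √τ)).map (ContinuousLinearMap.id ℝ (Sp (Blk 2 d))) = F.μ r := by
    rw [ContinuousLinearMap.coe_id', Measure.map_id]
    rfl
  have hM : 0 ≤ C * √(d : ℝ) := mul_nonneg hC0 (Real.sqrt_nonneg _)
  -- from the family to the extended derivatives
  have key : ∀ (g : ℝ × Tri d → Euc d) (_ : ContDiffOn ℝ ∞ g (slab d ν))
      (f : ℝ → Sp (Blk 2 d) → Ten (Blk 2 d) 1) (_ : Tame F.dom f)
      (_ : f = fun s y => bvec 0 (g (s, emb z y))),
      ∫ x, ‖(F.D^[j]) f r x‖ ∂(F.μ r) ≤ C * √d / (|(1 : ℝ)| * √τ ^ j) →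
      ∫⁻ q, ENNReal.ofReal ‖(ext V T ν c)^[j] g (r, (z, q))‖ ∂((gauss d).prod (gauss d))
        ≤ ENNReal.ofReal (C * √d / √τ ^ j) := by
    intro g hg f hft hfe hb
    rw [abs_one, one_mul] at hb
    have := F.prob r hr
    have hTj := F.tame_iterD hft j
    have hn : Continuous fun x => ‖(F.D^[j]) f r x‖ := (hTj.contDiff_space hr).continuous.norm
    have hi : Integrable (fun x => ‖(F.D^[j]) f r x‖) (F.μ r) :=
      (hTj.integrable hr _ (F.integrable_poly r hr)).norm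
    have e : ∀ q : Euc d × Euc d, ‖(ext V T ν c)^[j] g (r, (z, q))‖
        = ‖(F.D^[j]) f r (join2 d q)‖ := fun q => by
      rw [hfe, iterD_eq_ext hU hT hν hg j r hr, norm_bvec, emb, (bproj_join2 q).1,
        (bproj_join2 q).2]
    simp only [e]
    rw [← lintegral_map (g := join2 d) hn.measurable.ennreal_ofReal
        (join2 d).continuous.measurable, hμ' r,
      ← ofReal_integral_eq_lintegral_ofReal hi (ae_of_all _ fun x => norm_nonneg _)]
    exact ENNReal.ofReal_le_ofReal hb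
  constructor
  · refine key _ (contDiffOn_gH hU hT hν) _ (oH_tame hU hT) rfl
      (Family.scaled_bound (F := F) (F' := F') hsτ one_ne_zero (ContinuousLinearMap.id ℝ _) hdom hvel
        (oH_tame hU hT) (fun s _ x => ?_) hs hu hμ hM r1)
    simp only [one_smul, ContinuousLinearMap.id_apply, oH, hm_scale hU hτ hT, smul_apply, map_smul,
      inv_smul_smul₀ hτ.ne']
  · refine key _ (contDiffOn_gHH hU hT hν) _ (oHH_tame hU hT) rfl
      (Family.scaled_bound (F := F) (F' := F') hsτ one_ne_zero (ContinuousLinearMap.id ℝ _) hdom hvel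
        (oHH_tame hU hT) (fun s _ x => ?_) hs hu hμ hM r2)
    simp only [one_smul, ContinuousLinearMap.id_apply, oHH, hm_scale hU hτ hT, smul_apply, map_smul,
      mul_smul, inv_smul_smul₀ hτ.ne']

/-- Assembly of a curve bound from a smooth observable on triples. -/
lemma curveBound_ext {T : ℝ} (hU : Weight V) (hT : 0 < T) (hν : 0 < ν) {L : Measure (Euc d)}
    [IsProbabilityMeasure L] {Φ : ℝ → Tri d → Euc d × Euc d}
    (hΦc : ContinuousOn (fun q : ℝ × Tri d => Φ q.1 q.2) (Icc 0 √ν ×ˢ univ))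
    (hode : ∀ p, ∀ t ∈ Icc 0 √ν, HasDerivWithinAt (fun r => ((p.1, Φ r p) : Tri d))
      (vel V T ν c (t, (p.1, Φ t p))) (Icc 0 √ν) t)
    (hlaw : ∀ z, ∀ r ∈ Icc 0 √ν,
      ((gauss d).prod (gauss d)).map (fun q => Φ r (z, q.1, q.2)) = (gauss d).prod (gauss d))
    {g : ℝ × Tri d → Euc d} (hg : ContDiffOn ℝ ∞ g (slab d ν)) {G : ℝ → Tri d → Euc d}
    (hG : ∀ t ∈ Icc 0 √ν, ∀ p, g (t, (p.1, Φ t p)) = G t p) {B : ℕ → ℝ} (hB0 : ∀ j, 0 ≤ B j)
    (hB : ∀ j, ∀ z, ∀ r ∈ Ioo (-√ν) √ν,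
      ∫⁻ q, ENNReal.ofReal ‖(ext V T ν c)^[j] g (r, (z, q))‖ ∂((gauss d).prod (gauss d))
        ≤ ENNReal.ofReal (B j)) :
    CurveBound (L.prod ((gauss d).prod (gauss d))) 0 √ν G fun j _ => B j := by
  set γ := (gauss d).prod (gauss d)
  have hs0 : 0 < √ν := Real.sqrt_pos.2 hν
  set D : ℕ → ℝ → Tri d → Euc d := fun j t p => (ext V T ν c)^[j] g (t, (p.1, Φ t p)) with hD
  have hZc : ContinuousOn (fun q : ℝ × Tri d => ((q.1, q.2.1, Φ q.1 q.2) : ℝ × Tri d))
      (Icc 0 √ν ×ˢ univ) :=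
    continuousOn_fst.prodMk ((continuous_fst.comp continuous_snd).continuousOn.prodMk hΦc)
  have hDc : ∀ j, ContinuousOn (fun q : ℝ × Tri d => D j q.1 q.2) (Icc 0 √ν ×ˢ univ) := fun j =>
    (contDiffOn_iterExt hU hT hν hg j).continuousOn.comp hZc fun q hq =>
      ⟨⟨by linarith [hq.1.1], hq.1.2⟩, trivial⟩
  have hDd : ∀ j, ∀ t ∈ Icc 0 √ν, ∀ p,
      HasDerivWithinAt (fun u => D j u p) (D (j + 1) t p) (Icc 0 √ν) t := fun j t ht p => by
    simp only [hD, Function.iterate_succ_apply']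
    exact hasDerivWithinAt_ext (contDiffOn_iterExt hU hT hν hg j) ht (hode p t ht)
  have hDm : ∀ j, ∀ t ∈ Icc 0 √ν, Continuous (D j t) := fun j t ht =>
    (hDc j).comp_continuous (continuous_const.prodMk continuous_id) fun p => ⟨ht, trivial⟩
  have hin : ∀ j, ∀ t ∈ Icc 0 √ν, t < √ν →
      ∫⁻ p, ENNReal.ofReal ‖D j t p‖ ∂(L.prod γ) ≤ ENNReal.ofReal (B j) := by
    intro j t ht hlt
    have htI : t ∈ Ioo (-√ν) √ν := ⟨by linarith [ht.1], hlt⟩
    rw [lintegral_prod _ (hDm j t ht).norm.measurable.ennreal_ofReal.aemeasurable]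
    refine (lintegral_mono (g := fun _ => ENNReal.ofReal (B j)) fun z => ?_).trans (by simp)
    have hΦz : Continuous fun q : Euc d × Euc d => Φ t (z, q.1, q.2) :=
      hΦc.comp_continuous (f := fun q : Euc d × Euc d => ((t, z, q.1, q.2) : ℝ × Tri d))
        (by fun_prop) fun q => ⟨ht, trivial⟩
    have hgc : Continuous fun q : Euc d × Euc d => (ext V T ν c)^[j] g (t, (z, q)) :=
      (contDiffOn_iterExt hU hT hν hg j).continuousOn.comp_continuous
        (f := fun q : Euc d × Euc d => ((t, z, q) : ℝ × Tri d)) (by fun_prop)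
        fun q => ⟨⟨htI.1.le, htI.2.le⟩, trivial⟩
    refine le_trans (le_of_eq ?_) (hB j z t htI)
    conv_rhs => rw [← hlaw z t ht]
    rw [lintegral_map hgc.norm.measurable.ennreal_ofReal hΦz.measurable]
  have hall : ∀ j, ∀ t ∈ Icc 0 √ν,
      ∫⁻ p, ENNReal.ofReal ‖D j t p‖ ∂(L.prod γ) ≤ ENNReal.ofReal (B j) := by
    intro j t ht
    rcases ht.2.lt_or_eq with hlt | rfl
    · exact hin j t ht hlt
    set u : ℕ → ℝ := fun n => √ν * (1 - 1 / ((n : ℝ) + 1)) with hu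
    have hu' : ∀ n, u n ∈ Icc 0 √ν ∧ u n < √ν := fun n => by
      have h1 : 0 < 1 / ((n : ℝ) + 1) := by positivity
      have h2 : 1 / ((n : ℝ) + 1) ≤ 1 := (div_le_one (by positivity)).2 (by linarith [n.cast_nonneg (α := ℝ)])
      simp only [hu, mem_Icc]
      exact ⟨⟨mul_nonneg hs0.le (by linarith), by nlinarith⟩, by nlinarith⟩
    have hlim : Tendsto u atTop (𝓝[Icc 0 √ν] √ν) := by
      refine tendsto_nhdsWithin_iff.2 ⟨?_, .of_forall fun n => (hu' n).1⟩
      simpa [hu] using ((tendsto_one_div_add_atTop_nhds_zero_nat (𝕜 := ℝ)).const_sub 1).const_mul √ν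
    have hpt : ∀ p, Tendsto (fun n => ENNReal.ofReal ‖D j (u n) p‖) atTop
        (𝓝 (ENNReal.ofReal ‖D j √ν p‖)) := fun p =>
      (ENNReal.continuous_ofReal.comp continuous_norm).continuousAt.tendsto.comp
        (((hDc j).comp (continuousOn_id.prodMk continuousOn_const)
          (fun s hs => ⟨hs, trivial⟩) √ν ht).tendsto.comp hlim)
    calc ∫⁻ p, ENNReal.ofReal ‖D j √ν p‖ ∂(L.prod γ)
        = ∫⁻ p, atTop.liminf (fun n => ENNReal.ofReal ‖D j (u n) p‖) ∂(L.prod γ) :=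
          lintegral_congr fun p => (hpt p).liminf_eq.symm
      _ ≤ atTop.liminf fun n => ∫⁻ p, ENNReal.ofReal ‖D j (u n) p‖ ∂(L.prod γ) :=
          lintegral_liminf_le fun n => (hDm j _ (hu' n).1).norm.measurable.ennreal_ofReal
      _ ≤ ENNReal.ofReal (B j) :=
          liminf_le_of_le (by isBoundedDefault) fun b hb => by
            obtain ⟨n, hn⟩ := hb.exists
            exact hn.trans (hin j _ (hu' n).1 (hu' n).2)
  refine ⟨D, fun t ht p => hG t ht p, hDc, hDd, fun j t ht => ?_⟩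
  have hm := (hDm j t ht).norm
  have hnn : 0 ≤ᵐ[L.prod γ] fun p => ‖D j t p‖ := ae_of_all _ fun p => norm_nonneg _
  refine ⟨⟨hm.aestronglyMeasurable, (hasFiniteIntegral_iff_ofReal hnn).2
    ((hall j t ht).trans_lt ENNReal.ofReal_lt_top)⟩, ?_⟩
  rw [integral_eq_lintegral_of_nonneg_ae hnn hm.aestronglyMeasurable]
  exact ENNReal.toReal_le_of_le_ofReal (hB0 j) (hall j t ht)

end PathC

open PathC in
/-- The exact cleaning paths. -/
theorem cleanPath : CleanPathStatement := by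
  obtain ⟨c₁, hc₁, h₁⟩ := cleanPath_exists
  choose C hC0 hC using fun j => clean_reg (tensorBound poincare) j
  refine ⟨min c₁ (1 / 800), by positivity, C,
    fun d V hV _ τ ν δe hτ hν hντ hτc hτδ => ?_⟩
  obtain ⟨Φ, hΦc, hΦ0, he1, he2, hlaw⟩ :=
    h₁ d V hV τ ν δe hτ hν hντ (hτc.trans (min_le_left _ _)) hτδ
  refine ⟨Φ, hΦc, hΦ0, ?_⟩
  intro pos H
  refine ⟨he1, he2, hlaw, ?_⟩
  have hU := hV.weight
  have hT : 0 < τ + ν := by linarith
  have hδ : 0 < √δe := Real.sqrt_pos.2 (hτ.trans_le hτδ)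
  have : IsProbabilityMeasure (levelLaw V τ) :=
    (hU.smoothPot hτ.le).isProbabilityMeasure_gibbs
  have hc : |(√δe)⁻¹| * √τ ≤ 1 := by
    rw [abs_of_pos (inv_pos.2 hδ), inv_mul_le_iff₀ hδ, mul_one]
    exact Real.sqrt_le_sqrt hτδ
  have hτ' : 800 * τ ≤ 1 := by linarith [hτc.trans (min_le_right c₁ (1 / 800))]
  have hH : ∀ u p, H u p = hm V (τ + ν) ν (u, pos u p) := fun u p => hessAvg_eq_hm hU hT u _
  have hode : ∀ p, ∀ t ∈ Icc 0 √ν, HasDerivWithinAt (fun r => ((p.1, Φ r p) : Tri d))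
      (vel V (τ + ν) ν (√δe)⁻¹ (t, (p.1, Φ t p))) (Icc 0 √ν) t := fun p t ht => by
    refine path_ode hU hT hν hδ.ne' hΦc p (fun r hr => ?_) (fun r hr => ?_) ht
    · have := he1 p r hr
      simpa only [hessAvg_eq_hm hU hT] using this
    · have := he2 p r hr
      simpa only [hessAvg_eq_hm hU hT, scoreAvg_eq_radAvg] using this
  have hb : ∀ (j : ℕ), C j * √(d : ℝ) / √τ ^ j ≤ C j * ((d : ℝ) + 1) ^ 2 / √τ ^ j := fun j => by
    refine div_le_div_of_nonneg_right (mul_le_mul_of_nonneg_left ?_ (hC0 j)) (by positivity)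
    exact Real.sqrt_le_iff.2 ⟨by positivity, by
      nlinarith [pow_le_pow_right₀ (show (1 : ℝ) ≤ (d : ℝ) + 1 by linarith [d.cast_nonneg (α := ℝ)]) (show 1 ≤ 4 by norm_num)]⟩
  have hbd := fun (j : ℕ) (z : Euc d) (r : ℝ) (hr : r ∈ Ioo (-√ν) √ν) =>
    inner_bound (c := (√δe)⁻¹) hU hV hτ hτ' hν hντ hc (hC0 j) (hC j d) z hr
  exact ⟨curveBound_ext hU hT hν hΦc hode hlaw (contDiffOn_gH hU hT hν)
      (fun t _ p => by rw [hH]; rfl) (fun j => by have := hC0 j; positivity)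
      (fun j z r hr => (hbd j z r hr).1.trans (ENNReal.ofReal_le_ofReal (hb j))),
    curveBound_ext hU hT hν hΦc hode hlaw (contDiffOn_gHH hU hT hν)
      (fun t _ p => by rw [hH]; rfl) (fun j => by have := hC0 j; positivity)
      (fun j z r hr => (hbd j z r hr).2.trans (ENNReal.ofReal_le_ofReal (hb j)))⟩

end Vale.Agent.P347
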