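import Vale.Agent.P347.PathGadgetReg
import Vale.Agent.P347.Kernel

/-!
The gadget paths: the differential equation, the transported law and the bounds on all
derivatives of the three observed curves.
-/

namespace Vale.Agent.P347

open MeasureTheory ProbabilityTheory Set
open scoped RealInnerProductSpace ContDiff Gradient

namespace PathG

variable {d : ℕ} {V : Euc d → ℝ} {τ κ : ℝ}

/-- A triple as a state. -/
noncomputable def joinT (d : ℕ) : Euc d × Euc d × Euc d →L[ℝ] Sp (Blk 3 d) :=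
  (bincl 0).comp (ContinuousLinearMap.fst ℝ (Euc d) (Euc d × Euc d))
    + (bincl 1).comp ((ContinuousLinearMap.fst ℝ (Euc d) (Euc d)).comp
        (ContinuousLinearMap.snd ℝ (Euc d) (Euc d × Euc d)))
    + (bincl 2).comp ((ContinuousLinearMap.snd ℝ (Euc d) (Euc d)).comp
        (ContinuousLinearMap.snd ℝ (Euc d) (Euc d × Euc d)))

lemma bproj_joinT (q : Euc d × Euc d × Euc d) :
    px d (joinT d q) = q.1 ∧ py d (joinT d q) = q.2.1 ∧ pxi d (joinT d q) = q.2.2 := by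
  refine ⟨?_, ?_, ?_⟩ <;> simp [joinT, map_add, bproj_bincl]

lemma joinT_proj (z : Sp (Blk 3 d)) : joinT d (px d z, py d z, pxi d z) = z := by
  ext ⟨k, i⟩
  fin_cases k <;> simp [joinT]

lemma isProbabilityMeasure_pathLaw (hU : Weight V) {u : ℝ} (hu : 0 < u) :
    IsProbabilityMeasure (pathLaw V τ u) := by
  have : IsProbabilityMeasure (levelLaw V u) := (hU.smoothPot hu.le).isProbabilityMeasure_gibbs
  exact Measure.isProbabilityMeasure_map (Continuous.aemeasurable (by fun_prop))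

/-- The law of the states is the measure of the family. -/
lemma pathLaw_map (hU : Weight V) {u : ℝ} (hu : u ∈ Ioo 0 τ) :
    (pathLaw V τ u).map (joinT d) = (family hU τ κ).μ u := by
  have hr : 0 < τ - u := sub_pos.2 hu.2
  set r := √(τ - u) with hrdef
  have hr0 : r ≠ 0 := (Real.sqrt_pos.2 hr).ne'
  set m : Euc d × Euc d × Euc d →L[ℝ] Euc d × Euc d × Euc d :=
    (ContinuousLinearMap.fst ℝ (Euc d) (Euc d × Euc d)
      + r • (ContinuousLinearMap.fst ℝ (Euc d) (Euc d)).comp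
          (ContinuousLinearMap.snd ℝ (Euc d) (Euc d × Euc d))).prod
      ((ContinuousLinearMap.fst ℝ (Euc d) (Euc d × Euc d)).prod
        ((ContinuousLinearMap.snd ℝ (Euc d) (Euc d)).comp
          (ContinuousLinearMap.snd ℝ (Euc d) (Euc d × Euc d)))) with hm
  set minv : Sp (Blk 3 d) →L[ℝ] Euc d × Euc d × Euc d :=
    (py d).prod ((r⁻¹ • (px d - py d)).prod (pxi d)) with hminv
  set A : (Euc d × Euc d × Euc d) ≃L[ℝ] Sp (Blk 3 d) :=
    ContinuousLinearEquiv.equivOfInverse ((joinT d).comp m) minv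
      (fun q => by
        obtain ⟨h1, h2, h3⟩ := bproj_joinT (m q)
        simp only [hminv, ContinuousLinearMap.prod_apply, ContinuousLinearMap.comp_apply,
          smul_apply, sub_apply, h1, h2, h3]
        simp [hm, inv_smul_smul₀ hr0])
      (fun z => by
        have : m (minv z) = (px d z, py d z, pxi d z) := by
          simp [hm, hminv, smul_inv_smul₀ hr0]
        rw [ContinuousLinearMap.comp_apply, this, joinT_proj]) with hA
  have hf : Measurable fun z : Sp (Blk 3 d) => -pot V τ u z :=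
    ((pot_tame hU).contDiff_space hu).continuous.neg.measurable
  have : (volume : Measure (Euc d × Euc d × Euc d)).IsAddHaarMeasure := by
    rw [Measure.volume_eq_prod, Measure.volume_eq_prod]
    have : ((volume : Measure (Euc d)).prod (volume : Measure (Euc d))).IsAddHaarMeasure :=
      Measure.prod.instIsAddHaarMeasure _ _
    exact Measure.prod.instIsAddHaarMeasure _ _
  have key := map_tilted_linearEquiv A hf
  have hc := (smoothPot_smooth hU hu.1).continuous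
  have hprod : (levelLaw V u).prod ((gauss d).prod (gauss d))
      = (volume : Measure (Euc d × Euc d × Euc d)).tilted ((fun z => -pot V τ u z) ∘ A) := by
    rw [levelLaw, gauss_eq_gibbs, gibbs, gibbs,
      Gadget.tilted_prod _ _ (by fun_prop) (by fun_prop),
      Gadget.tilted_prod _ _ (by fun_prop) (by fun_prop), ← Measure.volume_eq_prod,
      ← Measure.volume_eq_prod,
      ← Gadget.tilted_add_const _ ((fun z => -pot V τ u z) ∘ A) ((d : ℝ) / 2 * Real.log (τ - u))]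
    congr 1
    funext q
    obtain ⟨h1, h2, h3⟩ := bproj_joinT (m q)
    have e : ‖r • q.2.1‖ ^ 2 = (τ - u) * ‖q.2.1‖ ^ 2 := by
      rw [norm_smul, mul_pow, Real.norm_eq_abs, sq_abs, hrdef, Real.sq_sqrt hr.le]
    show _ = -pot V τ u (joinT d (m q)) + _
    rw [pot, h1, h2, h3]
    simp [hm, e, mul_inv]
    field_simp
    ring
  have hAm : ⇑A = ⇑(joinT d) ∘ fun p : Euc d × Euc d × Euc d =>
      (p.1 + √(τ - u) • p.2.1, p.1, p.2.2) := by
    funext q; simp [hA, hm, hrdef]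
  rw [pathLaw, Measure.map_map (joinT d).continuous.measurable (by fun_prop), ← hAm, hprod, key]
  rfl

/-- The transported law of the paths. -/
lemma pathLaw_transport (hU : Weight V) {t₀ s : ℝ} (h₀ : 0 < t₀) (hs : 0 < s)
    (hk₀ : ∀ F : Euc d × Euc d × Euc d → ℝ, Integrable F (pathLaw V τ t₀) →
      ∫ x, ∫ p, F (x, p.1, p.2) ∂((postKernel V τ t₀ x).prod (gauss d)) ∂(levelLaw V τ)
        = ∫ q, F q ∂(pathLaw V τ t₀))
    (hk : ∀ F : Euc d × Euc d × Euc d → ℝ, Integrable F (pathLaw V τ s) →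
      ∫ x, ∫ p, F (x, p.1, p.2) ∂((postKernel V τ s x).prod (gauss d)) ∂(levelLaw V τ)
        = ∫ q, F q ∂(pathLaw V τ s))
    {φ : Euc d × Euc d × Euc d → Euc d × Euc d} (hφ : Continuous φ)
    (hlaw : ∀ x, ((postKernel V τ t₀ x).prod (gauss d)).map (fun q => φ (x, q.1, q.2))
      = (postKernel V τ s x).prod (gauss d)) :
    (pathLaw V τ t₀).map (fun p => (p.1, φ p)) = pathLaw V τ s := by
  have := isProbabilityMeasure_pathLaw (τ := τ) hU h₀
  have := isProbabilityMeasure_pathLaw (τ := τ) hU hs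
  have hT : Measurable fun p : Euc d × Euc d × Euc d => (p.1, φ p) :=
    (continuous_fst.prodMk hφ).measurable
  ext B hB
  rw [Measure.map_apply hT hB]
  refine (ENNReal.toReal_eq_toReal_iff' (measure_ne_top _ _) (measure_ne_top _ _)).1 ?_
  rw [← measureReal_def, ← measureReal_def, ← integral_indicator_one (hT hB),
    ← integral_indicator_one hB,
    ← hk₀ (((fun p => (p.1, φ p)) ⁻¹' B).indicator 1)
      ((integrable_const (1 : ℝ)).indicator (hT hB)),
    ← hk (B.indicator 1) ((integrable_const (1 : ℝ)).indicator hB)]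
  refine integral_congr_ae (ae_of_all _ fun x => ?_)
  have hm : Measurable fun q : Euc d × Euc d => φ (x, q.1, q.2) :=
    (hφ.comp (by fun_prop)).measurable
  have hG : StronglyMeasurable fun q : Euc d × Euc d =>
      B.indicator (1 : Euc d × Euc d × Euc d → ℝ) (x, q.1, q.2) :=
    (((measurable_one.indicator hB).comp (by fun_prop)).stronglyMeasurable)
  simp only
  conv_rhs => rw [← hlaw x, integral_map hm.aemeasurable hG.aestronglyMeasurable]
  rfl

lemma velY_scale (hU : Weight V) {σ s : ℝ} (hσ : 0 < σ) (hs : 0 < σ * s) (hr : σ * s < τ)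
    (x y ξ : Euc d) :
    √σ • Gadget.velY (scaleV V σ) (τ / σ) (κ / √σ) s x y ξ
      = σ • Gadget.velY V τ κ (σ * s) (√σ • x) (√σ • y) ξ := by
  obtain ⟨r, hr0, rfl⟩ : ∃ r > 0, σ = r ^ 2 := ⟨√σ, Real.sqrt_pos.2 hσ, (Real.sq_sqrt hσ.le).symm⟩
  have hne : τ - r ^ 2 * s ≠ 0 := (sub_pos.2 hr).ne'
  simp only [Gadget.velY, score_scaleV hU hσ.le hs, fderiv_score_scaleV hU hσ.le hs,
    Real.sqrt_sq hr0.le]
  have e : (2 * (τ / r ^ 2 - s))⁻¹ = r ^ 2 * (2 * (τ - r ^ 2 * s))⁻¹ := by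
    field_simp
  rw [e]
  match_scalars <;> field_simp

lemma velXi_scale (hU : Weight V) {σ s : ℝ} (hσ : 0 < σ) (hs : 0 < σ * s) (hr : σ * s < τ)
    (x y : Euc d) :
    Gadget.velXi (scaleV V σ) (τ / σ) (κ / √σ) s x y
      = σ • Gadget.velXi V τ κ (σ * s) (√σ • x) (√σ • y) := by
  have hd := scoreDot_scaleV hU hσ hs y
  obtain ⟨r, hr0, rfl⟩ : ∃ r > 0, σ = r ^ 2 := ⟨√σ, Real.sqrt_pos.2 hσ, (Real.sq_sqrt hσ.le).symm⟩
  have hne : τ - r ^ 2 * s ≠ 0 := (sub_pos.2 hr).ne'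
  simp only [Gadget.velXi, score_scaleV hU hσ.le hs, fderiv_score_scaleV hU hσ.le hs, hd,
    Real.sqrt_sq hr0.le, map_add, map_smul, map_sub]
  have e : (τ / r ^ 2 - s)⁻¹ = r ^ 2 * (τ - r ^ 2 * s)⁻¹ := by
    field_simp
  rw [e]
  match_scalars <;> field_simp

lemma field_scale (hU : Weight V) {σ s : ℝ} (hσ : 0 < σ) (hs : 0 < σ * s) (hr : σ * s < τ)
    (z : Sp (Blk 3 d)) :
    diagL d ![√σ, √σ, 1] (field (scaleV V σ) (τ / σ) (κ / √σ) s z)
      = σ • field V τ κ (σ * s) (diagL d ![√σ, √σ, 1] z) := by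
  obtain ⟨a0, a1, a2⟩ := bproj_field (V := scaleV V σ) (τ := τ / σ) (κ := κ / √σ) s z
  obtain ⟨b0, b1, b2⟩ := bproj_field (V := V) (τ := τ) (κ := κ) (σ * s) (diagL d ![√σ, √σ, 1] z)
  have h0 : ∀ w : Sp (Blk 3 d), px d (diagL d ![√σ, √σ, 1] w) = √σ • px d w := fun w =>
    bproj_diagL _ 0 w
  have h1 : ∀ w : Sp (Blk 3 d), py d (diagL d ![√σ, √σ, 1] w) = √σ • py d w := fun w =>
    bproj_diagL _ 1 w
  have h2 : ∀ w : Sp (Blk 3 d), pxi d (diagL d ![√σ, √σ, 1] w) = pxi d w := fun w =>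
    (bproj_diagL _ 2 w).trans (one_smul ℝ _)
  rw [h0, h1, h2] at b1
  rw [h0, h1] at b2
  rw [← joinT_proj (diagL d ![√σ, √σ, 1] (field (scaleV V σ) (τ / σ) (κ / √σ) s z)), h0, h1, h2,
    a0, a1, a2, velY_scale hU hσ hs hr, velXi_scale hU hσ hs hr, smul_zero,
    ← joinT_proj (field V τ κ (σ * s) (diagL d ![√σ, √σ, 1] z)), b0, b1, b2]
  rw [← ContinuousLinearMap.map_smul (joinT d) σ]
  congr 1
  simp

lemma law_scale (hU : Weight V) {σ s : ℝ} (hσ : 0 < σ) (hU' : Weight (scaleV V σ)) (hs : 0 < s)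
    (hr : σ * s < τ) :
    ((family hU' (τ / σ) (κ / √σ)).μ s).map (diagL d ![√σ, √σ, 1])
      = (family hU τ κ).μ (σ * s) := by
  have hu : σ * s ∈ Ioo 0 τ := ⟨mul_pos hσ hs, hr⟩
  have hsq : √σ ≠ 0 := (Real.sqrt_pos.2 hσ).ne'
  have hf : Measurable fun z : Sp (Blk 3 d) => -pot V τ (σ * s) z :=
    ((pot_tame hU).contDiff_space hu).continuous.neg.measurable
  have key := map_tilted_linearEquiv
    (diagE d ![√σ, √σ, 1] (fun k => by fin_cases k <;> simp [hsq])) hf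
  show ((volume : Measure (Sp (Blk 3 d))).tilted fun z => -pot (scaleV V σ) (τ / σ) s z).map
      (diagL d ![√σ, √σ, 1]) = (volume : Measure (Sp (Blk 3 d))).tilted fun z => -pot V τ (σ * s) z
  rw [← key, ← Gadget.tilted_add_const _
    ((fun z => -pot V τ (σ * s) z) ∘ diagE d ![√σ, √σ, 1] (fun k => by fin_cases k <;> simp [hsq]))
    ((d : ℝ) / 2 * Real.log (τ - σ * s) - (d : ℝ) / 2 * Real.log (τ / σ - s))]
  congr 2
  funext z
  show -pot (scaleV V σ) (τ / σ) s z = -pot V τ (σ * s) (diagL d ![√σ, √σ, 1] z) + _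
  simp only [pot, smoothPot_scaleV V hσ.le, bproj_diagL, Matrix.cons_val_zero, Matrix.cons_val_one,
    Matrix.cons_val_two, Matrix.tail_cons, Matrix.head_cons, ← smul_sub, norm_smul,
    Real.norm_eq_abs, abs_of_nonneg (Real.sqrt_nonneg σ), abs_one, one_mul, mul_pow,
    Real.sq_sqrt hσ.le]
  have e : (2 * (τ / σ - s))⁻¹ = σ * (2 * (τ - σ * s))⁻¹ := by
    have : τ - σ * s ≠ 0 := (sub_pos.2 hr).ne'
    field_simp
  rw [e]
  ring

/-- Continuity of the score and of its derivative along a curve. -/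
lemma cont_along (hU : Weight V) {a b τ : ℝ} (hsub : ∀ u ∈ Icc a b, 0 < u ∧ u < τ)
    {y : ℝ → Euc d} (hcy : ContinuousOn y (Icc a b)) :
    ContinuousOn (fun u => score V u (y u)) (Icc a b) ∧
      ∀ w : ℝ → Euc d, ContinuousOn w (Icc a b) →
        ContinuousOn (fun u => fderiv ℝ (score V u) (y u) (w u)) (Icc a b) := by
  refine ⟨ContinuousOn.comp (g := fun q : ℝ × Euc d => score V q.1 q.2) (f := fun u => (u, y u))
      (score_tame hU).1.continuousOn (continuousOn_id.prodMk hcy)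
      fun u hu => ⟨(hsub u hu).1, mem_univ _⟩, fun w hw => ?_⟩
  have hJ : ContinuousOn
      (fun u => fderiv ℝ (fun q : ℝ × Euc d => score V q.1 q.2) (u, y u)) (Icc a b) :=
    ContinuousOn.comp (g := fun q : ℝ × Euc d => fderiv ℝ (fun q : ℝ × Euc d => score V q.1 q.2)
        (q.1, q.2)) (f := fun u => (u, y u))
      ((score_tame hU).fderiv_joint isOpen_Ioi).1.continuousOn (continuousOn_id.prodMk hcy)
      fun u hu => ⟨(hsub u hu).1, mem_univ _⟩
  exact (hJ.clm_apply ((continuousOn_const (c := (0 : ℝ))).prodMk hw)).congr fun u hu =>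
    (score_tame hU).fderiv_space isOpen_Ioi (hsub u hu).1 (y u) (w u)

/-- The equation of the position. -/
lemma ode_pos {a b t₀ : ℝ} (hab : a ≤ b) (hsub : ∀ u ∈ Icc a b, 0 < u ∧ u < τ)
    (ht₀ : t₀ ∈ Icc a b) {p : Euc d × Euc d × Euc d} {y ξ : ℝ → Euc d}
    (hcg : ContinuousOn (fun u => score V u (y u)) (Icc a b))
    (hcH : ContinuousOn (fun u => fderiv ℝ (score V u) (y u) (ξ u)) (Icc a b))
    (he1 : ∀ s ∈ Icc a b,
      y s = p.1 + √((τ - s) / (τ - t₀)) • (p.2.1 - p.1)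
        + ∫ u in t₀..s, √((τ - s) / (τ - u)) •
            ((1 / 2 : ℝ) • score V u (y u) + κ • fderiv ℝ (score V u) (y u) (ξ u)))
    {s : ℝ} (hs : s ∈ Icc a b) :
    HasDerivWithinAt y (Gadget.velY V τ κ s p.1 (y s) (ξ s)) (Icc a b) s := by
  set G := fun u => (√(τ - u))⁻¹ • ((1 / 2 : ℝ) • score V u (y u)
    + κ • fderiv ℝ (score V u) (y u) (ξ u)) with hGdef
  have hG : ContinuousOn G (Icc a b) :=
    ((continuous_const.sub continuous_id).sqrt.continuousOn.inv₀ fun u hu =>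
      (Real.sqrt_pos.2 (sub_pos.2 (hsub u hu).2)).ne').smul
        ((hcg.const_smul (1 / 2 : ℝ)).add ((hcH).const_smul κ))
  set c₁ := (√(τ - t₀))⁻¹ • (p.2.1 - p.1)
  have hy' : ∀ u ∈ Icc a b, y u = p.1 + √(τ - u) • (c₁ + ∫ r in t₀..u, G r) := by
    intro u hu
    have key : ∀ r, √((τ - u) / (τ - r)) = √(τ - u) * (√(τ - r))⁻¹ := fun r => by
      rw [Real.sqrt_div (sub_nonneg.2 (hsub u hu).2.le), div_eq_mul_inv]
    rw [he1 u hu]
    simp only [key, mul_smul, intervalIntegral.integral_smul]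
    rw [smul_add √(τ - u) c₁, add_assoc]
  have hr : 0 < τ - s := sub_pos.2 (hsub s hs).2
  have hsq : HasDerivAt (fun u => √(τ - u)) (-1 / (2 * √(τ - s))) s :=
    ((hasDerivAt_id s).const_sub τ).sqrt hr.ne'
  refine ((((hsq.hasDerivWithinAt.smul
      ((hasDerivWithinAt_integral_Icc hab hG ht₀ hs).const_add c₁)).const_add p.1).congr hy'
        (hy' s hs))).congr_deriv ?_
  have e : c₁ + ∫ r in t₀..s, G r = (√(τ - s))⁻¹ • (y s - p.1) := by
    rw [hy' s hs, add_sub_cancel_left, inv_smul_smul₀ (Real.sqrt_pos.2 hr).ne']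
  obtain ⟨r, hr0, hr2⟩ : ∃ r > 0, τ - s = r ^ 2 :=
      ⟨√(τ - s), Real.sqrt_pos.2 hr, (Real.sq_sqrt hr.le).symm⟩
  clear_value c₁
  rw [e]
  simp only [hGdef, Gadget.velY, hr2, Real.sqrt_sq hr0.le]
  match_scalars <;> field_simp

/-- The equation of the Gaussian vector. -/
lemma ode_vec (hU : Weight V) {a b t₀ : ℝ} (hab : a ≤ b) (hsub : ∀ u ∈ Icc a b, 0 < u ∧ u < τ)
    (ht₀ : t₀ ∈ Icc a b) {p : Euc d × Euc d × Euc d} {y ξ : ℝ → Euc d} {s : ℝ}
    (hyd : HasDerivWithinAt y (Gadget.velY V τ κ s p.1 (y s) (ξ s)) (Icc a b) s)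
    (hHH : ContinuousOn (fun u => fderiv ℝ (score V u) (y u) (fderiv ℝ (score V u) (y u) (ξ u)))
      (Icc a b))
    (he2 : ∀ s ∈ Icc a b,
      if κ = 0 then ξ s = p.2.2
      else (-(1 / (2 * κ))) • ξ s + score V s (y s)
        = (-(1 / (2 * κ))) • p.2.2 + score V t₀ p.2.1
          + κ • ∫ u in t₀..s,
            fderiv ℝ (score V u) (y u) (fderiv ℝ (score V u) (y u) (ξ u)))
    (hs : s ∈ Icc a b) :
    HasDerivWithinAt ξ (Gadget.velXi V τ κ s p.1 (y s)) (Icc a b) s := by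
  have hr : 0 < τ - s := sub_pos.2 (hsub s hs).2
  by_cases hκ : κ = 0
  · simp only [hκ, if_true] at he2
    refine ((hasDerivWithinAt_const s (Icc a b) p.2.2).congr (fun u hu => he2 u hu)
      (he2 s hs)).congr_deriv ?_
    simp [Gadget.velXi, hκ]
  · simp only [if_neg hκ] at he2
    set C₀ := (-(1 / (2 * κ))) • p.2.2 + score V t₀ p.2.1
    have hξ' : ∀ u ∈ Icc a b, ξ u = (2 * κ) • (score V u (y u) - (C₀ + κ • ∫ r in t₀..u,
        fderiv ℝ (score V r) (y r) (fderiv ℝ (score V r) (y r) (ξ r)))) := by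
      intro u hu
      rw [← he2 u hu]
      rw [sub_add_cancel_right, smul_neg, neg_smul, smul_neg, neg_neg, smul_smul]
      rw [mul_one_div_cancel (mul_ne_zero two_ne_zero hκ), one_smul]
    have hS : HasDerivWithinAt (fun u => score V u (y u)) (scoreDot V s (y s)
        + fderiv ℝ (score V s) (y s) (Gadget.velY V τ κ s p.1 (y s) (ξ s))) (Icc a b) s := by
      refine (((score_tame hU).differentiableAt isOpen_Ioi (hsub s hs).1
        (y s)).hasFDerivAt.comp_hasDerivWithinAt (f := fun u => (u, y u)) s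
        ((hasDerivWithinAt_id s _).prodMk hyd)).congr_deriv ?_
      rw [show ((1 : ℝ), Gadget.velY V τ κ s p.1 (y s) (ξ s))
        = (1, 0) + (0, Gadget.velY V τ κ s p.1 (y s) (ξ s)) by simp, map_add,
        ← (score_tame hU).fderiv_space isOpen_Ioi (hsub s hs).1]
      rfl
    refine (((hS.sub (((hasDerivWithinAt_integral_Icc hab hHH ht₀ hs).const_smul κ).const_add
      C₀)).const_smul (2 * κ)).congr hξ' (hξ' s hs)).congr_deriv ?_
    have hne : τ - s ≠ 0 := hr.ne'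
    simp only [Gadget.velY, Gadget.velXi, map_add, map_smul, map_sub]
    match_scalars <;> field_simp <;> ring

lemma path_ode (hU : Weight V) {a b t₀ : ℝ} (ha : 0 < a) (hab : a ≤ b) (hb : b < τ)
    (ht₀ : t₀ ∈ Icc a b) {Φ : ℝ → Euc d × Euc d × Euc d → Euc d × Euc d}
    (hc : ContinuousOn (fun q : ℝ × (Euc d × Euc d × Euc d) => Φ q.1 q.2) (Icc a b ×ˢ univ))
    (p : Euc d × Euc d × Euc d)
    (he1 : ∀ s ∈ Icc a b,
      (Φ s p).1 = p.1 + √((τ - s) / (τ - t₀)) • (p.2.1 - p.1)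
        + ∫ u in t₀..s, √((τ - s) / (τ - u)) •
            ((1 / 2 : ℝ) • score V u (Φ u p).1
              + κ • hessAvg V u 0 (Φ u p).1 (Φ u p).2))
    (he2 : ∀ s ∈ Icc a b,
      if κ = 0 then (Φ s p).2 = p.2.2
      else (-(1 / (2 * κ))) • (Φ s p).2 + score V s (Φ s p).1
        = (-(1 / (2 * κ))) • p.2.2 + score V t₀ p.2.1
          + κ • ∫ u in t₀..s,
            hessAvg V u 0 (Φ u p).1 (hessAvg V u 0 (Φ u p).1 (Φ u p).2))
    {s : ℝ} (hs : s ∈ Icc a b) :
    HasDerivWithinAt (fun r => joinT d (p.1, Φ r p)) (field V τ κ s (joinT d (p.1, Φ s p)))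
      (Icc a b) s := by
  simp only [hessAvg_zero] at he1 he2
  have hsub : ∀ u ∈ Icc a b, 0 < u ∧ u < τ := fun u hu => ⟨ha.trans_le hu.1, hu.2.trans_lt hb⟩
  have hcp : ContinuousOn (fun u => Φ u p) (Icc a b) :=
    hc.comp (continuousOn_id.prodMk continuousOn_const) fun u hu => ⟨hu, mem_univ _⟩
  set y := fun u => (Φ u p).1 with hy
  set ξ := fun u => (Φ u p).2 with hξ
  have hcy : ContinuousOn y (Icc a b) := continuous_fst.comp_continuousOn hcp
  have hcξ : ContinuousOn ξ (Icc a b) := continuous_snd.comp_continuousOn hcp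
  obtain ⟨hcg, hcH⟩ := cont_along hU hsub hcy
  have hyd := ode_pos hab hsub ht₀ hcg (hcH ξ hcξ) he1 hs
  have hxid := ode_vec hU hab hsub ht₀ hyd (hcH _ (hcH ξ hcξ)) he2 hs
  obtain ⟨q1, q2, q3⟩ := bproj_joinT (p.1, Φ s p)
  have hj : field V τ κ s (joinT d (p.1, Φ s p))
      = joinT d (0, Gadget.velY V τ κ s p.1 (y s) (ξ s), Gadget.velXi V τ κ s p.1 (y s)) := by
    simp only [field, q1, q2, q3, hy, hξ]
    simp [joinT]
  rw [hj]
  exact (joinT d).hasFDerivAt.comp_hasDerivWithinAt s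
    ((hasDerivWithinAt_const s _ p.1).prodMk (hyd.prodMk hxid))

end PathG

open PathG in
/-- The bounds on the derivatives of the three observed curves of the gadget paths. -/
theorem gadgetPath_bound (hT : TensorBoundStatement) :
    ∃ c₀ : ℝ, 0 < c₀ ∧ ∃ C : ℕ → ℝ, ∀ (d : ℕ) (V : Euc d → ℝ), NicePot d V 1 2 → ∇ V 0 = 0 →
      ∀ τ a b κ t₀ : ℝ, 0 < a → a ≤ b → b < τ → τ ≤ c₀ → κ ^ 2 * τ ≤ 1 → t₀ ∈ Icc a b →
      ∀ Φ : ℝ → Euc d × Euc d × Euc d → Euc d × Euc d,
        ContinuousOn (fun q : ℝ × (Euc d × Euc d × Euc d) => Φ q.1 q.2)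
          (Icc a b ×ˢ univ) →
        (∀ p, ∀ s ∈ Icc a b,
          (Φ s p).1 = p.1 + √((τ - s) / (τ - t₀)) • (p.2.1 - p.1)
            + ∫ u in t₀..s, √((τ - s) / (τ - u)) •
                ((1 / 2 : ℝ) • score V u (Φ u p).1
                  + κ • hessAvg V u 0 (Φ u p).1 (Φ u p).2)) →
        (∀ p, ∀ s ∈ Icc a b,
          if κ = 0 then (Φ s p).2 = p.2.2
          else (-(1 / (2 * κ))) • (Φ s p).2 + score V s (Φ s p).1
            = (-(1 / (2 * κ))) • p.2.2 + score V t₀ p.2.1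
              + κ • ∫ u in t₀..s,
                hessAvg V u 0 (Φ u p).1 (hessAvg V u 0 (Φ u p).1 (Φ u p).2)) →
        (∀ x, ∀ s ∈ Icc a b,
          ((postKernel V τ t₀ x).prod (gauss d)).map (fun q => Φ s (x, q.1, q.2))
            = (postKernel V τ s x).prod (gauss d)) →
        CurveBound (pathLaw V τ t₀) a b (fun u p => score V u (Φ u p).1)
          (fun k u => C k * ((d : ℝ) + 1) ^ 2 / min u (τ - u) ^ k) ∧
        CurveBound (pathLaw V τ t₀) a b (fun u p => hessAvg V u 0 (Φ u p).1 (Φ u p).2)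
          (fun k u => C k * ((d : ℝ) + 1) ^ 2 / min u (τ - u) ^ k) ∧
        CurveBound (pathLaw V τ t₀) a b
          (fun u p => hessAvg V u 0 (Φ u p).1 (hessAvg V u 0 (Φ u p).1 (Φ u p).2))
          (fun k u => C k * ((d : ℝ) + 1) ^ 2 / min u (τ - u) ^ k) := by
  obtain ⟨ck, _Ck, hck, _hCk, hker⟩ := kernelFacts
  choose C hC0 hC using fun j => gadget_reg hT j
  refine ⟨min ck (1 / 200), by positivity, C,
    fun d V hV hg0 τ a b κ t₀ ha hab hbτ hτ hκ ht₀ Φ hc he1 he2 hlaw => ?_⟩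
  have hU := hV.weight
  have hpos : ∀ u ∈ Icc a b, 0 < u ∧ u < τ := fun u hu => ⟨ha.trans_le hu.1, hu.2.trans_lt hbτ⟩
  set F := family hU τ κ with hF
  set Z : ℝ → Euc d × Euc d × Euc d → Sp (Blk 3 d) := fun u p => joinT d (p.1, Φ u p) with hZ
  have hsub : Icc a b ⊆ F.dom := fun u hu => hpos u hu
  have hZc : ContinuousOn (fun p : ℝ × (Euc d × Euc d × Euc d) => Z p.1 p.2) (Icc a b ×ˢ univ) :=
    (joinT d).continuous.comp_continuousOn ((continuous_fst.comp continuous_snd).continuousOn.prodMk hc)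
  have hZl : ∀ u ∈ Icc a b, (pathLaw V τ t₀).map (Z u) = F.μ u := by
    intro u hu
    have hcu : Continuous (Φ u) := hc.comp_continuous (continuous_const.prodMk continuous_id)
      fun q => ⟨hu, mem_univ _⟩
    have hk : ∀ s ∈ Icc a b, ∀ G : Euc d × Euc d × Euc d → ℝ, Integrable G (pathLaw V τ s) →
        ∫ x, ∫ p, G (x, p.1, p.2) ∂((postKernel V τ s x).prod (gauss d)) ∂(levelLaw V τ)
          = ∫ q, G q ∂(pathLaw V τ s) := fun s hs G hG =>
      ((hker d V hV hg0 τ s (hpos s hs).1 (hpos s hs).2 (hτ.trans (min_le_left _ _))).2.2.1 G hG).2.2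
    rw [← pathLaw_map (κ := κ) hU (hpos u hu), ← pathLaw_transport hU (hpos t₀ ht₀).1 (hpos u hu).1
      (hk t₀ ht₀) (hk u hu) hcu (fun x => hlaw x u hu),
      Measure.map_map (joinT d).continuous.measurable (continuous_fst.prodMk hcu).measurable]
    rfl
  have hZd : ∀ u ∈ Icc a b, ∀ p,
      HasDerivWithinAt (fun r => Z r p) (F.b u (Z u p)) (Icc a b) u := fun u hu p =>
    path_ode hU ha hab hbτ ht₀ hc p (he1 p) (he2 p) hu
  have hproj : ∀ u p, py d (Z u p) = (Φ u p).1 ∧ pxi d (Z u p) = (Φ u p).2 := fun u p =>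
    ⟨(bproj_joinT _).2.1, (bproj_joinT _).2.2⟩
  -- the bound at one time, from unit scale
  have main : ∀ j, ∀ u ∈ Icc a b,
      ∫ z, ‖(F.D^[j]) (oG V) u z‖ ∂(F.μ u) ≤ C j * ((d : ℝ) + 1) ^ 2 / min u (τ - u) ^ j ∧
      ∫ z, ‖(F.D^[j]) (oH V) u z‖ ∂(F.μ u) ≤ C j * ((d : ℝ) + 1) ^ 2 / min u (τ - u) ^ j ∧
      ∫ z, ‖(F.D^[j]) (oHH V) u z‖ ∂(F.μ u) ≤ C j * ((d : ℝ) + 1) ^ 2 / min u (τ - u) ^ j := by
    intro j u hu
    obtain ⟨hu0, huτ⟩ := hpos u hu
    set σ := min u (τ - u) with hσdef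
    have hσ : 0 < σ := lt_min hu0 (sub_pos.2 huτ)
    have hV' : NicePot d (scaleV V σ) σ (σ * 2) := by simpa using hV.scaleV hσ
    have hs1 : 1 ≤ u / σ := (one_le_div hσ).2 (min_le_left _ _)
    have hs2 : 1 ≤ τ / σ - u / σ := by
      rw [← sub_div]; exact (one_le_div hσ).2 (min_le_right _ _)
    have hus : σ * (u / σ) = u := mul_div_cancel₀ _ hσ.ne'
    have hsL : 200 * (σ * (u / σ)) ≤ 1 := by
      rw [hus]; linarith [hτ.trans (min_le_right ck (1 / 200)), huτ]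
    have hsσ : 0 < √σ := Real.sqrt_pos.2 hσ
    have hκ' : |κ / √σ| * σ ≤ 1 := by
      rw [abs_div, abs_of_pos hsσ, div_mul_eq_mul_div, mul_div_assoc, Real.div_sqrt]
      refine (sq_le_one_iff₀ (by positivity)).1 ?_
      rw [mul_pow, sq_abs, Real.sq_sqrt hσ.le]
      exact le_trans (mul_le_mul_of_nonneg_left ((min_le_left _ _).trans huτ.le) (sq_nonneg κ)) hκ
    obtain ⟨r1, r2, r3⟩ := hC j d (scaleV V σ) σ hV' (τ / σ) (κ / √σ) (u / σ) hs1 hs2 hsL hκ'
    have hdom : ∀ s ∈ (family hV'.weight (τ / σ) (κ / √σ)).dom, σ * s ∈ F.dom := fun s hs =>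
      ⟨mul_pos hσ hs.1, by
        have := (mul_lt_mul_iff_of_pos_left hσ).2 hs.2
        rwa [mul_div_cancel₀ _ hσ.ne'] at this⟩
    have hb : ∀ s ∈ (family hV'.weight (τ / σ) (κ / √σ)).dom, ∀ z,
        diagL d ![√σ, √σ, 1] ((family hV'.weight (τ / σ) (κ / √σ)).b s z)
          = σ • F.b (σ * s) (diagL d ![√σ, √σ, 1] z) := fun s hs z =>
      field_scale hU hσ (hdom s hs).1 (hdom s hs).2 z
    have hs : u / σ ∈ (family hV'.weight (τ / σ) (κ / √σ)).dom :=
      ⟨div_pos hu0 hσ, div_lt_div_of_pos_right huτ hσ⟩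
    have hμ : ((family hV'.weight (τ / σ) (κ / √σ)).μ (u / σ)).map (diagL d ![√σ, √σ, 1])
        = F.μ u := by
      rw [law_scale hU hσ hV'.weight hs.1 (by rw [hus]; exact huτ), hus]
    have hM : 0 ≤ C j * √(d : ℝ) := mul_nonneg (hC0 j) (Real.sqrt_nonneg _)
    have fin : C j * √(d : ℝ) / (|(1 : ℝ)| * σ ^ j) ≤ C j * ((d : ℝ) + 1) ^ 2 / σ ^ j := by
      rw [abs_one, one_mul]
      refine div_le_div_of_nonneg_right (mul_le_mul_of_nonneg_left ?_ (hC0 j)) (by positivity)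
      exact Real.sqrt_le_iff.2 ⟨by positivity, by
        nlinarith [pow_le_pow_right₀ (show (1 : ℝ) ≤ (d : ℝ) + 1 by linarith [d.cast_nonneg (α := ℝ)]) (show 1 ≤ 4 by norm_num)]⟩
    have hp : ∀ z : Sp (Blk 3 d), py d (diagL d ![√σ, √σ, 1] z) = √σ • py d z
        ∧ pxi d (diagL d ![√σ, √σ, 1] z) = pxi d z := fun z =>
      ⟨bproj_diagL _ 1 z, (bproj_diagL _ 2 z).trans (one_smul ℝ _)⟩
    refine ⟨(Family.scaled_bound hσ one_ne_zero _ hdom hb (oG_tame hU) (fun s hs z => ?_) hs hus hμ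
        hM r1).trans fin,
      (Family.scaled_bound hσ one_ne_zero _ hdom hb (oH_tame hU) (fun s hs z => ?_) hs hus hμ
        hM r2).trans fin,
      (Family.scaled_bound hσ one_ne_zero _ hdom hb (oHH_tame hU) (fun s hs z => ?_) hs hus hμ
        hM r3).trans fin⟩
    · rw [one_smul, oG, oG, (hp z).1, score_scaleV hU hσ.le (hdom s hs).1, map_smul,
        inv_smul_smul₀ hsσ.ne']
    · rw [one_smul, oH, oH, (hp z).1, (hp z).2, fderiv_score_scaleV hU hσ.le (hdom s hs).1,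
        map_smul, inv_smul_smul₀ hσ.ne']
    · rw [one_smul, oHH, oHH, (hp z).1, (hp z).2, fderiv_score_scaleV hU hσ.le (hdom s hs).1,
        fderiv_score_scaleV hU hσ.le (hdom s hs).1, map_smul, map_smul, map_smul, mul_smul,
        inv_smul_smul₀ hσ.ne', inv_smul_smul₀ hσ.ne']
  refine ⟨curveBound_of_family hsub hZc hZd hZl (oG_tame hU) (bextr 1) (norm_bextr 1)
      (fun u hu p => ?_) fun j u hu => (main j u hu).1,
    curveBound_of_family hsub hZc hZd hZl (oH_tame hU) (bextr 1) (norm_bextr 1)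
      (fun u hu p => ?_) fun j u hu => (main j u hu).2.1,
    curveBound_of_family hsub hZc hZd hZl (oHH_tame hU) (bextr 1) (norm_bextr 1)
      (fun u hu p => ?_) fun j u hu => (main j u hu).2.2⟩
  · rw [oG, bextr_bvec, (hproj u p).1]
  · rw [oH, bextr_bvec, (hproj u p).1, (hproj u p).2, hessAvg_zero]
  · rw [oHH, bextr_bvec, (hproj u p).1, (hproj u p).2, hessAvg_zero]

/-- The exact gadget paths. -/
theorem gadgetPath : GadgetPathStatement := by
  obtain ⟨c₁, hc₁, h₁⟩ := gadget_flow (tensorBound poincare)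
  obtain ⟨c₂, hc₂, C, h₂⟩ := gadgetPath_bound (tensorBound poincare)
  refine ⟨min c₁ c₂, lt_min hc₁ hc₂, C,
    fun d V hV hg0 τ a b κ t₀ ha hab hbτ hτ hκ hend => ?_⟩
  obtain ⟨Φ, h3, h4, h5, h6, h7⟩ :=
    h₁ d V hV τ a b κ t₀ ha hab hbτ (hτ.trans (min_le_left _ _)) hend
  have ht₀ : t₀ ∈ Icc a b := by
    rcases hend with rfl | rfl
    · exact left_mem_Icc.2 hab
    · exact right_mem_Icc.2 hab
  exact ⟨Φ, h3, h4, h5, h6, h7,
    h₂ d V hV hg0 τ a b κ t₀ ha hab hbτ (hτ.trans (min_le_right _ _)) hκ ht₀ Φ h3 h5 h6 h7⟩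

end Vale.Agent.P347
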