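import Vale.Agent.P347.PathCurve
import Vale.Agent.P347.LevelFamily
import Vale.Agent.P347.TensorFinal

/-!
The backward flow of the levels: bounds on all derivatives of the score along it.
-/

namespace Vale.Agent.P347

open MeasureTheory Set
open scoped RealInnerProductSpace ContDiff

variable {d : ℕ}

/-- A tensor of rank one read as a vector. -/
noncomputable def vecL (ι : Type) [Fintype ι] : Ten ι 1 →L[ℝ] Sp ι :=
  ((EuclideanSpace.equiv ι ℝ).symm : (ι → ℝ) →L[ℝ] Sp ι).comp
    (ContinuousLinearMap.pi fun i => EuclideanSpace.proj fun _ : Fin 1 => i)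

@[simp] lemma vecL_apply {ι : Type} [Fintype ι] (T : Ten ι 1) (i : ι) :
    vecL ι T i = T fun _ => i := rfl

lemma norm_vecL {ι : Type} [Fintype ι] (T : Ten ι 1) : ‖vecL ι T‖ = ‖T‖ := by
  rw [EuclideanSpace.norm_eq, EuclideanSpace.norm_eq, sum_pi_one]
  rfl

lemma derivTen_one_apply {V : Euc d → ℝ} (hV : Weight V) {t : ℝ} (ht : 0 < t) (y : Euc d)
    (α : Fin 1 → Fin d) : derivTen (smoothPot V t) 1 y α = score V t y (α 0) := by
  rw [score_apply, derivTen_apply (smoothPot_tame hV) isOpen_Ioi ht 0 y α]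
  rfl

lemma vecL_derivTen {V : Euc d → ℝ} (hV : Weight V) {t : ℝ} (ht : 0 < t) (y : Euc d) :
    vecL (Fin d) (derivTen (smoothPot V t) 1 y) = score V t y := by
  ext i
  exact derivTen_one_apply hV ht y fun _ => i

lemma smoothPot_scaleV_law {V : Euc d → ℝ} (hV : Weight V) {u : ℝ} (hu : 0 < u) :
    (levelLaw (scaleV V u) 1).map (fun y => √u • y) = levelLaw V u := by
  have hsu : √u ≠ 0 := (Real.sqrt_pos.2 hu).ne'
  have h := map_tilted_linearEquiv (E := Euc d) (F := Euc d)
    (ContinuousLinearEquiv.smulLeft (Units.mk0 √u hsu)) (f := fun y => -smoothPot V u y)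
    (smoothPot_smooth hV hu).continuous.neg.measurable
  have e : (fun y => -smoothPot (scaleV V u) 1 y)
      = (fun y => -smoothPot V u y) ∘ (ContinuousLinearEquiv.smulLeft (Units.mk0 √u hsu) :
          Euc d ≃L[ℝ] Euc d) := by
    funext y
    simp [smoothPot_scaleV V hu.le]
  rw [levelLaw, levelLaw, gibbs, gibbs, e, ← h]
  rfl

/-- The derivatives of the score along the backward flow of the levels. -/
theorem levelFlow_bound (hT : TensorBoundStatement) :
    ∃ c₀ : ℝ, 0 < c₀ ∧ ∃ C : ℕ → ℝ, ∀ (d : ℕ) (V : Euc d → ℝ), NicePot d V 1 2 →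
      ∀ a b : ℝ, 0 < a → a ≤ b → b ≤ c₀ → ∀ Φ : ℝ → Euc d → Euc d,
        ContinuousOn (fun q : ℝ × Euc d => Φ q.1 q.2) (Icc a b ×ˢ univ) →
        (∀ y, ∀ s ∈ Icc a b,
          Φ s y = y + ∫ u in b..s, (1 / 2 : ℝ) • score V u (Φ u y)) →
        (∀ s ∈ Icc a b, (levelLaw V b).map (Φ s) = levelLaw V s) →
        CurveBound (levelLaw V b) a b (fun u y => score V u (Φ u y))
          (fun k u => C k * ((d : ℝ) + 1) ^ 2 / u ^ k) := by
  choose C hC0 hC using fun j => levelFamily_reg_score hT j 0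
  refine ⟨1 / 400, by norm_num, fun j => 2 * C j, fun d V hV a b ha hab hb Φ hc heq hlaw => ?_⟩
  have hU := hV.weight
  have hsub : Icc a b ⊆ (levelFamily hU).dom := fun t ht => ha.trans_le ht.1
  refine curveBound_of_family (F := levelFamily hU) hsub hc (fun t ht o => ?_) hlaw
    ((smoothPot_tame hU).derivTen isOpen_Ioi 1) (vecL (Fin d)) (fun T => (norm_vecL T).le)
    (fun t ht o => vecL_derivTen hU (hsub ht) _) fun j u hu => ?_
  · have hco : ContinuousOn (fun r => (1 / 2 : ℝ) • score V r (Φ r o)) (Icc a b) :=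
      ((score_tame hU).1.continuousOn.comp (continuousOn_id.prodMk
        (hc.comp (continuousOn_id.prodMk continuousOn_const) fun r hr => ⟨hr, mem_univ _⟩))
        fun r hr => ⟨hsub hr, mem_univ _⟩).const_smul (1 / 2 : ℝ)
    exact ((hasDerivWithinAt_integral_Icc hab hco (right_mem_Icc.2 hab) ht).const_add o).congr
      (fun r hr => heq o r hr) (heq o t ht)
  · have hu0 : 0 < u := ha.trans_le hu.1
    have hV' := hV.scaleV hu0
    have hL : 0 ≤ u * 2 := by linarith
    have hL' : 200 * (u * 2) ≤ 1 := by linarith [hu.2]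
    set L : Euc d →L[ℝ] Euc d := √u • ContinuousLinearMap.id ℝ (Euc d) with hLdef
    have hreg := hC j d (scaleV V u) _ _ hV' hL hL'
    have hreg1 : (levelFamily hV'.weight).Reg {1} j 0 (C j * √(u * 2 * d))
        (fun t => derivTen (smoothPot (scaleV V u) t) 1) :=
      ⟨hreg.1, fun i hi n hn t ht => hreg.2 i hi n hn t (by rw [ht]; norm_num)⟩
    have h := Family.scaled_bound (F := levelFamily hU) (F' := levelFamily hV'.weight) hu0
      (c := √u) (Real.sqrt_pos.2 hu0).ne' L (fun s hs => mul_pos hu0 hs) (fun s hs z => ?_)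
      ((smoothPot_tame hU).derivTen isOpen_Ioi 1) (fun s hs z => ?_) (show (1 : ℝ) ∈ Ioi 0 by norm_num)
      (mul_one u) (smoothPot_scaleV_law hU hu0) (mul_nonneg (hC0 j) (Real.sqrt_nonneg _)) hreg1
    · refine h.trans ?_
      rw [abs_of_pos (Real.sqrt_pos.2 hu0), Real.sqrt_mul (by positivity), Real.sqrt_mul hu0.le,
        div_le_div_iff₀ (by positivity) (by positivity)]
      have h2 : √(2 : ℝ) ≤ 2 := Real.sqrt_le_iff.2 ⟨by norm_num, by norm_num⟩
      have h3 : √(d : ℝ) ≤ ((d : ℝ) + 1) ^ 2 := Real.sqrt_le_iff.2 ⟨by positivity, by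
        nlinarith [pow_le_pow_right₀ (show (1 : ℝ) ≤ d + 1 by linarith [d.cast_nonneg (α := ℝ)])
          (show 1 ≤ 4 by norm_num), sq_nonneg ((d : ℝ) + 1)]⟩
      calc C j * (√u * √2 * √d) * u ^ j = C j * √2 * √d * (√u * u ^ j) := by ring
        _ ≤ C j * 2 * ((d : ℝ) + 1) ^ 2 * (√u * u ^ j) := by
            have := hC0 j
            gcongr
        _ = _ := by ring
    · show L ((1 / 2 : ℝ) • score (scaleV V u) s z) = u • ((1 / 2 : ℝ) • score V (u * s) (L z))
      rw [score_scaleV hU hu0.le (mul_pos hu0 hs)]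
      simp only [hLdef, smul_apply, ContinuousLinearMap.id_apply, smul_smul]
      congr 1
      linear_combination (1 / 2 : ℝ) * Real.mul_self_sqrt hu0.le
    · ext α
      rw [PiLp.smul_apply, derivTen_one_apply hU (mul_pos hu0 hs),
        derivTen_one_apply hV'.weight hs, score_scaleV hU hu0.le (mul_pos hu0 hs)]
      simp [hLdef]

/-- The backward flow of the levels. -/
theorem levelFlow : LevelFlowStatement := by
  obtain ⟨c₁, hc₁, h₁⟩ := levelFlow_exists
  obtain ⟨c₂, hc₂, C, h₂⟩ := levelFlow_bound (tensorBound poincare)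
  refine ⟨min c₁ c₂, lt_min hc₁ hc₂, C, fun d V hV _ a b ha hab hb => ?_⟩
  obtain ⟨Φ, h3, h4, h5⟩ := h₁ d V hV a b ha hab (hb.trans (min_le_left _ _))
  exact ⟨Φ, h3, h4, h5, h₂ d V hV a b ha hab (hb.trans (min_le_right _ _)) Φ h3 h4 h5⟩

end Vale.Agent.P347
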