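import Vale.Agent.P347.SpecsSteps

/-!
The unconditional starts of the recursion: the gradient query itself.
-/

namespace Vale.Agent.P347

open MeasureTheory
open scoped Gradient

/-- Accept samples of variance up to `1` in place of exact points. -/
lemma OpOK.relaxIn {op : Op} {Q : ℕ} {ε : ℝ} {u : FieldFam} {μ : MeasFam} {δ E ν : ℝ}
    (h : OpOK op Q ε u μ 0 δ E) (hν : ν ≤ 1) (hε : 0 ≤ ε)
    (hμ : ∀ d V, Nice d V → IsFiniteMeasure (μ d V) ∧ (μ d V).real Set.univ ≤ 1) :
    OpOK op Q ε u μ ν δ (E + (2 + ε)) where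
  cost := h.cost
  stable := h.stable
  evals d V hV := by
    obtain ⟨hΛ, err, h0, hi, hle, hae⟩ := h.evals d V hV
    obtain ⟨hfin, hmass⟩ := hμ d V hV
    refine ⟨hΛ, fun y => err y + (2 + ε) * √(d : ℝ), fun y => add_nonneg (h0 y) (by positivity),
      hi.add (integrable_const _), ?_, hae.mono fun y hy k p x e hp => ?_⟩
    · rw [integral_add hi (integrable_const _), integral_const, smul_eq_mul, add_mul E]
      refine add_le_add hle ((mul_le_of_le_one_left (by positivity : (0 : ℝ) ≤ (2 + ε) * √(d : ℝ)) hmass).trans ?_)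
      refine mul_le_mul_of_nonneg_left ?_ (by linarith)
      refine (Real.sqrt_le_left (dimFac_nonneg d)).2 ?_
      have h1 : (d : ℝ) ≤ dimFac d :=
        le_trans (by linarith) (le_self_pow₀ (a := (d : ℝ) + 1) (by simp) (by norm_num : 3 ≠ 0))
      nlinarith [one_le_dimFac d]
    · have h1 : DualClose (gN y ν) (gN y 0) √(d : ℝ) := fun f hf => by
        rw [gN_zero_var, integral_dirac, integral_gN y ν hf.continuous]
        have hint : Integrable (fun η => f (y + √ν • η)) (gauss d) := by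
          have h2 := integrable_of_lipschitzWith (gN_integrable_norm y ν) hf
          rwa [gN, integrable_map_measure hf.continuous.aestronglyMeasurable (by fun_prop)] at h2
        calc |∫ η, f (y + √ν • η) ∂(gauss d) - f y|
            = |∫ η, (f (y + √ν • η) - f y) ∂(gauss d)| := by
              rw [integral_sub hint (integrable_const _)]; simp
          _ ≤ ∫ η, |f (y + √ν • η) - f y| ∂(gauss d) := abs_integral_le_integral_abs
          _ ≤ ∫ η, ‖η‖ ∂(gauss d) := integral_mono (hint.sub (integrable_const _)).abs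
              gauss_integrable_norm fun η => by
              refine (lipschitz_abs_sub hf _ _).trans ?_
              rw [one_mul, add_sub_cancel_left, norm_smul, Real.norm_of_nonneg (Real.sqrt_nonneg _)]
              exact mul_le_of_le_one_left (norm_nonneg _) (Real.sqrt_le_one.2 hν)
          _ ≤ _ := gauss_integral_norm_le
      exact (hy k p x _ (hp.trans h1)).mono (le_of_eq (by ring))

theorem base : BaseStatement := by
  intro hin n hn
  obtain ⟨c, C, hc, hC, hlev⟩ := hin.levels
  have hfacts : ∀ d V, Nice d V → ∀ t ρ : ℝ, 0 < t → 0 ≤ ρ → t + ρ ≤ c →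
      Integrable (fun y => ‖∇ V y - scoreAvg V t ρ y‖) (levelLaw V t) ∧
      ∫ y, ‖∇ V y - scoreAvg V t ρ y‖ ∂(levelLaw V t) ≤ 3 * C * dimFac d := by
    intro d V hV t ρ ht hρ htc
    obtain ⟨h1, -, h3, -⟩ := hlev d V hV.pot hV.grad_zero
    obtain ⟨hp, hmom, hm, -⟩ := h1 t ht.le (by linarith)
    obtain ⟨hd, -, -, -, hlip, -, hs⟩ := h3 t ρ ht hρ htc
    have hn1 : Integrable (fun y => ‖y‖) (levelLaw V t) := by simpa using hmom 1
    have hg : ∀ y, ‖∇ V y‖ ≤ 2 * ‖y‖ := fun y => by
      simpa [hV.grad_zero] using hV.oracle.lip y 0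
    have hgi : Integrable (fun y => ‖∇ V y‖) (levelLaw V t) :=
      (hn1.const_mul 2).mono' hV.oracle.continuous.norm.aestronglyMeasurable
        (.of_forall fun y => by rw [norm_norm]; exact hg y)
    have hsi : Integrable (fun y => ‖scoreAvg V t ρ y‖) (levelLaw V t) :=
      ((integrable_const ‖scoreAvg V t ρ 0‖).add (hn1.const_mul 2)).mono'
        hd.continuous.norm.aestronglyMeasurable (.of_forall fun y => by
          rw [norm_norm]
          refine (norm_le_norm_add_norm_sub' _ (scoreAvg V t ρ 0)).trans ?_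
          simpa using hlip y 0)
    have hdiff : Integrable (fun y => ‖∇ V y - scoreAvg V t ρ y‖) (levelLaw V t) :=
      (hgi.add hsi).mono' (hV.oracle.continuous.sub hd.continuous).norm.aestronglyMeasurable
        (.of_forall fun y => by rw [norm_norm]; exact norm_sub_le _ _)
    refine ⟨hdiff, (integral_mono hdiff (hgi.add hsi) fun y => norm_sub_le _ _).trans ?_⟩
    simp only [Pi.add_apply]
    rw [integral_add hgi hsi]
    have h2 := integral_mono hgi (hn1.const_mul 2) hg
    rw [integral_const_mul] at h2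
    have hd3 : (d : ℝ) + 1 ≤ dimFac d := le_self_pow₀ (by simp) (by norm_num)
    have := mul_le_mul_of_nonneg_left hd3 hC.le
    linarith
  have htop : ∀ R : ℝ, 1 / c + 1 ≤ R → ∀ a m i s, 2 ^ m * s ≤ topLevel n a i R → 0 ≤ s →
      s ≤ c ∧ s ≤ 1 ∧ s ≤ topLevel n a i R := by
    intro R hR a m i s hs hs0
    have hc1 : 0 < 1 / c := by positivity
    have h1 := (le_mul_of_one_le_left hs0 (one_le_pow₀ (M₀ := ℝ) one_le_two (n := m))).trans hs
    have h2 := h1.trans (topLevel_le_inv (by linarith) n a i)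
    refine ⟨h2.trans ?_, h2.trans (inv_le_one_of_one_le₀ (by linarith)), h1⟩
    rw [inv_le_comm₀ (by linarith) hc, ← one_div]
    linarith
  have hδ : ∀ (R δ : ℝ) (a j k : ℕ), 1 ≤ R → lad a j R ≤ R ^ k * δ → 0 ≤ δ := by
    intro R δ a j k hR h
    by_contra hneg
    have := lad_pos (zero_lt_one.trans_le hR) a j
    have := mul_neg_of_pos_of_neg (pow_pos (zero_lt_one.trans_le hR) k) (not_le.1 hneg)
    linarith
  refine ⟨0, 11, fun a ha => ⟨fun m ε hε => ?_, fun i _ => ⟨fun ε hε => ?_, fun ε hε => ?_⟩⟩⟩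
  · refine ⟨C, 1 / c + 1, hC.le, by simp [hc.le], fun R hR j τ δ hj hτ htopm hwin _ => ?_⟩
    have hR1 : 1 ≤ R := le_trans (by simp [hc.le]) hR
    have hR0 : 0 < R := by linarith
    obtain ⟨hτc, -, hτt⟩ := htop R hR a m 0 τ htopm hτ.le
    refine ⟨Op.base δ, 1, by simp, ((OpOK.base hε.le (hδ R δ a j _ hR1 hwin)).shift
      (E' := C / R ^ accExp n a m j) fun d V hV => ?_).mono le_rfl le_rfl (by simp)⟩
    obtain ⟨-, -, h3, h4⟩ := hlev d V hV.pot hV.grad_zero
    have he : ∀ y, scoreFam τ d V y = scoreAvg V τ 0 y := fun y =>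
      ((h3 τ 0 hτ le_rfl (by linarith)).2.2.2.2.2.1 y).symm
    refine ⟨(hfacts d V hV τ 0 hτ le_rfl (by linarith)).1.congr (.of_forall fun y => by
      simp only [he]), ?_⟩
    have h5 : ∫ y, ‖∇ V y - scoreFam τ d V y‖ ∂(levelFam τ d V) ≤ C * ((d : ℝ) + 1) * √τ := by
      simp only [norm_sub_rev (∇ V _)]
      exact h4 τ hτ hτc
    refine h5.trans ?_
    have hsq : √τ ≤ (R ^ accExp n a m j)⁻¹ := by
      refine Real.sqrt_le_iff.2 ⟨by positivity, hτt.trans ?_⟩
      rw [topLevel, inv_pow, ← pow_mul]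
      refine inv_anti₀ (by positivity) (pow_le_pow_right₀ hR1 ?_)
      have := two_mul_accExp_le n a m j hn ha
      omega
    rw [div_eq_mul_inv, mul_right_comm C _ (dimFac d)]
    exact mul_le_mul (mul_le_mul_of_nonneg_left (le_self_pow₀ (by simp) (by norm_num)) hC.le) hsq
      (Real.sqrt_nonneg _) (mul_nonneg hC.le (dimFac_nonneg d))
  · refine ⟨3 * C, 1 / c + 1, by positivity, by simp [hc.le], fun R hR j τ δ hj hτ htopm hwin _ => ?_⟩
    obtain ⟨hτc, -, -⟩ := htop R hR a 0 i τ htopm hτ.le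
    refine ⟨Op.base δ, 1, by simp, ((OpOK.base hε.le
      (hδ R δ a j _ (le_trans (by simp [hc.le]) hR) hwin)).shift
      (E' := 3 * C) fun d V hV => ?_).mono le_rfl le_rfl (by simp [accExp])⟩
    obtain ⟨-, -, h3, -⟩ := hlev d V hV.pot hV.grad_zero
    have he : ∀ y, scoreFam τ d V y = scoreAvg V τ 0 y := fun y =>
      ((h3 τ 0 hτ le_rfl (by linarith)).2.2.2.2.2.1 y).symm
    simp only [he]
    exact hfacts d V hV τ 0 hτ le_rfl (by linarith)
  · refine ⟨3 * C + (2 + ε), 1 / c + 1, by positivity, by simp [hc.le],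
      fun R hR j τ ν δ hj hν hντ htopm hwin _ => ?_⟩
    have hR1 : 1 ≤ R := le_trans (by simp [hc.le]) hR
    have hτ : 0 < τ := lt_of_lt_of_le (mul_pos hν (by linarith)) hντ
    obtain ⟨hsc, hs1, -⟩ := htop R hR a 0 i (τ + ν) htopm (by linarith)
    have hprob : ∀ d V, Nice d V →
        IsFiniteMeasure (levelFam τ d V) ∧ (levelFam τ d V).real Set.univ ≤ 1 := fun d V hV => by
      have := ((hlev d V hV.pot hV.grad_zero).1 τ hτ.le (by linarith)).1
      exact ⟨inferInstanceAs (IsFiniteMeasure (levelLaw V τ)), by simp [levelFam]⟩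
    refine ⟨Op.base δ, 1, by simp, (((OpOK.base hε.le (hδ R δ a j _ hR1 hwin)).relaxIn
      (by linarith) hε.le hprob).shift (E' := 3 * C) fun d V hV => ?_).mono le_rfl le_rfl
      (by simp [accExp]; linarith)⟩
    exact hfacts d V hV τ ν hτ hν.le hsc

end Vale.Agent.P347
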