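import Vale.Agent.P347.Asymp

/-!
The steps of the recursion, as propositions (no proofs here).
-/

namespace Vale.Agent.P347

/-- The unconditional starts of the recursion. -/
def BaseStatement : Prop :=
  Inputs → ∀ n : ℕ, 1 ≤ n → ∃ q a₀ : ℕ, ∀ a : ℕ, a₀ ≤ a →
    (∀ m, HasOracle n a m 0 q) ∧ (∀ i, i ≤ n → HasOracle n a 0 i q ∧ HasClean n a 0 i q)

/-- Cleaning operators from oracles at the same index and cleaning operators one step below. -/
def CleanStepStatement : Prop :=
  Inputs → ∀ n qO qC : ℕ, 1 ≤ n → ∃ q a₀ : ℕ, ∀ a : ℕ, a₀ ≤ a → ∀ m i : ℕ, i ≤ n →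
    HasOracle n a (m + 1) i qO → HasClean n a m n qC → HasClean n a (m + 1) i q

/-- Oracles from evaluation at the previous chain index and one step below. -/
def OracleStepStatement : Prop :=
  Inputs → ∀ n qE qE' : ℕ, 1 ≤ n → ∃ q a₀ : ℕ, ∀ a : ℕ, a₀ ≤ a → ∀ m i : ℕ, i < n →
    HasEval n a (m + 1) i qE → HasEval n a m n qE' → HasOracle n a (m + 1) (i + 1) q

/-- The recursion follows from the steps. -/
def InductionStatement : Prop :=
  BaseStatement → CleanStepStatement → OracleStepStatement → Inputs → RecursionStatement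

end Vale.Agent.P347
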