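import Vale.Agent.P347.RecCleanParams
import Vale.Agent.P347.SpecsSteps

/-!
The cleaning step of the recursion.
-/

namespace Vale.Agent.P347

open MeasureTheory ProbabilityTheory
open scoped RealInnerProductSpace

/-- Paths satisfying the clauses of the cleaning step. -/
def CleanFamOK (τ ν δe : ℝ) (Cc : ℕ → ℝ) (Φ : PathFam) : Prop :=
  ∀ d V, Nice d V →
    ContinuousOn (fun q : ℝ × (Euc d × Euc d × Euc d) => Φ d V q.1 q.2)
      (Set.Icc 0 √ν ×ˢ Set.univ) ∧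
    (∀ p, ∀ r ∈ Set.Icc 0 √ν,
      (Φ d V r p).1 = p.2.1 + (√δe)⁻¹ • ∫ u in √ν..r,
        hessAvg V (τ + u ^ 2) (ν - u ^ 2) (p.1 + u • (Φ d V u p).1) (Φ d V u p).2) ∧
    (∀ p, ∀ r ∈ Set.Icc 0 √ν,
      √δe • (Φ d V r p).2 + scoreAvg V (τ + r ^ 2) (ν - r ^ 2) (p.1 + r • (Φ d V r p).1)
        = √δe • p.2.2 + score V (τ + ν) (p.1 + √ν • p.2.1)
          + (√δe)⁻¹ • ∫ u in √ν..r, u • hessAvg V (τ + u ^ 2) (ν - u ^ 2)
            (p.1 + u • (Φ d V u p).1) (hessAvg V (τ + u ^ 2) (ν - u ^ 2)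
              (p.1 + u • (Φ d V u p).1) (Φ d V u p).2)) ∧
    (∀ z, ∀ r ∈ Set.Icc 0 √ν,
      ((gauss d).prod (gauss d)).map (fun q => Φ d V r (z, q.1, q.2))
        = (gauss d).prod (gauss d)) ∧
    CurveBound ((levelLaw V τ).prod ((gauss d).prod (gauss d))) 0 √ν
      (fun u p => hessAvg V (τ + u ^ 2) (ν - u ^ 2) (p.1 + u • (Φ d V u p).1) (Φ d V u p).2)
      (fun k _ => Cc k * ((d : ℝ) + 1) ^ 2 / √τ ^ k) ∧
    CurveBound ((levelLaw V τ).prod ((gauss d).prod (gauss d))) 0 √ν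
      (fun u p => hessAvg V (τ + u ^ 2) (ν - u ^ 2) (p.1 + u • (Φ d V u p).1)
        (hessAvg V (τ + u ^ 2) (ν - u ^ 2) (p.1 + u • (Φ d V u p).1) (Φ d V u p).2))
      (fun k _ => Cc k * ((d : ℝ) + 1) ^ 2 / √τ ^ k)

/-- Paths for every potential at once. -/
lemma exists_cleanFam (hpath : CleanPathStatement) :
    ∃ c₀ : ℝ, 0 < c₀ ∧ ∃ Cc : ℕ → ℝ, ∀ τ ν δe : ℝ, 0 < τ → 0 < ν → ν ≤ τ → τ ≤ c₀ → τ ≤ δe →
      ∃ Φ : PathFam, CleanFamOK τ ν δe Cc Φ := by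
  obtain ⟨c₀, hc₀, Cc, h⟩ := hpath
  refine ⟨c₀, hc₀, Cc, fun τ ν δe hτ hν hντ hτc hτδ => ?_⟩
  classical
  refine ⟨fun d V => if hV : Nice d V then
    (h d V hV.pot hV.grad_zero τ ν δe hτ hν hντ hτc hτδ).choose else fun _ p => p.2,
    fun d V hV => ?_⟩
  simp only [dif_pos hV]
  obtain ⟨h1, -, h3, h4, h5, h6, h7⟩ :=
    (h d V hV.pot hV.grad_zero τ ν δe hτ hν hντ hτc hτδ).choose_spec
  exact ⟨h1, h3, h4, h5, h6, h7⟩

/-- The query factor of a pass is polynomial in the scale. -/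
lemma fac_le {R : ℝ} (hR : 2 ≤ R) {P n M qm K : ℕ}
    (hbig : (8 : ℝ) * ((P : ℝ) + 1) ^ 2 * ((K : ℝ) + 1) ≤ R) (hM : (M : ℝ) ≤ R ^ qm) :
    (((8 * (P + 1) ^ 2 * (K + 1) * (M + 1)) ^ (n + 3) : ℕ) : ℝ)
      ≤ R ^ ((qm + 2) * (n + 3)) := by
  push_cast
  rw [pow_mul]
  refine pow_le_pow_left₀ (by positivity) ?_ _
  calc (8 : ℝ) * ((P : ℝ) + 1) ^ 2 * ((K : ℝ) + 1) * ((M : ℝ) + 1) ≤ R * R ^ (qm + 1) := by
        refine mul_le_mul hbig ?_ (by positivity) (by linarith)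
        have h1 : (1 : ℝ) ≤ R ^ qm := one_le_pow₀ (by linarith)
        rw [pow_succ]
        nlinarith
    _ = _ := by ring

/-- The data of the cleaning step at given scales. -/
noncomputable def stepData (n a m j P M : ℕ) (L R τ ν δ ε₁ CO CC Kx : ℝ) (Cc : ℕ → ℝ)
    (Φ : PathFam) : CleanData where
  P := P
  It := n
  M := M
  L := L
  R := R
  τ := τ
  ν := ν
  δe := δ / 2
  din := lad a (j + 1) R
  dout := lad a j R
  ε := ε₁
  g := (R ^ gainExp n a)⁻¹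
  EO := CO / R ^ accExp n a (m + 1) j
  Ein := CC / R ^ accExp n a m (j + 1) + Kx * (√ν / √τ) ^ P
  Eout := CC / R ^ accExp n a m j + Kx * (√ν / √τ) ^ P
  Cc := Cc
  Φ := Φ

variable {n a m i j P M : ℕ} {L R τ ν δ ε₁ CO CC Kx c₀ c₁ C₁ : ℝ} {Cc : ℕ → ℝ} {Φ : PathFam}

/-- Cleaning operators of equal total noise one step below give the extractors. -/
lemma stepData_extractor (hP : 2 ≤ P) (hR : 2 ≤ R) (hτ : 0 < τ) (hν : 0 < ν) (hντ : ν ≤ τ)
    (hc : 2 * (τ + ν) ≤ c₀) (hCC : 0 ≤ CC) (hKx : 0 ≤ Kx)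
    (hext : ∀ (t ρ lam v₀ δ : ℝ) (Q : ℕ) (ε E : ℝ), 0 < t → 0 < ρ → ρ ≤ t → 2 * t ≤ c₀ →
      0 < lam → lam ^ 2 ≤ ρ → 0 ≤ v₀ → v₀ ≤ ρ - lam ^ 2 → 0 ≤ E →
      (∀ l : Fin P, ∃ op, OpOK op Q ε (avgFam (t + (lam * eqNode l) ^ 2)
          (ρ - (lam * eqNode l) ^ 2)) (levelFam (t + (lam * eqNode l) ^ 2))
          (ρ - (lam * eqNode l) ^ 2) δ E) →
      Extractor P (levelFam t) (hessFam t ρ) lam v₀ δ (Q * 2) ε (E + Kx * (2 * lam / √t) ^ P))
    {j' : ℕ} (hclean : ∀ (t ρ : ℝ), 0 < ρ → ρ ≤ ν → t + ρ = τ + ν →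
      ∃ op, OpOK op M ε₁ (avgFam t ρ) (levelFam t) ρ (lad a j' R) (CC / R ^ accExp n a m j'))
    (l : Fin P) :
    Extractor P (levelFam (τ + (√ν * cleanNode l) ^ 2))
      (hessFam (τ + (√ν * cleanNode l) ^ 2) (ν - (√ν * cleanNode l) ^ 2)) (√ν / R ^ 2)
      (ν - (√ν * cleanNode l) ^ 2 - (√ν / R ^ 2) ^ 2) (lad a j' R) (M * 2) ε₁
      (CC / R ^ accExp n a m j' + Kx * (√ν / √τ) ^ P) := by
  have hR0 : 0 < R := by linarith
  have hl := cleanNode_mem hP l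
  set r := √ν * cleanNode l with hr
  have hr2 : r ^ 2 ≤ ν * (81 / 100) := by
    rw [hr, mul_pow, Real.sq_sqrt hν.le]
    refine mul_le_mul_of_nonneg_left ?_ hν.le
    nlinarith [hl.1, hl.2]
  have hlam2 : (√ν / R ^ 2) ^ 2 ≤ ν / 16 := by
    rw [div_pow, Real.sq_sqrt hν.le]
    refine div_le_div_of_nonneg_left hν.le (by norm_num) ?_
    nlinarith [pow_le_pow_left₀ (by norm_num : (0:ℝ) ≤ 2) hR 2]
  have hlamτ : 2 * (√ν / R ^ 2) / √(τ + r ^ 2) ≤ √ν / √τ := by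
    refine div_le_div₀ (Real.sqrt_nonneg _) ?_ (Real.sqrt_pos.2 hτ)
      (Real.sqrt_le_sqrt (by linarith [sq_nonneg r]))
    rw [mul_div_assoc', div_le_iff₀ (by positivity)]
    nlinarith [Real.sqrt_nonneg ν, pow_le_pow_left₀ (by norm_num : (0:ℝ) ≤ 2) hR 2]
  obtain ⟨ops, us, μs, h1, h2⟩ := hext (τ + r ^ 2) (ν - r ^ 2) (√ν / R ^ 2)
    (ν - r ^ 2 - (√ν / R ^ 2) ^ 2) (lad a j' R) M ε₁ (CC / R ^ accExp n a m j') (by positivity)
    (by linarith) (by linarith [sq_nonneg r]) (by linarith) (by positivity) (by linarith)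
    (by linarith) le_rfl (by positivity) fun l' => by
      have hl' : (√ν / R ^ 2 * eqNode l') ^ 2 ≤ (√ν / R ^ 2) ^ 2 := by
        rw [mul_pow]
        exact mul_le_of_le_one_right (sq_nonneg _)
          ((sq_le_one_iff_abs_le_one _).2 (abs_eqNode_le hP l'))
      exact hclean _ _ (by linarith) (by nlinarith) (by ring)
  have hE : CC / R ^ accExp n a m j' + Kx * (2 * (√ν / R ^ 2) / √(τ + r ^ 2)) ^ P
      ≤ CC / R ^ accExp n a m j' + Kx * (√ν / √τ) ^ P :=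
    add_le_add le_rfl (mul_le_mul_of_nonneg_left (pow_le_pow_left₀ (by positivity) hlamτ P) hKx)
  refine ⟨ops, us, μs, fun l' => (h1 l').mono le_rfl le_rfl hE, fun d V hV => ?_⟩
  obtain ⟨g1, g2, g3, g4, g5⟩ := h2 d V hV
  exact ⟨g1, g2, g3, g4, g5.trans (mul_le_mul_of_nonneg_right hE (dimFac_nonneg d))⟩

/-- The facts about levels used by the cleaning step. -/
lemma stepData_levels (hlev : LevelFactsStatement) :
    ∃ c : ℝ, 0 < c ∧ ∀ (τ ν : ℝ), 0 < τ → 0 ≤ ν → τ + ν ≤ c → ∀ d V, Nice d V →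
      IsProbabilityMeasure (levelLaw V τ) ∧
      (∀ r ∈ Set.Icc 0 √ν,
        ((levelLaw V τ).prod (gauss d)).map (fun p => p.1 + r • p.2) = levelLaw V (τ + r ^ 2)) ∧
      (∀ r ∈ Set.Icc 0 √ν,
        Continuous (scoreAvg V (τ + r ^ 2) (ν - r ^ 2)) ∧
          Continuous (hessAvg V (τ + r ^ 2) (ν - r ^ 2)) ∧
          (∀ y a b, ⟪hessAvg V (τ + r ^ 2) (ν - r ^ 2) y a, b⟫
            = ⟪a, hessAvg V (τ + r ^ 2) (ν - r ^ 2) y b⟫) ∧
          ∀ y, ‖hessAvg V (τ + r ^ 2) (ν - r ^ 2) y‖ ≤ 2) ∧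
      Integrable (fun y => ‖scoreAvg V τ ν y‖) (levelLaw V τ) := by
  obtain ⟨c, C, hc, -, hlev⟩ := hlev
  refine ⟨c, hc, fun τ ν hτ hν hτν d V hV => ?_⟩
  obtain ⟨hl1, -, hl3, -⟩ := hlev d V hV.pot hV.grad_zero
  obtain ⟨hp, hmom, -, hconv⟩ := hl1 τ hτ.le (by linarith)
  have hrad : ∀ r ∈ Set.Icc (0 : ℝ) √ν, r ^ 2 ≤ ν := fun r hr => by
    rw [← Real.sq_sqrt hν]; exact pow_le_pow_left₀ hr.1 hr.2 2
  refine ⟨hp, fun r hr => ?_, fun r hr => ?_, ?_⟩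
  · have h1 := hconv (r ^ 2) (sq_nonneg r) (by linarith [hrad r hr])
    rwa [Real.sqrt_sq hr.1] at h1
  · have h1 := hl3 (τ + r ^ 2) (ν - r ^ 2) (by positivity) (by linarith [hrad r hr]) (by linarith)
    exact ⟨h1.1.continuous, h1.2.1, h1.2.2.1, h1.2.2.2.1⟩
  · obtain ⟨hd', -, -, -, hlip, -, -⟩ := hl3 τ ν hτ hν hτν
    refine ((integrable_const ‖scoreAvg V τ ν 0‖).add ((hmom 1).const_mul 2)).mono'
      hd'.continuous.norm.aestronglyMeasurable (.of_forall fun y => ?_)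
    rw [norm_norm]
    refine (norm_le_norm_add_norm_sub' _ (scoreAvg V τ ν 0)).trans (add_le_add le_rfl ?_)
    simpa using hlip y 0

/-- The data satisfy the hypotheses. -/
lemma stepData_valid (hP : 2 ≤ P) (hL1 : 1 ≤ L)
    (hL : ∀ x ∈ Set.Icc (0 : ℝ) 1, ∑ i : Fin P, |lag (cleanNode (P := P)) i x| ≤ L)
    (hR : 4 ≤ R) (hbig : 20 * P * L * (diffSize P + hessConst P n) ≤ R)
    (hg : 1 ≤ gainExp n a) (hτ : 0 < τ) (hν : 0 < ν) (hντ : ν ≤ τ)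
    (hτνδ : τ + ν ≤ δ / 2) (hδ1 : δ / 2 ≤ 1) (hε₁ : 0 ≤ ε₁) (hε₁1 : ε₁ ≤ 1)
    (hσ : R ^ 5 * (√ν / √(δ / 2)) ≤ (R ^ gainExp n a)⁻¹)
    (hθ : R ^ 10 * (√(lad a (j + 1) R) / √(δ / 2)) ≤ (R ^ (a - lossC n))⁻¹)
    (hout : R ^ 12 * ((√(lad a (j + 1) R) / √(δ / 2)) ^ 2 * lad a j R) ≤ δ / 2)
    (hκ : (hessConst P n : ℝ) * (√ν / (R ^ 2 * √(lad a (j + 1) R))) ≤ (R ^ gainExp n a)⁻¹)
    (hlev : ∀ d V, Nice d V →
      IsProbabilityMeasure (levelLaw V τ) ∧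
      (∀ r ∈ Set.Icc 0 √ν,
        ((levelLaw V τ).prod (gauss d)).map (fun p => p.1 + r • p.2) = levelLaw V (τ + r ^ 2)) ∧
      (∀ r ∈ Set.Icc 0 √ν,
        Continuous (scoreAvg V (τ + r ^ 2) (ν - r ^ 2)) ∧
          Continuous (hessAvg V (τ + r ^ 2) (ν - r ^ 2)) ∧
          (∀ y a b, ⟪hessAvg V (τ + r ^ 2) (ν - r ^ 2) y a, b⟫
            = ⟪a, hessAvg V (τ + r ^ 2) (ν - r ^ 2) y b⟫) ∧
          ∀ y, ‖hessAvg V (τ + r ^ 2) (ν - r ^ 2) y‖ ≤ 2) ∧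
      Integrable (fun y => ‖scoreAvg V τ ν y‖) (levelLaw V τ))
    (hΦ : CleanFamOK τ ν (δ / 2) Cc Φ) (hCO : 0 ≤ CO) (hCC : 0 ≤ CC) (hKx : 0 ≤ Kx)
    (hO : ∃ op, OpOK op M ε₁ (scoreFam (τ + ν)) (levelFam (τ + ν)) 0 (δ / 2 / 2)
      (CO / R ^ accExp n a (m + 1) j))
    (hclean : ∀ (t ρ : ℝ), 0 < ρ → ρ ≤ ν → t + ρ = τ + ν →
      ∃ op, OpOK op M ε₁ (avgFam t ρ) (levelFam t) ρ (lad a (j + 1) R)
        (CC / R ^ accExp n a m (j + 1)))
    (hextIn : ∀ l : Fin P, Extractor P (levelFam (τ + (√ν * cleanNode l) ^ 2))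
      (hessFam (τ + (√ν * cleanNode l) ^ 2) (ν - (√ν * cleanNode l) ^ 2)) (√ν / R ^ 2)
      (ν - (√ν * cleanNode l) ^ 2 - (√ν / R ^ 2) ^ 2) (lad a (j + 1) R) (M * 2) ε₁
      (CC / R ^ accExp n a m (j + 1) + Kx * (√ν / √τ) ^ P))
    (hextOut : ∀ l : Fin P, Extractor P (levelFam (τ + (√ν * cleanNode l) ^ 2))
      (hessFam (τ + (√ν * cleanNode l) ^ 2) (ν - (√ν * cleanNode l) ^ 2)) (√ν / R ^ 2)
      (ν - (√ν * cleanNode l) ^ 2 - (√ν / R ^ 2) ^ 2) (lad a j R) (M * 2) ε₁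
      (CC / R ^ accExp n a m j + Kx * (√ν / √τ) ^ P)) :
    (stepData n a m j P M L R τ ν δ ε₁ CO CC Kx Cc Φ).Valid := by
  have hR0 : 0 < R := by linarith
  have hR1 : 1 ≤ R := by linarith
  have hg4 : (R ^ gainExp n a)⁻¹ ≤ 1 / 4 := by
    rw [one_div]
    exact inv_anti₀ (by norm_num) (hR.trans (le_self_pow₀ hR1 (by omega)))
  exact
    { two_le := hP, one_le_L := hL1, lag_le := hL, two_le_R := (by show (2:ℝ) ≤ R; linarith)
      big := hbig, τ_pos := hτ, ν_pos := hν, ν_le := hντ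
      ν_le_δe := by show ν ≤ δ / 2; linarith
      δe_le := hδ1, din_pos := lad_pos hR0 _ _, dout_nonneg := (lad_pos hR0 _ _).le
      ε_nonneg := hε₁, ε_le := hε₁1
      g_nonneg := by show (0 : ℝ) ≤ (R ^ gainExp n a)⁻¹; positivity
      g_le := hg4, inner_gain := hσ
      outer_gain := hθ.trans (inv_le_one_of_one_le₀ (one_le_pow₀ hR1))
      out_var := hout
      kr_le := hκ.trans (hg4.trans (by norm_num))
      prob := fun d V hV => (hlev d V hV).1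
      conv := fun d V hV => (hlev d V hV).2.1
      hess_facts := fun d V hV => (hlev d V hV).2.2.1
      avg_int := fun d V hV => (hlev d V hV).2.2.2
      cont := fun d V hV => (hΦ d V hV).1
      pos_eq := fun d V hV => (hΦ d V hV).2.1
      xi_eq := fun d V hV => (hΦ d V hV).2.2.1
      invariant := fun d V hV => (hΦ d V hV).2.2.2.1
      bound₁ := fun d V hV => (hΦ d V hV).2.2.2.2.1
      bound₂ := fun d V hV => (hΦ d V hV).2.2.2.2.2
      EO_nonneg := by show 0 ≤ CO / R ^ accExp n a (m + 1) j; positivity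
      Ein_nonneg := by show 0 ≤ CC / R ^ accExp n a m (j + 1) + Kx * (√ν / √τ) ^ P; positivity
      Eout_nonneg := by show 0 ≤ CC / R ^ accExp n a m j + Kx * (√ν / √τ) ^ P; positivity
      oracle := hO
      clean := fun (l : Fin P) => by
        have hl := cleanNode_mem hP l
        have hr2 : (√ν * cleanNode l) ^ 2 < ν := by
          rw [mul_pow, Real.sq_sqrt hν.le]
          refine mul_lt_of_lt_one_right hν ?_
          nlinarith [hl.1, hl.2]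
        obtain ⟨op, hop⟩ := hclean (τ + (√ν * cleanNode l) ^ 2) (ν - (√ν * cleanNode l) ^ 2)
          (by linarith) (by linarith [sq_nonneg (√ν * cleanNode l)]) (by ring)
        exact ⟨op, hop.mono le_rfl le_rfl (le_add_of_nonneg_right (by positivity))⟩
      extractIn := hextIn
      extractOut := hextOut }

/-- The error after the passes meets the target. -/
lemma stepData_err (hD : (stepData n a m j P M L R τ ν δ ε₁ CO CC Kx Cc Φ).Valid)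
    (hn : 1 ≤ n) (hjn : j < n) (hPn : n ≤ P) (hCO : 0 ≤ CO) (hCC : 0 ≤ CC) (hKx : 0 ≤ Kx)
    (hx : (√ν / √τ) ^ P ≤ (R ^ accExp n a (m + 1) j)⁻¹)
    (hθ : R ^ 5 * (√(lad a (j + 1) R) / √(δ / 2)) ≤ (R ^ (a - lossC n))⁻¹)
    (hκ : (hessConst P n : ℝ) * (√ν / (R ^ 2 * √(lad a (j + 1) R))) ≤ (R ^ gainExp n a)⁻¹) :
    (stepData n a m j P M L R τ ν δ ε₁ CO CC Kx Cc Φ).outErr
      (4 * (stepData n a m j P M L R τ ν δ ε₁ CO CC Kx Cc Φ).g ^ n
        + 2 * ((stepData n a m j P M L R τ ν δ ε₁ CO CC Kx Cc Φ).g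
          * (stepData n a m j P M L R τ ν δ ε₁ CO CC Kx Cc Φ).err
          + 2 * (stepData n a m j P M L R τ ν δ ε₁ CO CC Kx Cc Φ).res))
      ≤ (CO + (4 + 2 * (CO + 2 * CC + 2 * Kx + 2 + 2 * ((1 + L) * |Cc P|))) + 2 * (CC + Kx) + 2
          + (1 + L) * |Cc P|) / R ^ accExp n a (m + 1) j := by
  have hR2 : 2 ≤ R := hD.two_le_R
  have hR0 : 0 < R := by linarith
  have hR1 : 1 ≤ R := by linarith
  have hkr0 := hD.kr_pos
  have hkr1 := hD.kr_le_one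
  set x := (R ^ accExp n a (m + 1) j)⁻¹ with hxdef
  set Cr := (1 + L) * |Cc P| with hCr
  set g := (R ^ gainExp n a)⁻¹ with hgdef
  set kr := √ν / (R ^ 2 * √(lad a (j + 1) R)) with hkr
  have hx0 : 0 ≤ x := by positivity
  have hg0 : 0 ≤ g := by positivity
  have hg1 : g ≤ 1 := inv_le_one_of_one_le₀ (one_le_pow₀ hR1)
  have hK1 : (1 : ℝ) ≤ hessConst P n := hD.K_one_le
  have hL : 0 ≤ 1 + L := by have : (1 : ℝ) ≤ L := hD.one_le_L; linarith
  have hgn : g ^ n ≤ x := by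
    rw [hxdef, hgdef, inv_pow, ← pow_mul]
    exact inv_anti₀ (by positivity)
      (pow_le_pow_right₀ hR1 (by rw [mul_comm]; exact accExp_le_gain n a (m + 1) j))
  have hkr0' : 0 ≤ kr := hkr0.le
  have hκ1 : kr ≤ g := (le_mul_of_one_le_left hkr0' hK1).trans hκ
  have hkrP : kr ^ P ≤ x :=
    (pow_le_pow_of_le_one hkr0' hkr1 hPn).trans ((pow_le_pow_left₀ hkr0' hκ1 n).trans hgn)
  have hKn : ((hessConst P n : ℝ) * kr) ^ n ≤ x :=
    (pow_le_pow_left₀ (mul_nonneg (Nat.cast_nonneg _) hkr0') hκ n).trans hgn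
  set Rp := (√ν / √τ) ^ P with hRp
  have hRp0 : 0 ≤ Rp := by positivity
  have hEO : CO / R ^ accExp n a (m + 1) j = CO * x := div_eq_mul_inv _ _
  have hEin : g * (CC / R ^ accExp n a m (j + 1) + Kx * Rp) ≤ (CC + Kx) * x := by
    rw [mul_add, add_mul]
    refine add_le_add ((div_pow_le_of_gain hR1 (accExp_succ_le' n a m hn hjn) hCC).trans
      (le_of_eq (div_eq_mul_inv _ _))) ?_
    exact (mul_le_of_le_one_left (by positivity) hg1).trans (mul_le_mul_of_nonneg_left hx hKx)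
  have hEout : ∀ G : ℕ, a - lossC n ≤ G →
      (R ^ G)⁻¹ * (CC / R ^ accExp n a m j + Kx * Rp) ≤ (CC + Kx) * x := fun G hG => by
    rw [mul_add, add_mul]
    refine add_le_add ((div_pow_le_of_gain hR1
      ((accExp_succ_le n a m j).trans (Nat.add_le_add le_rfl hG)) hCC).trans
      (le_of_eq (div_eq_mul_inv _ _))) ?_
    exact (mul_le_of_le_one_left (by positivity) (inv_le_one_of_one_le₀ (one_le_pow₀ hR1))).trans
      (mul_le_mul_of_nonneg_left hx hKx)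
  have hres : (1 + L) * |Cc P| * Rp ≤ Cr * x := mul_le_mul_of_nonneg_left hx (by positivity)
  set err := CO / R ^ accExp n a (m + 1) j + (CC / R ^ accExp n a m (j + 1) + Kx * Rp)
      + (CC / R ^ accExp n a m j + Kx * Rp) + kr ^ P + ((hessConst P n : ℝ) * kr) ^ n with herr
  have hgerr : g * err ≤ (CO + 2 * CC + 2 * Kx + 2) * x := by
    have h1 : g * (CC / R ^ accExp n a m j + Kx * Rp) ≤ (CC + Kx) * x :=
      hEout (gainExp n a) (Nat.le_mul_of_pos_left _ hn)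
    have h2 : g * (CO / R ^ accExp n a (m + 1) j) ≤ CO * x :=
      (mul_le_of_le_one_left (by positivity) hg1).trans hEO.le
    have h3 : g * kr ^ P ≤ x := (mul_le_of_le_one_left (pow_nonneg hkr0' _) hg1).trans hkrP
    have h4 : g * ((hessConst P n : ℝ) * kr) ^ n ≤ x :=
      (mul_le_of_le_one_left (by positivity) hg1).trans hKn
    rw [herr]
    linarith
  set e := 4 * g ^ n + 2 * (g * err + 2 * ((1 + L) * |Cc P| * Rp)) with he
  have he0 : 0 ≤ e := by positivity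
  show CO / R ^ accExp n a (m + 1) j + R ^ 5 * (√(lad a (j + 1) R) / √(δ / 2))
      * (e + (CC / R ^ accExp n a m j + Kx * Rp) + (kr ^ P + ((hessConst P n : ℝ) * kr) ^ n))
    + g * (CC / R ^ accExp n a m (j + 1) + Kx * Rp) + (1 + L) * |Cc P| * Rp
    ≤ _
  have hA : (R ^ (a - lossC n))⁻¹ ≤ 1 := inv_le_one_of_one_le₀ (one_le_pow₀ hR1)
  have hmid : R ^ 5 * (√(lad a (j + 1) R) / √(δ / 2))
      * (e + (CC / R ^ accExp n a m j + Kx * Rp) + (kr ^ P + ((hessConst P n : ℝ) * kr) ^ n))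
      ≤ (4 + 2 * (CO + 2 * CC + 2 * Kx + 2 + 2 * Cr)) * x + (CC + Kx) * x + 2 * x := by
    refine (mul_le_mul_of_nonneg_right hθ (by positivity)).trans ?_
    rw [mul_add, mul_add]
    refine add_le_add (add_le_add ((mul_le_of_le_one_left he0 hA).trans ?_) (hEout _ le_rfl)) ?_
    · rw [he]; linarith
    · refine (mul_le_of_le_one_left (by positivity) hA).trans ?_
      linarith
  simp only [show ∀ C' : ℝ, C' / R ^ accExp n a (m + 1) j = C' * x from fun C' => div_eq_mul_inv _ _]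
    at hmid hEin ⊢
  linarith

/-- The operators given by the recursion, with a common number of queries. -/
lemma stepData_ops {qO qC : ℕ} {R₁ R₂ : ℝ} (hi : i ≤ n) (hR2 : 2 ≤ R) (hR₁ : R₁ ≤ R) (hR₂ : R₂ ≤ R)
    (hν : 0 < ν) (hνR : ν * R ≤ τ) (htop : 2 ^ (m + 1) * (τ + ν) ≤ topLevel n a i R) (hjn : j < n)
    (hwin : lad a j R ≤ R ^ (4 * (n - i) + 2) * δ) (hδ : δ ≤ lad a j R) (hδ0 : 0 < δ)
    (hOop : ∀ R : ℝ, R₁ ≤ R → ∀ (j : ℕ) (τ δ : ℝ), j ≤ n →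
      0 < τ → 2 ^ (m + 1) * τ ≤ topLevel n a i R → lad a j R ≤ R ^ (4 * (n - i) + 4) * δ →
      δ ≤ lad a j R → ∃ (op : Op) (Q : ℕ), (Q : ℝ) ≤ R ^ qO ∧
        OpOK op Q ε₁ (scoreFam τ) (levelFam τ) 0 δ (CO / R ^ accExp n a (m + 1) j))
    (hCop : ∀ R : ℝ, R₂ ≤ R → ∀ (j : ℕ) (τ ν δ : ℝ), j ≤ n →
      0 < ν → ν * R ≤ τ → 2 ^ m * (τ + ν) ≤ topLevel n a n R →
      lad a j R ≤ R ^ (4 * (n - n) + 2) * δ →
      δ ≤ lad a j R → ∃ (op : Op) (Q : ℕ), (Q : ℝ) ≤ R ^ qC ∧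
        OpOK op Q ε₁ (avgFam τ ν) (levelFam τ) ν δ (CC / R ^ accExp n a m j)) :
    (∀ j', j' ≤ n → ∀ (t ρ : ℝ), 0 < ρ → ρ ≤ ν → t + ρ = τ + ν →
      ∃ op, OpOK op (max ⌊R ^ qO⌋₊ ⌊R ^ qC⌋₊) ε₁ (avgFam t ρ) (levelFam t) ρ (lad a j' R)
        (CC / R ^ accExp n a m j')) ∧
    ∃ op, OpOK op (max ⌊R ^ qO⌋₊ ⌊R ^ qC⌋₊) ε₁ (scoreFam (τ + ν)) (levelFam (τ + ν)) 0
      (δ / 2 / 2) (CO / R ^ accExp n a (m + 1) j) := by
  have hR0 : 0 < R := by linarith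
  have hR1 : 1 ≤ R := by linarith
  constructor
  · intro j' hj' t ρ hρ hρν htρ
    obtain ⟨op, Q, hQ, hop⟩ := hCop R hR₂ j' t ρ (lad a j' R) hj' hρ
      (le_trans (mul_le_mul_of_nonneg_right hρν hR0.le) (hνR.trans (by linarith)))
      (by
        rw [htρ]
        refine le_trans ?_ (htop.trans (topLevel_mono hR1 n a hi))
        rw [pow_succ]
        have : (0 : ℝ) ≤ 2 ^ m * (τ + ν) :=
          mul_nonneg (by positivity) (by linarith [mul_pos hν hR0])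
        linarith)
      (le_mul_of_one_le_left (lad_pos hR0 a j').le (one_le_pow₀ hR1)) le_rfl
    exact ⟨op, hop.mono ((Nat.le_floor hQ).trans (le_max_right _ _)) le_rfl le_rfl⟩
  · obtain ⟨op, Q, hQ, hop⟩ := hOop R hR₁ j (τ + ν) (δ / 2 / 2) hjn.le
      (by linarith [mul_pos hν hR0]) htop
      (by
        refine hwin.trans ?_
        rw [show 4 * (n - i) + 4 = 4 * (n - i) + 2 + 2 from rfl, pow_add R (4 * (n - i) + 2),
          mul_assoc]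
        refine mul_le_mul_of_nonneg_left ?_ (by positivity)
        have : (4 : ℝ) ≤ R ^ 2 := by nlinarith
        nlinarith)
      (by linarith)
    exact ⟨op, hop.mono ((Nat.le_floor hQ).trans (le_max_left _ _)) le_rfl le_rfl⟩

/-- The operator from valid data. -/
lemma stepData_op {qm : ℕ} {ε : ℝ} (hε : 0 < ε) (hε₁ : ε₁ ≤ ε / 2) (hR2 : 2 ≤ R)
    (hR4ε : 4 / ε ≤ R)
    (hbig' : (8 : ℝ) * ((P : ℝ) + 1) ^ 2 * ((hessConst P n : ℝ) + 1) ≤ R)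
    (hMle : (M : ℝ) ≤ R ^ qm) (hn : 1 ≤ n) (hjn : j < n) (hPn : n ≤ P) (hCO : 0 ≤ CO) (hCC : 0 ≤ CC)
    (hKx : 0 ≤ Kx)
    (hx : (√ν / √τ) ^ P ≤ (R ^ accExp n a (m + 1) j)⁻¹)
    (hθ : R ^ 5 * (√(lad a (j + 1) R) / √(δ / 2)) ≤ (R ^ (a - lossC n))⁻¹)
    (hκ : (hessConst P n : ℝ) * (√ν / (R ^ 2 * √(lad a (j + 1) R))) ≤ (R ^ gainExp n a)⁻¹)
    (hD : (stepData n a m j P M L R τ ν δ ε₁ CO CC Kx Cc Φ).Valid) :
    ∃ (op : Op) (Q : ℕ), (Q : ℝ) ≤ R ^ ((qm + 2) * (n + 3) * (n + 1) + 2) ∧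
      OpOK op Q ε (avgFam τ ν) (levelFam τ) ν δ
        ((CO + (4 + 2 * (CO + 2 * CC + 2 * Kx + 2 + 2 * ((1 + L) * |Cc P|))) + 2 * (CC + Kx) + 2
          + (1 + L) * |Cc P|) / R ^ accExp n a (m + 1) j) := by
  have hR0 : 0 < R := by linarith
  have herr := stepData_err hD hn hjn hPn hCO hCC hKx hx hθ hκ
  set D := stepData n a m j P M L R τ ν δ ε₁ CO CC Kx Cc Φ with hDdef
  have hit := hD.iterate n
  obtain ⟨op, hop⟩ := hD.finalOp (e := 4 * D.g ^ n + 2 * (D.g * D.err + 2 * D.res))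
    (by have := hD.g_nonneg; have := hD.err_nonneg; have := hD.res_nonneg; positivity)
    (Qc := D.fac ^ n * 2) (by
      have : 1 ≤ D.fac ^ n := Nat.one_le_pow _ _ (Nat.pow_pos (by positivity))
      omega)
    (fun l => (hit l).1) (fun l => (hit l).2) (ε' := ε) (by
      show ε₁ + 2 / R ≤ ε
      have h1 : 2 / R ≤ ε / 2 := by
        rw [div_le_div_iff₀ hR0 two_pos]
        rw [div_le_iff₀ hε] at hR4ε
        linarith
      linarith)
  have hδe : 2 * D.δe = δ := by show 2 * (δ / 2) = δ; ring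
  rw [hδe] at hop
  refine ⟨op, D.fac * (D.fac ^ n * 2) * 2, ?_, hop.mono le_rfl le_rfl herr⟩
  have hf : (D.fac : ℝ) ≤ R ^ ((qm + 2) * (n + 3)) := fac_le hR2 hbig' hMle
  calc ((D.fac * (D.fac ^ n * 2) * 2 : ℕ) : ℝ) = (D.fac : ℝ) ^ (n + 1) * 4 := by
        push_cast; ring
    _ ≤ (R ^ ((qm + 2) * (n + 3))) ^ (n + 1) * R ^ 2 := by
        refine mul_le_mul (pow_le_pow_left₀ (Nat.cast_nonneg _) hf _) ?_ (by norm_num)
          (by positivity)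
        nlinarith
    _ = _ := by rw [← pow_mul, ← pow_add]

/-- The cleaning step. -/
theorem cleanStep : CleanStepStatement := by
  intro hin n qO qC hn
  set qm := max qO qC with hqm
  refine ⟨(qm + 2) * (n + 3) * (n + 1) + 2, lossC n + 11, fun a ha m i hi hO hC ε hε => ?_⟩
  obtain ⟨c₁, hc₁, Cc, hpath⟩ := exists_cleanFam hin.cleanPath
  obtain ⟨c₂, hc₂, hlev⟩ := stepData_levels hin.levels
  obtain ⟨P', hX, hPn⟩ : ∃ P', (∀ m' j', accExp n a m' j' ≤ P') ∧ n ≤ P' := by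
    refine ⟨ordP n a + n, fun m' j' => (accExp_le_ordP n a m' j' hn (by omega)).trans
      (Nat.le_add_right _ _), Nat.le_add_left _ _⟩
  set P := 2 * P' with hPdef
  have hP : 2 ≤ P := by omega
  obtain ⟨c₃, Kx, hc₃, hKx, hext⟩ := exists_avgExtractor (P := P) hin.levels hin.extractCurve hP
  obtain ⟨c₄, C₄, hc₄, hC₄, hcrude⟩ := exists_clean_crude hin.levels
  obtain ⟨L, hL1, hL⟩ := exists_cleanLag_bound P
  set ε₁ := min (ε / 2) (1 / 4) with hε₁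
  have hε₁0 : 0 < ε₁ := by positivity
  have hε₁2 : ε₁ ≤ ε / 2 := min_le_left _ _
  have hε₁4 : ε₁ ≤ 1 / 4 := min_le_right _ _
  obtain ⟨CO, R₁, hCO, hR₁, hOop⟩ := hO ε₁ hε₁0
  obtain ⟨CC, R₂, hCC, hR₂, hCop⟩ := hC ε₁ hε₁0
  set K := hessConst P n with hK
  set cm := min (min c₁ c₂) (min c₃ c₄) with hcm
  have hcm0 : 0 < cm := by positivity
  set Cmain := CO + (4 + 2 * (CO + 2 * CC + 2 * Kx + 2 + 2 * ((1 + L) * |Cc P|))) + 2 * (CC + Kx)
    + 2 + (1 + L) * |Cc P| with hCmain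
  have hCmain0 : 0 ≤ Cmain := by positivity
  refine ⟨Cmain + (CO + C₄), max (max R₁ R₂) (max (max (20 * P * L * (diffSize P + K))
    (8 * ((P : ℝ) + 1) ^ 2 * ((K : ℝ) + 1))) (max (max (4 / ε) (2 / cm)) 4)), by positivity,
    le_max_of_le_left (le_max_of_le_left hR₁), fun R hR j τ ν δ hj hν hνR htop hwin hδ => ?_⟩
  simp only [max_le_iff] at hR
  obtain ⟨⟨hR1', hR2'⟩, ⟨hbig, hbig'⟩, ⟨hR4ε, hRc⟩, hR4⟩ := hR
  have hR2 : 2 ≤ R := by linarith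
  have hR0 : 0 < R := by linarith
  have hR1 : 1 ≤ R := by linarith
  have hτ : 0 < τ := lt_of_lt_of_le (mul_pos hν hR0) hνR
  have hντ : ν ≤ τ := (le_mul_of_one_le_right hν.le hR1).trans hνR
  have htopR : τ + ν ≤ R⁻¹ :=
    (le_mul_of_one_le_left (by linarith) (one_le_pow₀ one_le_two)).trans
      (htop.trans (topLevel_le_inv hR1 n a i))
  have hc : 2 * (τ + ν) ≤ cm := by
    refine (mul_le_mul_of_nonneg_left htopR zero_le_two).trans ?_
    rw [← div_eq_mul_inv, div_le_iff₀ hR0, ← div_le_iff₀' hcm0]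
    exact hRc
  have hcm1 : cm ≤ c₁ := (min_le_left _ _).trans (min_le_left _ _)
  have hcm2 : cm ≤ c₂ := (min_le_left _ _).trans (min_le_right _ _)
  have hcm3 : cm ≤ c₃ := (min_le_right _ _).trans (min_le_left _ _)
  have hcm4 : cm ≤ c₄ := (min_le_right _ _).trans (min_le_right _ _)
  have hν1 : ν ≤ 1 := by linarith [inv_le_one_of_one_le₀ hR1]
  have hδ0 : 0 < δ := by
    by_contra hneg
    have := mul_nonpos_of_nonneg_of_nonpos (pow_nonneg hR0.le (4 * (n - i) + 2)) (not_lt.1 hneg)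
    linarith [lad_pos hR0 a j]
  have hwin4 : lad a j R ≤ R ^ (4 * (n - i) + 4) * δ :=
    hwin.trans (mul_le_mul_of_nonneg_right (pow_le_pow_right₀ hR1 (by omega)) hδ0.le)
  rcases eq_or_lt_of_le hj with rfl | hjn
  · -- the last noise level
    obtain ⟨op, Q, hQ, hop⟩ := hOop R hR1' j τ δ le_rfl hτ
      ((mul_le_mul_of_nonneg_left (by linarith) (by positivity)).trans htop) hwin4 hδ
    refine ⟨op, Q, hQ.trans (pow_le_pow_right₀ hR1 ?_), (hcrude op Q ε₁ τ ν δ _ hε₁0.le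
      (by linarith) hτ hν.le hν1 (by linarith) hop).mono le_rfl (by linarith) ?_⟩
    · have h9 : qm + 2 ≤ (qm + 2) * (j + 3) * (j + 1) := by
        rw [mul_assoc]; exact Nat.le_mul_of_pos_right _ (by positivity)
      omega
    · rw [accExp_top j a j (Or.inl rfl), pow_zero, div_one, div_one]
      linarith
  have htop' : τ + ν ≤ (R ^ (4 * n * a - 1))⁻¹ :=
    le_topLevel hR1 hi (by
      have h5 : 4 * n * a = 4 * (n * a) := by ring
      have h8 : a ≤ n * a := Nat.le_mul_of_pos_left a hn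
      omega) (by linarith) htop
  have hK1 : (1 : ℝ) ≤ K := by exact_mod_cast one_le_hessConst hP n
  have hKR : (K : ℝ) ≤ R := by
    refine le_trans ?_ hbig'
    have : (1 : ℝ) ≤ ((P : ℝ) + 1) ^ 2 := one_le_pow₀ (by simp)
    nlinarith
  obtain ⟨-, hτνδ, hδ1, hσ, hθ, hout, hκ⟩ :=
    clean_params ha hi hjn hR2 hK1 hKR hτ.le hν.le htop' hwin4 hδ
  obtain ⟨Φ, hΦ⟩ := hpath τ ν (δ / 2) hτ hν hντ (by linarith) (by linarith)
  set M := max ⌊R ^ qO⌋₊ ⌊R ^ qC⌋₊ with hM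
  have hMle : (M : ℝ) ≤ R ^ qm := by
    rw [hM, Nat.cast_max]
    exact max_le ((Nat.floor_le (by positivity)).trans (pow_le_pow_right₀ hR1 (le_max_left _ _)))
      ((Nat.floor_le (by positivity)).trans (pow_le_pow_right₀ hR1 (le_max_right _ _)))
  obtain ⟨hclean, hO'⟩ := stepData_ops hi hR2 hR1' hR2' hν hνR htop hjn hwin hδ hδ0 hOop hCop
  have hgain : 1 ≤ gainExp n a := Nat.mul_pos hn (by omega)
  have hextr := fun j' (hj' : j' ≤ n) => stepData_extractor (M := M) (ε₁ := ε₁) hP hR2 hτ hν hντ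
    (hc.trans hcm3) hCC hKx hext (hclean j' hj')
  have hD := stepData_valid hP hL1 hL hR4 hbig hgain hτ hν hντ hτνδ hδ1 hε₁0.le (by linarith)
    hσ (hθ 10 le_rfl) hout hκ (hlev τ ν hτ hν.le (by linarith)) hΦ hCO hCC hKx hO'
    (hclean (j + 1) hjn) (hextr (j + 1) hjn) (hextr j hjn.le)
  have hx : (√ν / √τ) ^ P ≤ (R ^ accExp n a (m + 1) j)⁻¹ := by
    rw [hPdef, pow_mul, div_pow, Real.sq_sqrt hν.le, Real.sq_sqrt hτ.le, ← inv_pow]
    refine le_trans (pow_le_pow_left₀ (by positivity) ?_ _)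
      (pow_le_pow_of_le_one (by positivity) (inv_le_one_of_one_le₀ hR1) (hX _ _))
    rw [div_le_iff₀ hτ, inv_mul_eq_div, le_div_iff₀ hR0]
    exact hνR
  obtain ⟨op, Q, hQ, hop⟩ := stepData_op (qm := qm) hε hε₁2 hR2 hR4ε hbig' hMle hn hjn (by omega)
    hCO hCC hKx hx (hθ 5 (by norm_num)) hκ hD
  refine ⟨op, Q, hQ, hop.mono le_rfl le_rfl ?_⟩
  exact div_le_div_of_nonneg_right (by linarith) (pow_nonneg hR0.le _)

end Vale.Agent.P347
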