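import Vale.Agent.P347.RecEval
import Vale.Agent.P347.SpecsSteps

/-!
The recursion from its steps.
-/

namespace Vale.Agent.P347

theorem induction : InductionStatement := by
  intro hbase hcs hos hin n hn
  obtain ⟨qb, ab, hb⟩ := hbase hin n hn
  have key : ∀ m i, i ≤ n → ∃ q a₀, ∀ a, a₀ ≤ a → HasClean n a m i q := by
    intro m
    induction m with
    | zero => exact fun i hi => ⟨qb, ab, fun a ha => ((hb a ha).2 i hi).2⟩
    | succ m ih =>
      obtain ⟨qC, aC, hC⟩ := ih n le_rfl
      have horacle : ∀ i, i ≤ n → ∃ q a₀, ∀ a, a₀ ≤ a → HasOracle n a (m + 1) i q := by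
        intro i
        induction i with
        | zero => exact fun _ => ⟨qb, ab, fun a ha => (hb a ha).1 (m + 1)⟩
        | succ i ihi =>
          intro hi
          obtain ⟨qO, aO, hO⟩ := ihi (by omega)
          obtain ⟨qc, ac, hc⟩ := hcs hin n qO qC hn
          obtain ⟨qo, ao, ho⟩ := hos hin n (qc + 2) (qC + 2) hn
          refine ⟨qo, 11 + ac + ao + aO + aC, fun a ha => ho a (by omega) m i (by omega) ?_ ?_⟩
          · exact hasEval_of_hasClean hin.levels hin.cleanCurve hn (by omega)
              (hc a (by omega) m i (by omega) (hO a (by omega)) (hC a (by omega)))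
          · exact hasEval_of_hasClean hin.levels hin.cleanCurve hn (by omega) (hC a (by omega))
      intro i hi
      obtain ⟨qO, aO, hO⟩ := horacle i hi
      obtain ⟨qc, ac, hc⟩ := hcs hin n qO qC hn
      exact ⟨qc, ac + aO + aC, fun a ha =>
        hc a (by omega) m i hi (hO a (by omega)) (hC a (by omega))⟩
  obtain ⟨q, a₀, h⟩ := key (n ^ 2) n le_rfl
  exact ⟨q + 2, a₀ + 11, fun a ha =>
    hasEval_of_hasClean hin.levels hin.cleanCurve hn (by omega) (h a (by omega))⟩

end Vale.Agent.P347
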