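import Vale.Agent.P347.SpecsOracle
import Vale.Agent.P347.RecBase

/-!
The oracle step from its passes.
-/

namespace Vale.Agent.P347

open MeasureTheory ProbabilityTheory
open scoped Gradient

lemma exists_paths (hg : GadgetPathStatement) :
    ∃ (c₀ : ℝ) (C : ℕ → ℝ), 0 < c₀ ∧ ∀ τ a b κ : ℝ, 0 < a → a ≤ b → b < τ → τ ≤ c₀ →
      κ ^ 2 * τ ≤ 1 → κ ≠ 0 →
      (∃ Φ : PathFam, BackPath τ a b Φ C) ∧ ∃ Φ : PathFam, FwdPath τ a b κ Φ C := by
  classical
  obtain ⟨c₀, hc₀, C, hg⟩ := hg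
  refine ⟨c₀, C, hc₀, fun τ a b κ ha hab hb hτ hκ hκ0 => ⟨?_, ?_⟩⟩
  · have h : ∀ d V, Nice d V → _ := fun d V hV =>
      hg d V hV.pot hV.grad_zero τ a b 0 b ha hab hb hτ (by simp) (Or.inr rfl)
    choose F hF using h
    refine ⟨fun d V => if hV : Nice d V then F d V hV else 0, ?_⟩
    have hsel : ∀ d V (hV : Nice d V),
        (if hV : Nice d V then F d V hV else 0) = F d V hV := fun d V hV => dif_pos hV
    constructor
    · intro d V hV; simp only [hsel d V hV]; exact (hF d V hV).1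
    · intro d V hV; simp only [hsel d V hV]; exact (hF d V hV).2.1
    · intro d V hV p s hs
      simp only [hsel d V hV]
      simpa using (hF d V hV).2.2.1 p s hs
    · intro d V hV p s hs
      simp only [hsel d V hV]
      simpa using (hF d V hV).2.2.2.1 p s hs
    · intro d V hV x s hs
      simp only [hsel d V hV]
      exact (hF d V hV).2.2.2.2.1 x s hs
    · intro d V hV
      simp only [hsel d V hV]
      exact (hF d V hV).2.2.2.2.2.1
  · have h : ∀ d V, Nice d V → _ := fun d V hV =>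
      hg d V hV.pot hV.grad_zero τ a b κ a ha hab hb hτ hκ (Or.inl rfl)
    choose F hF using h
    refine ⟨fun d V => if hV : Nice d V then F d V hV else 0, ?_⟩
    have hsel : ∀ d V (hV : Nice d V),
        (if hV : Nice d V then F d V hV else 0) = F d V hV := fun d V hV => dif_pos hV
    constructor
    · intro d V hV; simp only [hsel d V hV]; exact (hF d V hV).1
    · intro d V hV; simp only [hsel d V hV]; exact (hF d V hV).2.1
    · intro d V hV p s hs
      simp only [hsel d V hV]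
      exact (hF d V hV).2.2.1 p s hs
    · intro d V hV p s hs
      simp only [hsel d V hV]
      have h := (hF d V hV).2.2.2.1 p s hs
      rwa [if_neg hκ0] at h
    · intro d V hV x s hs
      simp only [hsel d V hV]
      exact (hF d V hV).2.2.2.2.1 x s hs
    · intro d V hV
      simp only [hsel d V hV]
      exact (hF d V hV).2.2.2.2.2.1
    · intro d V hV
      simp only [hsel d V hV]
      exact (hF d V hV).2.2.2.2.2.2.1
    · intro d V hV
      simp only [hsel d V hV]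
      exact (hF d V hV).2.2.2.2.2.2.2

/-- The gradient query is an operator for the scores of small levels. -/
lemma base_score (hlev : LevelFactsStatement) :
    ∃ c₀ C : ℝ, 0 < c₀ ∧ 0 < C ∧ ∀ ε τ δ : ℝ, 0 ≤ ε → 0 ≤ δ → 0 < τ → τ ≤ c₀ →
      OpOK (Op.base δ) 1 ε (scoreFam τ) (levelFam τ) 0 δ (C * √τ) := by
  obtain ⟨c, C, hc, hC, hlev⟩ := hlev
  refine ⟨c, C, hc, hC, fun ε τ δ hε hδ hτ hτc =>
    ((OpOK.base hε hδ).shift (E' := C * √τ) fun d V hV => ?_).mono le_rfl le_rfl (by simp)⟩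
  obtain ⟨h1, -, h3, h4⟩ := hlev d V hV.pot hV.grad_zero
  obtain ⟨hp, hmom, -, -⟩ := h1 τ hτ.le hτc
  obtain ⟨hdiff, -, -, -, hlip, hzero, -⟩ := h3 τ 0 hτ le_rfl (by linarith)
  have he : ∀ y, scoreFam τ d V y = scoreAvg V τ 0 y := fun y => (hzero y).symm
  have hsc : Continuous (scoreFam τ d V) := hdiff.continuous.congr fun y => (he y).symm
  have hn1 : Integrable (fun y => ‖y‖) (levelLaw V τ) := by simpa using hmom 1
  have hint : Integrable (fun y => ‖∇ V y - scoreFam τ d V y‖) (levelFam τ d V) := by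
    refine (((integrable_const (‖scoreAvg V τ 0 0‖)).add (hn1.const_mul 4))).mono'
      (hV.oracle.continuous.sub hsc).norm.aestronglyMeasurable (.of_forall fun y => ?_)
    rw [norm_norm, he]
    refine (norm_sub_le _ _).trans ?_
    have a1 : ‖∇ V y‖ ≤ 2 * ‖y‖ := by simpa [hV.grad_zero] using hV.oracle.lip y 0
    have a2 : ‖scoreAvg V τ 0 y‖ ≤ ‖scoreAvg V τ 0 0‖ + 2 * ‖y‖ := by
      refine (norm_le_norm_add_norm_sub' _ (scoreAvg V τ 0 0)).trans ?_
      simpa using hlip y 0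
    simp only [Pi.add_apply]
    linarith
  refine ⟨hint, ?_⟩
  simp only [norm_sub_rev (∇ V _)]
  refine (h4 τ hτ hτc).trans ?_
  rw [mul_right_comm C _ (dimFac d)]
  exact mul_le_mul_of_nonneg_right
    (mul_le_mul_of_nonneg_left (le_self_pow₀ (by simp) (by norm_num)) hC.le) (Real.sqrt_nonneg _)

theorem oracleStep_of (hback : BackPassStatement) (hfwd : ForwardStatement)
    (hclose : GadgetCloseStatement) : OracleStepStatement := by
  intro hin n qE qE' hn
  obtain ⟨qB, aB, hB⟩ := hback hin n qE' hn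
  obtain ⟨qF, aF, hF⟩ := hfwd hin n qE qE' qB hn
  obtain ⟨c₁, Cpath, hc₁, hpaths⟩ := exists_paths hin.gadget
  obtain ⟨c₂, K, hc₂, hK, hclose⟩ := hclose hin
  obtain ⟨c₃, Cbase, hc₃, hCbase, hbase⟩ := base_score hin.levels
  refine ⟨qF, max (max aB aF) (lossC n + 11), fun a ha m i hi hE hE' ε hε => ?_⟩
  simp only [max_le_iff] at ha
  obtain ⟨⟨haB, haF⟩, haL⟩ := ha
  obtain ⟨C₁, R₁, hC₁, hR₁, hB⟩ := hB a haB m hE' Cpath ε hε
  obtain ⟨C₂, R₂, hC₂, hR₂, hF⟩ := hF a haF m i hi hE hE' Cpath Cpath C₁ ε hε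
  have hna : 11 ≤ 4 * n * a := by
    have : 1 * a ≤ n * a := Nat.mul_le_mul_right a hn
    rw [mul_assoc]; omega
  set e₀ := topExp n a 0 with he₀
  set c := min (min c₁ c₂) c₃ with hc
  have hcpos : 0 < c := lt_min (lt_min hc₁ hc₂) hc₃
  refine ⟨max Cbase (C₂ + 2 * K), max (max R₁ R₂) (max (1 / c) (2 ^ (m + 1) * 2)),
    le_max_of_le_left hCbase.le, le_max_of_le_left (le_max_of_le_left hR₁), ?_⟩
  intro R hR j τ δ hj hτ htop hwin hδ
  simp only [max_le_iff] at hR
  obtain ⟨⟨hR₁', hR₂'⟩, hRc, hRm⟩ := hR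
  have hm1 : (1 : ℝ) ≤ 2 ^ (m + 1) := one_le_pow₀ one_le_two
  have hR2 : 2 ≤ R := le_trans (by nlinarith) hRm
  have hR0 : 0 < R := by linarith
  have hR1 : 1 ≤ R := by linarith
  have hτtop := le_topLevel hR1 (Nat.succ_le_iff.2 hi) hna hτ.le htop
  have hτR : τ ≤ R⁻¹ := hτtop.trans (inv_anti₀ hR0 (le_self_pow₀ hR1 (by omega)))
  have hτc : τ ≤ c := hτR.trans (by
    rw [inv_le_comm₀ hR0 hcpos, ← one_div]; exact hRc)
  have hδ0 : 0 ≤ δ := by
    by_contra hneg
    have := lad_pos hR0 a j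
    have := mul_neg_of_pos_of_neg (pow_pos hR0 (4 * (n - (i + 1)) + 4)) (not_le.1 hneg)
    linarith
  have hQ1 : ((1 : ℕ) : ℝ) ≤ R ^ qF := by rw [Nat.cast_one]; exact one_le_pow₀ hR1
  by_cases hcase : j = n ∨ τ < (R ^ (e₀ + 1))⁻¹
  · refine ⟨Op.base δ, 1, hQ1, (hbase ε τ δ hε.le hδ0 hτ
      (hτc.trans (min_le_right _ _))).mono le_rfl le_rfl ?_⟩
    have hsq : √τ ≤ (R ^ accExp n a (m + 1) j)⁻¹ := by
      refine Real.sqrt_le_iff.2 ⟨by positivity, ?_⟩
      rw [inv_pow, ← pow_mul]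
      rcases hcase with hjn | hlt
      · rw [accExp_top n a j (Or.inl hjn), zero_mul, pow_zero, inv_one]
        exact hτR.trans (inv_le_one_of_one_le₀ hR1)
      · refine hlt.le.trans (inv_anti₀ (by positivity) (pow_le_pow_right₀ hR1 ?_))
        have := two_mul_accExp_le n a (m + 1) j hn (by omega)
        omega
    rw [div_eq_mul_inv]
    exact mul_le_mul (le_max_left _ _) hsq (Real.sqrt_nonneg _)
      (le_max_of_le_left hCbase.le)
  · push Not at hcase
    obtain ⟨hjn, hτlow⟩ := hcase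
    have hj' : j < n := lt_of_le_of_ne hj hjn
    have hδpos : 0 < δ := by
      rcases hδ0.lt_or_eq with h | h
      · exact h
      · rw [← h, mul_zero] at hwin
        linarith [lad_pos hR0 a j]
    have hτδ : τ ≤ δ := by
      have h := level_mul_le (i := i + 1) (k := 0) hR1 hj' haL (Nat.zero_le _) hτtop hwin
      exact le_trans (le_mul_of_one_le_right hτ.le (one_le_pow₀ hR1)) h
    set low := gadgetLow τ R with hlow
    set s₁ := gadgetGap n a τ R with hs₁
    have hlow0 : 0 < low := by simp only [hlow, gadgetLow]; positivity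
    have hs10 : 0 < s₁ := by simp only [hs₁, gadgetGap]; positivity
    have he10 : 10 ≤ e₀ := topExp_ge_ten n a 0
    have hs12 : 2 * s₁ ≤ τ := by
      simp only [hs₁, gadgetGap]
      rw [mul_div_assoc', div_le_iff₀ (by positivity), mul_comm]
      gcongr
      exact hR2.trans (le_self_pow₀ hR1 (by omega))
    have hlow2 : 2 * low < τ := by
      have h1 : τ ≤ (R ^ 9)⁻¹ := hτtop.trans (inv_anti₀ (by positivity)
        (pow_le_pow_right₀ hR1 (by omega)))
      have h2 : τ * R ^ 8 ≤ R⁻¹ := by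
        refine (mul_le_mul_of_nonneg_right h1 (by positivity)).trans (le_of_eq ?_)
        field_simp
      have hR4 : 4 ≤ R := le_trans (by
        have : (2 : ℝ) ≤ 2 ^ (m + 1) := le_self_pow₀ one_le_two (by omega)
        linarith) hRm
      have h3 : R⁻¹ ≤ 1 / 4 := by rw [one_div]; exact inv_anti₀ (by norm_num) hR4
      have h4 : low = τ * (τ * R ^ 8) := by simp only [hlow, gadgetLow]; ring
      have h5 : τ * (τ * R ^ 8) ≤ τ * (1 / 4) :=
        mul_le_mul_of_nonneg_left (h2.trans h3) hτ.le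
      linarith
    have hlb : low ≤ τ - s₁ := by linarith
    set κ := -(1 / (2 * √(δ / 2))) with hκ
    have hκτ : κ ^ 2 * τ ≤ 1 := by
      rw [hκ, neg_sq, div_pow, one_pow, mul_pow, Real.sq_sqrt (by positivity), div_mul_eq_mul_div,
        one_mul, div_le_one (by positivity)]
      linarith
    have hκ0 : κ ≠ 0 := by
      rw [hκ, neg_ne_zero]; positivity
    obtain ⟨⟨Φb, hΦb⟩, Φf, hΦf⟩ := hpaths τ low (τ - s₁) κ hlow0 hlb (by linarith)
      ((hτc.trans (min_le_left _ _)).trans (min_le_left _ _)) hκτ hκ0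
    obtain ⟨Tb, Qb, hQb, hTb⟩ := hB R hR₁' j τ hj' hτlow
      (htop.trans (topLevel_mono hR1 n a (Nat.succ_le_iff.2 hi))) Φb hΦb
    obtain ⟨T, Q, c₀, S, S₀, hQ, hS, hS₀, hT⟩ :=
      hF R hR₂' j τ δ hj' hτlow htop hwin hδ Φb Φf hΦb hΦf Tb Qb hQb hTb
    have hRm1 : low < τ - s₁ := by linarith
    obtain ⟨op, hop⟩ := hclose τ low s₁ δ Φb Φf κ Cpath Cpath T Q c₀ S S₀ ε _ hlow0 hRm1 hs10
      hs12 ((hτc.trans (min_le_left _ _)).trans (min_le_right _ _)) hδ0 hΦb hΦf hT hS hε.le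
    refine ⟨op, Q, hQ, hop.mono le_rfl le_rfl ?_⟩
    have hsq : √s₁ ≤ (R ^ e₀)⁻¹ := by
      refine Real.sqrt_le_iff.2 ⟨by positivity, ?_⟩
      rw [inv_pow, ← pow_mul, hs₁, gadgetGap, mul_comm e₀ 2, div_eq_mul_inv]
      exact mul_le_of_le_one_left (by positivity) (hτR.trans (inv_le_one_of_one_le₀ hR1))
    have h6 : (1 + (|c₀| + S₀)) * √s₁ ≤ 2 * (R ^ accExp n a (m + 1) j)⁻¹ := by
      refine (mul_le_mul_of_nonneg_right (by linarith : 1 + (|c₀| + S₀) ≤ 2 * R)
        (Real.sqrt_nonneg _)).trans ?_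
      rw [mul_assoc]
      refine mul_le_mul_of_nonneg_left ?_ zero_le_two
      calc R * √s₁ ≤ R * (R ^ e₀)⁻¹ := mul_le_mul_of_nonneg_left hsq hR0.le
        _ ≤ R * (R ^ (accExp n a (m + 1) j + 1))⁻¹ := by
            gcongr
            have := two_mul_accExp_le n a (m + 1) j hn (by omega); omega
        _ = _ := by rw [pow_succ]; field_simp
    rw [div_eq_mul_inv, div_eq_mul_inv, mul_assoc K]
    have h7 : K * ((1 + (|c₀| + S₀)) * √s₁) ≤ K * (2 * (R ^ accExp n a (m + 1) j)⁻¹) :=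
      mul_le_mul_of_nonneg_left h6 hK
    have h8 : (C₂ + 2 * K) * (R ^ accExp n a (m + 1) j)⁻¹
        ≤ max Cbase (C₂ + 2 * K) * (R ^ accExp n a (m + 1) j)⁻¹ := by
      gcongr; exact le_max_right _ _
    linarith

end Vale.Agent.P347
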