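import Vale.Agent.P347.Poincare
import Vale.Agent.P347.TensorFinal
import Vale.Agent.P347.LevelFacts
import Vale.Agent.P347.Smoothing
import Vale.Agent.P347.Kernel
import Vale.Agent.P347.Curves
import Vale.Agent.P347.PathLevel
import Vale.Agent.P347.PathGadgetBound
import Vale.Agent.P347.OracleClass
import Vale.Agent.P347.ChainRealise
import Vale.Agent.P347.ChainExpr
import Vale.Agent.P347.Outer
import Vale.Agent.P347.RecBase
import Vale.Agent.P347.RecInduct
import Vale.Agent.P347.RecOracle
import Vale.Agent.P347.BackPass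
import Vale.Agent.P347.GadgetClose
import Vale.Agent.P347.PathCleanBound
import Vale.Agent.P347.RecClean
import Vale.Agent.P347.Forward

/-!
Assembly of the dimension exponent.
-/

namespace Vale.Agent.P347

open Filter Topology

/-- Samplers with `d ^ o(1)` queries. -/
theorem samplers :
    ∀ ε : ℝ, 0 < ε → ∀ᶠ d : ℕ in atTop, ∃ (q : ℕ) (A : Algorithm d q),
      (q : ℝ) ≤ (d : ℝ) ^ ε ∧ A.Samples := by
  have hin : Inputs :=
    { levels := levelFacts
      kernel := kernelFacts
      cleanCurve := cleanCurves (tensorBound poincare)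
      extractCurve := extractCurves (tensorBound poincare)
      gadget := gadgetPath
      cleanPath := cleanPath
      levelFlow := levelFlow }
  exact outer (induction base cleanStep (oracleStep_of backPass forward gadgetClose) hin) hin smoothing oracleClass
    realiseChain reductionChain chainStep

/-- Samplers with `d ^ o(1)` queries force `log Q(d) / log d → 0`. -/
theorem tendsto_exponent (h : ∀ ε : ℝ, 0 < ε → ∀ᶠ d : ℕ in atTop, ∃ (q : ℕ) (A : Algorithm d q),
      (q : ℝ) ≤ (d : ℝ) ^ ε ∧ A.Samples) :
    Tendsto (fun d : ℕ => Real.log (queryComplexity d) / Real.log d) atTop (𝓝 0) := by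
  rw [Metric.tendsto_nhds]
  intro ε hε
  filter_upwards [h (ε / 2) (by linarith), eventually_ge_atTop 2] with d hd hd2
  obtain ⟨q, A, hq, hA⟩ := hd
  have hd1 : (1 : ℝ) < (d : ℝ) := by exact_mod_cast hd2
  have hlog : 0 < Real.log d := Real.log_pos hd1
  have hQ : queryComplexity d ≤ q := Nat.sInf_le ⟨A, hA⟩
  have h0 : 0 ≤ Real.log (queryComplexity d) := Real.log_natCast_nonneg _
  rw [Real.dist_eq, sub_zero, abs_of_nonneg (div_nonneg h0 hlog.le), div_lt_iff₀ hlog]
  rcases Nat.eq_zero_or_pos (queryComplexity d) with hz | hpos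
  · rw [hz]; simp only [Nat.cast_zero, Real.log_zero]; positivity
  have h1 : Real.log (queryComplexity d) ≤ Real.log ((d : ℝ) ^ (ε / 2)) :=
    Real.log_le_log (by exact_mod_cast hpos) (le_trans (by exact_mod_cast hQ) hq)
  rw [Real.log_rpow (by linarith)] at h1
  nlinarith

/-- Samplers with `d ^ o(1)` queries force the dimension exponent to vanish. -/
theorem dimensionExponent_of (h : ∀ ε : ℝ, 0 < ε → ∀ᶠ d : ℕ in atTop,
      ∃ (q : ℕ) (A : Algorithm d q), (q : ℝ) ≤ (d : ℝ) ^ ε ∧ A.Samples) :
    dimensionExponent = 0 :=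
  (tendsto_exponent h).limsup_eq

end Vale.Agent.P347
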