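import Vale.Agent.P347.EngineClose
import Vale.Agent.P347.Interfaces

/-!
Operators and bodies with guarantees uniform in the dimension and the potential.
-/

namespace Vale.Agent.P347

open MeasureTheory ProbabilityTheory
open scoped Gradient

/-- Smooth potentials of the class, normalised at the origin. -/
structure Nice (d : ℕ) (V : Euc d → ℝ) : Prop where
  /-- smooth with Hessian in `[1, 2]` -/
  pot : NicePot d V 1 2
  /-- the minimiser is the origin -/
  grad_zero : ∇ V 0 = 0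
  /-- the gradient is a gradient oracle of the class -/
  oracle : Oracle (∇ V)

/-- A vector field for each dimension and potential. -/
abbrev FieldFam : Type := (d : ℕ) → (Euc d → ℝ) → Euc d → Euc d

/-- A measure for each dimension and potential. -/
abbrev MeasFam : Type := (d : ℕ) → (Euc d → ℝ) → Measure (Euc d)

/-- The random space of anchor and slots. -/
abbrev Rand (d : ℕ) : Type := Euc d × (Fin 3 → Euc d)

/-- A law of anchor and slots for each dimension and potential. -/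
abbrev RandFam : Type := (d : ℕ) → (Euc d → ℝ) → Measure (Rand d)

/-- A random vector for each dimension and potential. -/
abbrev VarFam : Type := (d : ℕ) → (Euc d → ℝ) → Rand d → Euc d

/-- The unit of the error bounds. -/
def dimFac (d : ℕ) : ℝ := ((d : ℝ) + 1) ^ 3

lemma one_le_dimFac (d : ℕ) : 1 ≤ dimFac d :=
  one_le_pow₀ (by simp)

lemma dimFac_nonneg (d : ℕ) : 0 ≤ dimFac d := zero_le_one.trans (one_le_dimFac d)

/-- An operator with query blow-up `Q`, centred at `3/2` within `1/2 + ε`, sampling `N(u y, δ)`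
from samples of `N(y, v)` with error `E * (d + 1) ^ 3`. -/
structure OpOK (op : Op) (Q : ℕ) (ε : ℝ) (u : FieldFam) (μ : MeasFam) (v δ E : ℝ) : Prop where
  /-- queries -/
  cost : op.Cost Q
  /-- stability -/
  stable : ∀ d, op.Stable d (3 / 2) (1 / 2 + ε) (2 + ε)
  /-- accuracy -/
  evals : ∀ d V, Nice d V → op.Evals (∇ V) (u d V) (μ d V) v δ (2 + ε) (E * dimFac d)

/-- The context of a law of anchor and slots. -/
def ctx {d : ℕ} (P : Measure (Rand d)) (ν : ℝ) : Ctx d (Rand d) := ⟨P, Prod.fst, ν, Prod.snd⟩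

/-- A body with query blow-up `Q`, centres `c`, `c₀` within `S`, `S₀`, sampling `N(X, v)` with
error `E * (d + 1) ^ 3`. -/
structure Node (P : RandFam) (ν : ℝ) (T : Body) (Q : ℕ) (c c₀ S S₀ : ℝ) (X : VarFam) (v E : ℝ) :
    Prop where
  /-- queries -/
  cost : T.Cost Q
  /-- the spreads are nonnegative -/
  spread_nonneg : 0 ≤ S ∧ 0 ≤ S₀
  /-- stability -/
  stable : ∀ d, ∃ σ, 0 ≤ σ ∧ T.Stable d ⟨c, S, |c| + S, c₀, S₀, σ⟩
  /-- accuracy -/
  track : ∀ d V, Nice d V →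
    Track (∇ V) (ctx (P d V) ν) T (X d V) v (|c| + S) (E * dimFac d)

namespace Node

variable {P : RandFam} {ν : ℝ} {T : Body} {Q : ℕ} {c c₀ S S₀ : ℝ} {X : VarFam} {v E : ℝ}

lemma mono (h : Node P ν T Q c c₀ S S₀ X v E) {Q' : ℕ} {S' S₀' E' : ℝ} (hQ : Q ≤ Q') (hS : S ≤ S')
    (hS₀ : S₀ ≤ S₀') (hE : E ≤ E') : Node P ν T Q' c c₀ S' S₀' X v E' where
  cost := h.cost.mono hQ
  spread_nonneg := ⟨h.spread_nonneg.1.trans hS, h.spread_nonneg.2.trans hS₀⟩
  stable d := by
    obtain ⟨σ, hσ, hs⟩ := h.stable d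
    exact ⟨σ, hσ, hs.mono hS (by linarith) hS₀ le_rfl⟩
  track d V hV := (h.track d V hV).mono (by linarith)
    (mul_le_mul_of_nonneg_right hE (dimFac_nonneg d))

/-- Move both centres to `0`. -/
lemma recentre0 (h : Node P ν T Q c c₀ S S₀ X v E) :
    Node P ν T Q 0 0 (|c| + S) (|c₀| + S₀) X v E where
  cost := h.cost
  spread_nonneg := by obtain ⟨h1, h2⟩ := h.spread_nonneg; constructor <;> positivity
  stable d := by
    obtain ⟨σ, hσ, hs⟩ := h.stable d
    exact ⟨σ, hσ, (hs.recentre 0 0).mono (β' := |c| + S) (Λ' := |(0 : ℝ)| + (|c| + S))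
      (β₀' := |c₀| + S₀) (σ' := σ) (by simp [add_comm]) (by simp) (by simp [add_comm]) le_rfl⟩
  track d V hV := (h.track d V hV).mono (by simp) le_rfl

lemma shift (h : Node P ν T Q c c₀ S S₀ X v E) {X' : VarFam} {E' : ℝ}
    (h' : ∀ d V, Nice d V → Integrable (fun ω => ‖X d V ω - X' d V ω‖) (P d V) ∧
      ∫ ω, ‖X d V ω - X' d V ω‖ ∂(P d V) ≤ E' * dimFac d) :
    Node P ν T Q c c₀ S S₀ X' v (E + E') where
  cost := h.cost
  spread_nonneg := h.spread_nonneg
  stable := h.stable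
  track d V hV := by
    rw [add_mul]
    exact (h.track d V hV).shift (C := ctx (P d V) ν) (h' d V hV).1 (h' d V hV).2

lemma congr (h : Node P ν T Q c c₀ S S₀ X v E) {X' : VarFam}
    (h' : ∀ d V, Nice d V → ∀ ω, X d V ω = X' d V ω) : Node P ν T Q c c₀ S S₀ X' v E where
  cost := h.cost
  spread_nonneg := h.spread_nonneg
  stable := h.stable
  track d V hV := by rw [← funext (h' d V hV)]; exact h.track d V hV

lemma anchor (hν : 0 ≤ ν) :
    Node P ν Body.anchor 1 1 0 0 0 (fun _ _ ω => ω.1) ν 0 where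
  cost := Body.cost_anchor
  spread_nonneg := ⟨le_rfl, le_rfl⟩
  stable d := ⟨0, le_rfl, by simpa using Body.stable_anchor (d := d)⟩
  track d V _ := by
    have h : Track (∇ V) (ctx (P d V) ν) Body.anchor Prod.fst ν 1 0 :=
      Track.anchor (G := ∇ V) (C := ctx (P d V) ν) hν
    simpa using h

lemma slot0 : Node P ν (Body.slot 0) 1 0 1 0 0 (fun _ _ ω => ω.2 0) 0 0 where
  cost := Body.cost_slot 0
  spread_nonneg := ⟨le_rfl, le_rfl⟩
  stable d := ⟨0, le_rfl, by simpa using Body.stable_slot_zero (d := d)⟩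
  track d V _ := by
    have h : Track (∇ V) (ctx (P d V) ν) (Body.slot 0) (fun ω => ω.2 0) 0 0 0 :=
      Track.slot (G := ∇ V) (C := ctx (P d V) ν) 0
    simpa using h

lemma slot (i : Fin 3) (hi : i ≠ 0) :
    Node P ν (Body.slot i) 1 0 0 0 0 (fun _ _ ω => ω.2 i) 0 0 where
  cost := Body.cost_slot i
  spread_nonneg := ⟨le_rfl, le_rfl⟩
  stable d := ⟨1, zero_le_one, by
    obtain rfl | rfl : i = 1 ∨ i = 2 := by fin_cases i <;> simp_all
    · simpa using Body.stable_slot_one (d := d)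
    · simpa using Body.stable_slot_two (d := d)⟩
  track d V _ := by
    have h : Track (∇ V) (ctx (P d V) ν) (Body.slot i) (fun ω => ω.2 i) 0 0 0 :=
      Track.slot (G := ∇ V) (C := ctx (P d V) ν) i
    simpa using h

lemma noise {s : ℝ} (hs : 0 ≤ s) : Node P ν (Body.noise s) 0 0 0 0 0 (fun _ _ _ => 0) s 0 where
  cost := Body.cost_noise
  spread_nonneg := ⟨le_rfl, le_rfl⟩
  stable d := ⟨0, le_rfl, by simpa using Body.stable_noise (d := d) (s := s)⟩
  track d V _ := by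
    have h : Track (∇ V) (ctx (P d V) ν) (Body.noise s) (fun _ => 0) s 0 0 :=
      Track.noise (G := ∇ V) (C := ctx (P d V) ν) hs
    simpa using h

lemma app (h : Node P ν T Q c c₀ S S₀ X v E) {op : Op} {Q₂ : ℕ} {ε : ℝ} (hε : 0 ≤ ε)
    {u : FieldFam} {μ : MeasFam} {δ E₂ : ℝ} (ho : OpOK op Q₂ ε u μ v δ E₂) (hδ : 0 ≤ δ)
    (hX : ∀ d V, Nice d V → AEMeasurable (X d V) (P d V) ∧ (P d V).map (X d V) = μ d V) :
    Node P ν (Body.app op T) (Q₂ * (1 + Q)) (3 / 2 * c) (3 / 2 * c₀)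
      ((2 + ε) * S + (1 / 2 + ε) * |c|) ((2 + ε) * S₀ + (1 / 2 + ε) * |c₀|)
      (fun d V ω => u d V (X d V ω)) δ ((2 + ε) * E + E₂) where
  cost := Body.Cost.app ho.cost h.cost
  spread_nonneg := by obtain ⟨h1, h2⟩ := h.spread_nonneg; constructor <;> positivity
  stable d := by
    obtain ⟨σ, hσ, hs⟩ := h.stable d
    refine ⟨(2 + ε) * σ, by positivity, ?_⟩
    exact (Body.Stable.app (ho.stable d) (by linarith) hs).mono (le_of_eq (by ring))
      (le_of_eq (by simp only [abs_mul]; norm_num; ring)) (le_of_eq (by ring)) le_rfl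
  track d V hV := by
    have h2 := Track.app (C := ctx (P d V) ν) hδ (ho.evals d V hV) (h.track d V hV)
      (hX d V hV).1 (hX d V hV).2
    exact h2.mono (le_of_eq (by simp only [abs_mul]; norm_num; ring)) (le_of_eq (by ring))

lemma comb {n : ℕ} {a : Fin n → ℝ} {Ts : Fin n → Body} {Qs : Fin n → ℕ}
    {cs cs₀ Ss Ss₀ : Fin n → ℝ} {Xs : Fin n → VarFam} {vs Es : Fin n → ℝ}
    (h : ∀ i, Node P ν (Ts i) (Qs i) (cs i) (cs₀ i) (Ss i) (Ss₀ i) (Xs i) (vs i) (Es i))
    {X' : VarFam} (hX : ∀ d V, Nice d V → ∀ ω, ∑ i, a i • Xs i d V ω = X' d V ω)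
    {c' c₀' x v' : ℝ} (hc : ∑ i, a i * cs i = c') (hc₀ : ∑ i, a i * cs₀ i = c₀') (hx : 0 ≤ x)
    (habs : ∑ i, |a i| * |cs i| ≤ |c'| + x)
    (hv : ∑ i, a i ^ 2 * vs i ≤ v') :
    Node P ν (Body.comb n a Ts (v' - ∑ i, a i ^ 2 * vs i)) (∑ i, Qs i) c' c₀'
      (∑ i, |a i| * Ss i + x) (∑ i, |a i| * Ss₀ i) X' v' (∑ i, |a i| * Es i) := by
  subst hc hc₀
  have hS : 0 ≤ ∑ i, |a i| * Ss i :=
    Finset.sum_nonneg fun i _ => mul_nonneg (abs_nonneg _) (h i).spread_nonneg.1
  have hS₀ : 0 ≤ ∑ i, |a i| * Ss₀ i :=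
    Finset.sum_nonneg fun i _ => mul_nonneg (abs_nonneg _) (h i).spread_nonneg.2
  have hL : ∑ i, |a i| * (|cs i| + Ss i)
      ≤ |∑ i, a i * cs i| + (∑ i, |a i| * Ss i + x) := by
    simp only [mul_add, Finset.sum_add_distrib]
    linarith
  refine ⟨Body.Cost.comb fun i => (h i).cost, ⟨by linarith, hS₀⟩, fun d => ?_, fun d V hV => ?_⟩
  · choose σ hσ hs using fun i => (h i).stable d
    refine ⟨∑ i, |a i| * σ i, Finset.sum_nonneg fun i _ => mul_nonneg (abs_nonneg _) (hσ i), ?_⟩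
    exact (Body.Stable.comb hs).mono (by simp; linarith) hL (by simp) le_rfl
  · have h2 := Track.comb (C := ctx (P d V) ν) hV.oracle (c := a) (sub_nonneg.2 hv)
      fun i => (h i).track d V hV
    simp only [sub_add_cancel] at h2
    rw [funext (hX d V hV)] at h2
    exact h2.mono hL (le_of_eq (by simp [Finset.sum_mul, mul_assoc]))

/-- Combination of bodies centred at `0`. -/
lemma comb0 {n : ℕ} {a : Fin n → ℝ} {Ts : Fin n → Body} {Qs : Fin n → ℕ} {Ss Ss₀ : Fin n → ℝ}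
    {Xs : Fin n → VarFam} {vs Es : Fin n → ℝ}
    (h : ∀ i, Node P ν (Ts i) (Qs i) 0 0 (Ss i) (Ss₀ i) (Xs i) (vs i) (Es i))
    {X' : VarFam} (hX : ∀ d V, Nice d V → ∀ ω, ∑ i, a i • Xs i d V ω = X' d V ω) {v' : ℝ}
    (hv : ∑ i, a i ^ 2 * vs i ≤ v') :
    Node P ν (Body.comb n a Ts (v' - ∑ i, a i ^ 2 * vs i)) (∑ i, Qs i) 0 0
      (∑ i, |a i| * Ss i) (∑ i, |a i| * Ss₀ i) X' v' (∑ i, |a i| * Es i) := by
  have h2 := Node.comb (x := 0) h hX (c' := 0) (c₀' := 0) (by simp) (by simp) le_rfl (by simp) hv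
  simpa using h2

/-- Raise the variance by independent noise. -/
lemma pad (h : Node P ν T Q c c₀ S S₀ X v E) {v' : ℝ} (hv : v ≤ v') :
    ∃ T', Node P ν T' Q c c₀ S S₀ X v' E := by
  have h2 := Node.comb (n := 1) (a := ![1]) (Ts := ![T]) (Qs := ![Q]) (cs := ![c]) (cs₀ := ![c₀])
    (Ss := ![S]) (Ss₀ := ![S₀]) (Xs := ![X]) (vs := ![v]) (Es := ![E]) (Fin.forall_fin_one.2 h)
    (X' := X) (fun d V _ ω => by simp) (c' := c) (c₀' := c₀) (x := 0) (v' := v') (by simp)
    (by simp) le_rfl (by simp) (by simpa using hv)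
  simp only [Fin.sum_univ_one, Matrix.cons_val_zero, abs_one, one_mul, add_zero] at h2
  exact ⟨_, h2⟩

end Node

namespace OpOK

variable {op : Op} {Q : ℕ} {ε : ℝ} {u : FieldFam} {μ : MeasFam} {v δ E : ℝ}

lemma mono (h : OpOK op Q ε u μ v δ E) {Q' : ℕ} {ε' E' : ℝ} (hQ : Q ≤ Q') (hε : ε ≤ ε')
    (hE : E ≤ E') : OpOK op Q' ε' u μ v δ E' where
  cost := h.cost.mono hQ
  stable d := (h.stable d).mono (by linarith) (by linarith)
  evals d V hV := (h.evals d V hV).mono (by linarith)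
    (mul_le_mul_of_nonneg_right hE (dimFac_nonneg d))

lemma shift (h : OpOK op Q ε u μ v δ E) {u' : FieldFam} {E' : ℝ}
    (h' : ∀ d V, Nice d V → Integrable (fun y => ‖u d V y - u' d V y‖) (μ d V) ∧
      ∫ y, ‖u d V y - u' d V y‖ ∂(μ d V) ≤ E' * dimFac d) :
    OpOK op Q ε u' μ v δ (E + E') where
  cost := h.cost
  stable := h.stable
  evals d V hV := by
    rw [add_mul]
    exact (h.evals d V hV).shift (h' d V hV).1 (h' d V hV).2

end OpOK

end Vale.Agent.P347
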