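import Vale.Agent.P347.Node

/-!
Building uniform operators: the base operator, padding, combinations, closing a body.
-/

namespace Vale.Agent.P347

open MeasureTheory ProbabilityTheory
open scoped Gradient

lemma gN_zero_one {d : ℕ} : gN (0 : Euc d) 1 = gauss d := by
  simp [gN]

lemma law_noiseOp_one {d k : ℕ} {G : Euc d → Euc d} (p : Expr k) (x : Fin k → Euc d) :
    ((Op.noiseOp 1).run p).law G x = gauss d := by
  rw [← gN_zero_one (d := d)]
  exact Expr.law_scaled_noise 1 x

namespace OpOK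

variable {op : Op} {Q : ℕ} {ε : ℝ} {u : FieldFam} {μ : MeasFam} {v δ E : ℝ}

/-- The gradient query is an operator of the class. -/
lemma base (hε : 0 ≤ ε) (hδ : 0 ≤ δ) :
    OpOK (Op.base δ) 1 ε (fun _ V => ∇ V) μ 0 δ 0 where
  cost := Op.cost_base
  stable d := Op.stable_base.mono (by linarith) (by linarith)
  evals d V hV := (Op.evals_base hV.oracle hδ).mono (by linarith) (by simp)

/-- Accept samples of smaller variance. -/
lemma padIn (h : OpOK op Q ε u μ v δ E) {v' : ℝ} (hv' : 0 ≤ v') (hv : v' ≤ v) :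
    ∃ op', OpOK op' (Q * 2) ε u μ v' δ E := by
  refine ⟨Op.comp op (Op.pad (v - v')), ?_, fun d => ?_, fun d V hV => ?_⟩
  · exact h.cost.comp Op.cost_pad
  · have h2 := (h.stable d).comp (Op.stable_pad (δ := v - v') (d := d))
    simpa using h2
  · have h1 := Op.evals_pad (G := ∇ V) (μ := μ d V) hV.oracle (sub_nonneg.2 hv) hv'
    rw [show v' + (v - v') = v by ring] at h1
    have h2 := h.evals d V hV
    rw [← Measure.map_id (μ := μ d V)] at h2
    have h3 := Op.Evals.comp h2 h1 aemeasurable_id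
    simpa using h3

/-- Linear combination with coefficients summing to one. -/
lemma comb {n : ℕ} {a : Fin n → ℝ} {ops : Fin n → Op} {us : Fin n → FieldFam}
    {Qs : Fin n → ℕ} {δs Es : Fin n → ℝ}
    (h : ∀ i, OpOK (ops i) (Qs i) ε (us i) μ v (δs i) (Es i))
    (hδs : ∀ i, 0 ≤ δs i) (h1 : ∑ i, a i = 1) {ε' δ' : ℝ}
    (hε' : (∑ i, |a i|) * (2 + ε) ≤ 2 + ε')
    (hδ' : ∑ i, a i ^ 2 * δs i ≤ δ') :
    OpOK (Op.comb n a ops (δ' - ∑ i, a i ^ 2 * δs i)) (∑ i, Qs i) ε'
      (fun d V y => ∑ i, a i • us i d V y) μ v δ' (∑ i, |a i| * Es i) where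
  cost := Op.Cost.comb fun i => (h i).cost
  stable d := by
    have h2 := (Op.Stable.comb (δ := δ' - ∑ i, a i ^ 2 * δs i) (c := a)
      fun i => (h i).stable d)
    simp only [← Finset.sum_mul, h1, one_mul] at h2
    have h3 : (1 : ℝ) ≤ ∑ i, |a i| := h1 ▸ Finset.sum_le_sum fun i _ => le_abs_self (a i)
    exact h2.mono (by nlinarith) hε'
  evals d V hV := by
    have h2 := Op.Evals.comb (c := a) hV.oracle (sub_nonneg.2 hδ') hδs fun i => (h i).evals d V hV
    simp only [sub_add_cancel, ← Finset.sum_mul] at h2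
    exact h2.mono hε' (le_of_eq (by simp [Finset.sum_mul, mul_assoc]))

end OpOK

namespace Node

variable {P : RandFam} {ν : ℝ} {T : Body} {Q : ℕ} {c c₀ S S₀ : ℝ} {X : VarFam} {v E : ℝ}

/-- The slot kernels with a given law in slot `0` and Gaussian laws in the others. -/
noncomputable def kern3 {d : ℕ} (K : Euc d → Measure (Euc d)) (y : Euc d) :
    Fin 3 → Measure (Euc d) := ![K y, gauss d, gauss d]

lemma prob_kern3 {d : ℕ} {K : Euc d → Measure (Euc d)} (hK : ∀ y, IsProbabilityMeasure (K y))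
    (y : Euc d) (j : Fin 3) : IsProbabilityMeasure (kern3 K y j) := by
  fin_cases j <;> simp [kern3] <;> infer_instance

lemma moment_kern3 {d : ℕ} {K : Euc d → Measure (Euc d)}
    (hK : ∀ y, Integrable (fun s => ‖s‖) (K y)) (y : Euc d) (j : Fin 3) :
    Integrable (fun s => ‖s‖) (kern3 K y j) := by
  fin_cases j <;> simp [kern3, hK, gauss_integrable_norm]

/-- Fill slot `0` with the anchor's sampler and the others with noise. -/
lemma closeAnchor (h : Node P ν T Q c c₀ S S₀ X v E) {ε δ Et : ℝ}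
    (hβ : S + S₀ + |c + c₀ - 3 / 2| ≤ 1 / 2 + ε) (hΛ : |c| + S + (|c₀| + S₀) ≤ 2 + ε)
    {μ : MeasFam} {u : FieldFam}
    (hP : ∀ d V, Nice d V → IsProbabilityMeasure (P d V) ∧
      Disint (P d V) (μ d V) fun y => Measure.pi (kern3 (fun y => gN y ν) y))
    (hXm : ∀ d V, Nice d V → Measurable (X d V) ∧ Integrable (fun ω => ‖X d V ω‖) (P d V))
    (ht : ∀ d V, Nice d V → ∃ t : Euc d → ℝ, (∀ y, 0 ≤ t y) ∧ Integrable t (μ d V) ∧
      ∫ y, t y ∂(μ d V) ≤ Et * dimFac d ∧ ∀ᵐ y ∂(μ d V), ∀ f : Euc d → ℝ, LipschitzWith 1 f →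
      |∫ s, ∫ w, f w ∂(gN (X d V (y, s)) v) ∂(Measure.pi (kern3 (fun y => gN y ν) y))
        - ∫ w, f w ∂(gN (u d V y) δ)| ≤ t y) :
    ∃ op, OpOK op (Q * 2) ε u μ ν δ (E + Et) := by
  set fill : Fin 3 → Op := ![Op.idOp, Op.noiseOp 1, Op.noiseOp 1] with hfill
  refine ⟨Body.close T fill, ?_, fun d => ?_, fun d V hV => ?_⟩
  · have h2 := h.cost.close (fill := fill) (Qf := ![1, 0, 0]) fun j => by
      fin_cases j
      · exact Op.cost_idOp
      · exact Op.cost_noiseOp
      · exact Op.cost_noiseOp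
    simpa [Fin.sum_univ_three] using h2
  · obtain ⟨σ, hσ, hs⟩ := h.stable d
    have h2 := ((hs.close (fill := fill) h.spread_nonneg.2 Op.stable_idOp Op.stable_noiseOp
      Op.stable_noiseOp).recentre (3 / 2))
    refine h2.mono ?_ ?_
    · simp only [abs_one, mul_one, mul_zero, add_zero]; linarith
    · simp only [mul_one]; linarith
  · obtain ⟨σ, hσ, hs⟩ := h.stable d
    obtain ⟨hp, hdis⟩ := hP d V hV
    obtain ⟨t, ht0, hti, hte, htar⟩ := ht d V hV
    have := prob_kern3 (K := fun y => gN y ν) (d := d) fun y => isProbabilityMeasure_gN y ν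
    have : IsFiniteMeasure (ctx (P d V) ν).P := by change IsFiniteMeasure (P d V); infer_instance
    have h2 := Body.evals_close (fill := fill) hV.oracle hs h.spread_nonneg.2 hσ
      (μ := μ d V) (νs := kern3 fun y => gN y ν) (moment_kern3 fun y => gN_integrable_norm y ν)
      (C := ctx (P d V) ν) rfl rfl hdis (h.track d V hV) (hXm d V hV).1 (hXm d V hV).2
      (a := ![1, 0, 0]) (b := fun _ _ => 0) (fun j => by fin_cases j <;> simp)
      (fun _ _ => le_rfl) (fun _ => integrable_zero _ _ _)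
      (fun j => .of_forall fun y k p x e he => ?_) ht0 hti htar
      (K₀ := |c₀| + S₀) (by simp [add_comm])
    · refine h2.mono (by simpa using hΛ) ?_
      simp only [integral_zero, mul_zero, zero_add, add_mul]
      linarith
    · fin_cases j
      · simpa [hfill, kern3, Op.idOp, ctx] using he
      · simpa [hfill, kern3, law_noiseOp_one] using DualClose.refl (gauss d)
      · simpa [hfill, kern3, law_noiseOp_one] using DualClose.refl (gauss d)

/-- Fill all slots with noise; slot `0` has ideal law `K y`, within `e y` of the Gaussian. -/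
lemma closeNoise (h : Node P ν T Q c c₀ S S₀ X v E) {ε δ Ek Et : ℝ}
    (hβ : S + |c - 3 / 2| ≤ 1 / 2 + ε) (hΛ : |c| + S ≤ 2 + ε)
    {μ : MeasFam} {u : FieldFam} {K : (d : ℕ) → (Euc d → ℝ) → Euc d → Measure (Euc d)}
    (hK : ∀ d V, Nice d V → (∀ y, IsProbabilityMeasure (K d V y)) ∧
      (∀ y, Integrable (fun s => ‖s‖) (K d V y)) ∧
      ∃ e : Euc d → ℝ, (∀ y, 0 ≤ e y) ∧ Integrable e (μ d V) ∧
        ∫ y, e y ∂(μ d V) ≤ Ek * dimFac d ∧ ∀ᵐ y ∂(μ d V), DualClose (gauss d) (K d V y) (e y))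
    (hP : ∀ d V, Nice d V → IsProbabilityMeasure (P d V) ∧
      Disint (P d V) (μ d V) fun y => Measure.pi (kern3 (K d V) y))
    (hXm : ∀ d V, Nice d V → Measurable (X d V) ∧ Integrable (fun ω => ‖X d V ω‖) (P d V))
    (ht : ∀ d V, Nice d V → ∃ t : Euc d → ℝ, (∀ y, 0 ≤ t y) ∧ Integrable t (μ d V) ∧
      ∫ y, t y ∂(μ d V) ≤ Et * dimFac d ∧ ∀ᵐ y ∂(μ d V), ∀ f : Euc d → ℝ, LipschitzWith 1 f →
      |∫ s, ∫ w, f w ∂(gN (X d V (y, s)) v) ∂(Measure.pi (kern3 (K d V) y))
        - ∫ w, f w ∂(gN (u d V y) δ)| ≤ t y) :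
    ∃ op, OpOK op Q ε u μ ν δ ((|c₀| + S₀) * Ek + E + Et) := by
  set fill : Fin 3 → Op := ![Op.noiseOp 1, Op.noiseOp 1, Op.noiseOp 1] with hfill
  refine ⟨Body.close T fill, ?_, fun d => ?_, fun d V hV => ?_⟩
  · have h2 := h.cost.close (fill := fill) (Qf := ![0, 0, 0]) fun j => by
      fin_cases j <;> exact Op.cost_noiseOp
    simpa [Fin.sum_univ_three] using h2
  · obtain ⟨σ, hσ, hs⟩ := h.stable d
    have h2 := ((hs.close (fill := fill) h.spread_nonneg.2 Op.stable_noiseOp Op.stable_noiseOp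
      Op.stable_noiseOp).recentre (3 / 2))
    refine h2.mono ?_ ?_
    · simp only [abs_zero, mul_zero, add_zero]; linarith
    · simp only [mul_zero, add_zero]; linarith
  · obtain ⟨σ, hσ, hs⟩ := h.stable d
    obtain ⟨hp, hdis⟩ := hP d V hV
    obtain ⟨hKp, hKm, ek, hek0, heki, heke, hekd⟩ := hK d V hV
    obtain ⟨t, ht0, hti, hte, htar⟩ := ht d V hV
    have := prob_kern3 hKp
    have : IsFiniteMeasure (ctx (P d V) ν).P := by change IsFiniteMeasure (P d V); infer_instance
    set b : Fin 3 → Euc d → ℝ := fun j y => if j = 0 then ek y else 0 with hb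
    have h2 := Body.evals_close (fill := fill) hV.oracle hs h.spread_nonneg.2 hσ
      (μ := μ d V) (νs := kern3 (K d V)) (moment_kern3 hKm)
      (C := ctx (P d V) ν) rfl rfl hdis (h.track d V hV) (hXm d V hV).1 (hXm d V hV).2
      (a := fun _ => 0) (b := b) (fun _ => le_rfl)
      (fun j y => by fin_cases j <;> simp [hb, hek0 y])
      (fun j => by fin_cases j <;> simp [hb, heki])
      (fun j => ?_) ht0 hti htar (K₀ := |c₀| + S₀) (by simp [add_comm])
    · refine h2.mono (by simpa using hΛ) ?_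
      have h3 : (|c₀| + S₀) * ∫ y, ek y ∂(μ d V) ≤ (|c₀| + S₀) * (Ek * dimFac d) :=
        mul_le_mul_of_nonneg_left heke (by have := h.spread_nonneg.2; positivity)
      simp [hb]
      nlinarith
    · fin_cases j
      · filter_upwards [hekd] with y hy k p x e he
        simpa [hfill, hb, kern3, law_noiseOp_one] using hy
      all_goals
        refine .of_forall fun y k p x e he => ?_
        simpa [hfill, hb, kern3, law_noiseOp_one] using DualClose.refl (gauss d)

end Node

end Vale.Agent.P347
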