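import Vale.Agent.P347.OuterRule
import Vale.Agent.P347.Asymp

/-!
Short backward flows of the levels by iterated quadrature of score evaluations.
-/

namespace Vale.Agent.P347

open MeasureTheory ProbabilityTheory
open scoped Gradient RealInnerProductSpace

/-- The facts about the exact flow used by the operators. -/
structure FlowData {d : ℕ} (V : Euc d → ℝ) (a b : ℝ) (P : ℕ) (Φ : ℝ → Euc d → Euc d)
    (M₀ Eq : ℝ) : Prop where
  /-- continuity in space -/
  cont : ∀ s ∈ Set.Icc a b, Continuous (Φ s)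
  /-- continuity of the scores along the flow -/
  contScore : ContinuousOn (fun p : ℝ × Euc d => score V p.1 (Φ p.1 p.2)) (Set.Icc a b ×ˢ Set.univ)
  /-- the integral equation -/
  eqn : ∀ y, ∀ s ∈ Set.Icc a b, Φ s y = y + ∫ u in b..s, (1 / 2 : ℝ) • score V u (Φ u y)
  /-- the transported laws -/
  law : ∀ s ∈ Set.Icc a b, (levelLaw V b).map (Φ s) = levelLaw V s
  /-- size of the scores -/
  speed : ∀ s ∈ Set.Icc a b, Integrable (fun y => ‖score V s (Φ s y)‖) (levelLaw V b) ∧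
    ∫ y, ‖score V s (Φ s y)‖ ∂(levelLaw V b) ≤ M₀
  /-- quadrature majorant -/
  major : ∃ (G₁ : ℝ → Euc d → Euc d) (S : Euc d → ℝ), (∀ y, 0 ≤ S y) ∧
    Integrable S (levelLaw V b) ∧ ∫ y, S y ∂(levelLaw V b) ≤ Eq ∧
    Majorant a b (fun u y => score V u (Φ u y)) G₁ P S (fun y => S y / (b - a))

lemma exists_flowData (hflow : LevelFlowStatement) (hlev : LevelFactsStatement) {P : ℕ}
    (hP : 2 ≤ P) : ∃ c₀ C : ℝ, 0 < c₀ ∧ 0 ≤ C ∧ ∀ (d : ℕ) (V : Euc d → ℝ) (a b : ℝ),
      Nice d V → 0 < a → a < b → b ≤ c₀ → ∃ Φ : ℝ → Euc d → Euc d,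
        FlowData V a b P Φ (C * dimFac d) (C * ((b - a) / a) ^ P * dimFac d) := by
  obtain ⟨c₀, hc₀, Cs, h⟩ := hflow
  obtain ⟨c₁, C₁, hc₁, -, hl⟩ := hlev
  refine ⟨min c₀ c₁, max |Cs 0| |Cs P|, lt_min hc₀ hc₁, le_max_of_le_left (abs_nonneg _),
    fun d V a b hV ha hab hb => ?_⟩
  obtain ⟨Φ, hc, heq, hlaw, hG⟩ := h d V hV.pot hV.grad_zero a b ha hab.le
    (hb.trans (min_le_left _ _))
  have hprob : IsProbabilityMeasure (levelLaw V b) :=
    ((hl d V hV.pot hV.grad_zero).1 b (ha.trans hab).le (hb.trans (min_le_right _ _))).1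
  have hd2 : ((d : ℝ) + 1) ^ 2 ≤ dimFac d := pow_le_pow_right₀ (by simp) (by norm_num)
  refine ⟨Φ, ⟨fun s hs => ?_, hG.continuousOn, heq, hlaw, fun s hs => ?_, ?_⟩⟩
  · exact hc.comp_continuous (f := fun y => (s, y)) (by fun_prop) fun y => ⟨hs, Set.mem_univ _⟩
  · obtain ⟨D, h0, -, -, h3⟩ := hG
    obtain ⟨hi, hle⟩ := h3 0 s hs
    simp only [h0 s hs, pow_zero, div_one] at hi hle
    refine ⟨hi, hle.trans ?_⟩
    exact mul_le_mul ((le_abs_self _).trans (le_max_left _ _)) hd2 (by positivity)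
      (le_max_of_le_left (abs_nonneg _))
  · have hM : ∀ t ∈ Set.Icc a b, Cs P * ((d : ℝ) + 1) ^ 2 / t ^ P
        ≤ max |Cs 0| |Cs P| * dimFac d / a ^ P := fun t ht => by
      have ht0 : 0 < t := ha.trans_le ht.1
      refine (div_le_div_of_nonneg_right (mul_le_mul ((le_abs_self _).trans (le_max_right |Cs 0| _)) hd2
        (by positivity) (le_max_of_le_left (abs_nonneg (Cs 0)))) (by positivity)).trans ?_
      exact div_le_div_of_nonneg_left (mul_nonneg (le_max_of_le_left (abs_nonneg _))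
        (dimFac_nonneg d)) (by positivity) (pow_le_pow_left₀ ha.le ht.1 P)
    obtain ⟨G₁, S, hS0, hSi, hSle, -, hmaj⟩ := hG.exists_majorant' hab hP hM
    refine ⟨G₁, S, hS0, hSi, hSle.trans (le_of_eq ?_), hmaj⟩
    rw [div_pow]
    field_simp

lemma evals_idOp {d : ℕ} {G : Euc d → Euc d} {μ : Measure (Euc d)} {v : ℝ} :
    Op.idOp.Evals G id μ v v 1 0 := by
  refine ⟨zero_le_one, fun _ => 0, fun _ => le_rfl, integrable_zero _ _ _, by simp,
    .of_forall fun y k p x e h => ?_⟩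
  simpa [Op.idOp] using h

lemma FlowData.quad {d P N : ℕ} {V : Euc d → ℝ} {a b W M₀ Eq : ℝ} {Φ : ℝ → Euc d → Euc d}
    (h : FlowData V a b P Φ M₀ Eq) (q : QRule P N W) :
    ∃ S : Euc d → ℝ, (∀ y, 0 ≤ S y) ∧ Integrable S (levelLaw V b) ∧
      ∫ y, S y ∂(levelLaw V b) ≤ Eq ∧ ∀ s ∈ Set.Icc a b, ∀ y,
        ‖y + (-(1 / 2 : ℝ)) • ∑ i, ((b - s) * q.w i) •
              score V (s + (b - s) * q.x i) (Φ (s + (b - s) * q.x i) y) - Φ s y‖
          ≤ (b - s) * (1 + W) / 2 * S y := by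
  obtain ⟨G₁, S, hS0, hSi, hSle, hmaj⟩ := h.major
  refine ⟨S, hS0, hSi, hSle, fun s hs y => ?_⟩
  have hc : ContinuousOn (fun u => score V u (Φ u y)) (Set.Icc a b) :=
    h.contScore.comp (f := fun u => (u, y)) (by fun_prop) fun u hu => ⟨hu, Set.mem_univ _⟩
  have hq := q.integrate hmaj hs y hc
  rw [h.eqn y s hs, intervalIntegral.integral_smul, intervalIntegral.integral_symm s b]
  set A := ∑ i, ((b - s) * q.w i) • score V (s + (b - s) * q.x i) (Φ (s + (b - s) * q.x i) y)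
  set B := ∫ u in s..b, score V u (Φ u y)
  rw [show y + (-(1 / 2 : ℝ)) • A - (y + (1 / 2 : ℝ) • -B) = (-(1 / 2 : ℝ)) • (A - B) by
    rw [smul_sub, neg_smul, neg_smul, smul_neg]; abel, norm_smul, Real.norm_eq_abs,
    show |(-(1 / 2 : ℝ))| = 1 / 2 by norm_num]
  calc (1 / 2 : ℝ) * ‖A - B‖ ≤ 1 / 2 * ((b - s) * (1 + W) * S y) :=
        mul_le_mul_of_nonneg_left hq (by norm_num)
    _ = _ := by ring

/-- A flow approximant from `b` to `s` after some iterations. -/
def IterOK (op : Op) (Q P : ℕ) (a b s L σ : ℝ) (E : ℝ → ℝ → ℝ → ℝ) : Prop :=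
  op.Cost Q ∧ (∀ d, op.Stable d 1 (2 * L) (1 + 3 * L)) ∧
    ∀ (d : ℕ) (V : Euc d → ℝ) (Φ : ℝ → Euc d → Euc d) (M₀ Eq : ℝ), Nice d V →
      FlowData V a b P Φ M₀ Eq →
        op.Evals (∇ V) (Φ s) (levelLaw V b) 0 σ (1 + 3 * L) (E M₀ Eq (dimFac d))

/-- The final flow approximant from `b` to `s`. -/
def LastOK (op : Op) (Q P : ℕ) (a b s L σ : ℝ) (E : ℝ → ℝ → ℝ → ℝ) : Prop :=
  op.Cost Q ∧ (∀ d, op.Stable d (1 - 3 / 4 * (b - s)) ((b - s) / 3) (1 + 3 * L)) ∧
    ∀ (d : ℕ) (V : Euc d → ℝ) (Φ : ℝ → Euc d → Euc d) (M₀ Eq : ℝ), Nice d V →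
      FlowData V a b P Φ M₀ Eq →
        op.Evals (∇ V) (Φ s) (levelLaw V b) 0 σ (1 + 3 * L) (E M₀ Eq (dimFac d))

/-- The error after `k` iterations. -/
noncomputable def iterErr (k : ℕ) (L Ee M₀ Eq D : ℝ) : ℝ :=
  (2 * L) ^ (k + 1) * (M₀ + Eq) + 4 * L * (Ee * D + Eq)

lemma LastOK.toIter {op : Op} {Q P : ℕ} {a b s : ℝ} {E : ℝ → ℝ → ℝ → ℝ} {σ : ℝ}
    (hs : s ∈ Set.Icc a b) (h : LastOK op Q P a b s (b - a) σ E) :
    IterOK op Q P a b s (b - a) σ E := by
  obtain ⟨hc, hst, hev⟩ := h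
  refine ⟨hc, fun d => ((hst d).recentre 1).mono ?_ le_rfl, hev⟩
  rw [show (1 - 3 / 4 * (b - s) - 1) = -(3 / 4 * (b - s)) by ring, abs_neg,
    abs_of_nonneg (by linarith [hs.2])]
  linarith [hs.1, hs.2]

lemma iter_zero {P N : ℕ} {W : ℝ} (q : QRule P N W) (hW : W ≤ 21 / 20) {a b s Ee : ℝ}
    (hEe : 0 ≤ Ee) (hlev : ∀ d V, Nice d V → IsProbabilityMeasure (levelLaw V b))
    (hs : s ∈ Set.Icc a b) :
    ∃ op, IterOK op 1 P a b s (b - a) ((b - a) ^ 2) (iterErr 0 (b - a) Ee) := by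
  have hL : 0 ≤ b - a := by linarith [hs.1, hs.2]
  have hbs : 0 ≤ b - s := by linarith [hs.2]
  have hbsL : b - s ≤ b - a := by linarith [hs.1]
  refine ⟨Op.pad ((b - a) ^ 2), Op.cost_pad, fun d => Op.stable_pad.mono (by linarith) (by linarith),
    fun d V Φ M₀ Eq hV hF => ?_⟩
  have := hlev d V hV
  obtain ⟨S, hS0, hSi, hSle, hSb⟩ := hF.quad q
  have h1 := Op.evals_pad (G := ∇ V) (μ := levelLaw V b) hV.oracle (sq_nonneg (b - a)) le_rfl
  rw [zero_add] at h1
  set t : Fin N → ℝ := fun i => s + (b - s) * q.x i with ht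
  have htm : ∀ i, t i ∈ Set.Icc a b := fun i => q.node_mem hs i
  set F : Euc d → ℝ := fun y =>
    (∑ i, (b - s) / 2 * |q.w i| * ‖score V (t i) (Φ (t i) y)‖) + (b - s) * (1 + W) / 2 * S y with hFd
  have hFi : Integrable F (levelLaw V b) :=
    (integrable_finsetSum _ fun i _ => ((hF.speed _ (htm i)).1).const_mul _).add (hSi.const_mul _)
  have hb : ∀ y, ‖id y - Φ s y‖ ≤ F y := fun y => by
    set A := ∑ i, ((b - s) * q.w i) • score V (t i) (Φ (t i) y) with hA
    have h2 : ‖id y - Φ s y‖ ≤ 1 / 2 * ‖A‖ + ‖y + (-(1 / 2 : ℝ)) • A - Φ s y‖ := by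
      have e : id y - Φ s y = (1 / 2 : ℝ) • A + (y + (-(1 / 2 : ℝ)) • A - Φ s y) := by
        simp only [id, neg_smul]; abel
      rw [e]
      refine (norm_add_le _ _).trans (le_of_eq ?_)
      rw [norm_smul, Real.norm_eq_abs, abs_of_pos (by norm_num : (0 : ℝ) < 1 / 2)]
    refine h2.trans (add_le_add ?_ (hSb s hs y))
    calc 1 / 2 * ‖A‖ ≤ 1 / 2 * ∑ i, ‖((b - s) * q.w i) • score V (t i) (Φ (t i) y)‖ :=
          mul_le_mul_of_nonneg_left (norm_sum_le _ _) (by norm_num)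
      _ = _ := by
          rw [Finset.mul_sum]
          refine Finset.sum_congr rfl fun i _ => ?_
          rw [norm_smul, Real.norm_eq_abs, abs_mul, abs_of_nonneg hbs]
          ring
  have hdiff : Integrable (fun y => ‖id y - Φ s y‖) (levelLaw V b) :=
    Integrable.mono' hFi (continuous_id.sub (hF.cont s hs)).norm.aestronglyMeasurable
      (.of_forall fun y => by rw [norm_norm]; exact hb y)
  have hM : 0 ≤ M₀ := (integral_nonneg fun _ => norm_nonneg _).trans (hF.speed s hs).2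
  have hE : 0 ≤ Eq := (integral_nonneg hS0).trans hSle
  refine (h1.shift (u' := Φ s) hdiff ((integral_mono hdiff hFi hb).trans
    (le_refl (∫ y, F y ∂(levelLaw V b))))).mono (by linarith) ?_
  have hFle : ∫ y, F y ∂(levelLaw V b) ≤ (b - a) * W / 2 * M₀ + (b - a) * (1 + W) / 2 * Eq := by
    rw [hFd, integral_add (integrable_finsetSum _ fun i _ => ((hF.speed _ (htm i)).1).const_mul _)
      (hSi.const_mul _), integral_finsetSum _ fun i _ => ((hF.speed _ (htm i)).1).const_mul _,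
      integral_const_mul]
    simp only [integral_const_mul]
    refine add_le_add ?_ ?_
    · refine (Finset.sum_le_sum fun i _ =>
        mul_le_mul_of_nonneg_left (hF.speed _ (htm i)).2 (by positivity)).trans ?_
      rw [← Finset.sum_mul, ← Finset.mul_sum]
      refine mul_le_mul_of_nonneg_right ?_ hM
      calc (b - s) / 2 * ∑ i, |q.w i| ≤ (b - a) / 2 * W :=
            mul_le_mul (by linarith) q.abs_sum (Finset.sum_nonneg fun _ _ => abs_nonneg _)
              (by linarith)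
        _ = _ := by ring
    · exact mul_le_mul (by nlinarith [q.W_nonneg]) hSle (integral_nonneg hS0)
        (div_nonneg (mul_nonneg hL (by linarith [q.W_nonneg])) (by norm_num))
  simp only [iterErr, zero_add, pow_one]
  nlinarith [mul_nonneg hL hM, mul_nonneg hL hE, mul_nonneg (mul_nonneg hL hEe) (dimFac_nonneg d)]

lemma iter_next {P N Qe Q : ℕ} {W : ℝ} (hP : 0 < P) (q : QRule P N W) (hW : W ≤ 21 / 20)
    {a b ε Ee : ℝ} (hab : b - a ≤ 1 / 50) (hε : ε ∈ Set.Icc (0 : ℝ) (1 / 20)) (k : ℕ)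
    (hlev : ∀ d V, Nice d V → IsProbabilityMeasure (levelLaw V b))
    (hev : ∀ t ∈ Set.Icc a b, ∃ ev : Op,
      OpOK ev Qe ε (scoreFam t) (levelFam t) ((b - a) ^ 2) 1 Ee)
    (ih : ∀ s ∈ Set.Icc a b, ∃ op,
      IterOK op Q P a b s (b - a) ((b - a) ^ 2) (iterErr k (b - a) Ee))
    {s : ℝ} (hs : s ∈ Set.Icc a b) :
    ∃ op, LastOK op (1 + N * (Qe * (1 + Q))) P a b s (b - a) ((b - a) ^ 2)
      (iterErr (k + 1) (b - a) Ee) := by
  classical
  have hL : 0 ≤ b - a := by linarith [hs.1, hs.2]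
  have hbs : 0 ≤ b - s := by linarith [hs.2]
  have hbsL : b - s ≤ b - a := by linarith [hs.1]
  obtain ⟨hε0, hε1⟩ := hε
  set t : Fin N → ℝ := fun i => s + (b - s) * q.x i with ht
  have htm : ∀ i, t i ∈ Set.Icc a b := fun i => q.node_mem hs i
  choose ev hev' using fun i => hev (t i) (htm i)
  choose pos hpos using fun i => ih (t i) (htm i)
  set c : Fin (N + 1) → ℝ := Fin.cons 1 (fun i => -(1 / 2) * ((b - s) * q.w i)) with hc
  set ops : Fin (N + 1) → Op := Fin.cons Op.idOp (fun i => Op.comp (ev i) (pos i)) with hops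
  set δs : Fin (N + 1) → ℝ := Fin.cons 0 (fun _ => 1) with hδs
  set σ := (b - a) ^ 2 with hσ
  have hcabs : ∀ i, |c (Fin.succ i)| = (b - s) / 2 * |q.w i| := fun i => by
    simp only [hc, Fin.cons_succ, abs_mul, abs_neg, abs_of_nonneg hbs]
    rw [abs_of_pos (by norm_num : (0 : ℝ) < 1 / 2)]
    ring
  have hWs : ∑ i, |c (Fin.succ i)| ≤ (b - s) / 2 * (21 / 20) := by
    simp only [hcabs, ← Finset.mul_sum]
    exact mul_le_mul_of_nonneg_left (q.abs_sum.trans hW) (by linarith)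
  have hvar : ∑ i, c i ^ 2 * δs i ≤ σ := by
    simp only [Fin.sum_univ_succ, hδs, Fin.cons_zero, Fin.cons_succ, mul_zero, mul_one, zero_add]
    calc ∑ i, c (Fin.succ i) ^ 2 = ∑ i, |c (Fin.succ i)| ^ 2 :=
          Finset.sum_congr rfl fun i _ => (sq_abs _).symm
      _ ≤ (∑ i, |c (Fin.succ i)|) ^ 2 :=
          Finset.sum_sq_le_sq_sum_of_nonneg fun i _ => abs_nonneg _
      _ ≤ σ := by
          rw [hσ]
          exact pow_le_pow_left₀ (Finset.sum_nonneg fun i _ => abs_nonneg _)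
            (hWs.trans (by linarith)) 2
  refine ⟨Op.comb (N + 1) c ops (σ - ∑ i, c i ^ 2 * δs i), ?_, fun d => ?_,
    fun d V Φ M₀ Eq hV hF => ?_⟩
  · have h := Op.Cost.comb (δ := σ - ∑ i, c i ^ 2 * δs i) (c := c) (ops := ops)
      (Q := Fin.cons 1 (fun _ => Qe * (1 + Q))) (Fin.cases (by simpa [hops] using Op.cost_idOp)
        (fun i => by simpa [hops] using Op.Cost.comp (hev' i).cost (hpos i).1))
    simpa [Fin.sum_univ_succ] using h
  · set β₁ := (1 / 2 + ε) * |(1 : ℝ)| + (2 + ε) * (2 * (b - a)) with hβ₁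
    set Λ₁ := (2 + ε) * (1 + 3 * (b - a)) with hΛ₁
    have h := Op.Stable.comb (δ := σ - ∑ i, c i ^ 2 * δs i) (c := c) (ops := ops)
      (cs := Fin.cons 1 (fun _ => 3 / 2 * 1)) (βs := Fin.cons 0 (fun _ => β₁))
      (Λs := Fin.cons 1 (fun _ => Λ₁)) (d := d)
      (Fin.cases (by simpa [hops] using Op.stable_idOp) fun i => by
        simp only [hops, Fin.cons_succ]
        exact Op.Stable.comp ((hev' i).stable d) ((hpos i).2.1 d))
    have hcsum : ∑ i, c i * (Fin.cons 1 (fun _ => 3 / 2 * 1) : Fin (N + 1) → ℝ) i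
        = 1 - 3 / 4 * (b - s) := by
      simp only [Fin.sum_univ_succ, hc, Fin.cons_zero, Fin.cons_succ, mul_one, ← Finset.sum_mul,
        ← Finset.mul_sum, q.sum_weights hP]
      ring
    rw [hcsum] at h
    refine h.mono ?_ ?_
    · simp only [Fin.sum_univ_succ, hc, Fin.cons_zero, Fin.cons_succ, mul_zero, zero_add,
        ← Finset.sum_mul]
      have h2 : β₁ ≤ 632 / 1000 := by
        simp only [hβ₁, abs_one, mul_one]; nlinarith
      have h3 : 0 ≤ β₁ := by positivity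
      calc (∑ i, |-(1 / 2) * ((b - s) * q.w i)|) * β₁ ≤ (b - s) / 2 * (21 / 20) * (632 / 1000) := by
            refine mul_le_mul ?_ h2 h3 (by positivity)
            simpa [hc] using hWs
        _ ≤ (b - s) / 3 := by nlinarith
    · simp only [Fin.sum_univ_succ, hc, Fin.cons_zero, Fin.cons_succ, abs_one, mul_one,
        ← Finset.sum_mul]
      have h2 : Λ₁ ≤ 11 / 5 := by simp only [hΛ₁]; nlinarith
      have h3 : 0 ≤ Λ₁ := by positivity
      have h4 : (∑ i, |-(1 / 2) * ((b - s) * q.w i)|) * Λ₁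
          ≤ (b - s) / 2 * (21 / 20) * (11 / 5) := by
        refine mul_le_mul ?_ h2 h3 (by positivity)
        simpa [hc] using hWs
      linarith
  · have := hlev d V hV
    obtain ⟨S, hS0, hSi, hSle, hSb⟩ := hF.quad q
    set Ek := iterErr k (b - a) Ee M₀ Eq (dimFac d) with hEk
    set us : Fin (N + 1) → Euc d → Euc d :=
      Fin.cons id (fun i y => score V (t i) (Φ (t i) y)) with hus
    set Λ₁ := (2 + ε) * (1 + 3 * (b - a)) with hΛ₁
    set E₁ := (2 + ε) * Ek + Ee * dimFac d with hE₁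
    have hev1 : ∀ i, (ops i).Evals (∇ V) (us i) (levelLaw V b) 0 (δs i)
        ((Fin.cons 1 fun _ => Λ₁ : Fin (N + 1) → ℝ) i) ((Fin.cons 0 fun _ => E₁ : Fin (N + 1) → ℝ) i) := by
      refine Fin.cases ?_ fun i => ?_
      · simpa [hops, hus, hδs] using evals_idOp (G := ∇ V) (μ := levelLaw V b) (v := 0)
      · have h2 := (hev' i).evals d V hV
        have h1 := (hpos i).2.2 d V Φ M₀ Eq hV hF
        simp only [scoreFam, levelFam] at h2
        rw [← hF.law _ (htm i)] at h2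
        have h3 := Op.Evals.comp h2 h1 (hF.cont _ (htm i)).aemeasurable
        simp only [hops, hus, hδs, Fin.cons_succ]
        exact h3
    have h := Op.Evals.comb (c := c) hV.oracle (sub_nonneg.2 hvar)
      (fun i => by refine Fin.cases ?_ (fun j => ?_) i <;> simp [hδs]) hev1
    simp only [sub_add_cancel] at h
    have hptw : ∀ y, ‖∑ i, c i • us i y - Φ s y‖ ≤ (b - s) * (1 + W) / 2 * S y := fun y => by
      have e : ∑ i, c i • us i y = y + (-(1 / 2 : ℝ)) • ∑ i, ((b - s) * q.w i) •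
          score V (t i) (Φ (t i) y) := by
        simp only [Fin.sum_univ_succ, hc, hus, Fin.cons_zero, Fin.cons_succ, one_smul, id,
          Finset.smul_sum, smul_smul]
      rw [e]
      exact hSb s hs y
    have hdiff : Integrable (fun y => ‖∑ i, c i • us i y - Φ s y‖) (levelLaw V b) := by
      refine Integrable.mono' (hSi.const_mul ((b - s) * (1 + W) / 2)) ?_
        (.of_forall fun y => by rw [norm_norm]; exact hptw y)
      refine ((continuous_finsetSum _ fun i _ => ?_).sub (hF.cont s hs)).norm.aestronglyMeasurable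
      show Continuous (c i • us i)
      refine Continuous.const_smul ?_ _
      refine Fin.cases ?_ (fun j => ?_) i
      · simpa [hus] using continuous_id
      · simpa [hus, Function.comp_def] using hF.contScore.comp_continuous
          (f := fun y => (t j, y)) (by fun_prop) fun y => ⟨htm j, Set.mem_univ _⟩
    have hEq : 0 ≤ Eq := (integral_nonneg hS0).trans hSle
    refine (h.shift (u' := Φ s) (E' := (b - a) * (1 + W) / 2 * Eq) hdiff ?_).mono ?_ ?_
    · refine (integral_mono hdiff (hSi.const_mul _) hptw).trans ?_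
      rw [integral_const_mul]
      exact mul_le_mul (by nlinarith [q.W_nonneg]) hSle (integral_nonneg hS0)
        (div_nonneg (mul_nonneg hL (by linarith [q.W_nonneg])) (by norm_num))
    · simp only [Fin.sum_univ_succ, hc, Fin.cons_zero, Fin.cons_succ, abs_one, mul_one,
        ← Finset.sum_mul]
      have h2 : Λ₁ ≤ 11 / 5 := by simp only [hΛ₁]; nlinarith
      have h3 : 0 ≤ Λ₁ := by positivity
      have h4 : (∑ i, |-(1 / 2) * ((b - s) * q.w i)|) * Λ₁
          ≤ (b - s) / 2 * (21 / 20) * (11 / 5) := by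
        refine mul_le_mul ?_ h2 h3 (by positivity)
        simpa [hc] using hWs
      linarith
    · simp only [Fin.sum_univ_succ, hc, Fin.cons_zero, Fin.cons_succ, mul_zero, zero_add,
        ← Finset.sum_mul]
      have hM : 0 ≤ M₀ := (integral_nonneg fun _ => norm_nonneg _).trans (hF.speed s hs).2
      have hk0 : 0 ≤ (2 * (b - a)) ^ (k + 1) * (M₀ + Eq) := by positivity
      have hD : 0 ≤ Ee * dimFac d := by
        obtain ⟨-, err, h0, -, hle, -⟩ := (hev a ⟨le_rfl, by linarith⟩).choose_spec.evals d V hV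
        exact (integral_nonneg h0).trans hle
      have hEk0 : 0 ≤ Ek := by simp only [hEk, iterErr]; positivity
      have h4 : (∑ i, |-(1 / 2) * ((b - s) * q.w i)|) * E₁
          ≤ (b - a) / 2 * (21 / 20) * (21 / 10 * Ek + Ee * dimFac d) := by
        refine mul_le_mul ((le_of_eq ?_).trans (hWs.trans (by linarith))) ?_ (by positivity)
          (by positivity)
        · simp [hc]
        · simp only [hE₁]; nlinarith
      refine (add_le_add h4 (le_refl _)).trans ?_
      simp only [hEk, iterErr, pow_succ (2 * (b - a)) (k + 1)]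
      have hx : 0 ≤ (b - a) * ((2 * (b - a)) ^ (k + 1) * (M₀ + Eq)) := by positivity
      have hy : 0 ≤ (b - a) * (Ee * dimFac d + Eq) := by positivity
      nlinarith [mul_nonneg hL hEq, mul_nonneg hL hD,
        mul_nonneg (mul_nonneg hL hEq) (sub_nonneg.2 hW),
        mul_le_mul_of_nonneg_right hab hy]

lemma exists_flow_op {P N Qe : ℕ} {W : ℝ} (hP : 0 < P) (q : QRule P N W) (hW : W ≤ 21 / 20)
    {a b ε Ee : ℝ} (ha : a ≤ b) (hab : b - a ≤ 1 / 50) (hε : ε ∈ Set.Icc (0 : ℝ) (1 / 20))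
    (hEe : 0 ≤ Ee)
    (hlev : ∀ d V, Nice d V → IsProbabilityMeasure (levelLaw V b))
    (hev : ∀ t ∈ Set.Icc a b, ∃ ev : Op,
      OpOK ev Qe ε (scoreFam t) (levelFam t) ((b - a) ^ 2) 1 Ee) (k : ℕ) :
    ∃ op, LastOK op ((3 * (N * Qe) + 1) ^ (k + 1)) P a b a (b - a) ((b - a) ^ 2)
      (iterErr (k + 1) (b - a) Ee) := by
  have hQ : ∀ j : ℕ, 1 + N * (Qe * (1 + (3 * (N * Qe) + 1) ^ j)) ≤ (3 * (N * Qe) + 1) ^ (j + 1) := by
    intro j
    have h1 : 1 ≤ (3 * (N * Qe) + 1) ^ j := Nat.one_le_pow _ _ (by omega)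
    rw [pow_succ]
    nlinarith [Nat.zero_le (N * Qe), mul_le_mul_of_nonneg_left h1 (Nat.zero_le (N * Qe))]
  have key : ∀ j : ℕ, ∀ s ∈ Set.Icc a b, ∃ op,
      IterOK op ((3 * (N * Qe) + 1) ^ j) P a b s (b - a) ((b - a) ^ 2) (iterErr j (b - a) Ee) := by
    intro j
    induction j with
    | zero =>
      intro s hs
      simpa using iter_zero q hW hEe hlev hs
    | succ j ih =>
      intro s hs
      obtain ⟨op, h⟩ := iter_next hP q hW hab hε j hlev hev ih hs
      obtain ⟨h1, h2, h3⟩ := h.toIter hs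
      exact ⟨op, h1.mono (hQ j), h2, h3⟩
  obtain ⟨op, h1, h2, h3⟩ := iter_next hP q hW hab hε k hlev hev (key k) ⟨le_rfl, ha⟩
  exact ⟨op, h1.mono (hQ k), h2, h3⟩

end Vale.Agent.P347
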