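import Vale.Agent.P347.Quad

/-!
A quadrature rule of arbitrary order whose absolute weights sum almost to one.
-/

namespace Vale.Agent.P347

open MeasureTheory Filter
open scoped Topology

/-- An exact rule of order `P` on `[0, 1]` with total absolute weight at most `W`. -/
structure QRule (P N : ℕ) (W : ℝ) where
  /-- nodes -/
  x : Fin N → ℝ
  /-- weights -/
  w : Fin N → ℝ
  mem : ∀ i, x i ∈ Set.Icc (0 : ℝ) 1
  exact_pow : ∀ k < P, ∑ i, w i * x i ^ k = ∫ r in (0 : ℝ)..1, r ^ k
  abs_sum : ∑ i, |w i| ≤ W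

lemma riemann_tendsto {g : ℝ → ℝ} (hg : Continuous g) :
    Tendsto (fun N : ℕ => ∑ i ∈ Finset.range N, (1 / (N : ℝ)) * g ((i : ℝ) / N)) atTop
      (𝓝 (∫ r in (0 : ℝ)..1, g r)) := by
  rw [Metric.tendsto_atTop]
  intro ε hε
  obtain ⟨δ, hδ, hu⟩ := Metric.uniformContinuousOn_iff.1
    ((isCompact_Icc (a := (0 : ℝ)) (b := 1)).uniformContinuousOn_of_continuous hg.continuousOn)
    (ε / 2) (by linarith)
  obtain ⟨M, hM⟩ := exists_nat_gt (1 / δ)
  refine ⟨M + 1, fun N hN => ?_⟩
  have hN0 : (0 : ℝ) < N := by exact_mod_cast (show 0 < N by omega)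
  have hNδ : 1 / (N : ℝ) < δ := by
    rw [div_lt_iff₀ hN0]
    rw [div_lt_iff₀ hδ] at hM
    have : (M : ℝ) ≤ N := by exact_mod_cast (show M ≤ N by omega)
    nlinarith
  set a : ℕ → ℝ := fun i => (i : ℝ) / N with ha
  have hstep : ∀ i, a (i + 1) - a i = 1 / (N : ℝ) := fun i => by
    simp only [ha]; push_cast; ring
  have hsum := intervalIntegral.sum_integral_adjacent_intervals (f := g) (μ := volume) (a := a) (n := N)
    fun k _ => hg.intervalIntegrable _ _
  have ha0 : a 0 = 0 := by simp [ha]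
  have haN : a N = 1 := by simp [ha, hN0.ne']
  rw [ha0, haN] at hsum
  rw [dist_comm, Real.dist_eq, ← hsum, ← Finset.sum_sub_distrib]
  refine lt_of_le_of_lt (Finset.abs_sum_le_sum_abs _ _) ?_
  refine lt_of_le_of_lt (Finset.sum_le_sum (g := fun _ => ε / 2 * (1 / (N : ℝ))) fun i hi => ?_) ?_
  · have hiN : (i : ℝ) + 1 ≤ N := by exact_mod_cast Finset.mem_range.1 hi
    have h1 : ∫ r in a i..a (i + 1), g (a i) = 1 / (N : ℝ) * g (a i) := by
      rw [intervalIntegral.integral_const, hstep, smul_eq_mul]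
    rw [← h1, ← intervalIntegral.integral_sub (hg.intervalIntegrable _ _)
      intervalIntegrable_const, ← Real.norm_eq_abs]
    refine (intervalIntegral.norm_integral_le_of_norm_le_const (C := ε / 2) fun r hr => ?_).trans
      (le_of_eq ?_)
    · have hle : a i ≤ a (i + 1) := by
        have h2 : (0 : ℝ) ≤ 1 / N := by positivity
        linarith [hstep i]
      rw [Set.uIoc_of_le hle] at hr
      have hi0 : 0 ≤ a i := by simp only [ha]; positivity
      have hi1 : a (i + 1) ≤ 1 := by
        simp only [ha]; push_cast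
        rw [div_le_one hN0]; linarith
      refine (hu r ⟨hi0.trans hr.1.le, hr.2.trans hi1⟩ (a i) ⟨hi0, hle.trans hi1⟩ ?_).le
      rw [Real.dist_eq, abs_of_pos (by linarith [hr.1])]
      linarith [hr.2, hstep i]
    · rw [hstep, abs_of_pos (by positivity)]
  · rw [Finset.sum_const, Finset.card_range, nsmul_eq_mul]
    field_simp
    linarith

lemma exists_qrule (P : ℕ) {W : ℝ} (hW : 1 < W) : ∃ N : ℕ, 0 < N ∧ Nonempty (QRule P N W) := by
  classical
  set t : Fin P → ℝ := fun l => (l : ℝ) / P with ht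
  have htinj : Function.Injective t := fun l l' h => by
    have hP : (P : ℝ) ≠ 0 := by exact_mod_cast l.pos.ne'
    simp only [ht, div_left_inj' hP, Nat.cast_inj] at h
    exact Fin.ext h
  set cor : ℕ → Fin P → ℝ := fun N l => (∫ r in (0 : ℝ)..1, lag t l r)
    - ∑ i ∈ Finset.range N, (1 / (N : ℝ)) * lag t l ((i : ℝ) / N) with hcor
  have hlim : Tendsto (fun N => ∑ l, |cor N l|) atTop (𝓝 0) := by
    have h0 : (0 : ℝ) = ∑ l : Fin P, |(∫ r in (0 : ℝ)..1, lag t l r)
        - ∫ r in (0 : ℝ)..1, lag t l r| := by simp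
    rw [h0]
    exact tendsto_finsetSum _ fun l _ =>
      ((tendsto_const_nhds).sub (riemann_tendsto (continuous_lag t l))).abs
  obtain ⟨N₀, hN₀⟩ := eventually_atTop.1 (hlim.eventually (eventually_le_nhds (sub_pos.2 hW)))
  set N := N₀ + 1 with hN
  have hNpos : (0 : ℝ) < N := by positivity
  refine ⟨N + P, by omega, ⟨{
    x := Fin.append (fun i : Fin N => (i : ℝ) / N) t
    w := Fin.append (fun _ : Fin N => 1 / (N : ℝ)) (cor N)
    mem := fun i => ?_
    exact_pow := fun k hk => ?_
    abs_sum := ?_ }⟩⟩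
  · refine Fin.addCases (fun j => ?_) (fun j => ?_) i
    · rw [Fin.append_left]
      have : ((j : ℕ) : ℝ) ≤ N := by exact_mod_cast j.isLt.le
      exact ⟨by positivity, (div_le_one hNpos).2 this⟩
    · rw [Fin.append_right]
      have hP : (0 : ℝ) < P := by exact_mod_cast j.pos
      have : ((j : ℕ) : ℝ) ≤ P := by exact_mod_cast j.isLt.le
      exact ⟨by simp only [ht]; positivity, by simp only [ht]; exact (div_le_one hP).2 this⟩
  · simp only [Fin.sum_univ_add, Fin.append_left, Fin.append_right, hcor, sub_mul,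
      Finset.sum_sub_distrib]
    have e1 : ∑ l, (∫ r in (0 : ℝ)..1, lag t l r) * t l ^ k = ∫ r in (0 : ℝ)..1, r ^ k := by
      simp only [← intervalIntegral.integral_mul_const]
      rw [← intervalIntegral.integral_finsetSum fun l _ =>
        (show Continuous (fun r => lag t l r * t l ^ k) from
          (continuous_lag t l).mul continuous_const).intervalIntegrable _ _]
      refine intervalIntegral.integral_congr fun r _ => ?_
      simpa using lag_exact htinj hk 0 r
    have e2 : ∑ l, (∑ i ∈ Finset.range N, 1 / (N : ℝ) * lag t l ((i : ℝ) / N)) * t l ^ k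
        = ∑ i : Fin N, 1 / (N : ℝ) * ((i : ℝ) / N) ^ k := by
      simp only [Finset.sum_mul]
      rw [Finset.sum_comm, Finset.sum_range]
      refine Finset.sum_congr rfl fun i _ => ?_
      simp only [mul_assoc, ← Finset.mul_sum]
      congr 1
      simpa using lag_exact htinj hk 0 ((i : ℝ) / N)
    rw [e1, e2]
    ring
  · simp only [Fin.sum_univ_add, Fin.append_left, Fin.append_right, abs_of_pos (show (0:ℝ) < 1 / N by positivity),
      Finset.sum_const, Finset.card_univ, Fintype.card_fin, nsmul_eq_mul]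
    have := hN₀ N (by omega)
    rw [mul_one_div, div_self hNpos.ne']
    linarith

namespace QRule

variable {P N : ℕ} {W : ℝ} (q : QRule P N W)

include q

lemma W_nonneg : 0 ≤ W := (Finset.sum_nonneg fun _ _ => abs_nonneg _).trans q.abs_sum

lemma sum_weights (hP : 0 < P) : ∑ i, q.w i = 1 := by
  simpa using q.exact_pow 0 hP

lemma exact_affine {k : ℕ} (hk : k < P) (α β : ℝ) :
    ∑ i, q.w i * (α + β * q.x i) ^ k = ∫ r in (0 : ℝ)..1, (α + β * r) ^ k := by
  have e : ∀ r : ℝ, (α + β * r) ^ k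
      = ∑ m ∈ Finset.range (k + 1), (α ^ (k - m) * β ^ m * (k.choose m : ℝ)) * r ^ m := fun r => by
    rw [add_comm α, add_pow]
    exact Finset.sum_congr rfl fun m _ => by rw [mul_pow]; ring
  simp only [e, Finset.mul_sum]
  rw [Finset.sum_comm, intervalIntegral.integral_finsetSum fun m _ =>
    (show Continuous (fun r : ℝ => (α ^ (k - m) * β ^ m * (k.choose m : ℝ)) * r ^ m) by
      fun_prop).intervalIntegrable _ _]
  refine Finset.sum_congr rfl fun m hm => ?_
  rw [intervalIntegral.integral_const_mul, ← q.exact_pow m (by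
    have := Finset.mem_range.1 hm; omega), Finset.mul_sum]
  exact Finset.sum_congr rfl fun i _ => by ring

lemma exact_shift {k : ℕ} (hk : k < P) (a s b : ℝ) :
    ∑ i, ((b - s) * q.w i) * (s + (b - s) * q.x i - a) ^ k = ∫ u in s..b, (u - a) ^ k := by
  have e := intervalIntegral.smul_integral_comp_add_mul (f := fun u => (u - a) ^ k) (b - s) s
    (a := 0) (b := 1)
  simp only [mul_zero, add_zero, mul_one, add_sub_cancel, smul_eq_mul] at e
  rw [← e]
  have e2 : ∀ r : ℝ, (s + (b - s) * r - a) ^ k = (s - a + (b - s) * r) ^ k := fun r => by ring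
  simp only [e2, ← q.exact_affine hk, Finset.mul_sum, mul_assoc]

lemma node_mem {a s b : ℝ} (hs : s ∈ Set.Icc a b) (i : Fin N) :
    s + (b - s) * q.x i ∈ Set.Icc a b := by
  obtain ⟨h0, h1⟩ := q.mem i
  obtain ⟨ha, hb⟩ := hs
  constructor
  · nlinarith
  · nlinarith

/-- The error of the rule on a subinterval, through a majorant. -/
lemma integrate {d : ℕ} {Ω : Type*} {a b : ℝ} {G G₁ : ℝ → Ω → Euc d} {S S₁ : Ω → ℝ}
    (h : Majorant a b G G₁ P S S₁) {s : ℝ} (hs : s ∈ Set.Icc a b) (ω : Ω)
    (hG : ContinuousOn (fun r => G r ω) (Set.Icc a b)) :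
    ‖∑ i, ((b - s) * q.w i) • G (s + (b - s) * q.x i) ω - ∫ u in s..b, G u ω‖
      ≤ (b - s) * (1 + W) * S ω := by
  obtain ⟨c, hc, -⟩ := h.exists_poly ω
  set p : ℝ → Euc d := fun u => ∑ k ∈ Finset.range P, ((u - a) ^ k) • c k with hp
  have hbs : 0 ≤ b - s := sub_nonneg.2 hs.2
  have hS : 0 ≤ S ω := (norm_nonneg _).trans (hc s hs)
  have he : ∑ i, ((b - s) * q.w i) • p (s + (b - s) * q.x i) = ∫ u in s..b, p u := by
    simp only [hp, Finset.smul_sum, smul_smul]
    rw [Finset.sum_comm, intervalIntegral.integral_finsetSum fun k _ =>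
      (show Continuous (fun u : ℝ => ((u - a) ^ k) • c k) by fun_prop).intervalIntegrable _ _]
    refine Finset.sum_congr rfl fun k hk => ?_
    rw [← Finset.sum_smul, q.exact_shift (Finset.mem_range.1 hk) a s b,
      intervalIntegral.integral_smul_const]
  have hsub : Set.uIcc s b ⊆ Set.Icc a b := by
    rw [Set.uIcc_of_le hs.2]; exact Set.Icc_subset_Icc hs.1 le_rfl
  have hpc : Continuous p := by simp only [hp]; fun_prop
  have e1 : ∑ i, ((b - s) * q.w i) • G (s + (b - s) * q.x i) ω - ∫ u in s..b, G u ω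
      = ∑ i, ((b - s) * q.w i) • (G (s + (b - s) * q.x i) ω - p (s + (b - s) * q.x i))
        - ∫ u in s..b, (G u ω - p u) := by
    rw [intervalIntegral.integral_sub (hG.mono hsub).intervalIntegrable (hpc.intervalIntegrable _ _)]
    simp only [smul_sub, Finset.sum_sub_distrib, he]
    abel
  rw [e1]
  refine (norm_sub_le _ _).trans ?_
  have h1 : ‖∑ i, ((b - s) * q.w i) • (G (s + (b - s) * q.x i) ω - p (s + (b - s) * q.x i))‖
      ≤ (b - s) * W * S ω := by
    refine (norm_sum_le _ _).trans ?_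
    calc ∑ i, ‖((b - s) * q.w i) • (G (s + (b - s) * q.x i) ω - p (s + (b - s) * q.x i))‖
        ≤ ∑ i, (b - s) * |q.w i| * S ω := Finset.sum_le_sum fun i _ => by
          rw [norm_smul, Real.norm_eq_abs, abs_mul, abs_of_nonneg hbs]
          exact mul_le_mul_of_nonneg_left (hc _ (q.node_mem hs i)) (by positivity)
      _ ≤ _ := by
          rw [← Finset.sum_mul, ← Finset.mul_sum]
          exact mul_le_mul_of_nonneg_right (mul_le_mul_of_nonneg_left q.abs_sum hbs) hS
  have h2 : ‖∫ u in s..b, (G u ω - p u)‖ ≤ S ω * (b - s) := by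
    refine (intervalIntegral.norm_integral_le_of_norm_le_const fun u hu => hc u ?_).trans
      (le_of_eq ?_)
    · exact hsub (Set.uIoc_subset_uIcc hu)
    · rw [abs_of_nonneg hbs]
  linarith

end QRule

end Vale.Agent.P347
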