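import Vale.Agent.P347.Engine
import Vale.Agent.P347.Basic

/-!
Sequential composition of one-input expressions, and the statements about its realisation.
-/

namespace Vale.Agent.P347

open MeasureTheory ProbabilityTheory
open scoped Gradient

variable {d : ℕ}

/-- The output of a chain of steps started at `0`; the head of the list is the last step. -/
noncomputable def chainEval (G : Euc d → Euc d) : List (Expr 1) → (ℕ → Euc d) → Euc d
  | [], _ => 0
  | e :: es, ω =>
      e.eval G (fun _ => chainEval G es fun j => ω (Nat.pair 1 j)) fun j => ω (Nat.pair 0 j)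

/-- The law of the output of a chain. -/
noncomputable def chainLaw (G : Euc d → Euc d) (es : List (Expr 1)) : Measure (Euc d) :=
  (noiseLaw d).map (chainEval G es)

/-- The queries made by a chain. -/
def chainQueries (es : List (Expr 1)) : ℕ :=
  (es.map fun e => e.queries).sum

/-- Every chain is realised by an algorithm with the same law and query budget. -/
def RealiseChainStatement : Prop :=
  ∀ (d q : ℕ) (es : List (Expr 1)), chainQueries es ≤ q → ∃ A : Algorithm d q,
    ∀ V : Euc d → ℝ, Continuous (∇ V) → seedLaw.map (A.run V) = chainLaw (∇ V) es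

/-- A chain which samples all smooth potentials samples all admissible potentials. -/
def ReductionChainStatement : Prop :=
  ∀ (d : ℕ) (es : List (Expr 1)),
    (∀ V : Euc d → ℝ, NicePot d V 1 2 → ∇ V 0 = 0 → ∀ B : Set (Euc d), MeasurableSet B →
      |(chainLaw (∇ V) es).real B - (gibbs V).real B| ≤ 1 / 10) →
    ∀ V : Euc d → ℝ, Admissible d V → ∀ B : Set (Euc d), MeasurableSet B →
      |(chainLaw (∇ V) es).real B - (gibbs V).real B| ≤ 1 / 10

/-- The law of a chain is a mixture over the previous steps, in test-function form. -/
def ChainStepStatement : Prop :=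
  ∀ (d : ℕ) (G : Euc d → Euc d) (e : Expr 1) (es : List (Expr 1)), Oracle G →
    IsProbabilityMeasure (chainLaw G es) ∧ Integrable (fun y => ‖y‖) (chainLaw G es) ∧
      ∀ f : Euc d → ℝ, LipschitzWith 1 f →
        ∫ y, f y ∂(chainLaw G (e :: es))
          = ∫ z, ∫ y, f y ∂(e.law G fun _ => z) ∂(chainLaw G es)

end Vale.Agent.P347
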