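import Vale.Agent.P347.Engine
import Vale.Agent.P347.Basic

/-!
Two further target statements of P347, as propositions (no proofs here).
-/

namespace Vale.Agent.P347

open MeasureTheory ProbabilityTheory
open scoped Gradient RealInnerProductSpace

/-- The rotation generated by a symmetric operator field preserves two Gaussian vectors. -/
def RotationStatement : Prop :=
  ∀ (d : ℕ) (H : Euc d → Euc d →L[ℝ] Euc d), Continuous H →
    (∀ y a b : Euc d, ⟪H y a, b⟫ = ⟪a, H y b⟫) → (∀ y, ‖H y‖ ≤ 2) →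
    ∃ Z : ℝ → Euc d × Euc d × Euc d → Euc d × Euc d,
      Continuous (fun q : ℝ × (Euc d × Euc d × Euc d) => Z q.1 q.2) ∧
      (∀ p, Z 0 p = p.2) ∧
      (∀ p θ, HasDerivAt (fun u => Z u p) (H p.1 (Z θ p).2, -(H p.1 (Z θ p).1)) θ) ∧
      (∀ p θ, ‖(Z θ p).1‖ ≤ ‖p.2.1‖ + ‖p.2.2‖ ∧ ‖(Z θ p).2‖ ≤ ‖p.2.1‖ + ‖p.2.2‖) ∧
      ∀ y θ, ((gauss d).prod (gauss d)).map (fun q => Z θ (y, q)) = (gauss d).prod (gauss d)

/-- Gradients of the potentials of the class are gradient oracles of the class. -/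
def OracleStatement : Prop :=
  ∀ (d : ℕ) (V : Euc d → ℝ), NicePot d V 1 2 → Oracle (∇ V)

end Vale.Agent.P347
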