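import Vale.Agent.P347.Rec
import Vale.Agent.P347.SpecsChain
import Vale.Agent.P347.SpecsRot

/-!
The outer sampler, as a proposition (no proof here).
-/

namespace Vale.Agent.P347

open Filter

/-- The recursion and the analytic inputs give samplers with `d ^ o(1)` queries. -/
def OuterStatement : Prop :=
  RecursionStatement → Inputs → SmoothingStatement → OracleStatement → RealiseChainStatement →
    ReductionChainStatement → ChainStepStatement →
      ∀ ε : ℝ, 0 < ε → ∀ᶠ d : ℕ in atTop, ∃ (q : ℕ) (A : Algorithm d q),
        (q : ℝ) ≤ (d : ℝ) ^ ε ∧ A.Samples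

end Vale.Agent.P347
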