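import Vale.Agent.P347.OuterFlow
import Vale.Agent.P347.SpecsOuter

/-!
Chain steps transporting one level to another.
-/

namespace Vale.Agent.P347

open MeasureTheory ProbabilityTheory
open scoped Gradient RealInnerProductSpace

variable {d : ℕ}

/-- The levels up to `c` behave as Gaussian smoothings of the target. -/
structure LevelsOK (V : Euc d → ℝ) (c : ℝ) : Prop where
  /-- probability laws -/
  prob : ∀ t, 0 ≤ t → t ≤ c → IsProbabilityMeasure (levelLaw V t)
  /-- first moments -/
  moment : ∀ t, 0 ≤ t → t ≤ c → Integrable (fun y => ‖y‖) (levelLaw V t)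
  /-- semigroup -/
  semigroup : ∀ t r, 0 ≤ t → 0 ≤ r → t + r ≤ c →
    ((levelLaw V t).prod (gauss d)).map (fun p => p.1 + √r • p.2) = levelLaw V (t + r)

/-- `e` moves level `t` to level `t'` up to `E`, contracting by `ρ`. -/
structure StepOK (d : ℕ) (e : Expr 1) (Q : ℕ) (ρ t t' E : ℝ) : Prop where
  /-- queries -/
  queries : e.queries ≤ Q
  /-- contraction -/
  lip : ∀ G : Euc d → Euc d, Oracle G → ∀ (z w : Euc d) (ω : ℕ → Euc d),
    ‖e.eval G (fun _ => z) ω - e.eval G (fun _ => w) ω‖ ≤ ρ * ‖z - w‖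
  /-- transport -/
  transport : ∀ V : Euc d → ℝ, Nice d V → ∀ f : Euc d → ℝ, LipschitzWith 1 f →
    |∫ y, ∫ u, f u ∂(e.law (∇ V) fun _ => y) ∂(levelLaw V t) - ∫ u, f u ∂(levelLaw V t')| ≤ E

lemma lipschitz_integral_gN {f : Euc d → ℝ} (hf : LipschitzWith 1 f) (v : ℝ) (a b : Euc d) :
    |∫ u, f u ∂(gN a v) - ∫ u, f u ∂(gN b v)| ≤ 1 * ‖a - b‖ := by
  rw [one_mul]; exact dualClose_gN_shift a b v f hf

lemma continuous_of_lipschitz_bound {K : ℝ} {F : Euc d → ℝ}
    (h : ∀ a b, |F a - F b| ≤ K * ‖a - b‖) : Continuous F :=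
  (LipschitzWith.of_dist_le_mul (K := K.toNNReal) fun a b => by
    rw [Real.dist_eq, dist_eq_norm]
    exact (h a b).trans (mul_le_mul_of_nonneg_right (Real.le_coe_toNNReal K) (norm_nonneg _))).continuous

lemma LevelsOK.integral_gN {V : Euc d → ℝ} {c : ℝ} (hL : LevelsOK V c) {t r : ℝ} (ht : 0 ≤ t)
    (hr : 0 ≤ r) (hc : t + r ≤ c) {f : Euc d → ℝ} (hf : LipschitzWith 1 f) :
    ∫ y, ∫ u, f u ∂(gN y r) ∂(levelLaw V t) = ∫ u, f u ∂(levelLaw V (t + r)) := by
  have := hL.prob t ht (by linarith)
  have := hL.prob (t + r) (by linarith) hc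
  have hm : Measurable fun p : Euc d × Euc d => p.1 + √r • p.2 := by fun_prop
  have hi : Integrable f (levelLaw V (t + r)) :=
    integrable_of_lipschitzWith (hL.moment _ (by linarith) hc) hf
  rw [← hL.semigroup t r ht hr hc] at hi ⊢
  have hi2 : Integrable (fun p : Euc d × Euc d => f (p.1 + √r • p.2))
      ((levelLaw V t).prod (gauss d)) :=
    (integrable_map_measure hf.continuous.aestronglyMeasurable hm.aemeasurable).1 hi
  rw [integral_map hm.aemeasurable hf.continuous.aestronglyMeasurable, integral_prod _ hi2]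
  exact integral_congr_ae (.of_forall fun y => P347.integral_gN y r hf.continuous)

/-- `z + √s • η`. -/
noncomputable def noiseExpr (s : ℝ) : Expr 1 :=
  Expr.add (Expr.inp 0) (Expr.smul √s (Expr.noise 0))

lemma law_noiseExpr (G : Euc d → Euc d) (s : ℝ) (z : Euc d) :
    ((noiseExpr s).law G fun _ => z) = gN z s := by
  have h : (fun ω : ℕ → Euc d => (noiseExpr s).eval G (fun _ => z) ω)
      = (fun η : Euc d => z + √s • η) ∘ fun ω => ω 0 := by
    funext ω; simp [noiseExpr, Expr.eval]
  rw [Expr.law, h, ← Measure.map_map (g := fun η : Euc d => z + √s • η)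
    (f := fun ω : ℕ → Euc d => ω 0) (by fun_prop) (measurable_pi_apply 0), gN, noiseLaw]
  congr 1
  exact Measure.infinitePi_map_eval _ 0

lemma stepOK_noise {c t r : ℝ} (hlev : ∀ V : Euc d → ℝ, Nice d V → LevelsOK V c)
    (ht : 0 ≤ t) (hr : 0 ≤ r) (hc : t + r ≤ c) : StepOK d (noiseExpr r) 0 1 t (t + r) 0 where
  queries := by simp [noiseExpr, Expr.queries]
  lip G _ z w ω := by simp [noiseExpr, Expr.eval]
  transport V hV f hf := by
    simp only [law_noiseExpr, (hlev V hV).integral_gN ht hr hc hf, sub_self, abs_zero, le_refl]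

lemma stepOK_flow {c b a σ : ℝ} {op : Op} {Q P : ℕ} {E : ℝ → ℝ → ℝ → ℝ} {M₀ Eq : ℝ}
    (ha : 0 ≤ a) (hab : a ≤ b) (hb : b ≤ c) (hbs : b - a ≤ 1) (hσ : 0 ≤ σ) (hσc : a + σ ≤ c)
    (h : LastOK op Q P a b a (b - a) σ E)
    (hlev : ∀ V : Euc d → ℝ, Nice d V → LevelsOK V c)
    (hflow : ∀ V : Euc d → ℝ, Nice d V → ∃ Φ, FlowData V a b P Φ M₀ Eq) :
    StepOK d (op.run (Expr.inp 0)) Q (1 - (b - a) / 3) b (a + σ) (E M₀ Eq (dimFac d)) := by
  obtain ⟨hcost, hst, hev⟩ := h
  set e : Expr 1 := op.run (Expr.inp 0)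
  have hlip : ∀ G : Euc d → Euc d, Oracle G → ∀ (z w : Euc d) (ω : ℕ → Euc d),
      ‖e.eval G (fun _ => z) ω - e.eval G (fun _ => w) ω‖ ≤ (1 - (b - a) / 3) * ‖z - w‖ := by
    intro G hG z w ω
    have hp : (Expr.inp 0 : Expr 1).Shift G (fun _ => z) (fun _ => w) (z - w) 0 := fun ω => by
      simp [Expr.eval]
    have h2 : ‖e.eval G (fun _ => z) ω - e.eval G (fun _ => w) ω - (1 - 3 / 4 * (b - a)) • (z - w)‖
        ≤ (b - a) / 3 * ‖z - w‖ + (1 + 3 * (b - a)) * 0 := hst d G hG 1 _ _ _ _ _ hp ω
    have h3 := norm_le_norm_add_norm_sub' (e.eval G (fun _ => z) ω - e.eval G (fun _ => w) ω)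
      ((1 - 3 / 4 * (b - a)) • (z - w))
    rw [norm_smul, Real.norm_eq_abs, abs_of_nonneg (by linarith : 0 ≤ 1 - 3 / 4 * (b - a))] at h3
    nlinarith [norm_nonneg (z - w), mul_nonneg (sub_nonneg.2 hab) (norm_nonneg (z - w))]
  refine ⟨?_, hlip, fun V hV f hf => ?_⟩
  · have h2 := hcost 1 0 (Expr.inp 0)
    simpa [Expr.queries_eq_cost, Expr.cost] using h2
  · obtain ⟨Φ, hF⟩ := hflow V hV
    have hG := hV.oracle
    have := (hlev V hV).prob b (ha.trans hab) hb
    have := (hlev V hV).prob a ha (hab.trans hb)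
    obtain ⟨-, err, -, herri, herrle, hae⟩ := hev d V Φ M₀ Eq hV hF
    set F : Euc d → ℝ := fun y => ∫ u, f u ∂(e.law (∇ V) fun _ => y)
    set H : Euc d → ℝ := fun y => ∫ u, f u ∂(gN y σ)
    have hρ : 0 ≤ 1 - (b - a) / 3 := by linarith
    have hFl : ∀ z w, |F z - F w| ≤ (1 - (b - a) / 3) * ‖z - w‖ := fun z w => by
      have hi : ∀ u : Euc d, Integrable (fun ω => f (e.eval (∇ V) (fun _ => u) ω)) (noiseLaw d) :=
        fun u => by
          have hm := Expr.continuous_eval_noise hG.continuous e (fun _ => u)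
          have : IsProbabilityMeasure (e.law (∇ V) fun _ => u) :=
            Measure.isProbabilityMeasure_map hm.aemeasurable
          have h := integrable_of_lipschitzWith (ν := e.law (∇ V) fun _ => u)
            (Expr.law_integrable_norm (by norm_num : (0 : ℝ) ≤ 2) hG.continuous hG.lip e _) hf
          rwa [Expr.law, integrable_map_measure hf.continuous.aestronglyMeasurable
            hm.aemeasurable] at h
      simp only [F]
      rw [Expr.integral_law hG.continuous e _ hf.continuous,
        Expr.integral_law hG.continuous e _ hf.continuous, ← integral_sub (hi z) (hi w)]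
      refine abs_integral_le_integral_abs.trans ?_
      refine (integral_mono ((hi z).sub (hi w)).abs
        (integrable_const ((1 - (b - a) / 3) * ‖z - w‖)) fun ω => ?_).trans (by simp)
      refine (lipschitz_abs_sub hf _ _).trans ?_
      rw [one_mul]
      exact hlip _ hG z w ω
    have hFi : Integrable F (levelLaw V b) := integrable_lipschitz
      ((hlev V hV).moment b (ha.trans hab) hb) (continuous_of_lipschitz_bound hFl) hFl
    have hHc : Continuous H := continuous_of_lipschitz_bound (lipschitz_integral_gN hf σ)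
    have hHi : Integrable H (levelLaw V a) := integrable_lipschitz
      ((hlev V hV).moment a ha (hab.trans hb)) hHc (lipschitz_integral_gN hf σ)
    have hΦ := hF.cont a ⟨le_rfl, hab⟩
    have htarget : ∫ u, f u ∂(levelLaw V (a + σ)) = ∫ y, H (Φ a y) ∂(levelLaw V b) := by
      rw [← (hlev V hV).integral_gN ha hσ hσc hf]
      rw [← hF.law a ⟨le_rfl, hab⟩]
      exact integral_map hΦ.aemeasurable hHc.aestronglyMeasurable
    have hHi' : Integrable (fun y => H (Φ a y)) (levelLaw V b) := by
      rw [← hF.law a ⟨le_rfl, hab⟩] at hHi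
      exact (integrable_map_measure hHc.aestronglyMeasurable hΦ.aemeasurable).1 hHi
    rw [htarget, ← integral_sub hFi hHi']
    refine abs_integral_le_integral_abs.trans ?_
    refine (integral_mono_ae (hFi.sub hHi').abs herri ?_).trans herrle
    filter_upwards [hae] with y hy
    have hp : DualClose ((Expr.inp 0 : Expr 1).law (∇ V) fun _ => y) (gN y 0) 0 :=
      DualClose.of_eq (Expr.law_inp 0 _)
    have h4 := hy 1 (Expr.inp 0) (fun _ => y) 0 hp
    rw [mul_zero, zero_add] at h4
    exact h4 f hf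

lemma chain_extend (hchain : ChainStepStatement) {e : Expr 1} {es : List (Expr 1)} {Q : ℕ}
    {ρ t t' E D c : ℝ} (hρ : 0 ≤ ρ) (h : StepOK d e Q ρ t t' E) {V : Euc d → ℝ} (hV : Nice d V)
    (hlev : LevelsOK V c) (ht : 0 ≤ t) (htc : t ≤ c)
    (hD : DualClose (chainLaw (∇ V) es) (levelLaw V t) D) :
    DualClose (chainLaw (∇ V) (e :: es)) (levelLaw V t') (ρ * D + E) := fun f hf => by
  obtain ⟨hp, hi, heq⟩ := hchain d (∇ V) e es hV.oracle
  rw [heq f hf]
  have := hlev.prob t ht htc
  have hG := hV.oracle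
  have hFl : ∀ z w, |∫ u, f u ∂(e.law (∇ V) fun _ => z) - ∫ u, f u ∂(e.law (∇ V) fun _ => w)|
      ≤ ρ * ‖z - w‖ := fun z w => by
    have hi : ∀ u : Euc d, Integrable (fun ω => f (e.eval (∇ V) (fun _ => u) ω)) (noiseLaw d) :=
      fun u => by
        have hm := Expr.continuous_eval_noise hG.continuous e (fun _ => u)
        have : IsProbabilityMeasure (e.law (∇ V) fun _ => u) :=
          Measure.isProbabilityMeasure_map hm.aemeasurable
        have h := integrable_of_lipschitzWith (ν := e.law (∇ V) fun _ => u)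
          (Expr.law_integrable_norm (by norm_num : (0 : ℝ) ≤ 2) hG.continuous hG.lip e _) hf
        rwa [Expr.law, integrable_map_measure hf.continuous.aestronglyMeasurable
          hm.aemeasurable] at h
    rw [Expr.integral_law hG.continuous e _ hf.continuous,
      Expr.integral_law hG.continuous e _ hf.continuous, ← integral_sub (hi z) (hi w)]
    refine abs_integral_le_integral_abs.trans ?_
    refine (integral_mono ((hi z).sub (hi w)).abs
      (integrable_const (ρ * ‖z - w‖)) fun ω => ?_).trans (by simp)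
    refine (lipschitz_abs_sub hf _ _).trans ?_
    rw [one_mul]
    exact h.lip _ hG z w ω
  exact (abs_sub_le _ _ _).trans (add_le_add (hD.lipschitz hρ hFl) (h.transport V hV f hf))

lemma chainQueries_cons_le {e : Expr 1} {es : List (Expr 1)} {Q T : ℕ} (he : e.queries ≤ Q)
    (hes : chainQueries es ≤ T) : chainQueries (e :: es) ≤ Q + T := by
  simp only [chainQueries, List.map_cons, List.sum_cons] at *
  omega

lemma dualClose_chain_nil {V : Euc d → ℝ} {c t : ℝ} (hlev : LevelsOK V c) (ht : 0 ≤ t)
    (htc : t ≤ c) :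
    DualClose (chainLaw (∇ V) []) (levelLaw V t) (∫ y, ‖y‖ ∂(levelLaw V t)) := fun f hf => by
  have := hlev.prob t ht htc
  have hi := integrable_of_lipschitzWith (hlev.moment t ht htc) hf
  have e : chainLaw (∇ V) [] = (noiseLaw d).map fun _ => (0 : Euc d) := rfl
  rw [e, Measure.map_const, measure_univ, one_smul, integral_dirac]
  calc |f 0 - ∫ y, f y ∂(levelLaw V t)| = |∫ y, (f 0 - f y) ∂(levelLaw V t)| := by
        rw [integral_sub (integrable_const _) hi]; simp
    _ ≤ ∫ y, |f 0 - f y| ∂(levelLaw V t) := abs_integral_le_integral_abs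
    _ ≤ _ := integral_mono ((integrable_const _).sub hi).abs (hlev.moment t ht htc) fun y => by
        simpa using lipschitz_abs_sub hf 0 y

lemma dualClose_level_zero {V : Euc d → ℝ} {c s : ℝ} (hlev : LevelsOK V c) (hs : 0 ≤ s)
    (hsc : s ≤ c) : DualClose (levelLaw V s) (levelLaw V 0) (√s * √d) := fun f hf => by
  have := hlev.prob 0 le_rfl (hs.trans hsc)
  have h := hlev.integral_gN le_rfl hs (by simpa using hsc) hf
  rw [zero_add] at h
  have hi := integrable_of_lipschitzWith (hlev.moment 0 le_rfl (hs.trans hsc)) hf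
  have hH : Integrable (fun y => ∫ u, f u ∂(gN y s)) (levelLaw V 0) := integrable_lipschitz
    (hlev.moment 0 le_rfl (hs.trans hsc))
    (continuous_of_lipschitz_bound (lipschitz_integral_gN hf s)) (lipschitz_integral_gN hf s)
  rw [← h, ← integral_sub hH hi]
  refine abs_integral_le_integral_abs.trans ?_
  refine (integral_mono (hH.sub hi).abs (integrable_const (√s * √d)) fun y => ?_).trans (by simp)
  simp only [Pi.sub_apply]
  have hint : Integrable (fun η => f (y + √s • η)) (gauss d) := by
    have h2 := integrable_of_lipschitzWith (gN_integrable_norm y s) hf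
    rwa [gN, integrable_map_measure hf.continuous.aestronglyMeasurable (by fun_prop)] at h2
  calc |∫ u, f u ∂(gN y s) - f y| = |∫ η, (f (y + √s • η) - f y) ∂(gauss d)| := by
        rw [P347.integral_gN y s hf.continuous, integral_sub hint (integrable_const _)]; simp
    _ ≤ ∫ η, |f (y + √s • η) - f y| ∂(gauss d) := abs_integral_le_integral_abs
    _ ≤ ∫ η, √s * ‖η‖ ∂(gauss d) := integral_mono (hint.sub (integrable_const _)).abs
        (gauss_integrable_norm.const_mul _) fun η => by
          refine (lipschitz_abs_sub hf _ _).trans ?_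
          rw [one_mul, add_sub_cancel_left, norm_smul, Real.norm_of_nonneg (Real.sqrt_nonneg _)]
    _ ≤ _ := by
        rw [integral_const_mul]
        exact mul_le_mul_of_nonneg_left gauss_integral_norm_le (Real.sqrt_nonneg _)

lemma chainLaw_noise {G : Euc d → Euc d} (hG : Continuous G) (s : ℝ) (es : List (Expr 1)) :
    chainLaw G (noiseExpr s :: es)
      = ((chainLaw G es).prod (gauss d)).map fun p => p.1 + √s • p.2 := by
  have hc : ∀ l : List (Expr 1), Continuous (chainEval G l) := fun l => by
    induction l with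
    | nil => exact continuous_const
    | cons e l ih =>
      exact (Expr.continuous_eval hG e).comp
        ((continuous_pi fun _ => ih.comp (by fun_prop)).prodMk (by fun_prop))
  have : IsProbabilityMeasure (chainLaw G es) :=
    Measure.isProbabilityMeasure_map (hc es).aemeasurable
  have hproj : (noiseLaw d).map (fun ω : ℕ → Euc d => ω 0) = gauss d :=
    Measure.infinitePi_map_eval _ 0
  have hblocks := noiseLaw_map_blocks d 1
  have hev : (Measure.pi fun _ : Fin 1 => noiseLaw d).map (fun q => q 0) = noiseLaw d :=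
    (measurePreserving_eval (fun _ : Fin 1 => noiseLaw d) 0).map_eq
  have hzero : Measurable fun ω : ℕ → Euc d => ω 0 := measurable_pi_apply 0
  have hq : Measurable fun q : Fin 1 → ℕ → Euc d => q 0 := measurable_pi_apply 0
  have hpair : (noiseLaw d).map (fun ω : ℕ → Euc d =>
      (chainEval G es (fun j => ω (Nat.pair 1 j)), ω (Nat.pair 0 0)))
      = (chainLaw G es).prod (gauss d) := by
    have hmq : Measurable fun q : Fin 1 → ℕ → Euc d => chainEval G es (q 0) :=
      (hc es).measurable.comp hq
    have hm2 : Measurable fun p : (ℕ → Euc d) × (Fin 1 → ℕ → Euc d) =>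
        (chainEval G es (p.2 0), p.1 0) :=
      (hmq.comp measurable_snd).prodMk (hzero.comp measurable_fst)
    have h1 : ((noiseLaw d).prod (Measure.pi fun _ : Fin 1 => noiseLaw d)).map
        (fun p : (ℕ → Euc d) × (Fin 1 → ℕ → Euc d) => (chainEval G es (p.2 0), p.1 0))
        = (chainLaw G es).prod (gauss d) := by
      have e : (fun p : (ℕ → Euc d) × (Fin 1 → ℕ → Euc d) => (chainEval G es (p.2 0), p.1 0))
          = Prod.swap ∘ Prod.map (fun ω : ℕ → Euc d => ω 0)
            (fun q : Fin 1 → ℕ → Euc d => chainEval G es (q 0)) := rfl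
      have e2 : (Measure.pi fun _ : Fin 1 => noiseLaw d).map
          (fun q : Fin 1 → ℕ → Euc d => chainEval G es (q 0)) = chainLaw G es := by
        have := Measure.map_map (μ := Measure.pi fun _ : Fin 1 => noiseLaw d) (hc es).measurable hq
        rw [hev] at this
        exact this.symm
      rw [e, ← Measure.map_map measurable_swap (hzero.prodMap hmq),
        ← Measure.map_prod_map _ _ hzero hmq, hproj, e2]
      exact Measure.prod_swap
    rw [← h1, ← hblocks, Measure.map_map hm2 (by fun_prop)]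
    congr 1
  have hm3 : Measurable fun ω : ℕ → Euc d =>
      (chainEval G es (fun j => ω (Nat.pair 1 j)), ω (Nat.pair 0 0)) :=
    ((hc es).measurable.comp (show Measurable fun (ω : ℕ → Euc d) j => ω (Nat.pair 1 j) by
      fun_prop)).prodMk (measurable_pi_apply _)
  rw [← hpair, Measure.map_map (by fun_prop) hm3]
  rfl

end Vale.Agent.P347
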