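import Vale.Agent.P347.CoefExpr
import Vale.Agent.P347.Basic

/-!
States made of `B` blocks of `d` coordinates: block projections and tensors placed in blocks.
-/

namespace Vale.Agent.P347

open scoped RealInnerProductSpace ContDiff

variable {B d n : ℕ}

/-- The index type of a state with `B` blocks. -/
abbrev Blk (B d : ℕ) : Type := Fin B × Fin d

/-- The block projection. -/
noncomputable def bproj (k : Fin B) : Sp (Blk B d) →L[ℝ] Euc d :=
  ((EuclideanSpace.equiv (Fin d) ℝ).symm : (Fin d → ℝ) →L[ℝ] Euc d).comp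
    (ContinuousLinearMap.pi fun i => EuclideanSpace.proj (k, i))

@[simp] lemma bproj_apply (k : Fin B) (x : Sp (Blk B d)) (i : Fin d) :
    bproj k x i = x (k, i) := rfl

lemma bproj_single (k : Fin B) (p : Blk B d) :
    bproj k (EuclideanSpace.single p (1 : ℝ))
      = if p.1 = k then EuclideanSpace.single p.2 (1 : ℝ) else 0 := by
  ext i
  obtain ⟨a, b⟩ := p
  by_cases h : a = k
  · subst h; simp [PiLp.single_apply]
  · simp [PiLp.single_apply, h, Ne.symm h]

lemma norm_sq_blocks (x : Sp (Blk B d)) : ‖x‖ ^ 2 = ∑ k, ‖bproj k x‖ ^ 2 := by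
  simp only [EuclideanSpace.real_norm_sq_eq, bproj_apply, Fintype.sum_prod_type]

lemma norm_bproj_le (k : Fin B) (x : Sp (Blk B d)) : ‖bproj k x‖ ≤ ‖x‖ := by
  refine (pow_le_pow_iff_left₀ (norm_nonneg _) (norm_nonneg _) two_ne_zero).1 ?_
  rw [norm_sq_blocks x]
  exact Finset.single_le_sum (f := fun k => ‖bproj k x‖ ^ 2) (fun j _ => sq_nonneg _)
    (Finset.mem_univ k)

/-- A tensor placed in the blocks `ks`, one block for each slot. -/
noncomputable def liftTen (ks : Fin n → Fin B) (T : Ten (Fin d) n) : Ten (Blk B d) n :=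
  WithLp.toLp 2 fun α => if ∀ s, (α s).1 = ks s then T (fun s => (α s).2) else 0

lemma liftTen_apply (ks : Fin n → Fin B) (T : Ten (Fin d) n) (α : Fin n → Blk B d) :
    liftTen ks T α = if ∀ s, (α s).1 = ks s then T (fun s => (α s).2) else 0 := rfl

/-- Placement in blocks as a continuous linear map. -/
noncomputable def liftL (ks : Fin n → Fin B) : Ten (Fin d) n →L[ℝ] Ten (Blk B d) n :=
  LinearMap.toContinuousLinearMap
    { toFun := liftTen ks
      map_add' := fun S T => by
        ext α
        simp only [liftTen_apply, PiLp.add_apply]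
        split <;> simp
      map_smul' := fun r T => by
        ext α
        simp only [liftTen_apply, PiLp.smul_apply, RingHom.id_apply, smul_eq_mul]
        split <;> simp }

lemma liftL_apply (ks : Fin n → Fin B) (T : Ten (Fin d) n) : liftL ks T = liftTen ks T := rfl

lemma sum_blocks {M : Type*} [AddCommMonoid M] {m : ℕ} (ks : Fin m → Fin B)
    (g : (Fin m → Blk B d) → M) (h : ∀ α, ¬(∀ s, (α s).1 = ks s) → g α = 0) :
    ∑ α, g α = ∑ β : Fin m → Fin d, g fun s => (ks s, β s) := by
  classical
  rw [← Finset.sum_subset (Finset.subset_univ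
    (Finset.univ.image fun β : Fin m → Fin d => fun s => (ks s, β s))), Finset.sum_image]
  · intro β _ β' _ hb
    funext s
    exact congrArg Prod.snd (congrFun hb s)
  · intro α _ hα
    refine h α fun hs => hα (Finset.mem_image.2 ⟨fun s => (α s).2, Finset.mem_univ _, ?_⟩)
    funext s
    exact Prod.ext (hs s).symm rfl

lemma norm_restrict_le {m : ℕ} (ks : Fin m → Fin B) (A : Ten (Blk B d) m) :
    ‖(WithLp.toLp 2 fun β => A fun s => (ks s, β s) : Ten (Fin d) m)‖ ≤ ‖A‖ := by
  classical
  refine (pow_le_pow_iff_left₀ (norm_nonneg _) (norm_nonneg _) two_ne_zero).1 ?_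
  rw [EuclideanSpace.real_norm_sq_eq, EuclideanSpace.real_norm_sq_eq]
  refine le_of_eq_of_le (Finset.sum_image (f := fun α => A α ^ 2)
    (s := (Finset.univ : Finset (Fin m → Fin d))) (g := fun β s => (ks s, β s)) ?_).symm
    (Finset.sum_le_sum_of_subset_of_nonneg (Finset.subset_univ _) fun _ _ _ => sq_nonneg _)
  intro β _ β' _ hb
  funext s
  exact congrArg Prod.snd (congrFun hb s)

theorem AllSplit.lift {C : ℝ} (hC : 0 ≤ C) {T : Ten (Fin d) n} (hT : AllSplit C T)
    (ks : Fin n → Fin B) : AllSplit C (liftTen ks T) := by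
  intro a b e ha hb A A'
  set kl := fun i => ks (e (Sum.inl i))
  set kr := fun i => ks (e (Sum.inr i))
  have key := hT a b e ha hb (WithLp.toLp 2 fun β => A fun s => (kl s, β s))
    (WithLp.toLp 2 fun β => A' fun s => (kr s, β s))
  refine le_trans (le_of_eq ?_) (key.trans ?_)
  · congr 1
    rw [sum_blocks kl]
    · refine Finset.sum_congr rfl fun α _ => ?_
      rw [sum_blocks kr]
      · refine Finset.sum_congr rfl fun β _ => ?_
        have h : joinIdx e (fun s => (kl s, α s)) (fun s => (kr s, β s))
            = fun s => (ks s, joinIdx e α β s) :=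
          joinIdx_eq _ _ _ _ (fun i => by simp [kl, joinIdx_inl]) fun i => by simp [kr, joinIdx_inr]
        simp [h, liftTen_apply]
      · intro β hβ
        rw [liftTen_apply, if_neg]
        · simp
        · intro h
          exact hβ fun s => by simpa [joinIdx_inr, kr] using h (e (Sum.inr s))
    · intro α hα
      refine Finset.sum_eq_zero fun β _ => ?_
      rw [liftTen_apply, if_neg]
      · simp
      · intro h
        exact hα fun s => by simpa [joinIdx_inl, kl] using h (e (Sum.inl s))
  · gcongr <;> exact norm_restrict_le _ _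

/-- The identity between two blocks, as a rank two tensor. -/
noncomputable def blockId (d : ℕ) (a b : Fin B) : Ten (Blk B d) 2 :=
  liftTen ![a, b] (WithLp.toLp 2 fun α => if α 0 = α 1 then 1 else 0)

lemma blockId_apply (a b : Fin B) (α : Fin 2 → Blk B d) :
    blockId d a b α = if (α 0).1 = a ∧ (α 1).1 = b ∧ (α 0).2 = (α 1).2 then 1 else 0 := by
  simp only [blockId, liftTen_apply, Fin.forall_fin_two, Matrix.cons_val_zero, Matrix.cons_val_one]
  by_cases h1 : (α 0).1 = a <;> by_cases h2 : (α 1).1 = b <;> simp [h1, h2]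

lemma allSplit_blockId (a b : Fin B) : AllSplit 1 (blockId d a b) := by
  refine AllSplit.lift zero_le_one ?_ _
  intro p q e hp hq A A'
  have hcard : p + q = 2 := by simpa using Fintype.card_congr e
  obtain rfl : p = 1 := by omega
  obtain rfl : q = 1 := by omega
  have hne : e (Sum.inl 0) ≠ e (Sum.inr 0) := e.injective.ne (by simp)
  have hval : ∀ i j : Fin d, (if joinIdx e (fun _ => i) (fun _ => j) 0
      = joinIdx e (fun _ => i) (fun _ => j) 1 then (1 : ℝ) else 0) = if i = j then 1 else 0 := by
    intro i j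
    have hl : joinIdx e (fun _ => i) (fun _ => j) (e (Sum.inl 0)) = i := joinIdx_inl _ _ _ _
    have hr : joinIdx e (fun _ => i) (fun _ => j) (e (Sum.inr 0)) = j := joinIdx_inr _ _ _ _
    rcases Fin.exists_fin_two.1 ⟨e (Sum.inl 0), rfl⟩ with h | h <;>
    rcases Fin.exists_fin_two.1 ⟨e (Sum.inr 0), rfl⟩ with h' | h' <;>
    simp only [h, h', ne_eq, not_true_eq_false] at hl hr hne
    · simp only [hl, hr]
    · simp only [hl, hr]; exact if_congr eq_comm rfl rfl
  simp only [sum_pi_one, hval]
  simp only [ite_mul, one_mul, zero_mul, Finset.sum_ite_eq, Finset.mem_univ, if_true]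
  have h1 : ∀ X : Ten (Fin d) 1, ‖X‖ = √(∑ i, X (fun _ => i) ^ 2) := fun X => by
    rw [EuclideanSpace.norm_eq, sum_pi_one]
    simp
  rw [h1 A, h1 A', abs_le]
  constructor
  · have := Real.sum_mul_le_sqrt_mul_sqrt Finset.univ (fun i => -A fun _ => i) (fun i => A' fun _ => i)
    simp only [neg_mul, Finset.sum_neg_distrib, neg_sq] at this
    linarith
  · exact Real.sum_mul_le_sqrt_mul_sqrt _ _ _

end Vale.Agent.P347
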