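import Vale.Agent.P347.PathGadgetExpr

/-!
The realisation of the gadget calculus: gradient and flow derivative of every base field.
-/

namespace Vale.Agent.P347

open MeasureTheory Set
open scoped RealInnerProductSpace ContDiff

variable {d : ℕ}

lemma contract_smul_left {ι : Type} [Fintype ι] {a b c m : ℕ} (e : Fin a ⊕ Fin b ≃ Fin m)
    (r : ℝ) (K : Ten ι m) (f : Ten ι (b + c)) :
    contractTen e (r • K) f = r • contractTen e K f := by
  simpa using contract_smul_smul e r 1 K f

lemma contract_smul_right {ι : Type} [Fintype ι] {a b c m : ℕ} (e : Fin a ⊕ Fin b ≃ Fin m)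
    (r : ℝ) (K : Ten ι m) (f : Ten ι (b + c)) :
    contractTen e K (r • f) = r • contractTen e K f := by
  simpa using contract_smul_smul e 1 r K f

/-- The adjoint gradient only sees the field at the given time. -/
lemma Family.delta_congr {ι : Type} [Fintype ι] [DecidableEq ι] {F : Family ι} {k : ℕ}
    {f g : ℝ → Sp ι → Ten ι (k + 1)} {t : ℝ} (h : f t = g t) (x : Sp ι) :
    F.delta f t x = F.delta g t x := by
  simp only [Family.delta, h]

lemma Family.gradB_eq_nabla {ι : Type} [Fintype ι] [DecidableEq ι] (F : Family ι) {t : ℝ}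
    (ht : t ∈ F.dom) (x : Sp ι) : F.gradB t x = nabla (fun y => tenL ι (F.b t y)) x := by
  have h : HasFDerivAt (fun y => tenL ι (F.b t y)) ((tenL ι).comp (fderiv ℝ (F.b t) x)) x :=
    (tenL ι).hasFDerivAt.comp x (F.tame_b.differentiableAt_space ht x).hasFDerivAt
  ext α
  simp only [Family.gradB, nabla, h.fderiv]
  rfl

namespace PathG

variable {V : Euc d → ℝ} (hU : Weight V) {τ κ : ℝ}

/-- The three coefficients. -/
noncomputable def co (κ w : ℝ) : Fin 3 → ℝ := ![1, κ, w]

/-- The derivative tensors at the position, placed in the position block. -/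
noncomputable def dl (V : Euc d → ℝ) (n : ℕ) (t : ℝ) (z : Sp (Blk 3 d)) : Ten (Blk 3 d) n :=
  liftTen (fun _ => 1) (derivTen (smoothPot V t) n (py d z))

/-- The base fields. -/
noncomputable def val (V : Euc d → ℝ) (τ κ w : ℝ) :
    ∀ n, GB n → ℝ → Sp (Blk 3 d) → Ten (Blk 3 d) n
  | _, .E a b => fun _ _ => blockId d a b
  | _, .Q a b => fun t _ => (τ - t)⁻¹ • blockId d a b
  | _, .K j n => fun t z => co κ w j • dl V (n + 2) t z

lemma dl_tame (hU : Weight V) (n : ℕ) : Tame (Ioo 0 τ) (dl V n) :=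
  ((tame_py hU ((smoothPot_tame hU).derivTen isOpen_Ioi n)).clm isOpen_Ioo (liftL _)).of_eq
    isOpen_Ioo fun _ _ _ => rfl

lemma nabla_dl (hU : Weight V) (n : ℕ) {t : ℝ} (ht : 0 < t) (z : Sp (Blk 3 d)) :
    nabla (dl V n t) z = dl V (n + 1) t z := by
  refine (nabla_lift_bproj _ 1 (((smoothPot_tame hU).derivTen isOpen_Ioi n).differentiableAt_space
    (I := Ioi 0) ht _)).trans ?_
  exact lift_congr (Fin.cases (by simp) (by simp)) _

lemma dl_one (hU : Weight V) {t : ℝ} (ht : 0 < t) (z : Sp (Blk 3 d)) :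
    dl V 1 t z = bvec 1 (score V t (py d z)) := by
  ext α
  simp only [dl, liftTen_apply, Fin.forall_fin_one, bvec_apply]
  split_ifs with h
  · rw [derivTen_one_apply hU ht]
  · rfl

lemma dl_two (t : ℝ) (z : Sp (Blk 3 d)) :
    dl V 2 t z = liftTen ![1, 1] (derivTen (smoothPot V t) 2 (py d z)) :=
  lift_congr (fun s => by fin_cases s <;> rfl) _

include hU in
lemma base (w : ℝ) : CBase (family hU τ κ) (val V τ κ w) gnb where
  tame n i := by
    cases i with
    | E a b => exact Tame.const _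
    | Q a b =>
      exact (((tame_inv (τ := τ) (d := d) 1 one_pos).bilin (Tame.const (blockId d a b)) isOpen_Ioo
        (ContinuousLinearMap.lsmul ℝ ℝ))).of_eq isOpen_Ioo fun t _ z => by simp [val]
    | K j n => exact (dl_tame hU (n + 2)).const_smul isOpen_Ioo _
  nabla_eq n i t ht x := by
    cases i with
    | E a b => exact nabla_const _ x
    | Q a b => exact nabla_const _ x
    | K j n =>
      show nabla (fun y => co κ w j • dl V (n + 2) t y) x = co κ w j • dl V (n + 2 + 1) t x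
      rw [nabla_smul (dl_tame (τ := τ) hU (n + 2)) _ ht, nabla_dl hU _ ht.1]

section Identities

include hU

lemma pd_pot {t : ℝ} (ht : t ∈ Ioo 0 τ) (z : Sp (Blk 3 d)) (i : Fin d) :
    pd ((0 : Fin 3), i) (pot V τ) t z = (τ - t)⁻¹ * (px d z i - py d z i) ∧
    pd ((1 : Fin 3), i) (pot V τ) t z
      = score V t (py d z) i - (τ - t)⁻¹ * (px d z i - py d z i) ∧
    pd ((2 : Fin 3), i) (pot V τ) t z = pxi d z i := by
  have h1 : HasFDerivAt (fun z => smoothPot V t (py d z))
      ((fderiv ℝ (smoothPot V t) (py d z)).comp (py d)) z :=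
    ((smoothPot_smooth hU ht.1).differentiable (by simp) _).hasFDerivAt.comp z (py d).hasFDerivAt
  have h2 := ((px d - py d).hasFDerivAt (x := z)).norm_sq.const_mul (2 * (τ - t))⁻¹
  have h3 := ((pxi d).hasFDerivAt (x := z)).norm_sq.const_mul (2 : ℝ)⁻¹
  have h : HasFDerivAt (pot V τ t) _ z := ((h1.fun_add h2).add_const _).fun_add h3
  refine ⟨?_, ?_, ?_⟩ <;>
  · simp only [pd, h.fderiv, add_apply, smul_apply, ContinuousLinearMap.comp_apply,
      sub_apply, bproj_single, smul_eq_mul, nsmul_eq_mul, innerSL_apply_apply]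
    simp [EuclideanSpace.inner_single_right, unitVec, score_apply]
    try ring

/-- The adjoint gradient of the Hessian in the position block, as a vector. -/
noncomputable def pvec (V : Euc d → ℝ) (τ t : ℝ) (z : Sp (Blk 3 d)) : Euc d :=
  WithLp.toLp 2 fun j => ∑ i, (score V t (py d z) i - (τ - t)⁻¹ * (px d z i - py d z i))
      * hs V t (py d z) i j - fderiv ℝ (lapPot V t) (py d z) (unitVec j)

lemma velY_coord {t : ℝ} (ht : 0 < t) (z : Sp (Blk 3 d)) (j : Fin d) :
    Gadget.velY V τ κ t (px d z) (py d z) (pxi d z) j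
      = 2⁻¹ * (τ - t)⁻¹ * (px d z j - py d z j) + 2⁻¹ * score V t (py d z) j
        + κ * ∑ i, pxi d z i * hs V t (py d z) i j := by
  rw [← fderiv_score_coord hU ht]
  simp only [Gadget.velY, WithLp.ofLp_add, WithLp.ofLp_smul, WithLp.ofLp_sub, Pi.add_apply,
    Pi.smul_apply, Pi.sub_apply, smul_eq_mul, mul_inv]
  ring

lemma velXi_coord {t : ℝ} (ht : 0 < t) (z : Sp (Blk 3 d)) (j : Fin d) :
    Gadget.velXi V τ κ t (px d z) (py d z) j = -κ * pvec V τ t z j := by
  simp only [Gadget.velXi, WithLp.ofLp_add, WithLp.ofLp_smul, Pi.add_apply, Pi.smul_apply,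
    smul_eq_mul, scoreDot_coord hU ht, fderiv_score_coord hU ht, pvec, WithLp.ofLp_sub,
    Pi.sub_apply, sub_mul, add_mul, Finset.sum_add_distrib, Finset.sum_sub_distrib, mul_assoc,
    ← Finset.mul_sum]
  ring

lemma tame_D2 (n : ℕ) :
    Tame (Ioo 0 τ) fun t (z : Sp (Blk 3 d)) => derivTen (smoothPot V t) n (py d z) :=
  tame_py hU ((smoothPot_tame hU).derivTen isOpen_Ioi n)

lemma tame_lift_D2 (a c : Fin 3) :
    Tame (Ioo 0 τ) fun t (z : Sp (Blk 3 d)) =>
      liftTen ![a, c] (derivTen (smoothPot V t) 2 (py d z)) :=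
  ((tame_D2 hU 2).clm isOpen_Ioo (liftL ![a, c])).of_eq isOpen_Ioo fun _ _ _ => rfl

lemma delta_lift_one (c : Fin 3) {t : ℝ} (ht : t ∈ Ioo 0 τ) (z : Sp (Blk 3 d)) :
    (family hU τ κ).delta (fun s z => liftTen ![1, c] (derivTen (smoothPot V s) 2 (py d z))) t z
      = bvec c (pvec V τ t z) := by
  refine (delta_lift (F := family hU τ κ) 1 c 1 (g := fun s => derivTen (smoothPot V s) 2)
    (tame_lift_D2 hU 1 c) ht z
    (((smoothPot_tame hU).derivTen isOpen_Ioi 2).differentiableAt_space (I := Ioi 0) ht.1 _)).trans ?_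
  congr 1
  ext j
  simp only [if_true, Finset.sum_sub_distrib, pvec]
  refine congrArg₂ (· - ·) (Finset.sum_congr rfl fun i _ => ?_) (sum_third hU ht.1 _ j)
  rw [show (family hU τ κ).Ψ = pot V τ from rfl, (pd_pot hU ht z i).2.1]
  rfl

lemma delta_lift_two (c : Fin 3) {g : ℝ → Euc d → Ten (Fin d) 2}
    (hg : Tame (Ioi 0) g) {t : ℝ} (ht : t ∈ Ioo 0 τ) (z : Sp (Blk 3 d)) :
    (family hU τ κ).delta (fun s z => liftTen ![2, c] (g s (py d z))) t z
      = bvec c (WithLp.toLp 2 fun j => ∑ i, pxi d z i * g t (py d z) (pairIdx i j)) := by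
  refine (delta_lift (F := family hU τ κ) 2 c 1 (g := g)
    (((tame_py hU hg).clm isOpen_Ioo (liftL ![2, c])).of_eq isOpen_Ioo fun _ _ _ => rfl) ht z
    (hg.differentiableAt_space ht.1 _)).trans ?_
  congr 1
  ext j
  simp [show (family hU τ κ).Ψ = pot V τ from rfl, (pd_pot hU ht z _).2.2]

omit hU in
lemma eval_mul2 {ι : Type} [Fintype ι] [DecidableEq ι] (L : ∀ n, GB n → ℝ → Sp ι → Ten ι n)
    (x y : CExpr GB 2) (t : ℝ) (z : Sp ι) :
    (mul2 x y).eval L t z
      = contractTen splitId (x.eval L t z) (show Ten ι (1 + 1) from y.eval L t z) := rfl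

omit hU in
lemma eval_lK (w : ℝ) (j : Fin 3) (n : ℕ) (t : ℝ) (z : Sp (Blk 3 d)) :
    (lK j n).eval (val V τ κ w) t z = co κ w j • dl V (n + 2) t z := rfl

omit hU in
lemma eval_lift_left (w : ℝ) (a : Fin 3) (j : Fin 3) (t : ℝ) (z : Sp (Blk 3 d)) :
    (mul2 (lE a 1) (lK j 0)).eval (val V τ κ w) t z
      = co κ w j • liftTen ![a, 1] (derivTen (smoothPot V t) 2 (py d z)) := by
  rw [eval_mul2, eval_lK, dl_two, contract_smul_right,
    show (lE a 1).eval (val V τ κ w) t z = blockId d a 1 from rfl, contract_blockId_left]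

omit hU in
lemma eval_lift_right (w : ℝ) (c : Fin 3) (j : Fin 3) (t : ℝ) (z : Sp (Blk 3 d)) :
    (mul2 (lK j 0) (lE 1 c)).eval (val V τ κ w) t z
      = co κ w j • liftTen ![1, c] (derivTen (smoothPot V t) 2 (py d z)) := by
  rw [eval_mul2, eval_lK, dl_two, contract_smul_left,
    show (lE 1 c).eval (val V τ κ w) t z = blockId d 1 c from rfl]
  exact congrArg _ (contract_blockId_right _ _ _ _)

lemma delta_eW (w : ℝ) {t : ℝ} (ht : t ∈ Ioo 0 τ) (z : Sp (Blk 3 d)) :
    (family hU τ κ).delta (eW.eval (val V τ κ w)) t z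
      = κ • bvec 1 (WithLp.toLp 2 fun j => ∑ i, pxi d z i * hs V t (py d z) i j)
        + (-κ) • bvec 2 (pvec V τ t z) := by
  have hco : co κ w 1 = κ := rfl
  rw [(family hU τ κ).delta_congr (f := eW.eval (val V τ κ w))
    (g := fun s z => κ • liftTen ![2, 1] (derivTen (smoothPot V s) 2 (py d z))
      + (-κ) • liftTen ![1, 2] (derivTen (smoothPot V s) 2 (py d z))) (funext fun y => by
      show (mul2 (lE 2 1) (lK 1 0)).eval (val V τ κ w) t y
        + (-1 : ℝ) • (mul2 (lK 1 0) (lE 1 2)).eval (val V τ κ w) t y = _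
      rw [eval_lift_left, eval_lift_right, hco, smul_smul, neg_one_mul]) z,
    Family.delta_add (F := family hU τ κ) ((tame_lift_D2 hU 2 1).const_smul isOpen_Ioo κ)
      ((tame_lift_D2 hU 1 2).const_smul isOpen_Ioo (-κ)) ht,
    Family.delta_smul (F := family hU τ κ) (tame_lift_D2 hU 2 1) κ ht,
    Family.delta_smul (F := family hU τ κ) (tame_lift_D2 hU 1 2) (-κ) ht,
    delta_lift_one hU 2 ht,
    delta_lift_two hU 1 (g := fun s => derivTen (smoothPot V s) 2)
      ((smoothPot_tame hU).derivTen isOpen_Ioi 2) ht]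
  rfl

lemma field_decomp (w : ℝ) {t : ℝ} (ht : t ∈ Ioo 0 τ) (z : Sp (Blk 3 d)) :
    tenL (Blk 3 d) (field V τ κ t z)
      = ((2⁻¹ * (τ - t)⁻¹) • (bvec 1 (px d z) - bvec 1 (py d z)) + (2⁻¹ : ℝ) • dl V 1 t z)
        + (family hU τ κ).delta (eW.eval (val V τ κ w)) t z := by
  rw [delta_eW hU w ht, dl_one hU ht.1]
  ext α
  simp only [tenL_apply, field, WithLp.ofLp_add, Pi.add_apply, WithLp.ofLp_smul, Pi.smul_apply,
    WithLp.ofLp_sub, Pi.sub_apply, smul_eq_mul, bvec_apply, bincl_apply, velY_coord hU ht.1,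
    velXi_coord hU ht.1]
  split_ifs with h1 h2
  · rw [h1] at h2; exact absurd h2 (by decide)
  all_goals ring

lemma hess_eq (w : ℝ) {t : ℝ} (ht : t ∈ Ioo 0 τ) (z : Sp (Blk 3 d)) :
    derivTen (pot V τ t) 2 z = eH.eval (val V τ κ w) t z := by
  have hI : IsOpen (Ioo (0 : ℝ) τ) := isOpen_Ioo
  set q := (τ - t)⁻¹ with hq
  set A : Sp (Blk 3 d) →L[ℝ] Ten (Blk 3 d) 1 :=
    q • ((bvec 0).comp (px d) + (bvec 1).comp (py d)
      + (-1 : ℝ) • ((bvec 0).comp (py d) + (bvec 1).comp (px d))) + (bvec 2).comp (pxi d) with hA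
  have e1 : ∀ y, derivTen (pot V τ t) 1 y = dl V 1 t y + A y := fun y => by
    rw [dl_one hU ht.1]
    ext α
    have h0 : derivTen (pot V τ t) 1 y α = pd (α 0) (pot V τ) t y :=
      nabla_apply ((pot_tame hU).derivTen hI 0) ht y α
    obtain ⟨h1, h2, h3⟩ := pd_pot hU ht y (α 0).2
    rw [h0]
    simp only [hA, add_apply, smul_apply, ContinuousLinearMap.comp_apply, WithLp.ofLp_add,
      Pi.add_apply, WithLp.ofLp_smul, Pi.smul_apply, smul_eq_mul, bvec_apply]
    rcases hα : α 0 with ⟨k, i⟩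
    simp only [hα] at h1 h2 h3 ⊢
    fin_cases k <;> simp at h1 h2 h3 ⊢ <;> first | (rw [h1]; ring) | (rw [h2]; ring) | (rw [h3])
  have hd : DifferentiableAt ℝ (dl V 1 t) z := (dl_tame (τ := τ) hU 1).differentiableAt_space ht z
  have e2 : nabla (fun y => dl V 1 t y + A y) z = nabla (dl V 1 t) z + nabla A z := by
    ext α
    simp only [nabla, fderiv_fun_add hd A.differentiableAt]
    rfl
  have hn : ∀ (k l : Fin 3) (α : Fin 2 → Blk 3 d),
      bvec k (bproj l (EuclideanSpace.single (α 0) (1 : ℝ))) (Fin.tail α) = blockId d l k α := by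
    intro k l α
    rw [← nabla_bvec_bproj k l z]
    show _ = fderiv ℝ (⇑((bvec (d := d) k).comp (bproj l))) z _ _
    rw [((bvec (d := d) k).comp (bproj l)).fderiv]
    rfl
  show nabla (derivTen (pot V τ t) 1) z = _
  rw [funext e1, e2, nabla_dl hU 1 ht.1]
  ext α
  simp only [PiLp.add_apply, nabla, ContinuousLinearMap.fderiv, hA, add_apply, smul_apply,
    ContinuousLinearMap.comp_apply, WithLp.ofLp_add, Pi.add_apply, WithLp.ofLp_smul, Pi.smul_apply,
    smul_eq_mul, hn, eH, CExpr.eval, lK, lE, lQ, val, co, Matrix.cons_val_zero, one_mul, ← hq]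
  ring

lemma gradB_eq (w : ℝ) {t : ℝ} (ht : t ∈ Ioo 0 τ) (z : Sp (Blk 3 d)) :
    (family hU τ κ).gradB t z = (family hU τ κ).delta (eB1.eval (val V τ κ w)) t z
      + eB0.eval (val V τ κ w) t z := by
  set F := family hU τ κ with hF
  have hR := base (τ := τ) (κ := κ) hU w
  have hW : Tame F.dom (eW.eval (val V τ κ w)) := hR.tame_eval _
  set A : Sp (Blk 3 d) →L[ℝ] Ten (Blk 3 d) 1 :=
    (2⁻¹ * (τ - t)⁻¹) • ((bvec 1).comp (px d) - (bvec 1).comp (py d)) with hA
  have hd : DifferentiableAt ℝ (dl V 1 t) z := (dl_tame (τ := τ) hU 1).differentiableAt_space ht z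
  have hdel : DifferentiableAt ℝ (F.delta (eW.eval (val V τ κ w)) t) z :=
    (F.tame_delta hW).differentiableAt_space ht z
  have e1 : (fun y => tenL (Blk 3 d) (F.b t y))
      = fun y => (A y + (2⁻¹ : ℝ) • dl V 1 t y) + F.delta (eW.eval (val V τ κ w)) t y :=
    funext fun y => field_decomp hU w ht y
  have e2 : nabla (fun y => (A y + (2⁻¹ : ℝ) • dl V 1 t y) + F.delta (eW.eval (val V τ κ w)) t y) z
      = nabla A z + (2⁻¹ : ℝ) • nabla (dl V 1 t) z
        + nabla (F.delta (eW.eval (val V τ κ w)) t) z := by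
    ext α
    simp only [nabla, fderiv_fun_add
      (f := fun y => A y + (2⁻¹ : ℝ) • dl V 1 t y) (g := fun y => F.delta (eW.eval (val V τ κ w)) t y)
      (A.differentiableAt.fun_add (hd.fun_const_smul _)) hdel,
      fderiv_fun_add (f := fun y => A y) A.differentiableAt (hd.fun_const_smul (2⁻¹ : ℝ)),
      fderiv_fun_const_smul hd]
    rfl
  have hn : ∀ (k l : Fin 3) (α : Fin 2 → Blk 3 d),
      bvec k (bproj l (EuclideanSpace.single (α 0) (1 : ℝ))) (Fin.tail α) = blockId d l k α := by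
    intro k l α
    rw [← nabla_bvec_bproj k l z]
    show _ = fderiv ℝ (⇑((bvec (d := d) k).comp (bproj l))) z _ _
    rw [((bvec (d := d) k).comp (bproj l)).fderiv]
    rfl
  rw [F.gradB_eq_nabla ht, e1, e2, F.nabla_delta hW ht, nabla_dl hU 1 ht.1,
    show derivTen (F.Ψ t) 2 z = eH.eval (val V τ κ w) t z from hess_eq hU w ht z,
    F.delta_congr (f := fun t x => permTen (swap01 1) (nabla (eW.eval (val V τ κ w) t) x))
      (g := eB1.eval (val V τ κ w))
      (funext fun y => by rw [hR.nabla_eval eW ht]; rfl) z]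
  have e3 : nabla A z + (2⁻¹ : ℝ) • dl V (1 + 1) t z
      = (CExpr.smul (1 / 2) (.add (.add (lQ 0 1) (.smul (-1) (lQ 1 1))) (lK 0 0))).eval
          (val V τ κ w) t z := by
    ext α
    simp only [PiLp.add_apply, nabla, ContinuousLinearMap.fderiv, hA, sub_apply, smul_apply,
      ContinuousLinearMap.comp_apply, WithLp.ofLp_sub, Pi.sub_apply, WithLp.ofLp_smul,
      Pi.smul_apply, smul_eq_mul, hn, CExpr.eval, lK, lQ, val, co, Matrix.cons_val_zero, one_mul]
    ring
  rw [e3, show eB0.eval (val V τ κ w) t z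
    = (CExpr.smul (1 / 2) (.add (.add (lQ 0 1) (.smul (-1) (lQ 1 1))) (lK 0 0))).eval
        (val V τ κ w) t z
      + act splitId (eH.eval (val V τ κ w) t z) (eW.eval (val V τ κ w) t z) from rfl]
  abel

lemma D_vec (w : ℝ) (j : Fin 3) {t : ℝ} (ht : t ∈ Ioo 0 τ) (z : Sp (Blk 3 d)) :
    (family hU τ κ).D (fun s y => co κ w j • dl V 1 s y) t z
      = (family hU τ κ).delta ((eX1 j).eval (val V τ κ w)) t z := by
  set F := family hU τ κ with hF
  set c := co κ w j
  have hI : IsOpen (Ioo (0 : ℝ) τ) := isOpen_Ioo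
  set G : ℝ → Sp (Blk 3 d) → Euc d := fun s y => score V s (py d y) with hG
  have hGt : Tame (Ioo 0 τ) G := tame_py hU (score_tame hU)
  have hev : (fun q : ℝ × Sp (Blk 3 d) => c • dl V 1 q.1 q.2)
      =ᶠ[nhds (t, z)] fun q => c • bvec 1 (G q.1 q.2) := by
    filter_upwards [(isOpen_Ioi (a := (0 : ℝ))).preimage continuous_fst |>.mem_nhds
      (show (t, z) ∈ Prod.fst ⁻¹' Ioi (0 : ℝ) from ht.1)] with q hq
    rw [dl_one hU hq]
  have hGd : HasFDerivAt (fun q : ℝ × Sp (Blk 3 d) => G q.1 q.2)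
      ((fderiv ℝ (fun q : ℝ × Euc d => score V q.1 q.2) (t, py d z)).comp
        ((ContinuousLinearMap.id ℝ ℝ).prodMap (py d))) (t, z) :=
    ((score_tame hU).differentiableAt isOpen_Ioi (show t ∈ Ioi (0 : ℝ) from ht.1)
      (py d z)).hasFDerivAt.comp (f := fun q : ℝ × Sp (Blk 3 d) => (q.1, py d q.2)) (t, z)
      ((hasFDerivAt_fst).prodMk (((py d).comp (ContinuousLinearMap.snd ℝ ℝ _)).hasFDerivAt))
  have hDv : F.D (fun s y => c • dl V 1 s y) t z
      = c • bvec 1 (scoreDot V t (py d z)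
          + fderiv ℝ (score V t) (py d z) (Gadget.velY V τ κ t (px d z) (py d z) (pxi d z))) := by
    show fderiv ℝ (fun q : ℝ × Sp (Blk 3 d) => c • dl V 1 q.1 q.2) (t, z) (1, F.b t z) = _
    have h5 : HasFDerivAt (fun q : ℝ × Sp (Blk 3 d) => c • bvec (B := 3) 1 (G q.1 q.2))
        (c • (bvec (B := 3) 1).comp ((fderiv ℝ (fun q : ℝ × Euc d => score V q.1 q.2) (t, py d z)).comp
          ((ContinuousLinearMap.id ℝ ℝ).prodMap (py d)))) (t, z) :=
      ((bvec (B := 3) 1).hasFDerivAt.comp (t, z) hGd).fun_const_smul c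
    rw [hev.fderiv_eq, h5.fderiv]
    simp only [smul_apply, ContinuousLinearMap.comp_apply, ContinuousLinearMap.coe_prodMap',
      Prod.map_apply, ContinuousLinearMap.id_apply]
    congr 2
    rw [show py d (F.b t z) = Gadget.velY V τ κ t (px d z) (py d z) (pxi d z) from
      (bproj_field (V := V) (τ := τ) (κ := κ) t z).2.1,
      show ((1 : ℝ), Gadget.velY V τ κ t (px d z) (py d z) (pxi d z)) = (1, 0)
        + (0, Gadget.velY V τ κ t (px d z) (py d z) (pxi d z)) by simp, map_add,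
      ← (score_tame hU).fderiv_space isOpen_Ioi ht.1]
    rfl
  have hH := (smoothPot_tame hU).derivTen isOpen_Ioi 2
  set HH : ℝ → Euc d → Ten (Fin d) 2 := fun s y =>
    contractTen splitId (derivTen (smoothPot V s) 2 y)
      (show Ten (Fin d) (1 + 1) from derivTen (smoothPot V s) 2 y) with hHH
  have hHHt : Tame (Ioi 0) HH := hH.contract hH isOpen_Ioi splitId
  have hlift : Tame (Ioo 0 τ) fun s (y : Sp (Blk 3 d)) => liftTen ![2, 1] (HH s (py d y)) :=
    ((tame_py hU hHHt).clm hI (liftL (B := 3) ![2, 1])).of_eq hI fun _ _ _ => rfl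
  rw [hDv, F.delta_congr (f := (eX1 j).eval (val V τ κ w))
    (g := fun s y => (-(1 / 2) * c) • liftTen ![1, 1] (derivTen (smoothPot V s) 2 (py d y))
      + (κ * c) • liftTen ![2, 1] (HH s (py d y))) (funext fun y => by
      show (-(1 / 2) : ℝ) • (lK j 0).eval (val V τ κ w) t y
        + (mul2 (mul2 (lE 2 1) (lK 1 0)) (lK j 0)).eval (val V τ κ w) t y = _
      rw [eval_mul2, eval_lift_left, eval_lK, dl_two, smul_smul,
        show co κ w 1 = κ from rfl, contract_smul_smul, contract_lift]) z,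
    Family.delta_add (F := F) ((tame_lift_D2 hU 1 1).const_smul hI _) (hlift.const_smul hI _) ht,
    Family.delta_smul (F := F) (tame_lift_D2 hU 1 1) _ ht,
    Family.delta_smul (F := F) hlift _ ht, delta_lift_one hU 1 ht, delta_lift_two hU 1 hHHt ht]
  ext α
  simp only [WithLp.ofLp_add, Pi.add_apply, WithLp.ofLp_smul, Pi.smul_apply, smul_eq_mul,
    bvec_apply]
  by_cases hα : (α 0).1 = 1
  · simp only [if_pos hα]
    set k := (α 0).2
    have e : ∀ i, HH t (py d z) (pairIdx i k) = ∑ p, hs V t (py d z) i p * hs V t (py d z) p k := fun i => by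
      have e1 : (fun s => pairIdx i k (Fin.castAdd 1 s)) = fun _ : Fin 1 => i := by
        funext s; fin_cases s; rfl
      have e2 : ∀ p : Fin d, (Fin.append (fun _ : Fin 1 => p) fun s : Fin 1 => pairIdx i k (Fin.natAdd 1 s))
          = (pairIdx p k : Fin (1 + 1) → Fin d) := by
        intro p; funext s; fin_cases s <;> rfl
      simp only [hHH, contractTen_apply, sum_pi_one, e1, e2, joinIdx_splitId, hs]
    have eS : ∑ i, pxi d z i * ∑ p, hs V t (py d z) i p * hs V t (py d z) p k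
        = ∑ i, (∑ p, pxi d z p * hs V t (py d z) p i) * hs V t (py d z) i k := by
      simp only [Finset.mul_sum, Finset.sum_mul]
      rw [Finset.sum_comm]
      exact Finset.sum_congr rfl fun i _ => Finset.sum_congr rfl fun p _ => by ring
    simp only [scoreDot_coord hU ht.1, fderiv_score_coord hU ht.1, velY_coord hU ht.1, e, pvec]
    rw [eS]
    simp only [sub_mul, add_mul, mul_sub, Finset.sum_add_distrib, Finset.sum_sub_distrib,
      mul_assoc, ← Finset.mul_sum]
    ring
  · simp [hα]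

lemma D_xi (w : ℝ) {t : ℝ} (ht : t ∈ Ioo 0 τ) (z : Sp (Blk 3 d)) :
    (family hU τ κ).D (fun _ y => bvec 2 (pxi d y)) t z
      = (family hU τ κ).delta (eXxi.eval (val V τ κ w)) t z := by
  set F := family hU τ κ with hF
  rw [F.delta_congr (f := eXxi.eval (val V τ κ w))
    (g := fun s y => (-κ) • liftTen ![1, 2] (derivTen (smoothPot V s) 2 (py d y)))
    (funext fun y => by
      show (-1 : ℝ) • (mul2 (lK 1 0) (lE 1 2)).eval (val V τ κ w) t y = _
      rw [eval_lift_right, smul_smul, neg_one_mul]; rfl) z,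
    Family.delta_smul (F := F) (tame_lift_D2 hU 1 2) _ ht, delta_lift_one hU 2 ht]
  show fderiv ℝ (⇑(((bvec 2).comp (pxi d)).comp (ContinuousLinearMap.snd ℝ ℝ (Sp (Blk 3 d)))))
    (t, z) (1, F.b t z) = _
  rw [ContinuousLinearMap.fderiv]
  simp only [ContinuousLinearMap.comp_apply, ContinuousLinearMap.coe_snd']
  rw [show pxi d (F.b t z) = Gadget.velXi V τ κ t (px d z) (py d z) from
    (bproj_field (V := V) (τ := τ) (κ := κ) t z).2.2, ← map_smul]
  congr 1
  ext k
  rw [velXi_coord hU ht.1]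
  rfl

lemma D_rule_K (w : ℝ) (j : Fin 3) : ∀ (n : ℕ) {t : ℝ}, t ∈ Ioo 0 τ → ∀ z,
    (family hU τ κ).D ((lK j n).eval (val V τ κ w)) t z
      = (family hU τ κ).delta ((dK j n).1.eval (val V τ κ w)) t z
        + (dK j n).2.eval (val V τ κ w) t z := by
  have hR := base (τ := τ) (κ := κ) hU w
  intro n
  induction n with
  | zero =>
    intro t ht z
    refine hR.dPair_eval (H := eH) (B1 := eB1) (B0 := eB0) (fun s hs y => hess_eq hU w hs y)
      (fun s hs y => gradB_eq hU w hs y) Nat.one_pos (P := (eX1 j, .zero 1)) (G := lK j 0)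
      (f := fun s y => co κ w j • dl V 1 s y) ((dl_tame hU 1).const_smul isOpen_Ioo _)
      (fun s hs y => ?_) (fun s hs y => ?_) ht z
    · rw [D_vec hU w j hs y]
      simp [CExpr.eval]
    · rw [nabla_smul (dl_tame (τ := τ) hU 1) _ hs, nabla_dl hU 1 hs.1]
      rfl
  | succ n ih =>
    intro t ht z
    refine hR.dPair_eval (H := eH) (B1 := eB1) (B0 := eB0) (fun s hs y => hess_eq hU w hs y)
      (fun s hs y => gradB_eq hU w hs y) (Nat.succ_pos _) (P := dK j n) (G := lK j (n + 1))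
      (f := (lK j n).eval (val V τ κ w)) (hR.tame_eval _) (fun s hs y => ih hs y)
      (fun s hs y => hR.nabla_eval (lK j n) hs y) ht z

lemma D_rule_Q (a b : Fin 3) {t : ℝ} (ht : t ∈ Ioo 0 τ) (z : Sp (Blk 3 d)) :
    (family hU τ κ).D (fun s _ => (τ - s)⁻¹ • blockId d a b) t z
      = contractTen splitId ((τ - t)⁻¹ • blockId d a b)
          (show Ten (Blk 3 d) (1 + 1) from (τ - t)⁻¹ • blockId d b b) := by
  have hi : HasDerivAt (fun s => (τ - s)⁻¹) (1 / (τ - t) ^ 2) t := by
    refine (((hasDerivAt_id t).const_sub τ).inv (sub_pos.2 ht.2).ne').congr_deriv ?_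
    simp
  have h : HasFDerivAt (fun q : ℝ × Sp (Blk 3 d) => (τ - q.1)⁻¹ • blockId d a b) _ (t, z) :=
    (hi.hasFDerivAt.comp (f := fun q : ℝ × Sp (Blk 3 d) => q.1) (t, z) hasFDerivAt_fst).smul_const (blockId d a b)
  rw [contract_smul_smul]
  show fderiv ℝ (fun q : ℝ × Sp (Blk 3 d) => (τ - q.1)⁻¹ • blockId d a b) (t, z)
    (1, (family hU τ κ).b t z) = _
  rw [h.fderiv]
  have e : contractTen splitId (blockId d a b)
      (show Ten (Blk 3 d) (1 + 1) from blockId d b b) = blockId d a b := by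
    conv_lhs => arg 2; rw [blockId]
    rw [contract_blockId_right, ← blockId]
  rw [e]
  simp [sq]

/-- The rules of the gadget calculus, given bounds at the times `J`. -/
lemma rules (w : ℝ) {J : Set ℝ} {c : ℕ → ℝ} (hc : ∀ n, 0 ≤ c n) (hJq : ∀ t ∈ J, 1 ≤ τ - t)
    (hb : ∀ j n, ∀ t ∈ J, ∀ z, AllSplit (c n) ((lK j n).eval (val V τ κ w) t z)) :
    CRules (family hU τ κ) J (val V τ κ w) (gcb c) gnb (fun n i => (gdb n i).1)
      (fun n i => (gdb n i).2) where
  tame := (base hU w).tame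
  nonneg n i := by cases i <;> simp [gcb, hc]
  split n i t ht x := by
    cases i with
    | E a b => exact allSplit_blockId a b
    | Q a b =>
      refine ((allSplit_blockId a b).smul (τ - t)⁻¹).mono ?_
      rw [gcb, mul_one, abs_of_nonneg (inv_nonneg.2 (by linarith [hJq t ht]))]
      exact inv_le_one_of_one_le₀ (hJq t ht)
    | K j n => exact hb j n t ht x
  nabla_eq := (base hU w).nabla_eq
  flow_eq n i t ht x := by
    cases i with
    | E a b =>
      show (family hU τ κ).D (fun _ _ => blockId d a b) t x = _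
      rw [Family.D_const]
      simp [gdb, CExpr.eval, Family.delta_const_zero]
    | Q a b =>
      show (family hU τ κ).D (fun s _ => (τ - s)⁻¹ • blockId d a b) t x = _
      rw [D_rule_Q hU a b ht x]
      simp only [gdb, CExpr.eval, Family.delta_const_zero, zero_add]
      rfl
    | K j n => exact D_rule_K hU w j n ht x

end Identities

end PathG

end Vale.Agent.P347
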