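import Vale.Agent.P347.PathCleanAvg
import Vale.Agent.P347.PathGadgetSys

/-!
The cleaning paths at a fixed base point as a family on the states `(w, ξ)`, in the radius.
-/

namespace Vale.Agent.P347

open MeasureTheory Set
open scoped RealInnerProductSpace ContDiff

variable {d : ℕ}

/-- The coordinates of a derivative as a tensor. -/
noncomputable def nablaCL (d n : ℕ) : (Euc d →L[ℝ] Ten (Fin d) n) →L[ℝ] Ten (Fin d) (n + 1) :=
  LinearMap.toContinuousLinearMap
    { toFun := fun A => WithLp.toLp 2 fun α => A (EuclideanSpace.single (α 0) 1) (Fin.tail α)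
      map_add' := fun A B => by ext α; simp
      map_smul' := fun r A => by ext α; simp }

lemma nabla_eq_nablaCL {n : ℕ} (G : Euc d → Ten (Fin d) n) (x : Euc d) :
    nabla G x = nablaCL d n (fderiv ℝ G x) := rfl

lemma derivTen_temperate {U : Euc d → ℝ} (hU : Function.HasTemperateGrowth U) :
    ∀ n, Function.HasTemperateGrowth (derivTen U n)
  | 0 => (LinearMap.toContinuousLinearMap
      { toFun := fun a : ℝ => (scalarTen a : Ten (Fin d) 0)
        map_add' := fun a b => by ext α; simp [scalarTen]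
        map_smul' := fun r a => by ext α; simp [scalarTen] }).hasTemperateGrowth.comp hU
  | n + 1 => temperate_deriv_clm (derivTen_temperate hU n) (nablaCL d n)

lemma avg_fderiv_coord {n : ℕ} {G : Euc d → Ten (Fin d) n} (hG : Function.HasTemperateGrowth G)
    (p : ℝ × Euc d) (v : Euc d) (α : Fin n → Fin d) :
    avgAt (fderiv ℝ G) p v α = ∑ i, v i * avgAt (nabla G) p (Fin.cons i α) := by
  have hg := temperate_fderiv hG
  have hn : Function.HasTemperateGrowth (nabla G) := temperate_deriv_clm hG (nablaCL d n)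
  have e : ∀ i, avgAt (nabla G) p (Fin.cons i α) = avgAt (fderiv ℝ G) p (unitVec i) α := fun i =>
    ((avgAt_clm (EuclideanSpace.proj (𝕜 := ℝ) (Fin.cons i α)) hn p).trans (by
      congr 1)).trans
    (avgAt_clm ((EuclideanSpace.proj (𝕜 := ℝ) α).comp
      (ContinuousLinearMap.apply ℝ (Ten (Fin d) n) (unitVec i))) hg p).symm
  conv_lhs => rw [← sum_inner_smul_unitVec v]
  simp only [map_sum, map_smul, WithLp.ofLp_sum, Finset.sum_apply, WithLp.ofLp_smul,
    Pi.smul_apply, smul_eq_mul, e]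
  simp [unitVec, EuclideanSpace.inner_single_left]

lemma avg_lap_coord {n : ℕ} {G : Euc d → Ten (Fin d) n} (hG : Function.HasTemperateGrowth G)
    (p : ℝ × Euc d) (α : Fin n → Fin d) :
    avgAt (lapC G) p α = ∑ i, avgAt (nabla (nabla G)) p (Fin.cons i (Fin.cons i α)) := by
  have hn : Function.HasTemperateGrowth (nabla (nabla G)) :=
    temperate_deriv_clm (temperate_deriv_clm hG (nablaCL d n)) (nablaCL d (n + 1))
  rw [show avgAt (lapC G) p α = EuclideanSpace.proj (𝕜 := ℝ) α (avgAt (lapC G) p) from rfl,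
    avgAt_clm _ (lapC_temperate hG),
    show ∑ i, avgAt (nabla (nabla G)) p (Fin.cons i (Fin.cons i α))
      = (∑ i, EuclideanSpace.proj (𝕜 := ℝ) (Fin.cons i (Fin.cons i α) : Fin (n + 2) → Fin d))
          (avgAt (nabla (nabla G)) p) by simp,
    avgAt_clm _ hn]
  congr 1
  funext x
  simp only [lapC, map_sum, sum_apply]
  refine Finset.sum_congr rfl fun i _ => ?_
  have hd : DifferentiableAt ℝ (fun u => fderiv ℝ G u (unitVec i)) x :=
    (temperate_deriv_clm hG (ContinuousLinearMap.apply ℝ _ (unitVec i))).1.differentiable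
      (by simp) x
  have hd' : DifferentiableAt ℝ (nabla G) x :=
    (temperate_deriv_clm hG (nablaCL d n)).1.differentiable (by simp) x
  show fderiv ℝ (fun u => fderiv ℝ G u (unitVec i)) x (unitVec i) α
    = fderiv ℝ (nabla G) x (EuclideanSpace.single i 1) (Fin.cons i α)
  have h1 : HasFDerivAt (fun u => fderiv ℝ G u (unitVec i) α) _ x :=
    (EuclideanSpace.proj (𝕜 := ℝ) α).hasFDerivAt.comp x hd.hasFDerivAt
  have h2 : HasFDerivAt (fun u => nabla G u (Fin.cons i α)) _ x :=
    (EuclideanSpace.proj (𝕜 := ℝ) (Fin.cons i α : Fin (n + 1) → Fin d)).hasFDerivAt.comp x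
      hd'.hasFDerivAt
  have he : (fun u => nabla G u (Fin.cons i α)) = fun u => fderiv ℝ G u (unitVec i) α := by
    funext u; simp [nabla, unitVec]
  rw [he] at h2
  exact congrArg (fun L : Euc d →L[ℝ] ℝ => L (unitVec i)) (h1.unique h2)

namespace PathC

/-- The displacement of a state. -/
noncomputable abbrev pw (d : ℕ) : Sp (Blk 2 d) →L[ℝ] Euc d := bproj 0

/-- The Gaussian vector of a state. -/
noncomputable abbrev pxi (d : ℕ) : Sp (Blk 2 d) →L[ℝ] Euc d := bproj 1

/-- The averaged derivative tensor at radius `t` and displacement `u`. -/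
noncomputable def av (V : Euc d → ℝ) (T ν : ℝ) (z : Euc d) (n : ℕ) (t : ℝ) (u : Euc d) :
    Ten (Fin d) n :=
  radAvg ν (derivTen (smoothPot V T) n) (t, z + t • u)

/-- The averaged derivative tensor placed in the displacement block. -/
noncomputable def la (V : Euc d → ℝ) (T ν : ℝ) (z : Euc d) (n : ℕ) (t : ℝ) (x : Sp (Blk 2 d)) :
    Ten (Blk 2 d) n :=
  liftTen (fun _ => 0) (av V T ν z n t (pw d x))

/-- The standard Gaussian potential. -/
noncomputable def pot (d : ℕ) (_ : ℝ) (x : Sp (Blk 2 d)) : ℝ := 2⁻¹ * ‖x‖ ^ 2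

/-- The antisymmetric matrix field of the rotation. -/
noncomputable def rot (V : Euc d → ℝ) (T ν c : ℝ) (z : Euc d) (t : ℝ) (x : Sp (Blk 2 d)) :
    Ten (Blk 2 d) 2 :=
  c • (liftTen ![1, 0] (av V T ν z 2 t (pw d x)) - liftTen ![0, 1] (av V T ν z 2 t (pw d x)))

/-- The field of the cleaning paths: the divergence of the rotation. -/
noncomputable def field (V : Euc d → ℝ) (T ν c : ℝ) (z : Euc d) (t : ℝ) (x : Sp (Blk 2 d)) :
    Sp (Blk 2 d) :=
  WithLp.toLp 2 fun i => ∑ j, (pd j (pot d) t x * rot V T ν c z t x (pairIdx j i)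
    - pd j (fun s y => rot V T ν c z s y (pairIdx j i)) t x)

variable {V : Euc d → ℝ} {T ν c : ℝ} {z : Euc d}

lemma av_temperate (hU : Weight V) (hT : 0 < T) (n : ℕ) :
    Function.HasTemperateGrowth (derivTen (smoothPot V T) n) :=
  derivTen_temperate (hU.smoothPot hT.le).temperate n

lemma tame_comp (hU : Weight V) (hT : 0 < T) (n : ℕ) :
    Tame (Ioo (-√ν) √ν) fun t x => av V T ν z n t (pw d x) := by
  have hI : IsOpen (Ioo (-√ν) √ν) := isOpen_Ioo
  have hs : Tame (ι := Blk 2 d) (Ioo (-√ν) √ν) fun t _ => √(ν - t ^ 2) :=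
    Tame.time hI ((contDiff_const.sub (contDiff_id.pow 2)).contDiffOn.sqrt fun t ht =>
      (sub_pos.2 (Real.sq_lt.2 ht)).ne')
  have ht : Tame (ι := Blk 2 d) (Ioo (-√ν) √ν) fun t _ => t := Tame.time hI contDiffOn_id
  exact Tame.temperate_comp hI (avgAt_temperate (av_temperate hU hT n))
    (hs.prodMk ((Tame.const z).add (ht.bilin (Tame.linear (pw d)) hI
      (ContinuousLinearMap.lsmul ℝ ℝ)) hI) hI)

lemma tame_lift (hU : Weight V) (hT : 0 < T) {n : ℕ} (ks : Fin n → Fin 2) :
    Tame (Ioo (-√ν) √ν) fun t x => liftTen ks (av V T ν z n t (pw d x)) :=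
  ((tame_comp hU hT n).clm isOpen_Ioo (liftL ks)).of_eq isOpen_Ioo fun _ _ _ => rfl

lemma rot_tame (hU : Weight V) (hT : 0 < T) : Tame (Ioo (-√ν) √ν) (rot V T ν c z) :=
  ((tame_lift hU hT ![1, 0]).sub (tame_lift hU hT ![0, 1]) isOpen_Ioo).const_smul isOpen_Ioo c

lemma pot_tame : Tame (Ioo (-√ν) √ν) (pot d) := by
  have h1 : Tame (ι := Blk 2 d) (Ioo (-√ν) √ν) fun _ x => ‖x‖ ^ 2 :=
    (Tame.linear (ι := Blk 2 d) (ContinuousLinearMap.id ℝ (Sp (Blk 2 d)))).norm_sq isOpen_Ioo
  exact (Tame.const (2 : ℝ)⁻¹).mul h1 isOpen_Ioo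

lemma pd_pot (t : ℝ) (x : Sp (Blk 2 d)) (p : Blk 2 d) : pd p (pot d) t x = x p := by
  have h := ((hasFDerivAt_id x).norm_sq.const_mul (2 : ℝ)⁻¹).fderiv
  simp only [id_eq] at h
  simp only [pd, show pot d t = fun y => 2⁻¹ * ‖y‖ ^ 2 from rfl, h]
  simp [EuclideanSpace.inner_single_right]

lemma pot_coercive : CoerciveOn (Ioo (-√ν) √ν) (pot d) :=
  fun t _ => ⟨2⁻¹, 0, by norm_num, fun x => by simp [pot]⟩

lemma field_tame (hU : Weight V) (hT : 0 < T) : Tame (Ioo (-√ν) √ν) (field V T ν c z) := by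
  have hI : IsOpen (Ioo (-√ν) √ν) := isOpen_Ioo
  have hW : ∀ α, Tame (Ioo (-√ν) √ν) fun s y => rot V T ν c z s y α := fun α =>
    (rot_tame hU hT).component hI α
  exact Tame.euclidean hI fun i => Tame.sum Finset.univ hI fun j _ =>
    ((pot_tame.pd hI j).mul (hW _) hI).sub ((hW _).pd hI j) hI

lemma av_two_symm (hU : Weight V) (hT : 0 < T) (t : ℝ) (u : Euc d) (i j : Fin d) :
    av V T ν z 2 t u (pairIdx i j) = av V T ν z 2 t u (pairIdx j i) := by
  have hG := av_temperate hU hT 2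
  have e : ∀ p, avgAt (derivTen (smoothPot V T) 2) (√(ν - t ^ 2), z + t • u) p
      = avgAt (fun y => derivTen (smoothPot V T) 2 y p) (√(ν - t ^ 2), z + t • u) := fun p =>
    avgAt_clm (EuclideanSpace.proj (𝕜 := ℝ) p) hG _
  simp only [av, radAvg, e]
  congr 1
  funext y
  exact hs_symm hU hT y i j

lemma rot_antisymm (hU : Weight V) (hT : 0 < T) (t : ℝ) (x : Sp (Blk 2 d)) (i j : Blk 2 d) :
    rot V T ν c z t x (pairIdx j i) = -rot V T ν c z t x (pairIdx i j) := by
  simp only [rot, WithLp.ofLp_smul, Pi.smul_apply, WithLp.ofLp_sub, Pi.sub_apply, liftTen_apply,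
    Fin.forall_fin_two, pairIdx, Matrix.cons_val_zero, Matrix.cons_val_one, smul_eq_mul]
  have e : ∀ a b : Blk 2 d, (fun s => ((![a, b] : Fin 2 → Blk 2 d) s).2) = pairIdx a.2 b.2 :=
    fun a b => by funext s; fin_cases s <;> rfl
  rw [e, e, av_two_symm hU hT t _ i.2 j.2]
  by_cases h1 : j.1 = 1 <;> by_cases h2 : i.1 = 1 <;> by_cases h3 : j.1 = 0 <;>
    by_cases h4 : i.1 = 0 <;> simp_all

lemma continuity (hU : Weight V) (hT : 0 < T) {t : ℝ} (ht : t ∈ Ioo (-√ν) √ν)
    (x : Sp (Blk 2 d)) :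
    fderiv ℝ (fun q : ℝ × Sp (Blk 2 d) => pot d q.1 q.2) (t, x) (1, field V T ν c z t x)
      = ∑ i, fderiv ℝ (field V T ν c z t) x (EuclideanSpace.single i 1) i := by
  have h := (((ContinuousLinearMap.snd ℝ ℝ (Sp (Blk 2 d))).hasFDerivAt
    (x := (t, x))).norm_sq.const_mul (2 : ℝ)⁻¹).fderiv
  simp only [ContinuousLinearMap.coe_snd'] at h
  simp only [pot, h]
  have key := antisym_div (Ψ := pot d) isOpen_Ioo pot_tame (rot_tame (c := c) (z := z) hU hT)
    (fun s y i j => rot_antisymm hU hT s y i j) ht x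
  have hb : ∀ i, DifferentiableAt ℝ (fun y => field V T ν c z t y i) x := fun i =>
    ((field_tame hU hT).component isOpen_Ioo i).differentiableAt_space ht x
  have e : ∀ i, fderiv ℝ (field V T ν c z t) x (EuclideanSpace.single i 1) i
      = pd i (fun s y => field V T ν c z s y i) t x := fun i => by
    have h1 : HasFDerivAt (fun y => field V T ν c z t y i) _ x :=
      (EuclideanSpace.proj (𝕜 := ℝ) i).hasFDerivAt.comp x
        ((field_tame hU hT).differentiableAt_space ht x).hasFDerivAt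
    rw [pd, h1.fderiv]
    rfl
  simp only [e]
  rw [← sub_eq_zero, ← key, Finset.sum_sub_distrib]
  refine congrArg₂ (· - ·) ?_ rfl
  simp only [pd_pot, smul_apply, ContinuousLinearMap.comp_apply, ContinuousLinearMap.coe_snd',
    smul_eq_mul, innerSL_apply_apply]
  simp [PiLp.inner_apply, field, pd_pot, mul_comm]

/-- The cleaning paths at a fixed base point as a family. -/
noncomputable def family (hU : Weight V) (hT : 0 < T) (ν c : ℝ) (z : Euc d) : Family (Blk 2 d) :=
  gibbsFamily (isOpen_Ioo (a := -√ν) (b := √ν)) (pot d) pot_tame pot_coercive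
    (field V T ν c z) (field_tame hU hT) fun t ht x y => by
      rw [continuity hU hT ht x, continuity hU hT ht y, sub_self, sub_self]

end PathC

end Vale.Agent.P347
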