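import Vale.Agent.P347.GaussAvg
import Vale.Agent.P347.CurveFamily

/-!
Gaussian averages seen as functions of the radius `r` and the point, at scale `√(ν - r²)`:
they are smooth up to and including `r = √ν`.
-/

namespace Vale.Agent.P347

open MeasureTheory ProbabilityTheory Set Filter
open scoped RealInnerProductSpace ContDiff Topology

variable {d : ℕ}

section Tame

variable {ι : Type} [Fintype ι] [DecidableEq ι] {E G : Type*} [NormedAddCommGroup E]
  [NormedSpace ℝ E] [NormedAddCommGroup G] [NormedSpace ℝ G]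

omit [DecidableEq ι] in
/-- Temperate functions of tame fields are tame. -/
theorem Tame.temperate_comp {I : Set ℝ} (hI : IsOpen I) {F : E → G}
    (hF : Function.HasTemperateGrowth F) {g : ℝ → Sp ι → E} (hg : Tame I g) :
    Tame I fun t x => F (g t x) := by
  have hU : IsOpen (I ×ˢ (univ : Set (Sp ι))) := hI.prod isOpen_univ
  refine ⟨hF.1.comp_contDiffOn hg.1, fun n J hJ hJI => ?_⟩
  obtain ⟨C, p, hC, hCb⟩ := hg.bound_upTo n hJ hJI
  obtain ⟨l, D, hD, hDb⟩ := hF.norm_iteratedFDeriv_le_uniform n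
  refine ⟨n.factorial * (D * (1 + max C 1) ^ l) * (max C 1) ^ n, p * l + p * n,
    fun t ht x => ?_⟩
  have hq : (t, x) ∈ I ×ˢ (univ : Set (Sp ι)) := ⟨hJI ht, trivial⟩
  set B := max C 1 * (1 + ‖x‖) ^ p with hB
  have hB1 : 1 ≤ B := one_le_mul_of_one_le_of_one_le (le_max_right _ _)
    (one_le_pow₀ (le_add_of_nonneg_right (norm_nonneg x)))
  have hgx : ∀ i ≤ n, ‖iteratedFDeriv ℝ i (fun q : ℝ × Sp ι => g q.1 q.2) (t, x)‖ ≤ B :=
    fun i hi => (hCb i hi t ht x).trans
      (mul_le_mul_of_nonneg_right (le_max_left _ _) (by positivity))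
  have key := norm_iteratedFDerivWithin_comp_le (g := F) (f := fun q : ℝ × Sp ι => g q.1 q.2)
    (N := ∞) (n := n) hF.1.contDiffOn hg.1 (by exact_mod_cast le_top) uniqueDiffOn_univ
    hU.uniqueDiffOn (fun q _ => mem_univ _) hq
    (C := D * (1 + max C 1) ^ l * (1 + ‖x‖) ^ (p * l)) (D := B) (fun i hi => ?_) (fun i hi hin => ?_)
  · rw [iteratedFDerivWithin_of_isOpen n hU hq] at key
    refine key.trans_eq ?_
    rw [hB, mul_pow, ← pow_mul, pow_add]
    ring
  · rw [iteratedFDerivWithin_univ]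
    refine (hDb i hi _).trans ?_
    rw [mul_assoc D, pow_mul, ← mul_pow]
    refine mul_le_mul_of_nonneg_left (pow_le_pow_left₀ (by positivity) ?_ l) hD
    have h0 := hgx 0 (Nat.zero_le n)
    rw [norm_iteratedFDeriv_zero] at h0
    nlinarith [one_le_pow₀ (n := p) (show (1 : ℝ) ≤ 1 + ‖x‖ by linarith [norm_nonneg x]),
      le_max_right C 1]
  · rw [iteratedFDerivWithin_of_isOpen i hU hq]
    exact (hgx i hin).trans (le_self_pow₀ hB1 (by omega))

end Tame

variable {F : Type} [NormedAddCommGroup F] [NormedSpace ℝ F]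

lemma temperate_integrable {G : Euc d → F} (hG : Function.HasTemperateGrowth G) :
    Integrable G (gauss d) := by
  obtain ⟨k, C, hC, h⟩ := temperate_growth hG
  refine gauss_integrable_of_growth (C := C * 2 ^ k) (n := k) hG.1.continuous.aestronglyMeasurable
    fun η => (h η).trans ?_
  rw [mul_assoc]
  refine mul_le_mul_of_nonneg_left ?_ hC
  refine (add_pow_le zero_le_one (norm_nonneg η) k).trans ?_
  rw [one_pow]
  exact mul_le_mul_of_nonneg_right (pow_le_pow_right₀ one_le_two (Nat.sub_le k 1)) (by positivity)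

lemma avgAt_integrable {G : Euc d → F} (hG : Function.HasTemperateGrowth G) (p : ℝ × Euc d) :
    Integrable (fun η => G (p.2 + p.1 • η)) (gauss d) := by
  obtain ⟨k, C, -, h⟩ := gauss_growth_pair (g := fun q : (ℝ × Euc d) × Euc d =>
    G (q.1.2 + q.1.1 • q.2)) (hG.comp shift_temperate)
  exact gauss_integrable_of_growth (hG.1.continuous.comp (by fun_prop)).aestronglyMeasurable
    fun η => h p η

/-- Averages commute with linear maps. -/
lemma avgAt_clm [CompleteSpace F] {H : Type} [NormedAddCommGroup H] [NormedSpace ℝ H]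
    [CompleteSpace H] (T : F →L[ℝ] H) {G : Euc d → F} (hG : Function.HasTemperateGrowth G)
    (p : ℝ × Euc d) : T (avgAt G p) = avgAt (fun x => T (G x)) p :=
  (T.integral_comp_comm (avgAt_integrable hG p)).symm

/-- The derivative of an average in space. -/
lemma fderiv_avgAt_space [CompleteSpace F] {G : Euc d → F} (hG : Function.HasTemperateGrowth G)
    (p : ℝ × Euc d) (v : Euc d) :
    fderiv ℝ (avgAt G) p (0, v) = avgAt (fderiv ℝ G) p v := by
  rw [fderiv_avgAt hG, avgAt, ContinuousLinearMap.integral_apply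
    (avgAt_integrable (temperate_fderiv hG) p)]
  simp

/-- The Laplacian, as the trace of the second derivative in coordinates. -/
noncomputable def lapC (G : Euc d → F) (x : Euc d) : F :=
  ∑ i, fderiv ℝ (fun u => fderiv ℝ G u (unitVec i)) x (unitVec i)

lemma lapC_temperate {G : Euc d → F} (hG : Function.HasTemperateGrowth G) :
    Function.HasTemperateGrowth (lapC G) := by
  have h : ∀ i : Fin d, Function.HasTemperateGrowth fun x =>
      fderiv ℝ (fun u => fderiv ℝ G u (unitVec i)) x (unitVec i) := fun i =>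
    temperate_deriv_clm (temperate_deriv_clm hG (ContinuousLinearMap.apply ℝ F (unitVec i)))
      (ContinuousLinearMap.apply ℝ F (unitVec i))
  exact Function.HasTemperateGrowth.sum fun i _ => h i

/-- The derivative of an average in the scale. -/
lemma fderiv_avgAt_scale [CompleteSpace F] {G : Euc d → F} (hG : Function.HasTemperateGrowth G)
    (σ : ℝ) (y : Euc d) :
    fderiv ℝ (avgAt G) (σ, y) (1, 0) = σ • avgAt (lapC G) (σ, y) := by
  refine (SeparatingDual.eq_iff_forall_dual_eq (R := ℝ)).2 fun T => ?_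
  set φ : Fin d → Euc d → ℝ := fun i x => T (fderiv ℝ G x (unitVec i)) with hφdef
  have hφ : ∀ i, Function.HasTemperateGrowth (φ i) := fun i =>
    temperate_deriv_clm hG (T.comp (ContinuousLinearMap.apply ℝ F (unitVec i)))
  have hshift : Function.HasTemperateGrowth fun η : Euc d => y + σ • η :=
    (Function.HasTemperateGrowth.const y).add
      ((σ • ContinuousLinearMap.id ℝ (Euc d)).hasTemperateGrowth)
  have hi : Integrable (fun η => fderiv ℝ G (y + σ • η) η) (gauss d) := by
    obtain ⟨k, C, hC, h⟩ := temperate_growth ((temperate_fderiv hG).comp hshift)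
    refine gauss_integrable_of_growth (C := C * 2 ^ k) (n := k + 1)
      (((temperate_fderiv hG).1.continuous.comp hshift.1.continuous).clm_apply
        continuous_id).aestronglyMeasurable fun η => ?_
    refine ((fderiv ℝ G (y + σ • η)).le_opNorm η).trans ?_
    refine (mul_le_mul_of_nonneg_right (h η) (norm_nonneg η)).trans ?_
    rw [mul_assoc, mul_assoc C]
    refine mul_le_mul_of_nonneg_left ?_ hC
    calc (1 + ‖η‖) ^ k * ‖η‖ ≤ (1 + ‖η‖) ^ (k + 1) := by
          rw [pow_succ]; gcongr; linarith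
      _ ≤ 2 ^ k * (1 + ‖η‖ ^ (k + 1)) := by
          simpa using add_pow_le (zero_le_one (α := ℝ)) (norm_nonneg η) (k + 1)
  rw [fderiv_avgAt hG, map_smul, avgAt_clm T (lapC_temperate hG)]
  simp only [one_smul, zero_add]
  rw [← T.integral_comp_comm hi]
  have e1 : ∀ η, T (fderiv ℝ G (y + σ • η) η)
      = ∑ i, φ i (y + σ • η) * ⟪η, unitVec i⟫ := fun η => by
    conv_lhs => arg 2; arg 2; rw [← sum_inner_smul_unitVec η]
    simp only [map_sum, map_smul, hφdef, smul_eq_mul]
    exact Finset.sum_congr rfl fun i _ => by rw [real_inner_comm η (unitVec i), mul_comm]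
  have e2 : ∀ x, T (lapC G x) = ∑ i, fderiv ℝ (φ i) x (unitVec i) := fun x => by
    simp only [lapC, map_sum]
    refine Finset.sum_congr rfl fun i _ => ?_
    have hd : DifferentiableAt ℝ (fun u => fderiv ℝ G u (unitVec i)) x :=
      (temperate_deriv_clm hG (ContinuousLinearMap.apply ℝ F (unitVec i))).1.differentiable
        (by simp) x
    have h : HasFDerivAt (φ i) _ x := T.hasFDerivAt.comp x hd.hasFDerivAt
    rw [h.fderiv]
    rfl
  have hint : ∀ i, Integrable (fun η => φ i (y + σ • η) * ⟪η, unitVec i⟫) (gauss d) := fun i =>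
    temperate_integrable (((hφ i).comp hshift).mul
      ((innerSL ℝ).flip (unitVec i)).hasTemperateGrowth)
  have hint' : ∀ i, Integrable (fun η => fderiv ℝ (φ i) (y + σ • η) (unitVec i)) (gauss d) :=
    fun i => avgAt_integrable (temperate_deriv_clm (hφ i)
      (ContinuousLinearMap.apply ℝ ℝ (unitVec i))) (σ, y)
  simp only [avgAt, e1, e2, smul_eq_mul]
  rw [integral_finsetSum _ fun i _ => hint i, integral_finsetSum _ fun i _ => hint' i,
    Finset.mul_sum]
  refine Finset.sum_congr rfl fun i _ => ?_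
  rw [← integral_const_mul]
  refine (gauss_ibp_temperate ((hφ i).comp hshift) (unitVec i)).symm.trans
    (integral_congr_ae ?_)
  refine (.of_forall fun η => ?_)
  have h := ((hφ i).1.differentiable (by simp) _).hasFDerivAt.comp η
    (((hasFDerivAt_id η).const_smul σ).const_add y)
  simp only [Function.comp_def, Pi.smul_apply, id_eq] at h
  show fderiv ℝ (fun x => φ i (y + σ • x)) η (unitVec i) = _
  rw [h.fderiv]
  simp

/-- The average at radius `r`, scale `√(ν - r²)`. -/
noncomputable def radAvg (ν : ℝ) (G : Euc d → F) (p : ℝ × Euc d) : F :=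
  avgAt G (√(ν - p.1 ^ 2), p.2)

/-- Its derivative in the radius and the point. -/
noncomputable def radDeriv (ν : ℝ) (G : Euc d → F) (p : ℝ × Euc d) : ℝ × Euc d →L[ℝ] F :=
  (ContinuousLinearMap.fst ℝ ℝ (Euc d)).smulRight ((-p.1) • radAvg ν (lapC G) p)
    + (radAvg ν (fderiv ℝ G) p).comp (ContinuousLinearMap.snd ℝ ℝ (Euc d))

lemma continuous_radAvg (ν : ℝ) {G : Euc d → F} (hG : Function.HasTemperateGrowth G) :
    Continuous (radAvg ν G) :=
  (avgAt_temperate hG).1.continuous.comp (by fun_prop)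

lemma continuous_radDeriv (ν : ℝ) {G : Euc d → F} (hG : Function.HasTemperateGrowth G) :
    Continuous (radDeriv ν G) :=
  ((ContinuousLinearMap.smulRightL ℝ (ℝ × Euc d) F
      (ContinuousLinearMap.fst ℝ ℝ (Euc d))).continuous.comp
        (continuous_fst.neg.smul (continuous_radAvg ν (lapC_temperate hG)))).add
    ((continuous_radAvg ν (temperate_fderiv hG)).clm_comp continuous_const)

lemma radDeriv_apply (ν : ℝ) (G : Euc d → F) (p v : ℝ × Euc d) :
    radDeriv ν G p v = v.1 • (-p.1) • radAvg ν (lapC G) p + radAvg ν (fderiv ℝ G) p v.2 := by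
  simp [radDeriv]

lemma hasFDerivAt_radAvg [CompleteSpace F] {ν : ℝ} {G : Euc d → F}
    (hG : Function.HasTemperateGrowth G) {p : ℝ × Euc d} (hp : 0 < ν - p.1 ^ 2) :
    HasFDerivAt (radAvg ν G) (radDeriv ν G p) p := by
  set σ := √(ν - p.1 ^ 2) with hσ
  have hσ0 : σ ≠ 0 := (Real.sqrt_pos.2 hp).ne'
  have h2 : HasFDerivAt (fun q : ℝ × Euc d => √(ν - q.1 ^ 2)) _ p :=
    (((hasFDerivAt_fst (𝕜 := ℝ) (E := ℝ) (F := Euc d) (p := p)).pow 2).const_sub ν).sqrt hp.ne'
  have h := (((avgAt_temperate hG).1.differentiable (by simp) _).hasFDerivAt.comp p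
    (h2.prodMk hasFDerivAt_snd))
  refine h.congr_fderiv ?_
  refine ContinuousLinearMap.ext fun v => ?_
  simp only [ContinuousLinearMap.comp_apply, ContinuousLinearMap.prod_apply, smul_apply,
    neg_apply, ContinuousLinearMap.coe_fst', ContinuousLinearMap.coe_snd']
  rw [show ((1 / (2 * √(ν - p.1 ^ 2))) • -((2 • p.1 ^ (2 - 1)) • v.1), v.2)
      = (-(p.1 / σ) * v.1) • ((1 : ℝ), (0 : Euc d)) + (0, v.2) by
        refine Prod.ext ?_ ?_
        · simp [← hσ]; field_simp
        · simp,
    map_add, map_smul, fderiv_avgAt_scale hG, fderiv_avgAt_space hG, radDeriv_apply, radAvg,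
    radAvg, smul_smul, smul_smul, ← hσ]
  congr 2
  field_simp

lemma uniqueDiffOn_rad {ν : ℝ} (hν : 0 < ν) :
    UniqueDiffOn ℝ (Icc (-√ν) √ν ×ˢ (univ : Set (Euc d))) :=
  (uniqueDiffOn_Icc (by linarith [Real.sqrt_pos.2 hν])).prod uniqueDiffOn_univ

lemma hasFDerivWithinAt_radAvg [CompleteSpace F] {ν : ℝ} (hν : 0 < ν) {G : Euc d → F}
    (hG : Function.HasTemperateGrowth G) (p : ℝ × Euc d) :
    HasFDerivWithinAt (radAvg ν G) (radDeriv ν G p)
      (Icc (-√ν) √ν ×ˢ univ) p := by
  by_cases hp : p ∈ Icc (-√ν) √ν ×ˢ (univ : Set (Euc d))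
  swap
  · exact HasFDerivWithinAt.of_notMem_closure (by
      rwa [(isClosed_Icc.prod isClosed_univ).closure_eq])
  set s := Ioo (-√ν) √ν ×ˢ (univ : Set (Euc d)) with hs
  have hpos : ∀ q ∈ s, 0 < ν - q.1 ^ 2 := fun q hq => sub_pos.2 (Real.sq_lt.2 hq.1)
  have hcl : closure s = Icc (-√ν) √ν ×ˢ (univ : Set (Euc d)) := by
    rw [hs, closure_prod_eq, closure_univ,
      closure_Ioo (by linarith [Real.sqrt_pos.2 hν] : -√ν ≠ √ν)]
  rw [← hcl]
  refine hasFDerivWithinAt_closure_of_tendsto_fderiv
    (fun q hq => (hasFDerivAt_radAvg hG (hpos q hq)).differentiableAt.differentiableWithinAt)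
    ((convex_Ioo _ _).prod convex_univ) (isOpen_Ioo.prod isOpen_univ)
    (fun q _ => (continuous_radAvg ν hG).continuousWithinAt) ?_
  refine (((continuous_radDeriv ν hG).tendsto p).mono_left nhdsWithin_le_nhds).congr' ?_
  filter_upwards [self_mem_nhdsWithin] with q hq
  exact (hasFDerivAt_radAvg hG (hpos q hq)).fderiv.symm

lemma contDiffOn_radAvg {ν : ℝ} (hν : 0 < ν) (m : ℕ) :
    ∀ {F : Type} [NormedAddCommGroup F] [NormedSpace ℝ F] [CompleteSpace F] {G : Euc d → F},
      Function.HasTemperateGrowth G →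
        ContDiffOn ℝ m (radAvg ν G) (Icc (-√ν) √ν ×ˢ univ) := by
  induction m with
  | zero =>
    intro F _ _ _ G hG
    exact contDiffOn_zero.2 (continuous_radAvg ν hG).continuousOn
  | succ m ih =>
    intro F _ _ _ G hG
    push_cast
    rw [contDiffOn_succ_iff_fderivWithin (uniqueDiffOn_rad hν)]
    refine ⟨fun q _ => (hasFDerivWithinAt_radAvg hν hG q).differentiableWithinAt, by simp, ?_⟩
    refine ContDiffOn.congr ?_ fun q hq =>
      (hasFDerivWithinAt_radAvg hν hG q).fderivWithin (uniqueDiffOn_rad hν q hq)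
    exact ((ContinuousLinearMap.smulRightL ℝ (ℝ × Euc d) F
        (ContinuousLinearMap.fst ℝ ℝ (Euc d))).contDiff.comp_contDiffOn
          (contDiff_fst.neg.contDiffOn.smul (ih (lapC_temperate hG)))).add
      ((ih (temperate_fderiv hG)).clm_comp contDiffOn_const)

lemma contDiffOn_radAvg_infty [CompleteSpace F] {ν : ℝ} (hν : 0 < ν) {G : Euc d → F}
    (hG : Function.HasTemperateGrowth G) :
    ContDiffOn ℝ ∞ (radAvg ν G) (Icc (-√ν) √ν ×ˢ univ) :=
  contDiffOn_infty.2 fun m => contDiffOn_radAvg hν m hG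

end Vale.Agent.P347
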