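import Vale.Agent.P347.PathCleanReg
import Vale.Agent.P347.Interfaces

/-!
The cleaning field on triples `(z, w, ξ)`, smooth up to the outer radius, and derivatives along it.
-/

namespace Vale.Agent.P347

open MeasureTheory Set
open scoped RealInnerProductSpace ContDiff

variable {d : ℕ}

namespace PathC

/-- The outcomes `(z, w, ξ)`. -/
abbrev Tri (d : ℕ) : Type := Euc d × Euc d × Euc d

variable {V : Euc d → ℝ} {T ν c : ℝ}

/-- The radius and the position of an outcome. -/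
def posC (q : ℝ × Tri d) : ℝ × Euc d := (q.1, q.2.1 + q.1 • q.2.2.1)

/-- The averaged Laplacian of the score. -/
noncomputable def lm (V : Euc d → ℝ) (T ν : ℝ) (p : ℝ × Euc d) : Euc d :=
  radAvg ν (lapC (score V T)) p

/-- The velocity on triples. -/
noncomputable def vel (V : Euc d → ℝ) (T ν c : ℝ) (q : ℝ × Tri d) : Tri d :=
  (0, c • hm V T ν (posC q) q.2.2.2,
    c • (q.1 • lm V T ν (posC q) - hm V T ν (posC q) q.2.2.1))

/-- The radii up to the outer one. -/
def slab (d : ℕ) (ν : ℝ) : Set (ℝ × Tri d) := Icc (-√ν) √ν ×ˢ univ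

/-- The derivative along the velocity, up to the outer radius. -/
noncomputable def ext (V : Euc d → ℝ) (T ν c : ℝ) (f : ℝ × Tri d → Euc d) (q : ℝ × Tri d) :
    Euc d :=
  fderivWithin ℝ f (slab d ν) q (1, vel V T ν c q)

/-- The observable `H ξ`. -/
noncomputable def gH (V : Euc d → ℝ) (T ν : ℝ) (q : ℝ × Tri d) : Euc d :=
  hm V T ν (posC q) q.2.2.2

/-- The observable `H H ξ`. -/
noncomputable def gHH (V : Euc d → ℝ) (T ν : ℝ) (q : ℝ × Tri d) : Euc d :=
  hm V T ν (posC q) (hm V T ν (posC q) q.2.2.2)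

lemma uniqueDiffOn_slab (hν : 0 < ν) : UniqueDiffOn ℝ (slab d ν) :=
  (uniqueDiffOn_Icc (by linarith [Real.sqrt_pos.2 hν])).prod uniqueDiffOn_univ

lemma contDiffOn_posC {F : Type} [NormedAddCommGroup F] [NormedSpace ℝ F] [CompleteSpace F]
    (hν : 0 < ν) {G : Euc d → F} (hG : Function.HasTemperateGrowth G) :
    ContDiffOn ℝ ∞ (fun q : ℝ × Tri d => radAvg ν G (posC q)) (slab d ν) :=
  (contDiffOn_radAvg_infty hν hG).comp
    ((contDiff_fst.prodMk ((contDiff_fst.comp contDiff_snd).add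
      (contDiff_fst.smul ((contDiff_fst.comp contDiff_snd).comp contDiff_snd)))).contDiffOn)
    fun _ hq => ⟨hq.1, trivial⟩

section Smooth

variable (hU : Weight V) (hT : 0 < T)
include hU hT

lemma contDiffOn_gH (hν : 0 < ν) : ContDiffOn ℝ ∞ (gH V T ν) (slab d ν) :=
  (contDiffOn_posC hν (temperate_fderiv (score_temperate hU hT))).clm_apply
    ((contDiff_snd.comp contDiff_snd).comp contDiff_snd).contDiffOn

lemma contDiffOn_gHH (hν : 0 < ν) : ContDiffOn ℝ ∞ (gHH V T ν) (slab d ν) :=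
  (contDiffOn_posC hν (temperate_fderiv (score_temperate hU hT))).clm_apply
    (contDiffOn_gH hU hT hν)

lemma contDiffOn_vel (hν : 0 < ν) : ContDiffOn ℝ ∞ (vel V T ν c) (slab d ν) :=
  contDiffOn_const.prodMk (((contDiffOn_gH hU hT hν).const_smul c).prodMk
    (((contDiff_fst.contDiffOn.smul
      (contDiffOn_posC hν (lapC_temperate (score_temperate hU hT)))).sub
      ((contDiffOn_posC hν (temperate_fderiv (score_temperate hU hT))).clm_apply
        ((contDiff_fst.comp contDiff_snd).comp contDiff_snd).contDiffOn)).const_smul c))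

lemma contDiffOn_ext (hν : 0 < ν) {f : ℝ × Tri d → Euc d} (hf : ContDiffOn ℝ ∞ f (slab d ν)) :
    ContDiffOn ℝ ∞ (ext V T ν c f) (slab d ν) :=
  (hf.fderivWithin (uniqueDiffOn_slab hν) le_rfl).clm_apply
    (contDiffOn_const.prodMk (contDiffOn_vel hU hT hν))

lemma contDiffOn_iterExt (hν : 0 < ν) {f : ℝ × Tri d → Euc d}
    (hf : ContDiffOn ℝ ∞ f (slab d ν)) (k : ℕ) :
    ContDiffOn ℝ ∞ ((ext V T ν c)^[k] f) (slab d ν) := by
  induction k with
  | zero => exact hf
  | succ k ih => rw [Function.iterate_succ_apply']; exact contDiffOn_ext hU hT hν ih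

omit hU hT in
/-- Derivatives along the solutions. -/
lemma hasDerivWithinAt_ext {f : ℝ × Tri d → Euc d}
    (hf : ContDiffOn ℝ ∞ f (slab d ν)) {Z : ℝ → Tri d} {t : ℝ} (ht : t ∈ Icc 0 √ν)
    (hZ : HasDerivWithinAt Z (vel V T ν c (t, Z t)) (Icc 0 √ν) t) :
    HasDerivWithinAt (fun s => f (s, Z s)) (ext V T ν c f (t, Z t)) (Icc 0 √ν) t := by
  have hm : MapsTo (fun s => (s, Z s)) (Icc 0 √ν) (slab d ν) := fun s hs =>
    ⟨⟨by linarith [hs.1, Real.sqrt_nonneg ν], hs.2⟩, trivial⟩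
  exact ((hf.differentiableOn (by simp) _ (hm ht)).hasFDerivWithinAt).comp_hasDerivWithinAt
    (f := fun s => (s, Z s)) t ((hasDerivWithinAt_id t _).prodMk hZ) hm

end Smooth

/-- A state as an outcome above the base point `z`. -/
noncomputable def emb (z : Euc d) (x : Sp (Blk 2 d)) : Tri d := (z, pw d x, pxi d x)

lemma lm_coord (hU : Weight V) (hT : 0 < T) (z : Euc d) (t : ℝ) (u : Euc d) (j : Fin d) :
    lm V T ν (t, z + t • u) j = ∑ i, av V T ν z 3 t u (Fin.cons i (pairIdx i j)) := by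
  have hL := lapC_temperate (score_temperate hU hT)
  have hG := av_temperate (d := d) hU hT 3
  set p : ℝ × Euc d := (√(ν - t ^ 2), z + t • u) with hp
  have e : lm V T ν (t, z + t • u) j = (∑ i, EuclideanSpace.proj (𝕜 := ℝ)
      (Fin.cons i (pairIdx i j) : Fin 3 → Fin d)) (avgAt (derivTen (smoothPot V T) 3) p) := by
    rw [avgAt_clm _ hG]
    refine (avgAt_clm (EuclideanSpace.proj (𝕜 := ℝ) j) hL p).trans ?_
    congr 1
    funext y
    simp only [lapC, map_sum, sum_apply, PiLp.proj_apply]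
    refine Finset.sum_congr rfl fun i _ => ?_
    rw [derivTen_apply (smoothPot_tame hU) isOpen_Ioi hT 2]
    simp only [Fin.cons_zero, Fin.tail_cons]
    have e2 : (fun u => derivTen (smoothPot V T) 2 u (pairIdx i j))
        = fun u => fderiv ℝ (score V T) u (unitVec i) j := funext fun u => hs_eq hU hT u i j
    have hd : DifferentiableAt ℝ (fun u => fderiv ℝ (score V T) u (unitVec i)) y :=
      (temperate_deriv_clm (score_temperate hU hT)
        (ContinuousLinearMap.apply ℝ (Euc d) (unitVec i))).1.differentiable (by simp) y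
    have h : HasFDerivAt (fun u => fderiv ℝ (score V T) u (unitVec i) j) _ y :=
      (EuclideanSpace.proj (𝕜 := ℝ) j).hasFDerivAt.comp y hd.hasFDerivAt
    rw [e2, h.fderiv]
    rfl
  rw [e]
  simp only [sum_apply, PiLp.proj_apply]
  rfl

section Link

variable (hU : Weight V) (hT : 0 < T) {z : Euc d}
include hU hT

lemma field_eq_vel {t : ℝ} (ht : t ∈ Ioo (-√ν) √ν) (x : Sp (Blk 2 d)) :
    ((0 : Euc d), pw d (field V T ν c z t x), pxi d (field V T ν c z t x))
      = vel V T ν c (t, emb z x) := by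
  refine Prod.ext rfl (Prod.ext ?_ ?_)
  · ext p
    show field V T ν c z t x (0, p) = (c • hm V T ν (t, z + t • pw d x) (pxi d x)) p
    rw [field_zero hU hT ht, PiLp.smul_apply, hm_coord hU hT, smul_eq_mul]
    refine congrArg _ (Finset.sum_congr rfl fun q _ => ?_)
    rw [av_two_symm hU hT t _ q p, mul_comm]
  · ext p
    show field V T ν c z t x (1, p)
      = (c • (t • lm V T ν (t, z + t • pw d x) - hm V T ν (t, z + t • pw d x) (pw d x))) p
    rw [field_one hU hT ht]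
    simp only [PiLp.smul_apply, WithLp.ofLp_sub, Pi.sub_apply, smul_eq_mul, lm_coord hU hT,
      hm_coord hU hT, Finset.sum_sub_distrib, Finset.mul_sum]
    rw [Finset.sum_congr rfl (g := fun i => av V T ν z 2 t (pw d x) (pairIdx p i) * pw d x i)
      fun i _ => by rw [av_two_symm hU hT t _ i p, mul_comm]]
    simp only [← Finset.mul_sum]
    ring

lemma D_eq_ext {f : ℝ × Tri d → Euc d} (hf : ContDiffOn ℝ ∞ f (slab d ν)) {t : ℝ}
    (ht : t ∈ Ioo (-√ν) √ν) (x : Sp (Blk 2 d)) :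
    (family hU hT ν c z).D (fun s y => bvec 0 (f (s, emb z y))) t x
      = bvec 0 (ext V T ν c f (t, emb z x)) := by
  have hn : slab d ν ∈ nhds ((t, emb z x) : ℝ × Tri d) :=
    Filter.mem_of_superset ((isOpen_Ioo.prod isOpen_univ).mem_nhds ⟨ht, trivial⟩)
      (prod_mono_left Ioo_subset_Icc_self)
  have hd : DifferentiableAt ℝ f (t, emb z x) :=
    (hf.contDiffAt hn).differentiableAt (by simp)
  have he : HasFDerivAt (fun q : ℝ × Sp (Blk 2 d) => (q.1, emb z q.2))
      ((ContinuousLinearMap.fst ℝ ℝ (Sp (Blk 2 d))).prod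
        ((0 : ℝ × Sp (Blk 2 d) →L[ℝ] Euc d).prod
          (((pw d).comp (ContinuousLinearMap.snd ℝ ℝ (Sp (Blk 2 d)))).prod
            ((pxi d).comp (ContinuousLinearMap.snd ℝ ℝ (Sp (Blk 2 d))))))) (t, x) :=
    hasFDerivAt_fst.prodMk ((hasFDerivAt_const z (t, x)).prodMk
      (((pw d).comp (ContinuousLinearMap.snd ℝ ℝ (Sp (Blk 2 d)))).hasFDerivAt.prodMk
        ((pxi d).comp (ContinuousLinearMap.snd ℝ ℝ (Sp (Blk 2 d)))).hasFDerivAt))
  have h : HasFDerivAt (fun q : ℝ × Sp (Blk 2 d) => bvec (B := 2) 0 (f (q.1, emb z q.2))) _ (t, x) :=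
    (bvec (B := 2) (d := d) 0).hasFDerivAt.comp (t, x)
      (hd.hasFDerivAt.comp (f := fun q : ℝ × Sp (Blk 2 d) => (q.1, emb z q.2)) (t, x) he)
  rw [Family.D, h.fderiv, ext, fderivWithin_of_mem_nhds hn, ← field_eq_vel hU hT ht x]
  rfl

lemma iterD_eq_ext (hν : 0 < ν) {f : ℝ × Tri d → Euc d} (hf : ContDiffOn ℝ ∞ f (slab d ν))
    (k : ℕ) : ∀ t ∈ Ioo (-√ν) √ν, ∀ x,
      ((family hU hT ν c z).D^[k]) (fun s y => bvec 0 (f (s, emb z y))) t x
        = bvec 0 ((ext V T ν c)^[k] f (t, emb z x)) := by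
  induction k with
  | zero => intro t _ x; rfl
  | succ k ih =>
    intro t ht x
    rw [Function.iterate_succ_apply', Function.iterate_succ_apply',
      (family hU hT ν c z).D_congr (f := fun s y => bvec 0 ((ext V T ν c)^[k] f (s, emb z y)))
        ih ht x]
    exact D_eq_ext hU hT (contDiffOn_iterExt hU hT hν hf k) ht x

end Link

/-- The averaged Hessian in the notation of the statements. -/
lemma hessAvg_eq_hm (hU : Weight V) {τ ν : ℝ} (hT : 0 < τ + ν) (r : ℝ) (y : Euc d) :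
    hessAvg V (τ + r ^ 2) (ν - r ^ 2) y = hm V (τ + ν) ν (r, y) := by
  have hg := score_temperate (d := d) hU hT
  have e : scoreAvg V (τ + r ^ 2) (ν - r ^ 2)
      = fun y => avgAt (score V (τ + ν)) (√(ν - r ^ 2), y) := by
    funext y
    rw [scoreAvg, heat_eq_avgAt, show τ + r ^ 2 + (ν - r ^ 2) = τ + ν by ring]
  refine ContinuousLinearMap.ext fun v => ?_
  have h := ((avgAt_temperate hg).1.differentiable (by simp) (√(ν - r ^ 2), y)).hasFDerivAt.comp y
    (hasFDerivAt_prodMk_right (𝕜 := ℝ) √(ν - r ^ 2) y)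
  simp only [Function.comp_def] at h
  rw [hessAvg, e, h.fderiv]
  exact fderiv_avgAt_space hg _ v

lemma scoreAvg_eq_radAvg {τ ν : ℝ} (r : ℝ) (y : Euc d) :
    scoreAvg V (τ + r ^ 2) (ν - r ^ 2) y = radAvg ν (score V (τ + ν)) (r, y) := by
  rw [scoreAvg, heat_eq_avgAt, show τ + r ^ 2 + (ν - r ^ 2) = τ + ν by ring]
  rfl

/-- The differential equation of the paths, from the integral equations. -/
lemma path_ode (hU : Weight V) {τ ν e : ℝ} (hT : 0 < τ + ν) (hν : 0 < ν) (he : e ≠ 0)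
    {Φ : ℝ → Tri d → Euc d × Euc d}
    (hc : ContinuousOn (fun q : ℝ × Tri d => Φ q.1 q.2) (Icc 0 √ν ×ˢ univ)) (p : Tri d)
    (he1 : ∀ r ∈ Icc 0 √ν, (Φ r p).1 = p.2.1 + e⁻¹ • ∫ u in √ν..r,
      hm V (τ + ν) ν (u, p.1 + u • (Φ u p).1) (Φ u p).2)
    (he2 : ∀ r ∈ Icc 0 √ν,
      e • (Φ r p).2 + radAvg ν (score V (τ + ν)) (r, p.1 + r • (Φ r p).1)
        = e • p.2.2 + score V (τ + ν) (p.1 + √ν • p.2.1)
          + e⁻¹ • ∫ u in √ν..r, u • hm V (τ + ν) ν (u, p.1 + u • (Φ u p).1)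
              (hm V (τ + ν) ν (u, p.1 + u • (Φ u p).1) (Φ u p).2))
    {t : ℝ} (ht : t ∈ Icc 0 √ν) :
    HasDerivWithinAt (fun r => ((p.1, Φ r p) : Tri d))
      (vel V (τ + ν) ν e⁻¹ (t, (p.1, Φ t p))) (Icc 0 √ν) t := by
  have hg := score_temperate (d := d) hU hT
  have hs0 : 0 ≤ √ν := Real.sqrt_nonneg ν
  have hcp : ContinuousOn (fun u => Φ u p) (Icc 0 √ν) :=
    hc.comp (continuousOn_id.prodMk continuousOn_const) fun u hu => ⟨hu, mem_univ _⟩
  set w := fun u => (Φ u p).1 with hw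
  set ξ := fun u => (Φ u p).2 with hξ
  have hcw : ContinuousOn w (Icc 0 √ν) := continuous_fst.comp_continuousOn hcp
  have hcξ : ContinuousOn ξ (Icc 0 √ν) := continuous_snd.comp_continuousOn hcp
  have hpos : ContinuousOn (fun u : ℝ => ((u, p.1 + u • w u) : ℝ × Euc d)) (Icc 0 √ν) :=
    continuousOn_id.prodMk (continuousOn_const.add (continuousOn_id.smul hcw))
  have hH := ((continuous_radAvg ν (temperate_fderiv hg)).comp_continuousOn hpos).clm_apply hcξ
  have hHH := ((continuous_radAvg ν (temperate_fderiv hg)).comp_continuousOn hpos).clm_apply hH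
  have hwd : HasDerivWithinAt w (e⁻¹ • hm V (τ + ν) ν (t, p.1 + t • w t) (ξ t)) (Icc 0 √ν) t :=
    (((hasDerivWithinAt_integral_Icc hs0 hH (right_mem_Icc.2 hs0) ht).const_smul e⁻¹).const_add
      p.2.1).congr (fun r hr => he1 r hr) (he1 t ht)
  have hK : HasDerivWithinAt (fun r => radAvg ν (score V (τ + ν)) (r, p.1 + r • w r))
      (radDeriv ν (score V (τ + ν)) (t, p.1 + t • w t)
        (1, t • (e⁻¹ • hm V (τ + ν) ν (t, p.1 + t • w t) (ξ t)) + w t)) (Icc 0 √ν) t := by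
    refine (hasFDerivWithinAt_radAvg hν hg _).comp_hasDerivWithinAt
      (f := fun r : ℝ => ((r, p.1 + r • w r) : ℝ × Euc d)) t ((hasDerivWithinAt_id t _).prodMk
        ((((hasDerivWithinAt_id t _).smul hwd).congr_deriv ?_).const_add p.1))
      fun s hs => ⟨⟨by linarith [hs.1], hs.2⟩, trivial⟩
    simp
  set C₀ := e • p.2.2 + score V (τ + ν) (p.1 + √ν • p.2.1)
  have hξ' : ∀ r ∈ Icc 0 √ν, ξ r = e⁻¹ • (C₀ + e⁻¹ • (∫ u in √ν..r,
      u • hm V (τ + ν) ν (u, p.1 + u • w u) (hm V (τ + ν) ν (u, p.1 + u • w u) (ξ u)))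
      - radAvg ν (score V (τ + ν)) (r, p.1 + r • w r)) := fun r hr => by
    rw [← he2 r hr, add_sub_cancel_right, inv_smul_smul₀ he]
  have hxd : HasDerivWithinAt ξ (vel V (τ + ν) ν e⁻¹ (t, (p.1, Φ t p))).2.2 (Icc 0 √ν) t := by
    refine (((((hasDerivWithinAt_integral_Icc hs0 (continuousOn_id.smul hHH) (right_mem_Icc.2 hs0)
      ht).const_smul e⁻¹).const_add C₀).sub hK).const_smul e⁻¹ |>.congr hξ' (hξ' t ht)).congr_deriv ?_
    simp only [vel, posC, lm, radDeriv_apply, hm, map_add, map_smul, one_smul, id_eq, hw, hξ,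
      Pi.smul_apply', Function.comp_apply]
    module
  exact (hasDerivWithinAt_const t _ p.1).prodMk (hwd.prodMk hxd)

end PathC

end Vale.Agent.P347
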