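import Vale.Agent.P347.PathCleanSys

/-!
Regularity of the observables of the cleaning paths at unit scale.
-/

namespace Vale.Agent.P347

open MeasureTheory Set
open scoped RealInnerProductSpace ContDiff

variable {d : ℕ}

/-- Averages keep the bounds on all splittings. -/
lemma allSplit_avgAt {n : ℕ} {C : ℝ} {G : Euc d → Ten (Fin d) n}
    (hG : Function.HasTemperateGrowth G) (hC : ∀ y, AllSplit C (G y)) (p : ℝ × Euc d) :
    AllSplit C (avgAt G p) := by
  intro a b e ha hb A B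
  set L : Ten (Fin d) n →L[ℝ] ℝ := ∑ α : Fin a → Fin d, ∑ β : Fin b → Fin d,
    (A α * B β) • EuclideanSpace.proj (joinIdx e α β) with hL
  have hLa : ∀ X : Ten (Fin d) n, L X
      = ∑ α : Fin a → Fin d, ∑ β : Fin b → Fin d, X (joinIdx e α β) * A α * B β := fun X => by
    simp only [hL, sum_apply, smul_apply, PiLp.proj_apply, smul_eq_mul]
    exact Finset.sum_congr rfl fun α _ => Finset.sum_congr rfl fun β _ => by ring
  rw [← hLa, avgAt_clm L hG, avgAt, ← Real.norm_eq_abs]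
  refine (norm_integral_le_of_norm_le_const (C := C * ‖A‖ * ‖B‖) (ae_of_all _ fun η => ?_)).trans
    (le_of_eq (by simp))
  rw [Real.norm_eq_abs, hLa]
  exact hC _ a b e ha hb A B

namespace PathC

variable {V : Euc d → ℝ} {T ν c : ℝ} {z : Euc d}

/-- The averaged Hessian as a map of the radius and the point. -/
noncomputable def hm (V : Euc d → ℝ) (T ν : ℝ) (p : ℝ × Euc d) : Euc d →L[ℝ] Euc d :=
  radAvg ν (fderiv ℝ (score V T)) p

lemma score_temperate (hU : Weight V) (hT : 0 < T) :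
    Function.HasTemperateGrowth (score V T) :=
  (hU.smoothPot hT.le).gradient_temperate

lemma hm_coord (hU : Weight V) (hT : 0 < T) (t : ℝ) (u v : Euc d) (i : Fin d) :
    hm V T ν (t, z + t • u) v i = ∑ k, av V T ν z 2 t u (pairIdx i k) * v k := by
  set p : ℝ × Euc d := (√(ν - t ^ 2), z + t • u) with hp
  have hS := temperate_fderiv (score_temperate hU hT)
  have hG := av_temperate hU hT 2
  have e : hm V T ν (t, z + t • u) v i
      = (∑ k, v k • EuclideanSpace.proj (𝕜 := ℝ) (pairIdx k i : Fin 2 → Fin d))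
          (avgAt (derivTen (smoothPot V T) 2) p) := by
    rw [avgAt_clm _ hG]
    refine (avgAt_clm ((EuclideanSpace.proj (𝕜 := ℝ) i).comp
      (ContinuousLinearMap.apply ℝ (Euc d) v)) hS p).trans ?_
    congr 1
    funext y
    simp only [ContinuousLinearMap.comp_apply, ContinuousLinearMap.apply_apply, PiLp.proj_apply,
      fderiv_score_coord hU hT, sum_apply, smul_apply, smul_eq_mul, hs]
  rw [e]
  simp only [sum_apply, smul_apply, PiLp.proj_apply, smul_eq_mul]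
  refine Finset.sum_congr rfl fun k _ => ?_
  rw [show avgAt (derivTen (smoothPot V T) 2) p = av V T ν z 2 t u from rfl,
    av_two_symm hU hT t u k i, mul_comm]

/-- The Hessian at the position applied to the Gaussian vector. -/
noncomputable def oH (V : Euc d → ℝ) (T ν : ℝ) (z : Euc d) (t : ℝ) (x : Sp (Blk 2 d)) :
    Ten (Blk 2 d) 1 :=
  bvec 0 (hm V T ν (t, z + t • pw d x) (pxi d x))

/-- The Hessian at the position applied twice to the Gaussian vector. -/
noncomputable def oHH (V : Euc d → ℝ) (T ν : ℝ) (z : Euc d) (t : ℝ) (x : Sp (Blk 2 d)) :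
    Ten (Blk 2 d) 1 :=
  bvec 0 (hm V T ν (t, z + t • pw d x) (hm V T ν (t, z + t • pw d x) (pxi d x)))

lemma tame_hm (hU : Weight V) (hT : 0 < T) {v : ℝ → Sp (Blk 2 d) → Euc d}
    (hv : Tame (Ioo (-√ν) √ν) v) :
    Tame (Ioo (-√ν) √ν) fun t x => hm V T ν (t, z + t • pw d x) (v t x) := by
  have hI : IsOpen (Ioo (-√ν) √ν) := isOpen_Ioo
  have hs : Tame (ι := Blk 2 d) (Ioo (-√ν) √ν) fun t _ => √(ν - t ^ 2) :=
    Tame.time hI ((contDiff_const.sub (contDiff_id.pow 2)).contDiffOn.sqrt fun t ht =>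
      (sub_pos.2 (Real.sq_lt.2 ht)).ne')
  have ht : Tame (ι := Blk 2 d) (Ioo (-√ν) √ν) fun t _ => t := Tame.time hI contDiffOn_id
  exact (Tame.temperate_comp hI (avgAt_temperate (temperate_fderiv (score_temperate hU hT)))
    (hs.prodMk ((Tame.const z).add (ht.bilin (Tame.linear (pw d)) hI
      (ContinuousLinearMap.lsmul ℝ ℝ)) hI) hI)).bilin hv hI (ContinuousLinearMap.id ℝ _)

lemma oH_tame (hU : Weight V) (hT : 0 < T) : Tame (Ioo (-√ν) √ν) (oH V T ν z) :=
  (tame_hm hU hT (Tame.linear (pxi d))).clm isOpen_Ioo (bvec 0)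

lemma oHH_tame (hU : Weight V) (hT : 0 < T) : Tame (Ioo (-√ν) √ν) (oHH V T ν z) :=
  (tame_hm hU hT (tame_hm hU hT (Tame.linear (pxi d)))).clm isOpen_Ioo (bvec 0)

lemma sq_xi_eq (hU : Weight V) (hT : 0 < T) {t : ℝ} (ht : t ∈ Ioo (-√ν) √ν) :
    ∫ x, ‖bvec (B := 2) 1 (pxi d x)‖ ^ 2 ∂((family hU hT ν c z).μ t) = d := by
  set F := family hU hT ν c z with hF
  have := F.prob t ht
  have hI : IsOpen (Ioo (-√ν) √ν) := isOpen_Ioo
  set π : Fin d → Sp (Blk 2 d) →L[ℝ] ℝ := fun i => EuclideanSpace.proj ((1 : Fin 2), i) with hπ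
  have hf : ∀ i, Tame (Ioo (-√ν) √ν) fun (_ : ℝ) (x : Sp (Blk 2 d)) => π i x := fun i =>
    Tame.linear (π i)
  have hsq : ∀ x, ‖bvec (B := 2) 1 (pxi d x)‖ ^ 2 = ∑ i, π i x * π i x := by
    intro x
    rw [norm_bvec, EuclideanSpace.real_norm_sq_eq]
    exact Finset.sum_congr rfl fun i _ => sq _
  simp only [hsq]
  rw [integral_finsetSum _ fun i _ => ((hf i).mul (hf i) hI).integrable ht _ (F.integrable_poly t ht)]
  have h : ∀ i : Fin d, ∫ x, π i x * π i x ∂(F.μ t) = 1 := by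
    intro i
    have h1 := F.ibp t ht _ (hf i) ((1 : Fin 2), i)
    have e : ∀ x, fderiv ℝ (fun x => π i x) x (EuclideanSpace.single ((1 : Fin 2), i) 1) = 1 :=
      fun x => by
        rw [ContinuousLinearMap.fderiv]
        simp [hπ]
    have e2 : ∀ x, π i x * fderiv ℝ (F.Ψ t) x (EuclideanSpace.single ((1 : Fin 2), i) 1)
        = π i x * π i x := fun x => by
      have := pd_pot t x ((1 : Fin 2), i)
      simp only [pd] at this
      rw [show F.Ψ = pot d from rfl, this]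
      rfl
    rw [integral_congr_ae (ae_of_all _ e), integral_congr_ae (ae_of_all _ e2)] at h1
    simpa using h1.symm
  rw [Finset.sum_congr rfl fun i _ => h i]
  simp

/-- Dimension-free bounds at unit scale. -/
theorem clean_reg (hTB : TensorBoundStatement) (j : ℕ) :
    ∃ C : ℝ, 0 ≤ C ∧ ∀ (d : ℕ) (V : Euc d → ℝ) (σ : ℝ) (hV : NicePot d V σ (σ * 2)) (T ν c : ℝ)
      (z : Euc d) (hT : 0 < T) (s : ℝ),
      1 ≤ T → 200 * (σ * T) ≤ 1 → ν ≤ 1 → s ∈ Ioo (-√ν) √ν → |c| * σ ≤ 1 →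
      (family hV.weight hT ν c z).Reg {s} j 0 (C * √d) (fun t x => σ⁻¹ • oH V T ν z t x) ∧
      (family hV.weight hT ν c z).Reg {s} j 0 (C * √d)
        (fun t x => (σ⁻¹ * σ⁻¹) • oHH V T ν z t x) := by
  choose C₀ hC₀ using fun n => hTB (n + 2) (by omega)
  set cst : ℕ → ℝ := fun n => 2 * |C₀ n| with hcdef
  set S := sys cst with hS
  set TH : Tm S.β 2 := mul2 (lP 0 1 0) (lE 0 1) with hTH
  obtain ⟨n₁, Cb, hCb, hb⟩ := S.reg_contract eH eB1 eB0 (a := 1) (b := 1) (c := 0) Nat.one_pos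
    Nat.one_pos splitId (lP 0 1 0) j 0
  obtain ⟨n₂, Ca, hCa, ha⟩ := S.reg_contract eH eB1 eB0 (a := 1) (b := 1) (c := 0) Nat.one_pos
    Nat.one_pos splitId TH j n₁
  obtain ⟨n₃, Cd, hCd, hd'⟩ := S.reg_contract eH eB1 eB0 (a := 1) (b := 1) (c := 0) Nat.one_pos
    Nat.one_pos splitId TH j 0
  obtain ⟨Cx, hCx, hx⟩ := S.reg_vec eH eB1 eB0 (lE 1 1) eXxi j (max n₂ n₃)
  refine ⟨Cd * (Cx * (1 + √2)) + Cb * (Ca * (Cx * (1 + √2))), by positivity,
    fun d V σ hV T ν c z hT s hT1 hsL hν hs hc => ?_⟩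
  have hσ := hV.pos
  have hU := hV.weight
  set F := family hU hT ν c z with hF
  have hJ : ({s} : Set ℝ) ⊆ F.dom := fun t ht => by rw [mem_singleton_iff.1 ht]; exact hs
  have hs1 : |s| ≤ 1 := (abs_le.2 ⟨hs.1.le, hs.2.le⟩).trans (Real.sqrt_le_one.2 hν)
  have hco : ∀ k : Fin 2, |co c σ⁻¹ k| * σ ≤ 1 := fun k => by
    fin_cases k
    · simpa [co] using hc
    · simp [co, abs_of_pos hσ, inv_mul_cancel₀ hσ.ne']
  have hbase : ∀ n x, AllSplit (|C₀ n| * (σ * 2)) (la V T ν z (n + 2) s x) := fun n x => by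
    refine AllSplit.lift (by positivity) (allSplit_avgAt (av_temperate hU hT _) (fun y => ?_) _) _
    refine (hC₀ n d V σ (σ * 2) T hV hT (by linarith) y).mono ?_
    rw [Nat.add_sub_cancel]
    refine (div_le_div_of_nonneg_right (mul_le_mul_of_nonneg_right (le_abs_self _)
      (by positivity)) (by positivity)).trans (div_le_self (by positivity) ?_)
    exact one_le_pow₀ (Real.one_le_sqrt.2 hT1)
  obtain ⟨R, hv⟩ : ∃ R : S.Sem F {s}, R.v = val V T ν c σ⁻¹ z :=
    ⟨⟨val V T ν c σ⁻¹ z, hJ, rules hU hT σ⁻¹ (fun n => by positivity) fun i k n t ht x => by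
      rw [mem_singleton_iff.1 ht]
      refine ((hbase n x).smul (s ^ i * co c σ⁻¹ k)).mono ?_
      calc |s ^ i * co c σ⁻¹ k| * (|C₀ n| * (σ * 2))
          = 2 * |C₀ n| * (|s| ^ i * (|co c σ⁻¹ k| * σ)) := by rw [abs_mul, abs_pow]; ring
        _ ≤ _ := by
          rw [hcdef]
          exact mul_le_of_le_one_right (by positivity)
            (mul_le_one₀ (pow_le_one₀ (abs_nonneg s) hs1) (by positivity) (hco k))⟩, rfl⟩
  have hG : Sys.Good₀ R eH eB1 eB0 :=
    ⟨fun t _ x => by rw [hv]; exact hess_eq σ⁻¹ t x,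
      fun t ht x => by rw [hv]; exact gradB_eq hU hT σ⁻¹ ht x⟩
  have hcard : √((Fintype.card (Blk 2 d) : ℕ) : ℝ) = √2 * √(d : ℝ) := by
    simp [Real.sqrt_mul]
  have hsd' : 0 ≤ √(d : ℝ) := Real.sqrt_nonneg _
  have hxi := hx _ F {s} R hG (fun _ x => bvec 1 (pxi d x)) √(d : ℝ) hsd'
    (Tame.linear ((bvec 1).comp (pxi d))) (fun t _ x => by rw [hv, nabla_bvec_bproj]; rfl)
    (fun t ht x => by rw [hv]; exact D_xi hU hT σ⁻¹ ht x) (fun t ht => by
      obtain rfl := mem_singleton_iff.1 ht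
      rw [sq_xi_eq hU hT hs, Real.sq_sqrt (Nat.cast_nonneg _)])
  have hM0 : 0 ≤ Cx * (√(d : ℝ) + √((Fintype.card (Blk 2 d) : ℕ) : ℝ)) := by positivity
  have eA : ∀ (t : ℝ) x, σ⁻¹ • oH V T ν z t x = contractTen splitId (TH.eval R.v t x)
      (show Ten (Blk 2 d) (1 + 0) from bvec 1 (pxi d x)) := fun t x => by
    have e : TH.eval R.v t x = σ⁻¹ • liftTen ![0, 1] (av V T ν z 2 t (pw d x)) := by
      rw [hv, hTH]
      refine (eval_right (V := V) (T := T) (ν := ν) (c := c) (z := z) σ⁻¹ 0 1 t x).trans ?_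
      simp [co]
    rw [e, contract_smul_left, contract_lift_bvec 0 1 _ _ _ (hm_coord hU hT t _ (pxi d x))]
    rfl
  have hA := ((ha _ F {s} R hG _ _ hM0 (hxi.of_le le_rfl (le_max_left _ _))).congr hJ
    (g := fun t x => σ⁻¹ • oH V T ν z t x) fun t _ x => eA t x)
  have hA0 := ((hd' _ F {s} R hG _ _ hM0 (hxi.of_le le_rfl (le_max_right _ _))).congr hJ
    (g := fun t x => σ⁻¹ • oH V T ν z t x) fun t _ x => eA t x)
  have eM : Cx * (√(d : ℝ) + √((Fintype.card (Blk 2 d) : ℕ) : ℝ)) = Cx * (1 + √2) * √(d : ℝ) := by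
    rw [hcard]; ring
  have h2 : 0 ≤ Cd * (Cx * (1 + √2)) := by positivity
  have h3 : 0 ≤ Cb * (Ca * (Cx * (1 + √2))) := by positivity
  constructor
  · refine hA0.mono le_rfl le_rfl (by positivity) ?_
    rw [eM]
    calc Cd * (Cx * (1 + √2) * √(d : ℝ)) = Cd * (Cx * (1 + √2)) * √(d : ℝ) := by ring
      _ ≤ _ := mul_le_mul_of_nonneg_right (by linarith) hsd'
  · have hB := hb _ F {s} R hG _ _ (mul_nonneg hCa hM0) hA
    refine (hB.congr hJ (g := fun t x => (σ⁻¹ * σ⁻¹) • oHH V T ν z t x) fun t _ x => ?_).mono le_rfl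
      le_rfl (by positivity) ?_
    · rw [hv]
      show _ = contractTen splitId ((t ^ 0 * co c σ⁻¹ 1) • la V T ν z (0 + 2) t x)
        (σ⁻¹ • (show Ten (Blk 2 d) (1 + 0) from oH V T ν z t x))
      rw [show la V T ν z (0 + 2) t x = liftTen ![0, 0] (av V T ν z 2 t (pw d x)) from
        lift_congr (fun s => by fin_cases s <;> rfl) _, contract_smul_smul, oH,
        contract_lift_bvec 0 0 _ _ _ (hm_coord hU hT t _ (hm V T ν (t, z + t • pw d x) (pxi d x)))]
      simp [co]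
      rfl
    · rw [eM]
      calc Cb * (Ca * (Cx * (1 + √2) * √(d : ℝ))) = Cb * (Ca * (Cx * (1 + √2))) * √(d : ℝ) := by
            ring
        _ ≤ _ := mul_le_mul_of_nonneg_right (by linarith) hsd'

end PathC

end Vale.Agent.P347
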