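import Vale.Agent.P347.PathClean

/-!
The system of base fields of the cleaning calculus, with gradients and derivatives along the field.
-/

namespace Vale.Agent.P347

open MeasureTheory Set
open scoped RealInnerProductSpace ContDiff

namespace PathC

/-- The names of the base fields: block identities, and averaged derivative tensors with a power
of the radius and one of two coefficients. -/
inductive CB : ℕ → Type
  | E (a b : Fin 2) : CB 2
  | P (i : ℕ) (j : Fin 2) (n : ℕ) : CB (n + 2)

/-- The gradients of the base fields. -/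
def cnb : ∀ n, CB n → CExpr CB (n + 1)
  | _, .E _ _ => .zero 3
  | _, .P i j n => .leaf (.P (i + 1) j (n + 1))

/-- The product of two rank two expressions. -/
def mul2 (x y : CExpr CB 2) : CExpr CB 2 :=
  CExpr.mul splitId Nat.one_pos Nat.one_pos Nat.one_pos x y

/-- The leaf of a block identity. -/
def lE (a b : Fin 2) : CExpr CB 2 := .leaf (.E a b)

/-- The leaf of a derivative tensor. -/
def lP (i : ℕ) (j : Fin 2) (n : ℕ) : CExpr CB (n + 2) := .leaf (.P i j n)

/-- The Hessian of the potential. -/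
noncomputable def eH : CExpr CB 2 := .add (lE 0 0) (lE 1 1)

/-- The rotation. -/
noncomputable def eW : CExpr CB 2 :=
  .add (mul2 (lE 1 0) (lP 0 0 0)) (.smul (-1) (mul2 (lP 0 0 0) (lE 0 1)))

/-- The divergence part of the gradient of the field. -/
noncomputable def eB1 : CExpr CB 3 := .perm (swap01 1) (CExpr.grad cnb eW)

/-- The rest of the gradient of the field. -/
noncomputable def eB0 : CExpr CB 2 := actE splitId Nat.one_pos eH eW

/-- The derivative along the field of the Gaussian vector, as a divergence. -/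
noncomputable def eXxi : CExpr CB 2 := .smul (-1) (mul2 (lP 0 0 0) (lE 0 1))

/-- The derivatives along the field of the base fields. -/
noncomputable def cdb : ∀ n, CB n → CExpr CB (n + 1) × CExpr CB n
  | _, .E _ _ => (.zero 3, .zero 2)
  | _, .P i j n =>
    (.add (.leaf (.P i j (n + 1)))
      (actE splitId (Nat.succ_pos (n + 1)) (mul2 (lE 1 0) (lP 1 0 0))
        (lP i j (n + 1) : CExpr CB (n + 2 + 1))),
      .smul (i : ℝ) (lP (i - 1) j n))

/-- The bounds of the base fields. -/
def ccb (c : ℕ → ℝ) : ∀ n, CB n → ℝ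
  | _, .E _ _ => 1
  | _, .P _ _ n => c n

/-- The system of the cleaning calculus. -/
noncomputable def sys (c : ℕ → ℝ) : Sys where
  β := CB
  cb := ccb c
  nb := cnb
  db := cdb

variable {d : ℕ} {V : Euc d → ℝ} {T ν c : ℝ} {z : Euc d}

/-- The two coefficients. -/
noncomputable def co (c w : ℝ) : Fin 2 → ℝ := ![c, w]

/-- The base fields. -/
noncomputable def val (V : Euc d → ℝ) (T ν c w : ℝ) (z : Euc d) :
    ∀ n, CB n → ℝ → Sp (Blk 2 d) → Ten (Blk 2 d) n
  | _, .E a b => fun _ _ => blockId d a b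
  | _, .P i j n => fun t x => (t ^ i * co c w j) • la V T ν z (n + 2) t x

lemma hasFDerivAt_av (hU : Weight V) (hT : 0 < T) (n : ℕ) (t : ℝ) (u : Euc d) :
    HasFDerivAt (av V T ν z n t)
      (t • avgAt (fderiv ℝ (derivTen (smoothPot V T) n)) (√(ν - t ^ 2), z + t • u)) u := by
  have hG := av_temperate hU hT n
  have h := ((avgAt_temperate hG).1.differentiable (by simp) _).hasFDerivAt.comp u
    ((hasFDerivAt_const √(ν - t ^ 2) u).prodMk
      (((hasFDerivAt_id u).const_smul t).const_add z))
  refine h.congr_fderiv ?_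
  refine ContinuousLinearMap.ext fun v => ?_
  simp only [ContinuousLinearMap.comp_apply, ContinuousLinearMap.prod_apply, smul_apply,
    zero_apply, ContinuousLinearMap.id_apply, Pi.smul_apply, id_eq]
  rw [show ((0 : ℝ), t • v) = t • ((0 : ℝ), v) by simp, map_smul, fderiv_avgAt_space hG]

lemma nabla_av (hU : Weight V) (hT : 0 < T) (n : ℕ) (t : ℝ) (u : Euc d) :
    nabla (av V T ν z n t) u = t • av V T ν z (n + 1) t u := by
  ext α
  simp only [nabla, (hasFDerivAt_av hU hT n t u).fderiv, smul_apply, WithLp.ofLp_smul,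
    Pi.smul_apply, smul_eq_mul]
  rw [avg_fderiv_coord (av_temperate hU hT n)]
  congr 1
  simp only [EuclideanSpace.single, PiLp.single_apply, ite_mul, one_mul, zero_mul,
    Finset.sum_ite_eq', Finset.mem_univ, if_true, Fin.cons_self_tail]
  rfl

lemma la_tame (hU : Weight V) (hT : 0 < T) (n : ℕ) :
    Tame (Ioo (-√ν) √ν) (la V T ν z n) := tame_lift hU hT _

lemma nabla_la (hU : Weight V) (hT : 0 < T) (n : ℕ) (t : ℝ) (x : Sp (Blk 2 d)) :
    nabla (la V T ν z n t) x = t • la V T ν z (n + 1) t x := by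
  refine (nabla_lift_bproj _ 0 (hasFDerivAt_av hU hT n t _).differentiableAt).trans ?_
  rw [nabla_av hU hT, la, ← liftL_apply, map_smul, liftL_apply]
  refine congrArg _ (lift_congr ?_ _)
  exact Fin.cases (by simp) (by simp)

lemma la_cons (n : ℕ) (t : ℝ) (x : Sp (Blk 2 d)) (p : Blk 2 d) (α : Fin n → Blk 2 d) :
    la V T ν z (n + 1) t x (Fin.cons p α)
      = if p.1 = 0 ∧ ∀ s, (α s).1 = 0 then
          av V T ν z (n + 1) t (pw d x) (Fin.cons p.2 fun s => (α s).2) else 0 := by
  simp only [la, liftTen_apply, Fin.forall_fin_succ, Fin.cons_zero, Fin.cons_succ]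
  refine if_congr Iff.rfl (congrArg _ ?_) rfl
  funext s
  refine Fin.cases ?_ ?_ s <;> simp

section Identities

variable (hU : Weight V) (hT : 0 < T)
include hU hT

lemma base (w : ℝ) : CBase (family hU hT ν c z) (val V T ν c w z) cnb where
  tame n i := by
    cases i with
    | E a b => exact Tame.const _
    | P i j n =>
      exact ((Tame.time (ι := Blk 2 d) isOpen_Ioo
        ((contDiff_id.pow i).mul contDiff_const).contDiffOn (φ := fun t => t ^ i * co c w j)).bilin
          (la_tame hU hT (n + 2)) isOpen_Ioo (ContinuousLinearMap.lsmul ℝ ℝ))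
  nabla_eq n i t ht x := by
    cases i with
    | E a b => exact nabla_const _ x
    | P i j n =>
      show nabla (fun y => (t ^ i * co c w j) • la V T ν z (n + 2) t y) x
        = (t ^ (i + 1) * co c w j) • la V T ν z (n + 2 + 1) t x
      rw [nabla_smul (la_tame (ν := ν) hU hT (n + 2)) _ ht, nabla_la hU hT, smul_smul]
      congr 1
      ring

omit hU hT in
lemma hess_eq (w : ℝ) (t : ℝ) (x : Sp (Blk 2 d)) :
    derivTen (pot d t) 2 x = eH.eval (val V T ν c w z) t x := by
  set A : Sp (Blk 2 d) →L[ℝ] Ten (Blk 2 d) 1 :=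
    (bvec 0).comp (pw d) + (bvec 1).comp (pxi d) with hA
  have h0 : Tame (ι := Blk 2 d) univ (pot d) :=
    (Tame.const (2 : ℝ)⁻¹).mul (((Tame.linear (ι := Blk 2 d)
      (ContinuousLinearMap.id ℝ (Sp (Blk 2 d)))).norm_sq isOpen_univ)) isOpen_univ
  have e1 : derivTen (pot d t) 1 = ⇑A := funext fun y => by
    ext α
    have h1 : derivTen (pot d t) 1 y α = pd (α 0) (pot d) t y :=
      nabla_apply (h0.derivTen isOpen_univ 0) (mem_univ t) y α
    rw [h1, pd_pot]
    simp only [hA, add_apply, ContinuousLinearMap.comp_apply, WithLp.ofLp_add, Pi.add_apply,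
      bvec_apply]
    rcases α 0 with ⟨k, i⟩
    fin_cases k <;> simp
  show nabla (derivTen (pot d t) 1) x = _
  rw [e1]
  ext α
  have hn : ∀ (k : Fin 2),
      bvec k (bproj k (EuclideanSpace.single (α 0) (1 : ℝ))) (Fin.tail α) = blockId d k k α := by
    intro k
    rw [← nabla_bvec_bproj k k x]
    show _ = fderiv ℝ (⇑((bvec (d := d) k).comp (bproj k))) x _ _
    rw [((bvec (d := d) k).comp (bproj k)).fderiv]
    rfl
  simp only [nabla, ContinuousLinearMap.fderiv, hA, add_apply, ContinuousLinearMap.comp_apply,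
    WithLp.ofLp_add, Pi.add_apply, hn, eH, CExpr.eval, lE, val]

omit hU hT in
lemma eval_left (w : ℝ) (i : ℕ) (j : Fin 2) (t : ℝ) (x : Sp (Blk 2 d)) :
    (mul2 (lE 1 0) (lP i j 0)).eval (val V T ν c w z) t x
      = (t ^ i * co c w j) • liftTen ![1, 0] (av V T ν z 2 t (pw d x)) := by
  show contractTen splitId (blockId d 1 0)
    (show Ten (Blk 2 d) (1 + 1) from (t ^ i * co c w j) • la V T ν z 2 t x) = _
  rw [show la V T ν z 2 t x = liftTen ![0, 0] (av V T ν z 2 t (pw d x)) from
    lift_congr (fun s => by fin_cases s <;> rfl) _, contract_smul_right, contract_blockId_left]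

omit hU hT in
lemma eval_right (w : ℝ) (i : ℕ) (j : Fin 2) (t : ℝ) (x : Sp (Blk 2 d)) :
    (mul2 (lP i j 0) (lE 0 1)).eval (val V T ν c w z) t x
      = (t ^ i * co c w j) • liftTen ![0, 1] (av V T ν z 2 t (pw d x)) := by
  show contractTen splitId ((t ^ i * co c w j) • la V T ν z 2 t x)
    (show Ten (Blk 2 d) (1 + 1) from blockId d 0 1) = _
  rw [show la V T ν z 2 t x = liftTen ![0, 0] (av V T ν z 2 t (pw d x)) from
    lift_congr (fun s => by fin_cases s <;> rfl) _, contract_smul_left]
  exact congrArg _ (contract_blockId_right _ _ _ _)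

omit hU hT in
lemma eval_eW (w t : ℝ) (x : Sp (Blk 2 d)) :
    eW.eval (val V T ν c w z) t x = rot V T ν c z t x := by
  show (mul2 (lE 1 0) (lP 0 0 0)).eval (val V T ν c w z) t x
    + (-1 : ℝ) • (mul2 (lP 0 0 0) (lE 0 1)).eval (val V T ν c w z) t x = _
  rw [eval_left, eval_right, rot]
  simp [co, sub_eq_add_neg]

lemma tenL_field {t : ℝ} (ht : t ∈ Ioo (-√ν) √ν) (x : Sp (Blk 2 d)) :
    tenL (Blk 2 d) (field V T ν c z t x)
      = (family hU hT ν c z).delta (rot V T ν c z) t x := by
  ext α
  rw [(family hU hT ν c z).delta_apply (rot_tame hU hT) ht, tenL_apply]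
  have e : ∀ j, (Fin.cons j α : Fin 2 → Blk 2 d) = pairIdx j (α 0) := fun j => by
    funext s; fin_cases s <;> rfl
  simp only [e]
  rfl

lemma gradB_eq (w : ℝ) {t : ℝ} (ht : t ∈ Ioo (-√ν) √ν) (x : Sp (Blk 2 d)) :
    (family hU hT ν c z).gradB t x = (family hU hT ν c z).delta (eB1.eval (val V T ν c w z)) t x
      + eB0.eval (val V T ν c w z) t x := by
  set F := family hU hT ν c z with hF
  have hR := base (ν := ν) (c := c) (z := z) hU hT w
  have hW : Tame F.dom (rot V T ν c z) := rot_tame hU hT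
  have e : rot V T ν c z = eW.eval (val V T ν c w z) :=
    funext fun s => funext fun y => (eval_eW w s y).symm
  rw [F.gradB_eq_nabla ht, show (fun y => tenL (Blk 2 d) (F.b t y)) = F.delta (rot V T ν c z) t
    from funext fun y => tenL_field hU hT ht y, F.nabla_delta hW ht,
    show derivTen (F.Ψ t) 2 x = eH.eval (val V T ν c w z) t x from hess_eq w t x,
    F.delta_congr (f := fun t x => permTen (swap01 1) (nabla (rot V T ν c z t) x))
      (g := eB1.eval (val V T ν c w z))
      (funext fun y => by rw [e, hR.nabla_eval eW ht]; rfl) x, e]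
  rw [show eB0.eval (val V T ν c w z) t x
    = act splitId (eH.eval (val V T ν c w z) t x) (eW.eval (val V T ν c w z) t x) from rfl]
  abel

/-- The divergence of a field supported on the Gaussian vector and constant along it. -/
lemma delta_xi {k : ℕ} {f : ℝ → Sp (Blk 2 d) → Ten (Blk 2 d) (k + 1)}
    (hf : Tame (Ioo (-√ν) √ν) f) {t : ℝ} (ht : t ∈ Ioo (-√ν) √ν)
    (hc : ∀ y y', pw d y = pw d y' → f t y = f t y')
    (hs : ∀ y β, (β 0).1 ≠ 1 → f t y β = 0) (x : Sp (Blk 2 d)) (α : Fin k → Blk 2 d) :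
    (family hU hT ν c z).delta f t x α
      = ∑ i : Fin d, pxi d x i * f t x (Fin.cons ((1 : Fin 2), i) α) := by
  rw [(family hU hT ν c z).delta_apply hf ht, Fintype.sum_prod_type,
    Finset.sum_eq_single (1 : Fin 2)]
  · refine Finset.sum_congr rfl fun i _ => ?_
    have hd : DifferentiableAt ℝ (fun y => f t y (Fin.cons ((1 : Fin 2), i) α)) x :=
      (hf.component isOpen_Ioo _).differentiableAt_space ht x
    have h0 : ∀ r : ℝ, f t (x + r • EuclideanSpace.single ((1 : Fin 2), i) (1 : ℝ)) = f t x :=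
      fun r => hc _ _ (by simp [map_add, bproj_single])
    have e : pd ((1 : Fin 2), i) (fun s y => f s y (Fin.cons ((1 : Fin 2), i) α)) t x = 0 := by
      rw [pd, ← hd.lineDeriv_eq_fderiv, lineDeriv]
      simp [h0]
    rw [e, sub_zero, show (family hU hT ν c z).Ψ = pot d from rfl, pd_pot]
    rfl
  · intro b _ hb
    refine Finset.sum_eq_zero fun i _ => ?_
    have h0 : ∀ y, f t y (Fin.cons (b, i) α) = 0 := fun y => hs y _ (by simpa using hb)
    simp [pd, h0]
  · simp

lemma delta_la (n : ℕ) {t : ℝ} (ht : t ∈ Ioo (-√ν) √ν) (x : Sp (Blk 2 d))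
    (α : Fin n → Blk 2 d) :
    (family hU hT ν c z).delta (la V T ν z (n + 1)) t x α
      = ∑ q, (x q * la V T ν z (n + 1) t x (Fin.cons q α)
          - t * la V T ν z (n + 2) t x (Fin.cons q (Fin.cons q α))) := by
  rw [(family hU hT ν c z).delta_apply (la_tame hU hT _) ht]
  refine Finset.sum_congr rfl fun q _ => ?_
  rw [show (family hU hT ν c z).Ψ = pot d from rfl, pd_pot]
  have h := nabla_apply (la_tame (z := z) hU hT (n + 1)) ht x (Fin.cons q (Fin.cons q α))
  rw [nabla_la hU hT, Fin.cons_zero, Fin.tail_cons, WithLp.ofLp_smul, Pi.smul_apply,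
    smul_eq_mul] at h
  rw [← h]

/-- The velocity of the displacement. -/
lemma field_zero {t : ℝ} (ht : t ∈ Ioo (-√ν) √ν) (x : Sp (Blk 2 d)) (p : Fin d) :
    field V T ν c z t x (0, p)
      = c * ∑ q, pxi d x q * av V T ν z 2 t (pw d x) (pairIdx q p) := by
  have h := congrArg (fun v : Ten (Blk 2 d) 1 => v fun _ => ((0 : Fin 2), p))
    (tenL_field (c := c) (z := z) hU hT ht x)
  simp only [tenL_apply] at h
  rw [h, (family hU hT ν c z).delta_congr (f := rot V T ν c z)
    (g := fun s y => c • liftTen ![1, 0] (av V T ν z 2 s (pw d y))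
      + (-c) • liftTen ![0, 1] (av V T ν z 2 s (pw d y)))
    (funext fun y => by simp [rot, sub_eq_add_neg]) x,
    Family.delta_add (F := family hU hT ν c z) ((tame_lift hU hT _).const_smul isOpen_Ioo c)
      ((tame_lift hU hT _).const_smul isOpen_Ioo (-c)) ht,
    Family.delta_smul (F := family hU hT ν c z) (tame_lift hU hT ![1, 0]) c ht,
    Family.delta_smul (F := family hU hT ν c z) (tame_lift hU hT ![0, 1]) (-c) ht,
    delta_lift (F := family hU hT ν c z) 1 0 0 (g := av V T ν z 2) (tame_lift hU hT ![1, 0]) ht x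
      (hasFDerivAt_av hU hT 2 t _).differentiableAt,
    delta_lift (F := family hU hT ν c z) 0 1 0 (g := av V T ν z 2) (tame_lift hU hT ![0, 1]) ht x
      (hasFDerivAt_av hU hT 2 t _).differentiableAt]
  simp [bvec_apply, show (family hU hT ν c z).Ψ = pot d from rfl, pd_pot]

/-- The velocity of the Gaussian vector. -/
lemma field_one {t : ℝ} (ht : t ∈ Ioo (-√ν) √ν) (x : Sp (Blk 2 d)) (p : Fin d) :
    field V T ν c z t x (1, p)
      = -c * ∑ i, (pw d x i * av V T ν z 2 t (pw d x) (pairIdx i p)
          - t * av V T ν z 3 t (pw d x) (Fin.cons i (pairIdx i p))) := by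
  have h := congrArg (fun v : Ten (Blk 2 d) 1 => v fun _ => ((1 : Fin 2), p))
    (tenL_field (c := c) (z := z) hU hT ht x)
  simp only [tenL_apply] at h
  rw [h, (family hU hT ν c z).delta_congr (f := rot V T ν c z)
    (g := fun s y => c • liftTen ![1, 0] (av V T ν z 2 s (pw d y))
      + (-c) • liftTen ![0, 1] (av V T ν z 2 s (pw d y)))
    (funext fun y => by simp [rot, sub_eq_add_neg]) x,
    Family.delta_add (F := family hU hT ν c z) ((tame_lift hU hT _).const_smul isOpen_Ioo c)
      ((tame_lift hU hT _).const_smul isOpen_Ioo (-c)) ht,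
    Family.delta_smul (F := family hU hT ν c z) (tame_lift hU hT ![1, 0]) c ht,
    Family.delta_smul (F := family hU hT ν c z) (tame_lift hU hT ![0, 1]) (-c) ht,
    delta_lift (F := family hU hT ν c z) 1 0 0 (g := av V T ν z 2) (tame_lift hU hT ![1, 0]) ht x
      (hasFDerivAt_av hU hT 2 t _).differentiableAt,
    delta_lift (F := family hU hT ν c z) 0 1 0 (g := av V T ν z 2) (tame_lift hU hT ![0, 1]) ht x
      (hasFDerivAt_av hU hT 2 t _).differentiableAt]
  simp [bvec_apply, show (family hU hT ν c z).Ψ = pot d from rfl, pd_pot, nabla_av hU hT,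
    Finset.sum_sub_distrib]

lemma D_la (n : ℕ) {t : ℝ} (ht : t ∈ Ioo (-√ν) √ν) (x : Sp (Blk 2 d))
    (α : Fin n → Blk 2 d) :
    (family hU hT ν c z).D (la V T ν z n) t x α
      = (family hU hT ν c z).delta (la V T ν z (n + 1)) t x α
        + t * ∑ p, field V T ν c z t x (0, p)
            * la V T ν z (n + 1) t x (Fin.cons ((0 : Fin 2), p) α) := by
  set b := field V T ν c z t x
  have hG := av_temperate (d := d) hU hT n
  have hpos : 0 < ν - t ^ 2 := sub_pos.2 (Real.sq_lt.2 ht)
  have hm : HasFDerivAt (fun q : ℝ × Sp (Blk 2 d) => (q.1, z + q.1 • pw d q.2))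
      ((ContinuousLinearMap.fst ℝ ℝ (Sp (Blk 2 d))).prod
        (t • (pw d).comp (ContinuousLinearMap.snd ℝ ℝ (Sp (Blk 2 d)))
          + (ContinuousLinearMap.fst ℝ ℝ (Sp (Blk 2 d))).smulRight (pw d x))) (t, x) :=
    hasFDerivAt_fst.prodMk (((hasFDerivAt_fst (p := (t, x))).fun_smul
      ((pw d).hasFDerivAt.comp (t, x) hasFDerivAt_snd)).const_add z)
  have h : HasFDerivAt (fun q : ℝ × Sp (Blk 2 d) => la V T ν z n q.1 q.2) _ (t, x) :=
    (liftL (B := 2) (fun _ : Fin n => 0)).hasFDerivAt.comp (t, x)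
      ((hasFDerivAt_radAvg (p := (t, z + t • pw d x)) hG hpos).comp (t, x) hm)
  rw [Family.D, h.fderiv, delta_la hU hT n ht]
  simp only [ContinuousLinearMap.comp_apply, ContinuousLinearMap.prod_apply, add_apply, smul_apply,
    ContinuousLinearMap.smulRight_apply, ContinuousLinearMap.coe_fst',
    ContinuousLinearMap.coe_snd', one_smul, radDeriv_apply, liftL_apply]
  by_cases hα : ∀ s, (α s).1 = 0
  · simp only [liftTen_apply, if_pos hα, WithLp.ofLp_add, Pi.add_apply, WithLp.ofLp_smul,
      Pi.smul_apply, smul_eq_mul, radAvg]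
    rw [avg_lap_coord hG, avg_fderiv_coord hG]
    have e2 : ∀ q : Fin d, la V T ν z (n + 2) t x
        (Fin.cons ((0 : Fin 2), q) (Fin.cons ((0 : Fin 2), q) α))
          = av V T ν z (n + 2) t (pw d x) (Fin.cons q (Fin.cons q fun s => (α s).2)) := fun q => by
      rw [la_cons]
      simp only [Fin.forall_fin_succ, Fin.cons_zero, Fin.cons_succ, hα, implies_true, and_true,
        if_true]
      refine congrArg _ (funext fun s => ?_)
      refine Fin.cases ?_ ?_ s
      · simp
      · intro s; refine Fin.cases ?_ ?_ s <;> simp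
    have e3 : ∀ q : Fin d, la V T ν z (n + 2) t x
        (Fin.cons ((1 : Fin 2), q) (Fin.cons ((1 : Fin 2), q) α)) = 0 := fun q => by
      simp [la_cons]
    simp only [Fintype.sum_prod_type, Fin.sum_univ_two, e2, e3]
    simp only [la_cons, hα, implies_true, and_true, if_true, one_ne_zero, if_false,
      mul_zero, sub_zero, Finset.sum_const_zero, add_zero, bproj_apply, av, radAvg, derivTen,
      add_mul, Finset.sum_add_distrib, Finset.sum_sub_distrib, Finset.mul_sum, neg_mul,
      Finset.sum_neg_distrib, WithLp.ofLp_add, Pi.add_apply, WithLp.ofLp_smul, Pi.smul_apply,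
      smul_eq_mul, mul_assoc]
    rw [show (family hU hT ν c z).b t x = b from rfl]
    ring
  · have h1 : ∀ p, la V T ν z (n + 1) t x (Fin.cons p α) = 0 := fun p => by simp [la_cons, hα]
    have h2 : ∀ p q, la V T ν z (n + 2) t x (Fin.cons p (Fin.cons q α)) = 0 := fun p q => by
      rw [la_cons, if_neg]
      exact fun h => hα fun s => by simpa using h.2 s.succ
    simp [liftTen_apply, hα, h1, h2]

lemma D_rule_P (w : ℝ) (i : ℕ) (j : Fin 2) (n : ℕ) {t : ℝ} (ht : t ∈ Ioo (-√ν) √ν)
    (x : Sp (Blk 2 d)) :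
    (family hU hT ν c z).D ((lP i j n).eval (val V T ν c w z)) t x
      = (family hU hT ν c z).delta ((cdb _ (.P i j n)).1.eval (val V T ν c w z)) t x
        + (cdb _ (.P i j n)).2.eval (val V T ν c w z) t x := by
  set F := family hU hT ν c z with hF
  have hR := base (ν := ν) (c := c) (z := z) hU hT w
  set L := val V T ν c w z with hL
  set k := t ^ i * co c w j with hk
  have hla := la_tame (ν := ν) (z := z) hU hT (n + 2)
  -- the left side
  have hD : F.D ((lP i j n).eval L) t x = k • F.D (la V T ν z (n + 2)) t x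
      + ((i : ℝ) * t ^ (i - 1) * co c w j) • la V T ν z (n + 2) t x := by
    have h1 : HasFDerivAt (fun q : ℝ × Sp (Blk 2 d) => q.1 ^ i * co c w j) _ (t, x) :=
      ((hasFDerivAt_fst (𝕜 := ℝ) (E := ℝ) (F := Sp (Blk 2 d)) (p := (t, x))).pow i).mul_const
        (co c w j)
    have h2 : HasFDerivAt
        (fun q : ℝ × Sp (Blk 2 d) => (q.1 ^ i * co c w j) • la V T ν z (n + 2) q.1 q.2) _ (t, x) :=
      h1.fun_smul (hla.differentiableAt isOpen_Ioo ht x).hasFDerivAt
    show fderiv ℝ (fun q : ℝ × Sp (Blk 2 d) => (q.1 ^ i * co c w j) • la V T ν z (n + 2) q.1 q.2)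
      (t, x) (1, F.b t x) = _
    rw [h2.fderiv]
    simp only [add_apply, smul_apply, ContinuousLinearMap.smulRight_apply,
      ContinuousLinearMap.coe_fst', smul_eq_mul, nsmul_eq_mul, mul_one, hk]
    rw [mul_comm (co c w j) ((i : ℝ) * t ^ (i - 1))]
    rfl
  set K := mul2 (lE 1 0) (lP 1 0 0) with hK
  set X : CExpr CB (n + 2 + 1) :=
    actE splitId (Nat.succ_pos (n + 1)) K (lP i j (n + 1) : CExpr CB (n + 2 + 1)) with hX
  have hP1 : Tame F.dom ((lP i j (n + 1) : CExpr CB (n + 2 + 1)).eval L) := hR.tame_eval _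
  have hX' : ∀ y β, X.eval L t y β
      = ∑ q, ((t * c) * liftTen ![1, 0] (av V T ν z 2 t (pw d y)) (pairIdx (β 0) q))
          * (k * la V T ν z (n + 2 + 1) t y (Fin.cons q (Fin.tail β))) := fun y β => by
    rw [hX, eval_actE, act_apply, hK, eval_left]
    refine Finset.sum_congr rfl fun q _ => ?_
    rw [joinIdx_splitId]
    simp [co, hL, lP, CExpr.eval, val, hk]
  have hdX : ∀ α, F.delta (X.eval L) t x α
      = k * (t * ∑ p, field V T ν c z t x (0, p)
          * la V T ν z (n + 2 + 1) t x (Fin.cons ((0 : Fin 2), p) α)) := by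
    intro α
    rw [delta_xi hU hT (hR.tame_eval X) ht (fun y y' h => ?_) (fun y β hβ => ?_) x α]
    · simp only [hX', Fintype.sum_prod_type, Fin.sum_univ_two, field_zero hU hT ht, Finset.mul_sum,
        Finset.sum_mul, Fin.cons_zero, Fin.tail_cons, liftTen_apply, Fin.forall_fin_two, pairIdx,
        Matrix.cons_val_zero, Matrix.cons_val_one, and_true, one_ne_zero, and_false, if_false,
        if_true, mul_zero, zero_mul, Finset.sum_const_zero, add_zero]
      rw [Finset.sum_comm]
      refine Finset.sum_congr rfl fun p _ => Finset.sum_congr rfl fun q _ => ?_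
      rw [show (fun s => ((![((1 : Fin 2), q), ((0 : Fin 2), p)] : Fin 2 → Blk 2 d) s).2)
        = (![q, p] : Fin 2 → Fin d) from funext fun s => by fin_cases s <;> rfl]
      ring
    · ext β
      simp only [hX', h, la]
    · rw [hX']
      refine Finset.sum_eq_zero fun q _ => ?_
      simp [liftTen_apply, Fin.forall_fin_two, pairIdx, hβ]
  rw [hD]
  ext α
  show _ = (F.delta (fun s y => (lP i j (n + 1) : CExpr CB (n + 2 + 1)).eval L s y + X.eval L s y)
    t x + ((i : ℝ) • (lP (i - 1) j n).eval L t x)) α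
  rw [F.delta_congr (f := fun s y => (lP i j (n + 1) : CExpr CB (n + 2 + 1)).eval L s y
      + X.eval L s y) (g := fun s y => k • la V T ν z (n + 2 + 1) s y + X.eval L s y) rfl x,
    Family.delta_add (F := F) ((la_tame hU hT _).const_smul isOpen_Ioo k) (hR.tame_eval X) ht,
    Family.delta_smul (F := F) (la_tame hU hT _) k ht]
  simp only [WithLp.ofLp_add, Pi.add_apply, WithLp.ofLp_smul, Pi.smul_apply, smul_eq_mul]
  rw [hdX, hF, D_la hU hT (n + 2) ht]
  simp only [hL, lP, CExpr.eval, val, WithLp.ofLp_smul, Pi.smul_apply, smul_eq_mul, hk]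
  ring

lemma D_xi (w : ℝ) {t : ℝ} (ht : t ∈ Ioo (-√ν) √ν) (x : Sp (Blk 2 d)) :
    (family hU hT ν c z).D (fun _ y => bvec 1 (pxi d y)) t x
      = (family hU hT ν c z).delta (eXxi.eval (val V T ν c w z)) t x := by
  set F := family hU hT ν c z with hF
  rw [F.delta_congr (f := eXxi.eval (val V T ν c w z))
    (g := fun s y => (-c) • liftTen ![0, 1] (av V T ν z 2 s (pw d y)))
    (funext fun y => by
      show (-1 : ℝ) • (mul2 (lP 0 0 0) (lE 0 1)).eval (val V T ν c w z) t y = _
      rw [eval_right, smul_smul]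
      simp [co]) x,
    Family.delta_smul (F := F) (tame_lift hU hT _) _ ht,
    delta_lift (F := F) 0 1 0 (g := av V T ν z 2) (tame_lift hU hT ![0, 1]) ht x
      (hasFDerivAt_av hU hT 2 t _).differentiableAt]
  show fderiv ℝ (⇑(((bvec 1).comp (pxi d)).comp (ContinuousLinearMap.snd ℝ ℝ (Sp (Blk 2 d)))))
    (t, x) (1, F.b t x) = _
  rw [ContinuousLinearMap.fderiv]
  simp only [ContinuousLinearMap.comp_apply, ContinuousLinearMap.coe_snd']
  rw [← map_smul]
  congr 1
  ext p
  rw [show pxi d (F.b t x) p = field V T ν c z t x (1, p) from rfl, field_one hU hT ht]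
  simp [show F.Ψ = pot d from rfl, pd_pot, nabla_av hU hT, Finset.sum_sub_distrib]

/-- The rules of the cleaning calculus, given bounds at the times `J`. -/
lemma rules (w : ℝ) {J : Set ℝ} {cst : ℕ → ℝ} (hc : ∀ n, 0 ≤ cst n)
    (hb : ∀ i j n, ∀ t ∈ J, ∀ x, AllSplit (cst n) ((lP i j n).eval (val V T ν c w z) t x)) :
    CRules (family hU hT ν c z) J (val V T ν c w z) (ccb cst) cnb (fun n i => (cdb n i).1)
      (fun n i => (cdb n i).2) where
  tame := (base hU hT w).tame
  nonneg n i := by cases i <;> simp [ccb, hc]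
  split n i t ht x := by
    cases i with
    | E a b => exact allSplit_blockId a b
    | P i j n => exact hb i j n t ht x
  nabla_eq := (base hU hT w).nabla_eq
  flow_eq n i t ht x := by
    cases i with
    | E a b =>
      show (family hU hT ν c z).D (fun _ _ => blockId d a b) t x = _
      rw [Family.D_const]
      simp [cdb, CExpr.eval, Family.delta_const_zero]
    | P i j n => exact D_rule_P hU hT w i j n ht x

end Identities

end PathC

end Vale.Agent.P347
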