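import Vale.Agent.P347.Calc
import Vale.Agent.P347.Interfaces
import Vale.Agent.P347.GadgetFlow

/-!
Curves along the flow of a family: derivatives of every order, their bounds, and the change of
scale between two families.
-/

namespace Vale.Agent.P347

open MeasureTheory Set
open scoped RealInnerProductSpace ContDiff ENNReal

/-- The fundamental theorem of calculus inside a closed interval. -/
lemma hasDerivWithinAt_integral_Icc {E : Type*} [NormedAddCommGroup E] [NormedSpace ℝ E]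
    [CompleteSpace E] {a b : ℝ} (hab : a ≤ b) {f : ℝ → E} (hf : ContinuousOn f (Icc a b))
    {t₀ s : ℝ} (ht₀ : t₀ ∈ Icc a b) (hs : s ∈ Icc a b) :
    HasDerivWithinAt (fun s => ∫ u in t₀..s, f u) (f s) (Icc a b) s := by
  set g := IccExtend hab (restrict (Icc a b) f)
  have hg : Continuous g := (hf.restrict).Icc_extend'
  have he : ∀ u ∈ Icc a b, g u = f u := fun u hu => by simp [g, IccExtend_of_mem hab _ hu, restrict]
  rw [← he s hs]
  refine (intervalIntegral.integral_hasDerivAt_right (hg.intervalIntegrable t₀ s)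
    (hg.stronglyMeasurableAtFilter _ _) hg.continuousAt).hasDerivWithinAt.congr
    (fun x hx => ?_) ?_
  · exact intervalIntegral.integral_congr fun u hu => (he u (uIcc_subset_Icc ht₀ hx hu)).symm
  · exact intervalIntegral.integral_congr fun u hu => (he u (uIcc_subset_Icc ht₀ hs hu)).symm

section Tilted

variable {E F : Type*} [NormedAddCommGroup E] [NormedSpace ℝ E] [FiniteDimensional ℝ E]
  [MeasureSpace E] [BorelSpace E] [NormedAddCommGroup F] [NormedSpace ℝ F] [MeasureSpace F]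
  [BorelSpace F] [(volume : Measure E).IsAddHaarMeasure] [(volume : Measure F).IsAddHaarMeasure]

/-- Tilted Lebesgue measures under linear changes of the variables. -/
theorem map_tilted_linearEquiv (A : E ≃L[ℝ] F) {f : F → ℝ} (hf : Measurable f) :
    ((volume : Measure E).tilted (f ∘ A)).map A = (volume : Measure F).tilted f := by
  have : FiniteDimensional ℝ F := A.toLinearEquiv.finiteDimensional
  have h1 : MeasurePreserving A volume ((volume : Measure E).map A) :=
    ⟨A.continuous.measurable, rfl⟩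
  rw [Gadget.map_tilted h1 hf]
  have h2 : ((volume : Measure E).map A).IsAddHaarMeasure :=
    A.isAddHaarMeasure_map _
  have h3 := Measure.isAddLeftInvariant_eq_smul ((volume : Measure E).map A) (volume : Measure F)
  rw [h3]
  set c := ((volume : Measure E).map A).addHaarScalarFactor (volume : Measure F)
  have hc : c ≠ 0 := (Measure.addHaarScalarFactor_pos_of_isAddHaarMeasure _ _).ne'
  ext s hs
  rw [tilted_apply' _ _ hs, tilted_apply' _ _ hs, Measure.restrict_smul,
    lintegral_smul_measure, integral_smul_nnreal_measure]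
  simp only [NNReal.smul_def, smul_eq_mul, ENNReal.smul_def]
  rw [← lintegral_const_mul' _ _ ENNReal.coe_ne_top]
  refine lintegral_congr fun x => ?_
  rw [← ENNReal.ofReal_coe_nnreal, ← ENNReal.ofReal_mul c.coe_nonneg]
  congr 1
  have hc' : (c : ℝ) ≠ 0 := by exact_mod_cast hc
  field_simp

end Tilted

variable {ι : Type} [Fintype ι] [DecidableEq ι] {k : ℕ}

namespace Family

variable {F : Family ι}

/-- Derivatives of a field along a solution. -/
theorem hasDerivWithinAt_path {f : ℝ → Sp ι → Ten ι k} (hf : Tame F.dom f) {S : Set ℝ}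
    {z : ℝ → Sp ι} {t : ℝ} (ht : t ∈ F.dom)
    (hz : HasDerivWithinAt z (F.b t (z t)) S t) :
    HasDerivWithinAt (fun s => f s (z s)) (F.D f t (z t)) S t :=
  (hf.differentiableAt F.isOpen_dom ht (z t)).hasFDerivAt.comp_hasDerivWithinAt
    (f := fun s => (s, z s)) t ((hasDerivWithinAt_id t S).prodMk hz)

/-- A family and its rescaling carry the same derivatives along the flow. -/
theorem iterD_scale {F' : Family ι} {σ c : ℝ} (L : Sp ι →L[ℝ] Sp ι)
    (hdom : ∀ s ∈ F'.dom, σ * s ∈ F.dom)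
    (hb : ∀ s ∈ F'.dom, ∀ z, L (F'.b s z) = σ • F.b (σ * s) (L z))
    {f f' : ℝ → Sp ι → Ten ι k} (hf : Tame F.dom f)
    (he : ∀ s ∈ F'.dom, ∀ z, f' s z = c • f (σ * s) (L z)) :
    ∀ (j : ℕ), ∀ s ∈ F'.dom, ∀ z,
      (F'.D^[j]) f' s z = (c * σ ^ j) • (F.D^[j]) f (σ * s) (L z) := by
  intro j
  induction j with
  | zero => simpa using he
  | succ j ih =>
    intro s hs z
    rw [Function.iterate_succ_apply', Function.iterate_succ_apply',
      F'.D_congr (f := fun s z => (c * σ ^ j) • (F.D^[j]) f (σ * s) (L z)) ih hs z]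
    have h2 : HasFDerivAt (fun q : ℝ × Sp ι => (σ * q.1, L q.2))
        ((σ • ContinuousLinearMap.id ℝ ℝ).prodMap L) (s, z) := by
      convert ((σ • ContinuousLinearMap.id ℝ ℝ).prodMap L).hasFDerivAt using 1
      funext q
      simp [Prod.map]
    have h1 := ((F.tame_iterD hf j).differentiableAt F.isOpen_dom (hdom s hs) (L z)).hasFDerivAt
    have h3 : HasFDerivAt (fun q : ℝ × Sp ι => (c * σ ^ j) • (F.D^[j]) f (σ * q.1) (L q.2))
        ((c * σ ^ j) • (fderiv ℝ (fun q : ℝ × Sp ι => (F.D^[j]) f q.1 q.2) (σ * s, L z)).comp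
          ((σ • ContinuousLinearMap.id ℝ ℝ).prodMap L)) (s, z) :=
      (h1.comp (f := fun q : ℝ × Sp ι => (σ * q.1, L q.2)) (s, z) h2).fun_const_smul (c * σ ^ j)
    show fderiv ℝ (fun q : ℝ × Sp ι => (c * σ ^ j) • (F.D^[j]) f (σ * q.1) (L q.2)) (s, z)
      (1, F'.b s z) = _
    rw [h3.fderiv]
    simp only [smul_apply, ContinuousLinearMap.comp_apply,
      ContinuousLinearMap.coe_prodMap', Prod.map_apply, ContinuousLinearMap.id_apply]
    rw [hb s hs z, show ((σ • (1 : ℝ), σ • F.b (σ * s) (L z)) : ℝ × Sp ι)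
      = σ • ((1 : ℝ), F.b (σ * s) (L z)) from rfl, map_smul, smul_smul, pow_succ, ← mul_assoc]
    rfl

omit [DecidableEq ι] in
lemma integral_norm_le_of_sq {μ : Measure (Sp ι)} [IsProbabilityMeasure μ] {g : Sp ι → Ten ι k}
    (h1 : Integrable (fun x => ‖g x‖) μ) (h2 : Integrable (fun x => ‖g x‖ ^ 2) μ) {M : ℝ}
    (hM : 0 ≤ M) (h : ∫ x, ‖g x‖ ^ 2 ∂μ ≤ M ^ 2) : ∫ x, ‖g x‖ ∂μ ≤ M := by
  set m := ∫ x, ‖g x‖ ∂μ with hm
  have h0 : 0 ≤ ∫ x, (‖g x‖ - m) ^ 2 ∂μ := integral_nonneg fun x => sq_nonneg _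
  have e : (fun x => (‖g x‖ - m) ^ 2) = fun x => ‖g x‖ ^ 2 - 2 * m * ‖g x‖ + m ^ 2 := by
    funext x; ring
  rw [e, integral_add (h2.sub' (h1.const_mul _)) (integrable_const _),
    integral_sub h2 (h1.const_mul _), integral_const_mul, ← hm] at h0
  simp at h0
  nlinarith

theorem Reg.integral_norm_le {J : Set ℝ} {j n : ℕ} {M : ℝ} {f : ℝ → Sp ι → Ten ι k}
    (h : F.Reg J j n M f) (hM : 0 ≤ M) {t : ℝ} (ht : t ∈ J) (htd : t ∈ F.dom) {a : ℕ}
    (ha : a ≤ j) : ∫ x, ‖(F.D^[a]) f t x‖ ∂(F.μ t) ≤ M := by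
  have := F.prob t htd
  have hT := F.tame_iterD h.1 a
  have hc : Continuous fun x => (F.D^[a]) f t x := (hT.contDiff_space htd).continuous
  exact integral_norm_le_of_sq (hT.integrable htd _ (F.integrable_poly t htd)).norm
    (hT.integrable_norm_sq F.isOpen_dom htd _ (F.integrable_poly t htd)) hM
    (by simpa [nablaIter] using h.2 a ha 0 (Nat.zero_le _) t ht)

/-- The bound on the derivatives at the original scale. -/
theorem scaled_bound {F' : Family ι} {σ c : ℝ} (hσ : 0 < σ) (hc : c ≠ 0) (L : Sp ι →L[ℝ] Sp ι)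
    (hdom : ∀ s ∈ F'.dom, σ * s ∈ F.dom)
    (hb : ∀ s ∈ F'.dom, ∀ z, L (F'.b s z) = σ • F.b (σ * s) (L z))
    {f f' : ℝ → Sp ι → Ten ι k} (hf : Tame F.dom f)
    (he : ∀ s ∈ F'.dom, ∀ z, f' s z = c • f (σ * s) (L z))
    {s : ℝ} (hs : s ∈ F'.dom) {u : ℝ} (hu : σ * s = u) (hμ : (F'.μ s).map L = F.μ u)
    {j : ℕ} {M : ℝ} (hM : 0 ≤ M) (hreg : F'.Reg {s} j 0 M f') :
    ∫ z, ‖(F.D^[j]) f u z‖ ∂(F.μ u) ≤ M / (|c| * σ ^ j) := by
  subst hu
  have h := hreg.integral_norm_le hM (mem_singleton s) hs le_rfl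
  simp only [iterD_scale L hdom hb hf he j s hs, norm_smul, Real.norm_eq_abs, abs_mul,
    abs_of_pos (pow_pos hσ j), integral_const_mul] at h
  have hcont : Continuous fun z => (F.D^[j]) f (σ * s) z :=
    ((F.tame_iterD hf j).contDiff_space (hdom s hs)).continuous
  rw [← hμ, integral_map L.continuous.measurable.aemeasurable hcont.norm.aestronglyMeasurable,
    le_div_iff₀' (by positivity)]
  exact h

end Family

/-- Curves of observables along the paths of a family have derivatives bounded in mean. -/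
theorem curveBound_of_family {Ω : Type*} [TopologicalSpace Ω] [MeasurableSpace Ω]
    [BorelSpace Ω] {μ₀ : Measure Ω} {a b : ℝ} {F : Family ι} (hsub : Icc a b ⊆ F.dom)
    {Z : ℝ → Ω → Sp ι} (hZc : ContinuousOn (fun p : ℝ × Ω => Z p.1 p.2) (Icc a b ×ˢ univ))
    (hZd : ∀ t ∈ Icc a b, ∀ o, HasDerivWithinAt (fun s => Z s o) (F.b t (Z t o)) (Icc a b) t)
    (hlaw : ∀ t ∈ Icc a b, μ₀.map (Z t) = F.μ t)
    {f : ℝ → Sp ι → Ten ι k} (hf : Tame F.dom f) {d : ℕ} (P : Ten ι k →L[ℝ] Euc d)
    (hP : ∀ T, ‖P T‖ ≤ ‖T‖) {G : ℝ → Ω → Euc d}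
    (hG : ∀ t ∈ Icc a b, ∀ o, P (f t (Z t o)) = G t o) {B : ℕ → ℝ → ℝ}
    (hB : ∀ j, ∀ t ∈ Icc a b, ∫ z, ‖(F.D^[j]) f t z‖ ∂(F.μ t) ≤ B j t) :
    CurveBound μ₀ a b G B := by
  refine ⟨fun j t o => P ((F.D^[j]) f t (Z t o)), fun t ht o => hG t ht o, fun j => ?_,
    fun j t ht o => ?_, fun j t ht => ?_⟩
  · exact P.continuous.comp_continuousOn ((F.tame_iterD hf j).1.continuousOn.comp
      (continuousOn_fst.prodMk hZc) fun p hp => ⟨hsub hp.1, mem_univ _⟩)
  · have h := P.hasFDerivAt.comp_hasDerivWithinAt t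
      (F.hasDerivWithinAt_path (F.tame_iterD hf j) (hsub ht) (hZd t ht o))
    simp only [Function.comp_def] at h
    simpa only [Function.iterate_succ_apply'] using h
  · have hm : Measurable (Z t) := (hZc.comp_continuous (continuous_const.prodMk continuous_id)
      fun o => ⟨ht, mem_univ _⟩).measurable
    have hT := F.tame_iterD hf j
    have := F.prob t (hsub ht)
    have hn : Continuous fun z => ‖(F.D^[j]) f t z‖ := (hT.contDiff_space (hsub ht)).continuous.norm
    have hPc : Continuous fun z => ‖P ((F.D^[j]) f t z)‖ :=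
      (P.continuous.comp (hT.contDiff_space (hsub ht)).continuous).norm
    have hi : Integrable (fun z => ‖P ((F.D^[j]) f t z)‖) (F.μ t) :=
      (P.integrable_comp (hT.integrable (hsub ht) _ (F.integrable_poly t (hsub ht)))).norm
    have hi' : Integrable (fun z => ‖P ((F.D^[j]) f t z)‖) (μ₀.map (Z t)) := by rw [hlaw t ht]; exact hi
    refine ⟨hi'.comp_measurable hm, ?_⟩
    calc ∫ o, ‖P ((F.D^[j]) f t (Z t o))‖ ∂μ₀ = ∫ z, ‖P ((F.D^[j]) f t z)‖ ∂(F.μ t) := by
          rw [← hlaw t ht, integral_map hm.aemeasurable hPc.aestronglyMeasurable]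
      _ ≤ ∫ z, ‖(F.D^[j]) f t z‖ ∂(F.μ t) := integral_mono hi
          (hT.integrable (hsub ht) _ (F.integrable_poly t (hsub ht))).norm fun z => hP _
      _ ≤ B j t := hB j t ht

/-! ### Change of scale of a potential -/

variable {d : ℕ} {V : Euc d → ℝ} {σ : ℝ}

/-- The potential read at the spatial scale `√σ`. -/
noncomputable def scaleV (V : Euc d → ℝ) (σ : ℝ) (x : Euc d) : ℝ := V (√σ • x)

lemma smoothPot_scaleV (V : Euc d → ℝ) (hσ : 0 ≤ σ) (s : ℝ) (y : Euc d) :
    smoothPot (scaleV V σ) s y = smoothPot V (σ * s) (√σ • y) := by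
  simp only [smoothPot, smoothDensity, heat, scaleV, smul_add, smul_smul, Real.sqrt_mul hσ]

lemma NicePot.scaleV {l L : ℝ} (hV : NicePot d V l L) (hσ : 0 < σ) :
    NicePot d (scaleV V σ) (σ * l) (σ * L) := by
  set A : Euc d →L[ℝ] Euc d := √σ • ContinuousLinearMap.id ℝ (Euc d)
  have e : Vale.Agent.P347.scaleV V σ = V ∘ A := by funext x; simp [Vale.Agent.P347.scaleV, A]
  have h2 : ∀ x v, fderiv ℝ (fderiv ℝ (V ∘ A)) x v v
      = σ * fderiv ℝ (fderiv ℝ V) (√σ • x) v v := by
    intro x v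
    have hd := hV.smooth.differentiable (by simp)
    have hd2 : Differentiable ℝ (fderiv ℝ V) :=
      (hV.smooth.fderiv_right (m := ∞) le_rfl).differentiable (by simp)
    have e1 : fderiv ℝ (V ∘ A) = fun y => √σ • fderiv ℝ V (√σ • y) := by
      funext y
      rw [((hd _).hasFDerivAt.comp y A.hasFDerivAt).fderiv]
      ext w
      simp [A]
    have h : HasFDerivAt (fun y => √σ • fderiv ℝ V (√σ • y))
        (√σ • (fderiv ℝ (fderiv ℝ V) (√σ • x)).comp A) x := by
      have h0 := ((hd2 (√σ • x)).hasFDerivAt.comp (f := fun y : Euc d => √σ • y) x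
        ((hasFDerivAt_id x).fun_const_smul √σ)).fun_const_smul √σ
      simpa [Function.comp_def, A] using h0
    rw [e1, h.fderiv]
    simp [A, ← mul_assoc, Real.mul_self_sqrt hσ.le]
  refine ⟨mul_pos hσ hV.pos, by rw [e]; exact hV.smooth.comp A.contDiff, fun x v => ?_,
    fun x v => ?_, fun n hn => ?_⟩
  · rw [e, h2, mul_assoc]
    exact mul_le_mul_of_nonneg_left (hV.hessian_lower _ v) hσ.le
  · rw [e, h2, mul_assoc]
    exact mul_le_mul_of_nonneg_left (hV.hessian_upper _ v) hσ.le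
  · obtain ⟨C, hC⟩ := hV.higher n hn
    refine ⟨C * ‖A‖ ^ n, fun x => ?_⟩
    rw [e, A.iteratedFDeriv_comp_right hV.smooth x (i := n) (mod_cast le_top)]
    refine (ContinuousMultilinearMap.norm_compContinuousLinearMap_le _ _).trans ?_
    rw [Finset.prod_const, Finset.card_univ, Fintype.card_fin]
    exact mul_le_mul_of_nonneg_right (hC _) (by positivity)

lemma score_scaleV (hV : Weight V) (hσ : 0 ≤ σ) {s : ℝ} (hs : 0 < σ * s) (y : Euc d) :
    score (scaleV V σ) s y = √σ • score V (σ * s) (√σ • y) := by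
  refine ext_inner_right ℝ fun v => ?_
  have h : HasFDerivAt (fun y : Euc d => smoothPot V (σ * s) (√σ • y)) _ y :=
    ((smoothPot_smooth hV hs).differentiable (by simp) _).hasFDerivAt.comp
      (f := fun y : Euc d => √σ • y) y ((hasFDerivAt_id y).fun_const_smul √σ)
  rw [score_inner, real_inner_smul_left, score_inner,
    show smoothPot (scaleV V σ) s = fun y => smoothPot V (σ * s) (√σ • y) from
      funext fun z => smoothPot_scaleV V hσ s z, h.fderiv]
  simp

lemma fderiv_score_scaleV (hV : Weight V) (hσ : 0 ≤ σ) {s : ℝ} (hs : 0 < σ * s) (y v : Euc d) :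
    fderiv ℝ (score (scaleV V σ) s) y v = σ • fderiv ℝ (score V (σ * s)) (√σ • y) v := by
  have h : HasFDerivAt (fun y : Euc d => √σ • score V (σ * s) (√σ • y)) _ y :=
    (((score_tame hV).differentiableAt_space (I := Ioi 0) hs _).hasFDerivAt.comp
      (f := fun y : Euc d => √σ • y) y ((hasFDerivAt_id y).fun_const_smul √σ)).fun_const_smul √σ
  rw [show score (scaleV V σ) s = fun y => √σ • score V (σ * s) (√σ • y) from
    funext fun z => score_scaleV hV hσ hs z, h.fderiv]
  simp [smul_smul, Real.mul_self_sqrt hσ]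

lemma scoreDot_scaleV (hV : Weight V) (hσ : 0 < σ) {s : ℝ} (hs : 0 < σ * s) (y : Euc d) :
    scoreDot (scaleV V σ) s y = (σ * √σ) • scoreDot V (σ * s) (√σ • y) := by
  have h1 : HasFDerivAt (fun q : ℝ × Euc d => (σ * q.1, √σ • q.2))
      ((σ • ContinuousLinearMap.id ℝ ℝ).prodMap (√σ • ContinuousLinearMap.id ℝ (Euc d))) (s, y) := by
    convert ((σ • ContinuousLinearMap.id ℝ ℝ).prodMap
      (√σ • ContinuousLinearMap.id ℝ (Euc d))).hasFDerivAt using 1
    funext q
    simp [Prod.map]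
  have h2 : HasFDerivAt (fun q : ℝ × Euc d => √σ • score V (σ * q.1) (√σ • q.2)) _ (s, y) :=
    (((score_tame hV).differentiableAt isOpen_Ioi (show σ * s ∈ Ioi (0 : ℝ) from hs)
      (√σ • y)).hasFDerivAt.comp (f := fun q : ℝ × Euc d => (σ * q.1, √σ • q.2)) (s, y) h1).const_smul √σ
  have hev : (fun q : ℝ × Euc d => score (scaleV V σ) q.1 q.2)
      =ᶠ[nhds (s, y)] fun q => √σ • score V (σ * q.1) (√σ • q.2) := by
    filter_upwards [(continuous_const.mul continuous_fst).continuousAt.preimage_mem_nhds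
      (Ioi_mem_nhds hs)] with q hq using score_scaleV hV hσ.le hq q.2
  rw [scoreDot, hev.fderiv_eq, h2.fderiv]
  simp only [scoreDot, smul_apply, ContinuousLinearMap.comp_apply, ContinuousLinearMap.coe_prodMap',
    Prod.map_apply, ContinuousLinearMap.id_apply, smul_zero, smul_eq_mul, mul_one]
  rw [show ((σ, (0 : Euc d)) : ℝ × Euc d) = σ • ((1 : ℝ), (0 : Euc d)) by simp, map_smul, smul_smul,
    mul_comm √σ]

end Vale.Agent.P347
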