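import Vale.Agent.P347.CalcReg
import Vale.Agent.P347.Flow

/-!
Families of Gibbs measures, and the vanishing of the double divergence of antisymmetric fields.
-/

namespace Vale.Agent.P347

open MeasureTheory
open scoped RealInnerProductSpace ContDiff

variable {ι : Type} [Fintype ι] [DecidableEq ι] {I : Set ℝ}

/-- Quadratic coercivity of a potential at each time. -/
def CoerciveOn (I : Set ℝ) (Ψ : ℝ → Sp ι → ℝ) : Prop :=
  ∀ t ∈ I, ∃ c C : ℝ, 0 < c ∧ ∀ x, c * ‖x‖ ^ 2 - C ≤ Ψ t x

variable {Ψ : ℝ → Sp ι → ℝ}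

omit [DecidableEq ι] in
lemma integrable_exp_neg_smul {F : Type*} [NormedAddCommGroup F] [NormedSpace ℝ F]
    (hΨ : Tame I Ψ) (hc : CoerciveOn I Ψ) {g : ℝ → Sp ι → F} (hg : Tame I g) {t : ℝ} (ht : t ∈ I) :
    Integrable fun x => Real.exp (-Ψ t x) • g t x := by
  obtain ⟨c, C, hc0, hlow⟩ := hc t ht
  obtain ⟨D, p, hD, hb⟩ := hg.bound_upTo 0 (J := {t}) isCompact_singleton (by simpa using ht)
  refine ((Flow.integrable_poly_gauss (ι := ι) hc0 p).const_mul (Real.exp C * D)).mono'
    (((Real.continuous_exp.comp (hΨ.contDiff_space ht).continuous.neg).smul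
      (hg.contDiff_space ht).continuous).aestronglyMeasurable) (ae_of_all _ fun x => ?_)
  have h := hb 0 le_rfl t rfl x
  rw [norm_iteratedFDeriv_zero] at h
  rw [norm_smul, Real.norm_eq_abs, abs_of_pos (Real.exp_pos _)]
  calc Real.exp (-Ψ t x) * ‖g t x‖ ≤ (Real.exp C * Real.exp (-c * ‖x‖ ^ 2)) * (D * (1 + ‖x‖) ^ p) := by
        refine mul_le_mul ?_ h (norm_nonneg _) (by positivity)
        rw [← Real.exp_add]
        exact Real.exp_le_exp.2 (by linarith [hlow x])
    _ = _ := by ring

omit [DecidableEq ι] in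
lemma integrable_exp_neg (hΨ : Tame I Ψ) (hc : CoerciveOn I Ψ) {t : ℝ} (ht : t ∈ I) :
    Integrable fun x => Real.exp (-Ψ t x) := by
  simpa using integrable_exp_neg_smul hΨ hc (Tame.const (ι := ι) (I := I) (1 : ℝ)) ht

/-- The family of Gibbs measures of a coercive tame potential. -/
noncomputable def gibbsFamily (hI : IsOpen I) (Ψ : ℝ → Sp ι → ℝ) (hΨ : Tame I Ψ)
    (hc : CoerciveOn I Ψ) (b : ℝ → Sp ι → Sp ι) (hb : Tame I b)
    (hcont : ∀ t ∈ I, ∀ x y : Sp ι,
      (fderiv ℝ (fun q : ℝ × Sp ι => Ψ q.1 q.2) (t, x) (1, b t x)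
        - ∑ i, fderiv ℝ (b t) x (EuclideanSpace.single i 1) i)
      = (fderiv ℝ (fun q : ℝ × Sp ι => Ψ q.1 q.2) (t, y) (1, b t y)
        - ∑ i, fderiv ℝ (b t) y (EuclideanSpace.single i 1) i)) : Family ι where
  dom := I
  isOpen_dom := hI
  μ t := volume.tilted fun x => -Ψ t x
  prob t ht := isProbabilityMeasure_tilted (integrable_exp_neg hΨ hc ht)
  Ψ := Ψ
  b := b
  tame_Ψ := hΨ
  tame_b := hb
  integrable_poly t ht p := by
    rw [integrable_tilted_iff (integrable_exp_neg hΨ hc ht)]
    obtain ⟨c, C, hc0, hlow⟩ := hc t ht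
    refine ((Flow.integrable_poly_gauss (ι := ι) hc0 p).const_mul (Real.exp C)).mono'
      (((Real.continuous_exp.comp (hΨ.contDiff_space ht).continuous.neg).smul
        (continuous_norm.pow p)).aestronglyMeasurable) (ae_of_all _ fun x => ?_)
    simp only [smul_eq_mul, Real.norm_eq_abs, abs_mul, abs_of_pos (Real.exp_pos _), abs_pow,
      abs_norm]
    calc Real.exp (-Ψ t x) * ‖x‖ ^ p
        ≤ (Real.exp C * Real.exp (-c * ‖x‖ ^ 2)) * (1 + ‖x‖) ^ p := by
          refine mul_le_mul ?_ (pow_le_pow_left₀ (norm_nonneg _) (by linarith) p) (by positivity)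
            (by positivity)
          rw [← Real.exp_add]
          exact Real.exp_le_exp.2 (by linarith [hlow x])
      _ = _ := by ring
  ibp t ht f hf i := by
    have hd : ∀ x, fderiv ℝ (fun y => Real.exp (-Ψ t y)) x (EuclideanSpace.single i 1)
        = -(Real.exp (-Ψ t x) * fderiv ℝ (Ψ t) x (EuclideanSpace.single i 1)) := fun x => by
      rw [show (fun y => Real.exp (-Ψ t y)) = fun y => Real.exp ((-Ψ t) y) from rfl,
        ((hΨ.differentiableAt_space ht x).hasFDerivAt.neg.exp).fderiv]
      simp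
    have key := integral_mul_fderiv_eq_neg_fderiv_mul_of_integrable (μ := (volume : Measure (Sp ι)))
      (f := fun x => Real.exp (-Ψ t x)) (g := f t) (v := EuclideanSpace.single i 1)
      ?_ ?_ ?_ (fun x _ => (hΨ.differentiableAt_space ht x).neg.exp)
      (fun x _ => hf.differentiableAt_space ht x)
    · simp only [integral_tilted, smul_eq_mul, div_mul_eq_mul_div, integral_div, hd] at key ⊢
      rw [key, ← integral_neg]
      congr 1
      refine integral_congr_ae (ae_of_all _ fun x => ?_)
      simp only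
      ring
    · refine ((integrable_exp_neg_smul hΨ hc
        ((hf.mul (hΨ.fderiv_space_apply hI (EuclideanSpace.single i 1)) hI).neg hI) ht)).congr
        (ae_of_all _ fun x => ?_)
      simp only [hd, smul_eq_mul]
      ring
    · exact integrable_exp_neg_smul hΨ hc (hf.fderiv_space_apply hI _) ht
    · exact integrable_exp_neg_smul hΨ hc hf ht
  continuity := hcont

/-- The divergence of the divergence of an antisymmetric field vanishes. -/
theorem antisym_div (hI : IsOpen I) (hΨ : Tame I Ψ) {W : ℝ → Sp ι → Ten ι 2} (hW : Tame I W)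
    (hanti : ∀ t x i j, W t x (pairIdx j i) = -W t x (pairIdx i j)) {t : ℝ} (ht : t ∈ I)
    (x : Sp ι) :
    ∑ i, (pd i Ψ t x * ∑ j, (pd j Ψ t x * W t x (pairIdx j i)
        - pd j (fun s y => W s y (pairIdx j i)) t x)
      - pd i (fun s y => ∑ j, (pd j Ψ s y * W s y (pairIdx j i)
        - pd j (fun r z => W r z (pairIdx j i)) s y)) t x) = 0 := by
  have hΨd : ∀ i, Tame I (pd i Ψ) := fun i => hΨ.pd hI i
  have hWc : ∀ α, Tame I fun s y => W s y α := fun α => hW.component hI α
  have key : ∀ i, pd i Ψ t x * (∑ j, (pd j Ψ t x * W t x (pairIdx j i)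
        - pd j (fun s y => W s y (pairIdx j i)) t x))
      - pd i (fun s y => ∑ j, (pd j Ψ s y * W s y (pairIdx j i)
        - pd j (fun r z => W r z (pairIdx j i)) s y)) t x
      = ∑ j, (pd i Ψ t x * (pd j Ψ t x * W t x (pairIdx j i))
          - pd i Ψ t x * pd j (fun s y => W s y (pairIdx j i)) t x
          - pd i (pd j Ψ) t x * W t x (pairIdx j i)
          - pd j Ψ t x * pd i (fun s y => W s y (pairIdx j i)) t x
          + pd i (pd j fun s y => W s y (pairIdx j i)) t x) := by
    intro i
    rw [pd_sum Finset.univ (fun j => ((hΨd j).mul (hWc _) hI).sub ((hWc _).pd hI j) hI) ht x,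
      Finset.mul_sum, ← Finset.sum_sub_distrib]
    refine Finset.sum_congr rfl fun j _ => ?_
    rw [pd_sub ((hΨd j).mul (hWc _) hI) ((hWc _).pd hI j) ht x, pd_mul (hΨd j) (hWc _) ht x]
    ring
  simp only [key]
  set S : ι → ι → ℝ := fun i j => pd i Ψ t x * (pd j Ψ t x * W t x (pairIdx j i))
          - pd i Ψ t x * pd j (fun s y => W s y (pairIdx j i)) t x
          - pd i (pd j Ψ) t x * W t x (pairIdx j i)
          - pd j Ψ t x * pd i (fun s y => W s y (pairIdx j i)) t x
          + pd i (pd j fun s y => W s y (pairIdx j i)) t x with hS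
  have hsym : ∀ i j, S i j = -S j i := by
    intro i j
    have e : (fun s y => W s y (pairIdx j i)) = fun s y => -W s y (pairIdx i j) := by
      funext s y; exact hanti s y i j
    have hp : ∀ k, pd k (fun s y => -W s y (pairIdx i j)) = fun s y => -pd k (fun r z => W r z (pairIdx i j)) s y := by
      intro k; funext s y
      simp only [pd]
      rw [fderiv_fun_neg]
      rfl
    simp only [hS]
    rw [hanti t x i j, e, hp, hp]
    have hpp : pd i (fun s y => -pd j (fun r z => W r z (pairIdx i j)) s y) t x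
        = -pd i (pd j fun r z => W r z (pairIdx i j)) t x := by
      simp only [pd]
      rw [fderiv_fun_neg]
      rfl
    rw [hpp, pd_comm (hWc _) ht x i j, pd_comm hΨ ht x i j]
    ring
  have h2 : ∑ i, ∑ j, S i j = -∑ i, ∑ j, S i j := by
    conv_rhs => rw [Finset.sum_comm]
    rw [← Finset.sum_neg_distrib]
    refine Finset.sum_congr rfl fun i _ => ?_
    rw [← Finset.sum_neg_distrib]
    exact Finset.sum_congr rfl fun j _ => hsym i j
  change ∑ i, ∑ j, S i j = 0
  linarith

end Vale.Agent.P347
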