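import Vale.Agent.P347.PathLift
import Vale.Agent.P347.PathGibbs

/-!
The gadget paths as a family on the states `(x, y, ξ)`.
-/

namespace Vale.Agent.P347

open MeasureTheory Set
open scoped RealInnerProductSpace ContDiff

variable {d : ℕ}

namespace PathG

/-- The endpoint of a state. -/
noncomputable abbrev px (d : ℕ) : Sp (Blk 3 d) →L[ℝ] Euc d := bproj 0

/-- The position of a state. -/
noncomputable abbrev py (d : ℕ) : Sp (Blk 3 d) →L[ℝ] Euc d := bproj 1

/-- The Gaussian vector of a state. -/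
noncomputable abbrev pxi (d : ℕ) : Sp (Blk 3 d) →L[ℝ] Euc d := bproj 2

/-- The potential of the gadget paths. -/
noncomputable def pot (V : Euc d → ℝ) (τ t : ℝ) (z : Sp (Blk 3 d)) : ℝ :=
  smoothPot V t (py d z) + (2 * (τ - t))⁻¹ * ‖px d z - py d z‖ ^ 2
    + d / 2 * Real.log (τ - t) + 2⁻¹ * ‖pxi d z‖ ^ 2

/-- The field of the gadget paths. -/
noncomputable def field (V : Euc d → ℝ) (τ κ t : ℝ) (z : Sp (Blk 3 d)) : Sp (Blk 3 d) :=
  bincl 1 (Gadget.velY V τ κ t (px d z) (py d z) (pxi d z))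
    + bincl 2 (Gadget.velXi V τ κ t (px d z) (py d z))

variable {V : Euc d → ℝ} {τ κ : ℝ}

lemma field_zero (t : ℝ) (z : Sp (Blk 3 d)) (i : Fin d) : field V τ κ t z (0, i) = 0 := by
  simp [field]

lemma field_one (t : ℝ) (z : Sp (Blk 3 d)) (i : Fin d) :
    field V τ κ t z (1, i) = Gadget.velY V τ κ t (px d z) (py d z) (pxi d z) i := by
  simp [field]

lemma field_two (t : ℝ) (z : Sp (Blk 3 d)) (i : Fin d) :
    field V τ κ t z (2, i) = Gadget.velXi V τ κ t (px d z) (py d z) i := by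
  simp [field]

lemma bproj_field (t : ℝ) (z : Sp (Blk 3 d)) :
    px d (field V τ κ t z) = 0
      ∧ py d (field V τ κ t z) = Gadget.velY V τ κ t (px d z) (py d z) (pxi d z)
      ∧ pxi d (field V τ κ t z) = Gadget.velXi V τ κ t (px d z) (py d z) := by
  refine ⟨?_, ?_, ?_⟩ <;> simp [field, map_add, bproj_bincl]

lemma tame_inv (c : ℝ) (hc : 0 < c) :
    Tame (ι := Blk 3 d) (Ioo 0 τ) fun t _ => (c * (τ - t))⁻¹ :=
  Tame.time isOpen_Ioo ((Gadget.contDiffOn_inv_sub c).mono fun _ ht =>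
    (mul_pos hc (sub_pos.2 ht.2)).ne')

lemma tame_py (hU : Weight V) {G : Type*} [NormedAddCommGroup G] [NormedSpace ℝ G]
    {f : ℝ → Euc d → G} (hf : Tame (Ioi 0) f) :
    Tame (Ioo 0 τ) fun t z => f t (py d z) :=
  have := hU
  (Gadget.tame_restrict hf Ioo_subset_Ioi_self).comp_clm isOpen_Ioo (py d)

lemma tame_hess_apply (hU : Weight V) {w : ℝ → Sp (Blk 3 d) → Euc d} (hw : Tame (Ioo 0 τ) w) :
    Tame (Ioo 0 τ) fun t z => fderiv ℝ (score V t) (py d z) (w t z) := by
  have h1 := tame_py (τ := τ) hU ((score_tame hU).fderiv_joint isOpen_Ioi)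
  have h2 : Tame (Ioo 0 τ) fun t (z : Sp (Blk 3 d)) => ((0 : ℝ), w t z) :=
    (Tame.const (0 : ℝ)).prodMk hw isOpen_Ioo
  exact (h1.bilin h2 isOpen_Ioo (ContinuousLinearMap.id ℝ _)).of_eq isOpen_Ioo fun t ht z =>
    (score_tame hU).fderiv_space isOpen_Ioi ht.1 (py d z) (w t z)

lemma field_tame (hU : Weight V) : Tame (Ioo 0 τ) (field V τ κ) := by
  have hI : IsOpen (Ioo (0 : ℝ) τ) := isOpen_Ioo
  have hg := tame_py (τ := τ) hU (score_tame hU)
  have hw : Tame (Ioo 0 τ) fun (_ : ℝ) (z : Sp (Blk 3 d)) => px d z - py d z :=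
    (Tame.linear (px d)).sub (Tame.linear (py d)) hI
  have h1 : Tame (Ioo 0 τ) fun t z => Gadget.velY V τ κ t (px d z) (py d z) (pxi d z) :=
    ((((tame_inv (d := d) 2 two_pos).bilin hw hI (ContinuousLinearMap.lsmul ℝ ℝ)).add
      (hg.const_smul hI (1 / 2 : ℝ)) hI).add
      ((tame_hess_apply hU (Tame.linear (pxi d))).const_smul hI κ) hI)
  have hr : Tame (Ioo 0 τ) fun t (z : Sp (Blk 3 d)) => (τ - t)⁻¹ • (px d z - py d z) :=
    ((tame_inv (d := d) 1 one_pos).bilin hw hI (ContinuousLinearMap.lsmul ℝ ℝ)).of_eq hI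
      fun t _ z => by simp
  have h2 : Tame (Ioo 0 τ) fun t z => Gadget.velXi V τ κ t (px d z) (py d z) :=
    ((tame_py hU (scoreDot_tame hU)).const_smul hI (2 * κ)).add
      ((tame_hess_apply hU (hr.add hg hI)).const_smul hI κ) hI
  exact (h1.clm hI (bincl 1)).add (h2.clm hI (bincl 2)) hI

lemma pot_tame (hU : Weight V) : Tame (Ioo 0 τ) (pot V τ) := by
  have hI : IsOpen (Ioo (0 : ℝ) τ) := isOpen_Ioo
  have hw : Tame (Ioo 0 τ) fun (_ : ℝ) (z : Sp (Blk 3 d)) => px d z - py d z :=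
    (Tame.linear (px d)).sub (Tame.linear (py d)) hI
  have hl : Tame (ι := Blk 3 d) (Ioo 0 τ) fun t _ => (d : ℝ) / 2 * Real.log (τ - t) :=
    Tame.time hI (contDiffOn_const.mul ((contDiff_const.sub contDiff_id).contDiffOn.log
      fun t ht => (sub_pos.2 ht.2).ne'))
  exact (((tame_py hU (smoothPot_tame hU)).add
    ((tame_inv (d := d) 2 two_pos).mul (hw.norm_sq hI) hI) hI).add hl hI).add
    ((Tame.const (2 : ℝ)⁻¹).mul ((Tame.linear (pxi d)).norm_sq hI) hI) hI

lemma pot_coercive (hU : Weight V) : CoerciveOn (Ioo 0 τ) (pot V τ) := by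
  intro t ht
  obtain ⟨c, C₀, hc, h⟩ := smoothPot_coercive hU (J := {t}) isCompact_singleton (by simpa using ht.1)
  set r := (2 * (τ - t))⁻¹ with hr
  have hr0 : 0 < r := by have := sub_pos.2 ht.2; positivity
  set m := min c (min r 2⁻¹) with hm
  have hm0 : 0 < m := lt_min hc (lt_min hr0 (by norm_num))
  refine ⟨m / 3, C₀ + |(d : ℝ) / 2 * Real.log (τ - t)|, by positivity, fun z => ?_⟩
  have h1 := h t rfl (py d z)
  have h2 : ‖px d z‖ ≤ ‖px d z - py d z‖ + ‖py d z‖ := by
    simpa using norm_add_le (px d z - py d z) (py d z)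
  have hz : ‖z‖ ^ 2 = ‖px d z‖ ^ 2 + ‖py d z‖ ^ 2 + ‖pxi d z‖ ^ 2 := by
    rw [norm_sq_blocks, Fin.sum_univ_three]
  rw [pot, hz, ← hr]
  have a1 := mul_le_mul_of_nonneg_right (min_le_left c (min r 2⁻¹)) (sq_nonneg ‖py d z‖)
  have a2 := mul_le_mul_of_nonneg_right ((min_le_right c (min r 2⁻¹)).trans (min_le_left r 2⁻¹))
    (sq_nonneg ‖px d z - py d z‖)
  have a3 := mul_le_mul_of_nonneg_right ((min_le_right c (min r 2⁻¹)).trans (min_le_right r 2⁻¹))
    (sq_nonneg ‖pxi d z‖)
  rw [← hm] at a1 a2 a3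
  have a4 : ‖px d z‖ ^ 2 ≤ 2 * ‖px d z - py d z‖ ^ 2 + 2 * ‖py d z‖ ^ 2 := by
    nlinarith [sq_nonneg (‖px d z - py d z‖ - ‖py d z‖), norm_nonneg (px d z)]
  have a5 := mul_le_mul_of_nonneg_left a4 (show 0 ≤ m / 3 by positivity)
  have a6 : 0 ≤ m / 3 * ‖px d z - py d z‖ ^ 2 := by positivity
  have a7 : 0 ≤ m / 3 * ‖pxi d z‖ ^ 2 := by positivity
  linarith [neg_abs_le ((d : ℝ) / 2 * Real.log (τ - t))]

/-- The states with endpoint `x`. -/
noncomputable def pairMap (d : ℕ) : Sp (Gadget.Pair d) →L[ℝ] Sp (Blk 3 d) :=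
  (bincl 1).comp (Gadget.posL d) + (bincl 2).comp (Gadget.velL d)

lemma bproj_pairMap (x : Euc d) (w : Sp (Gadget.Pair d)) :
    px d (bincl 0 x + pairMap d w) = x ∧ py d (bincl 0 x + pairMap d w) = Gadget.posL d w
      ∧ pxi d (bincl 0 x + pairMap d w) = Gadget.velL d w := by
  refine ⟨?_, ?_, ?_⟩ <;> simp [pairMap, map_add, bproj_bincl]

lemma pairMap_inl (j : Fin d) :
    pairMap d (EuclideanSpace.single (Sum.inl j) 1) = EuclideanSpace.single ((1 : Fin 3), j) 1 := by
  ext ⟨k, i⟩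
  simp [pairMap, (Gadget.pos_single_inl j).1, (Gadget.pos_single_inl j).2, unitVec,
    PiLp.single_apply, Prod.ext_iff]
  fin_cases k <;> simp

lemma pairMap_inr (j : Fin d) :
    pairMap d (EuclideanSpace.single (Sum.inr j) 1) = EuclideanSpace.single ((2 : Fin 3), j) 1 := by
  have hv : Gadget.velL d (EuclideanSpace.single (Sum.inr j) 1) = unitVec j := by
    ext i; simp [Gadget.velL_apply, unitVec, PiLp.single_apply]
  ext ⟨k, i⟩
  simp [pairMap, Gadget.pos_single_inr j, hv, unitVec, PiLp.single_apply, Prod.ext_iff]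
  fin_cases k <;> simp

lemma continuity (hU : Weight V) {t : ℝ} (ht : t ∈ Ioo 0 τ) (z : Sp (Blk 3 d)) :
    fderiv ℝ (fun q : ℝ × Sp (Blk 3 d) => pot V τ q.1 q.2) (t, z) (1, field V τ κ t z)
      = ∑ i, fderiv ℝ (fun y => field V τ κ t y i) z (EuclideanSpace.single i 1) := by
  have hI : IsOpen (Ioo (0 : ℝ) τ) := isOpen_Ioo
  set x := px d z
  set w : Sp (Gadget.Pair d) := (Gadget.split d).symm (py d z, pxi d z) with hw
  have hw1 : Gadget.posL d w = py d z := by simp [hw, Gadget.posL]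
  have hw2 : Gadget.velL d w = pxi d z := by simp [hw, Gadget.velL]
  have hz : bincl 0 x + pairMap d w = z := by
    ext ⟨k, i⟩
    simp [pairMap, hw1, hw2]
    fin_cases k <;> simp [x]
  have hι : ∀ v, HasFDerivAt (fun v => bincl 0 x + pairMap d v) (pairMap d) v := fun v =>
    (pairMap d).hasFDerivAt.const_add _
  have key := Gadget.pairField_continuity (κ := κ) hU x ht w
  have epot : (fun q : ℝ × Sp (Gadget.Pair d) => Gadget.pairPot V τ x q.1 q.2)
      = fun q => pot V τ q.1 (bincl 0 x + pairMap d q.2) := by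
    funext q
    obtain ⟨e1, e2, e3⟩ := bproj_pairMap x q.2
    rw [pot, Gadget.pairPot, e1, e2, e3]
  have hj : HasFDerivAt (fun q : ℝ × Sp (Gadget.Pair d) => pot V τ q.1 (bincl 0 x + pairMap d q.2))
      ((fderiv ℝ (fun q : ℝ × Sp (Blk 3 d) => pot V τ q.1 q.2) (t, z)).comp
        ((ContinuousLinearMap.id ℝ ℝ).prodMap (pairMap d))) (t, w) := by
    have h0 := ((pot_tame hU).differentiableAt hI ht z).hasFDerivAt
    rw [← hz] at h0 ⊢
    exact h0.comp (f := fun q : ℝ × Sp (Gadget.Pair d) => (q.1, bincl 0 x + pairMap d q.2)) (t, w)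
      ((hasFDerivAt_fst).prodMk (((pairMap d).comp (ContinuousLinearMap.snd ℝ ℝ (Sp (Gadget.Pair d)))).hasFDerivAt.const_add (bincl 0 x)))
  have hb : pairMap d (Gadget.pairField V τ κ x t w) = field V τ κ t z := by
    simp [pairMap, Gadget.pairField, Gadget.posL, Gadget.velL, field]
    rw [show ((Gadget.split d) w).1 = py d z from hw1, show ((Gadget.split d) w).2 = pxi d z from hw2]
  rw [epot, hj.fderiv] at key
  simp only [ContinuousLinearMap.comp_apply, ContinuousLinearMap.coe_prodMap', Prod.map_apply,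
    ContinuousLinearMap.id_apply, hb] at key
  rw [key, Fintype.sum_sum_type, Fintype.sum_prod_type, Fin.sum_univ_three,
    show ∑ i, fderiv ℝ (fun y => field V τ κ t y (0, i)) z
      (EuclideanSpace.single ((0 : Fin 3), i) 1) = 0 from
      Finset.sum_eq_zero fun i _ => by simp [field_zero], zero_add]
  have hd : ∀ (p : Blk 3 d) (v : Sp (Gadget.Pair d)),
      fderiv ℝ (fun y => field V τ κ t (bincl 0 x + pairMap d y) p) w v
        = fderiv ℝ (fun y => field V τ κ t y p) z (pairMap d v) := fun p v => by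
    have h0 := (((field_tame (κ := κ) hU).component hI p).differentiableAt_space ht z).hasFDerivAt
    rw [← hz] at h0 ⊢
    rw [show (fun y => field V τ κ t (bincl 0 x + pairMap d y) p)
      = (fun y => field V τ κ t y p) ∘ fun y => bincl 0 x + pairMap d y from rfl,
      (h0.comp w (hι w)).fderiv]
    rfl
  congr 1 <;> refine Finset.sum_congr rfl fun j _ => ?_
  · rw [← pairMap_inl j, ← hd (1, j)]
    congr 2
    funext y
    obtain ⟨e1, e2, e3⟩ := bproj_pairMap x y
    rw [field_one, e1, e2, e3]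
    simp [Gadget.pairField, ← Gadget.posL_apply, Gadget.posL]
  · rw [← pairMap_inr j, ← hd (2, j)]
    congr 2
    funext y
    obtain ⟨e1, e2, e3⟩ := bproj_pairMap x y
    rw [field_two, e1, e2]
    simp [Gadget.pairField, ← Gadget.velL_apply, Gadget.posL, Gadget.velL]

/-- The gadget paths as a family. -/
noncomputable def family (hU : Weight V) (τ κ : ℝ) : Family (Blk 3 d) :=
  gibbsFamily (isOpen_Ioo (a := 0) (b := τ)) (pot V τ) (pot_tame hU) (pot_coercive hU)
    (field V τ κ) (field_tame hU) fun t ht x y => by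
      have h : ∀ z, fderiv ℝ (fun q : ℝ × Sp (Blk 3 d) => pot V τ q.1 q.2) (t, z)
          (1, field V τ κ t z) - ∑ i, fderiv ℝ (field V τ κ t) z (EuclideanSpace.single i 1) i
          = 0 := fun z => by
        rw [continuity hU ht z, sub_eq_zero]
        refine Finset.sum_congr rfl fun i _ => ?_
        rw [show (fun y => field V τ κ t y i) = EuclideanSpace.proj i ∘ field V τ κ t from rfl,
          fderiv_comp z (EuclideanSpace.proj i).differentiableAt
            ((field_tame hU).differentiableAt_space ht z), ContinuousLinearMap.fderiv]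
        rfl
      rw [h x, h y]

end PathG

end Vale.Agent.P347
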