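import Vale.Agent.P347.PathTm
import Vale.Agent.P347.LevelFamily

/-!
The derivative along the field of a gradient, from that of the field it is the gradient of.
-/

namespace Vale.Agent.P347

open scoped RealInnerProductSpace ContDiff

/-- From a pair standing for `D f` and an expression for `∇ f`, a pair standing for `D (∇ f)`,
given expressions for `Hess Ψ` and for `∇ b = δ B1 + B0`. -/
noncomputable def dPair {κ : ℕ → Type} (g : ∀ n, κ n → CExpr κ (n + 1)) {n : ℕ} (hn : 0 < n)
    (H : CExpr κ 2) (B1 : CExpr κ 3) (B0 : CExpr κ 2) (P : CExpr κ (n + 1) × CExpr κ n)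
    (G : CExpr κ (n + 1)) : CExpr κ (n + 2) × CExpr κ (n + 1) :=
  let G' : CExpr κ (1 + n) := .perm (finCongr (Nat.add_comm n 1)) G
  (.add (.perm (swap01 n) (CExpr.grad g P.1))
      (.smul (-1) (.perm (succEquiv (finCongr (Nat.add_comm 1 n)))
        (CExpr.mulMain splitId Nat.one_pos hn B1 G'))),
    .add (.add (actE splitId hn H P.1) (CExpr.grad g P.2))
      (.smul (-1) (.perm (finCongr (Nat.add_comm 1 n))
        (CExpr.mulRest splitId Nat.one_pos Nat.one_pos hn B1 B0 G' (CExpr.grad g G')))))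

variable {ι : Type} [Fintype ι] [DecidableEq ι]

theorem eval_actE {κ : ℕ → Type} (L : ∀ n, κ n → ℝ → Sp ι → Ten ι n) {k : ℕ}
    (e : Fin 1 ⊕ Fin 1 ≃ Fin 2) (hk : 0 < k) (K : CExpr κ 2) (f : CExpr κ (k + 1)) (t : ℝ)
    (x : Sp ι) :
    (actE e hk K f).eval L t x = act e (K.eval L t x) (f.eval L t x) := rfl

/-- The rules of the leaves that do not involve the derivative along the field. -/
structure CBase {κ : ℕ → Type} (F : Family ι) (L : ∀ n, κ n → ℝ → Sp ι → Ten ι n)
    (g : ∀ n, κ n → CExpr κ (n + 1)) : Prop where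
  tame : ∀ n i, Tame F.dom (L n i)
  nabla_eq : ∀ n i, ∀ t ∈ F.dom, ∀ x, nabla (L n i t) x = (g n i).eval L t x

namespace CBase

variable {κ : ℕ → Type} {F : Family ι} {L : ∀ n, κ n → ℝ → Sp ι → Ten ι n}
  {g : ∀ n, κ n → CExpr κ (n + 1)} (R : CBase F L g)
include R

theorem tame_eval {n : ℕ} (e : CExpr κ n) : Tame F.dom (e.eval L) := by
  induction e with
  | leaf i => exact R.tame _ i
  | zero n => exact Tame.const _
  | add x y ihx ihy => exact ihx.add ihy F.isOpen_dom
  | smul r x ih => exact ih.const_smul F.isOpen_dom r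
  | perm σ x ih => exact ih.perm F.isOpen_dom σ
  | mul e _ _ _ x y ihx ihy => exact ihx.contract ihy F.isOpen_dom e

theorem nabla_eval {n : ℕ} (e : CExpr κ n) {t : ℝ} (ht : t ∈ F.dom) (x : Sp ι) :
    nabla (e.eval L t) x = (e.grad g).eval L t x := by
  induction e with
  | leaf i => exact R.nabla_eq _ i t ht x
  | zero n => exact nabla_const 0 x
  | add p q ihp ihq =>
    simp only [CExpr.grad, CExpr.eval]
    rw [nabla_add (R.tame_eval p) (R.tame_eval q) ht, ihp, ihq]
  | smul r p ih =>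
    simp only [CExpr.grad, CExpr.eval]
    rw [nabla_smul (R.tame_eval p) r ht, ih]
  | perm σ p ih =>
    simp only [CExpr.grad, CExpr.eval]
    rw [nabla_perm (R.tame_eval p) F.isOpen_dom σ ht, ih]
  | mul e ha hb hc p q ihp ihq =>
    simp only [CExpr.grad, CExpr.eval]
    rw [F.nabla_contract (R.tame_eval p) (R.tame_eval q) e ht, ihp, ihq]

theorem mulMain_rest {a b c m : ℕ} (e : Fin a ⊕ Fin b ≃ Fin m) (ha : 0 < a) (hb : 0 < b)
    (hc : 0 < c) (X1 : CExpr κ (m + 1)) (X0 : CExpr κ m) (y : CExpr κ (b + c)) {t : ℝ}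
    (ht : t ∈ F.dom) (x : Sp ι) :
    contractTen e (F.delta (X1.eval L) t x + X0.eval L t x) (y.eval L t x)
      = F.delta ((CExpr.mulMain e hb hc X1 y).eval L) t x
        + (CExpr.mulRest e ha hb hc X1 X0 y (y.grad g)).eval L t x := by
  rw [contractTen_add_left, F.contract_delta (R.tame_eval X1) (R.tame_eval y) e ht,
    R.nabla_eval y ht, add_assoc]
  rfl

end CBase

/-- The rule for gradients. -/
theorem CBase.dPair_eval {κ : ℕ → Type} {F : Family ι}
    {L : ∀ n, κ n → ℝ → Sp ι → Ten ι n} {g : ∀ n, κ n → CExpr κ (n + 1)}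
    (R : CBase F L g) {H : CExpr κ 2} {B1 : CExpr κ 3} {B0 : CExpr κ 2}
    (hH : ∀ t ∈ F.dom, ∀ x, derivTen (F.Ψ t) 2 x = H.eval L t x)
    (hB : ∀ t ∈ F.dom, ∀ x, F.gradB t x = F.delta (B1.eval L) t x + B0.eval L t x)
    {n : ℕ} (hn : 0 < n) {P : CExpr κ (n + 1) × CExpr κ n} {G : CExpr κ (n + 1)}
    {f : ℝ → Sp ι → Ten ι n} (hf : Tame F.dom f)
    (hD : ∀ t ∈ F.dom, ∀ x, F.D f t x = F.delta (P.1.eval L) t x + P.2.eval L t x)
    (hG : ∀ t ∈ F.dom, ∀ x, nabla (f t) x = G.eval L t x) {t : ℝ} (ht : t ∈ F.dom) (x : Sp ι) :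
    F.D (G.eval L) t x = F.delta ((dPair g hn H B1 B0 P G).1.eval L) t x
      + (dPair g hn H B1 B0 P G).2.eval L t x := by
  have hI := F.isOpen_dom
  have hX := R.tame_eval P.1
  have hY := R.tame_eval P.2
  rw [← F.D_congr (f := G.eval L) (g := fun t => nabla (f t)) hG ht x, F.D_nabla hf ht x,
    show F.D f t = fun y => F.delta (P.1.eval L) t y + P.2.eval L t y from funext (hD t ht),
    nabla_add (F.tame_delta hX) hY ht, F.nabla_delta hX ht, R.nabla_eval P.2 ht, hH t ht, hB t ht]
  set G' : CExpr κ (1 + n) := .perm (finCongr (Nat.add_comm n 1)) G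
  have h1 := R.mulMain_rest splitId Nat.one_pos Nat.one_pos hn B1 B0 G' ht x
  have e : act splitId (F.delta (B1.eval L) t x + B0.eval L t x) (nabla (f t) x)
      = permTen (finCongr (Nat.add_comm 1 n))
        (F.delta ((CExpr.mulMain splitId Nat.one_pos hn B1 G').eval L) t x
          + (CExpr.mulRest splitId Nat.one_pos Nat.one_pos hn B1 B0 G'
              (G'.grad g)).eval L t x) := by
    rw [← h1, hG t ht]
    rfl
  have e2 : F.delta (fun t x => permTen (swap01 n) (nabla (P.1.eval L t) x)) t x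
      = F.delta ((CExpr.perm (swap01 n) (P.1.grad g)).eval L) t x := by
    ext α
    rw [F.delta_apply ((hX.nabla hI).perm hI _) ht,
      F.delta_apply (R.tame_eval (CExpr.perm (swap01 n) (P.1.grad g))) ht]
    refine Finset.sum_congr rfl fun i _ => ?_
    have hy : ∀ y, permTen (swap01 n) (nabla (P.1.eval L t) y)
        = (CExpr.perm (swap01 n) (P.1.grad g)).eval L t y := fun y => by
      rw [R.nabla_eval P.1 ht]; rfl
    rw [hy x, show pd i (fun s y => permTen (swap01 n) (nabla (P.1.eval L s) y) (Fin.cons i α)) t x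
        = pd i (fun s y => (CExpr.perm (swap01 n) (P.1.grad g)).eval L s y (Fin.cons i α)) t x by
      simp only [pd, hy]]
  rw [e, e2, permTen_add, ← F.delta_perm (R.tame_eval _) _ ht]
  simp only [dPair, CExpr.eval, neg_one_smul]
  rw [F.delta_add (f := fun t x => permTen (swap01 n) ((P.1.grad g).eval L t x))
    (g := fun t x => -permTen (succEquiv (finCongr (Nat.add_comm 1 n)))
      ((CExpr.mulMain splitId Nat.one_pos hn B1 G').eval L t x))
    ((R.tame_eval _).perm hI _) (((R.tame_eval _).perm hI _).neg hI) ht]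
  have e3 : F.delta (fun t x => -permTen (succEquiv (finCongr (Nat.add_comm 1 n)))
      ((CExpr.mulMain splitId Nat.one_pos hn B1 G').eval L t x)) t x
      = -F.delta (fun t x => permTen (succEquiv (finCongr (Nat.add_comm 1 n)))
      ((CExpr.mulMain splitId Nat.one_pos hn B1 G').eval L t x)) t x := by
    have := F.delta_smul (((R.tame_eval (CExpr.mulMain splitId Nat.one_pos hn B1 G')).perm hI
      (succEquiv (finCongr (Nat.add_comm 1 n))))) (-1 : ℝ) ht x
    simpa using this
  rw [e3, eval_actE]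
  abel

end Vale.Agent.P347
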