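import Vale.Agent.P347.CoefExpr

/-!
Closed systems of coefficient expressions, bundled.
-/

namespace Vale.Agent.P347

/-- Expressions built from base coefficient fields. -/
abbrev Tm (β : ℕ → Type) (n : ℕ) : Type := CExpr β n

/-- A closed system of base coefficient fields. -/
structure Sys where
  /-- the names of the base fields -/
  β : ℕ → Type
  /-- their bounds -/
  cb : ∀ n, β n → ℝ
  /-- their gradients -/
  nb : ∀ n, β n → Tm β (n + 1)
  /-- their derivatives along the field, a pair `(X, Y)` standing for `δ X + Y` -/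
  db : ∀ n, β n → Tm β (n + 1) × Tm β n

variable {ι : Type} [Fintype ι] [DecidableEq ι]

/-- A realisation of a system in a family. -/
structure Sys.Sem (S : Sys) (F : Family ι) (J : Set ℝ) where
  /-- the base fields -/
  v : ∀ n, S.β n → ℝ → Sp ι → Ten ι n
  subset : J ⊆ F.dom
  rules : CRules F J v S.cb S.nb (fun n i => (S.db n i).1) fun n i => (S.db n i).2

/-- Every expression is a controlled coefficient field, uniformly in the realisation. -/
theorem Sys.good (S : Sys) (N : ℕ) {n : ℕ} (T : Tm S.β n) :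
    ∃ C : ℝ, 0 ≤ C ∧ ∀ (ι : Type) [Fintype ι] [DecidableEq ι]
      (F : Family ι) (J : Set ℝ) (R : S.Sem F J), F.Good J C N (T.eval R.v) :=
  let ⟨C, hC, h⟩ := cexpr_good S.cb S.nb (fun n i => (S.db n i).1) (fun n i => (S.db n i).2) N T
  ⟨C, hC, fun ι _ _ F J R => h ι F J R.v R.subset R.rules⟩

/-- A realised system with expressions for `Hess Ψ` and `∇ b` makes the family controlled. -/
theorem Sys.controlled (S : Sys) (H : Tm S.β 2) (B1 : Tm S.β 3) (B0 : Tm S.β 2) :
    ∃ C : ℕ → ℝ, ∀ (ι : Type) [Fintype ι] [DecidableEq ι] (F : Family ι) (J : Set ℝ)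
      (R : S.Sem F J), (∀ t ∈ F.dom, ∀ x, derivTen (F.Ψ t) 2 x = H.eval R.v t x) →
      (∀ t ∈ F.dom, ∀ x, F.gradB t x = F.delta (B1.eval R.v) t x + B0.eval R.v t x) →
      F.Controlled J C := by
  choose CH hCH hH using fun N => S.good N H
  choose C1 hC1 h1 using fun N => S.good N B1
  choose C0 hC0 h0 using fun N => S.good N B0
  refine ⟨fun N => CH N + C1 N + C0 N, fun ι _ _ F J R hΨ hB => ⟨R.subset, fun N => ⟨?_,
    _, _, (h1 N ι F J R).mono ?_, (h0 N ι F J R).mono ?_, hB⟩⟩⟩
  · exact Family.Good.congr R.subset ((hH N ι F J R).mono (by linarith [hC1 N, hC0 N])) hΨ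
  · linarith [hCH N, hC0 N]
  · linarith [hCH N, hC1 N]

end Vale.Agent.P347
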