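import Vale.Agent.P347.Calc
import Vale.Agent.P347.PathTm

/-!
Square integrable bounds along the flow from the splitting bounds of controlled fields.
-/

namespace Vale.Agent.P347

open MeasureTheory
open scoped RealInnerProductSpace ContDiff

variable {ι : Type} [Fintype ι] [DecidableEq ι]

/-- A tensor of rank at least two with a splitting bound has Frobenius norm of order `√d`. -/
theorem AllSplit.norm_le_sqrt_card {k : ℕ} {C : ℝ} (hC : 0 ≤ C) {T : Ten ι (k + 2)}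
    (hT : AllSplit C T) : ‖T‖ ≤ C * √(Fintype.card ι) := by
  let e : Fin 1 ⊕ Fin (k + 1) ≃ Fin (k + 2) :=
    finSumFinEquiv.trans (finCongr (Nat.add_comm 1 (k + 1)))
  let r : ι → Ten ι (k + 1) := fun i =>
    WithLp.toLp 2 fun β => T (joinIdx e (fun _ => i) β)
  have hr : ∀ i, ‖r i‖ ≤ C := by
    intro i
    have h := hT 1 (k + 1) e one_pos k.succ_pos (EuclideanSpace.single (fun _ => i) 1) (r i)
    have e1 : ∑ α : Fin 1 → ι, ∑ β : Fin (k + 1) → ι, T (joinIdx e α β)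
        * (EuclideanSpace.single (fun _ : Fin 1 => i) (1 : ℝ) : Ten ι 1) α * r i β = ‖r i‖ ^ 2 := by
      rw [EuclideanSpace.real_norm_sq_eq, Finset.sum_eq_single (fun _ : Fin 1 => i)]
      · exact Finset.sum_congr rfl fun β _ => by simp [r, sq]
      · intro α _ hα
        exact Finset.sum_eq_zero fun β _ => by simp [hα]
      · simp
    rw [e1, PiLp.norm_single, norm_one, mul_one, abs_of_nonneg (sq_nonneg _), sq] at h
    rcases (norm_nonneg (r i)).eq_or_lt with h0 | h0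
    · rw [← h0]; exact hC
    · exact le_of_mul_le_mul_right h h0
  have hs : ‖T‖ ^ 2 = ∑ i : ι, ‖r i‖ ^ 2 := by
    have he : (Fin (k + 2) → ι) ≃ (Fin 1 → ι) × (Fin (k + 1) → ι) :=
      (Equiv.arrowCongr e.symm (Equiv.refl ι)).trans (Equiv.sumArrowEquivProdArrow _ _ ι)
    simp only [EuclideanSpace.real_norm_sq_eq, r]
    rw [← ((Equiv.sumArrowEquivProdArrow (Fin 1) (Fin (k + 1)) ι).symm.trans
      (Equiv.arrowCongr e (Equiv.refl ι))).sum_comp fun α => T α ^ 2, Fintype.sum_prod_type,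
      sum_pi_one]
    rfl
  have h2 : ‖T‖ ^ 2 ≤ (C * √(Fintype.card ι)) ^ 2 := by
    rw [hs, mul_pow, Real.sq_sqrt (Nat.cast_nonneg _)]
    calc ∑ i : ι, ‖r i‖ ^ 2 ≤ ∑ _i : ι, C ^ 2 :=
          Finset.sum_le_sum fun i _ => pow_le_pow_left₀ (norm_nonneg _) (hr i) 2
      _ = _ := by rw [Finset.sum_const, Finset.card_univ, nsmul_eq_mul, mul_comm]
  exact (pow_le_pow_iff_left₀ (norm_nonneg _) (by positivity) two_ne_zero).1 h2

namespace Family

variable {F : Family ι} {J : Set ℝ}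

theorem Reg.abs_const {j n k : ℕ} {c M : ℝ} {f : ℝ → Sp ι → Ten ι k}
    (h : F.Reg J j n (c * M) f) (hM : 0 ≤ M) : F.Reg J j n (|c| * M) f :=
  ⟨h.1, fun a ha i hi t ht => (h.2 a ha i hi t ht).trans (le_of_eq (by
    rw [mul_pow, mul_pow |c|, sq_abs]))⟩

theorem reg_good_zero (n : ℕ) : ∀ {k : ℕ} {C₀ : ℝ} {K : ℝ → Sp ι → Ten ι (k + 2)},
    J ⊆ F.dom → 0 ≤ C₀ → F.Good J C₀ n K → F.Reg J 0 n (C₀ * √(Fintype.card ι)) K := by
  induction n with
  | zero =>
    intro k C₀ K hJ hC hK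
    refine reg_zero_zero hK.tame fun t ht => ?_
    have := F.prob t (hJ ht)
    refine (integral_mono (integrable_sq hK.tame (hJ ht)) (integrable_const _) fun x =>
      pow_le_pow_left₀ (norm_nonneg _) ((hK.allSplit t ht x).norm_le_sqrt_card hC) 2).trans ?_
    simp
  | succ n ih =>
    intro k C₀ K hJ hC hK
    exact Reg.of_nabla ((ih hJ hC hK.pred).of_le le_rfl (Nat.zero_le n))
      (ih (k := k + 1) hJ hC hK.2.1) hJ

/-- Controlled coefficient fields are regular, with a bound of order `√d`. -/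
theorem reg_good (C : ℕ → ℝ) (j : ℕ) : ∀ n : ℕ, ∃ (N : ℕ) (C' : ℝ), 0 ≤ C' ∧
    ∀ (ι : Type) [Fintype ι] [DecidableEq ι] (F : Family ι) (J : Set ℝ), F.Controlled J C →
      ∀ (k : ℕ) (C₀ : ℝ) (K : ℝ → Sp ι → Ten ι (k + 2)), 0 ≤ C₀ → F.Good J C₀ N K →
        F.Reg J j n (C' * C₀ * √(Fintype.card ι)) K := by
  induction j with
  | zero =>
    exact fun n => ⟨n, 1, zero_le_one, fun ι _ _ F J hF k C₀ K hC hK => by
      simpa using reg_good_zero n hF.1 hC hK⟩
  | succ j ih =>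
    intro n
    obtain ⟨n', _, c, hcalc⟩ := calc_closure C j n
    obtain ⟨N₁, c₁, hc₁, h₁⟩ := ih n'
    obtain ⟨N₀, c₀, hc₀, h₀⟩ := ih n
    refine ⟨n + N₁ + N₀ + 1, 1 + |c| * c₁ + c₀, by positivity,
      fun ι _ _ F J hF k C₀ K hC hK => ?_⟩
    have h00 := reg_good_zero n hF.1 hC (hK.of_le (N' := n) (by omega))
    obtain ⟨-, -, K1, K0, hK1, hK0, hdec⟩ := hK
    have hd := (hcalc ι F J hF (c₁ * C₀ * √(Fintype.card ι)) (by positivity)).2.1 _ _
      (h₁ ι F J hF (k + 1) C₀ K1 hC (hK1.of_le (by omega)))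
    have hs : 0 ≤ C₀ * √(Fintype.card ι) := by positivity
    have hcc : 0 ≤ |c| * c₁ := by positivity
    refine Reg.of_D (h00.mono le_rfl le_rfl hs ?_) ?_
    · rw [mul_assoc]
      exact le_mul_of_one_le_left hs (by linarith)
    · refine Reg.congr ?_ hF.1 hdec
      refine ((hd.abs_const (by positivity)).add
        (h₀ ι F J hF k C₀ K0 hC (hK0.of_le (by omega))) hF.1 (by positivity) (by positivity)).mono
        le_rfl le_rfl (by positivity) ?_
      calc |c| * (c₁ * C₀ * √(Fintype.card ι)) + c₀ * C₀ * √(Fintype.card ι)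
          = (|c| * c₁ + c₀) * C₀ * √(Fintype.card ι) := by ring
        _ ≤ _ := by gcongr; linarith

end Family

/-- A realisation whose potential and field are given by `H` and `(B1, B0)`. -/
structure Sys.Good₀ {S : Sys} {F : Family ι} {J : Set ℝ} (R : S.Sem F J) (H : Tm S.β 2)
    (B1 : Tm S.β 3) (B0 : Tm S.β 2) : Prop where
  hess : ∀ t ∈ F.dom, ∀ x, derivTen (F.Ψ t) 2 x = H.eval R.v t x
  gradB : ∀ t ∈ F.dom, ∀ x, F.gradB t x = F.delta (B1.eval R.v) t x + B0.eval R.v t x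

/-- Regularity of a vector field whose gradient and derivative along the flow are expressions. -/
theorem Sys.reg_vec (S : Sys) (H : Tm S.β 2) (B1 : Tm S.β 3) (B0 G X : Tm S.β 2) (j : ℕ) :
    ∀ n : ℕ, ∃ C' : ℝ, 0 ≤ C' ∧ ∀ (ι : Type) [Fintype ι] [DecidableEq ι] (F : Family ι)
      (J : Set ℝ) (R : S.Sem F J), Sys.Good₀ R H B1 B0 → ∀ (f : ℝ → Sp ι → Ten ι 1) (M : ℝ),
      0 ≤ M → Tame F.dom f → (∀ t ∈ F.dom, ∀ x, nabla (f t) x = G.eval R.v t x) →
      (∀ t ∈ F.dom, ∀ x, F.D f t x = F.delta (X.eval R.v) t x) →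
      (∀ t ∈ J, ∫ x, ‖f t x‖ ^ 2 ∂(F.μ t) ≤ M ^ 2) →
      F.Reg J j n (C' * (M + √(Fintype.card ι))) f := by
  obtain ⟨C, hC⟩ := S.controlled H B1 B0
  induction j with
  | zero =>
    intro n
    obtain ⟨N, c, hc, h⟩ := Family.reg_good C 0 n
    obtain ⟨CG, hCG, hG⟩ := S.good N G
    refine ⟨1 + c * CG, by positivity, fun ι _ _ F J R hR f M hM hf hn _ h0 => ?_⟩
    have hreg0 := Family.reg_zero_zero hf h0
    have hF := hC ι F J R hR.hess hR.gradB
    have hg := (h ι F J hF 0 CG _ hCG (hG ι F J R)).congr hF.1 hn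
    have hs : 0 ≤ √(Fintype.card ι) := Real.sqrt_nonneg _
    have hM' : M ≤ (1 + c * CG) * (M + √(Fintype.card ι)) := by
      nlinarith [mul_nonneg (mul_nonneg hc hCG) hM, mul_nonneg (mul_nonneg hc hCG) hs]
    have hG' : c * CG * √(Fintype.card ι) ≤ (1 + c * CG) * (M + √(Fintype.card ι)) := by
      nlinarith [mul_nonneg (mul_nonneg hc hCG) hM]
    rcases n with - | n
    · exact hreg0.mono le_rfl le_rfl hM hM'
    · exact Family.Reg.of_nabla (hreg0.mono le_rfl le_rfl hM hM')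
        ((hg.of_le le_rfl n.le_succ).mono le_rfl le_rfl (by positivity) hG') hF.1
  | succ j ih =>
    intro n
    obtain ⟨n', _, cd, hcalc⟩ := calc_closure C j n
    obtain ⟨N, c, hc, h⟩ := Family.reg_good C j n'
    obtain ⟨CX, hCX, hX⟩ := S.good N X
    obtain ⟨C₁, hC₁, h₁⟩ := ih n
    refine ⟨C₁ + |cd| * (c * CX), by positivity, fun ι _ _ F J R hR f M hM hf hn hD h0 => ?_⟩
    have hF := hC ι F J R hR.hess hR.gradB
    have hd := (((hcalc ι F J hF (c * CX * √(Fintype.card ι)) (by positivity)).2.1 _ _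
      (h ι F J hF 0 CX _ hCX (hX ι F J R))).abs_const (by positivity)).congr hF.1 hD
    have hs : 0 ≤ √(Fintype.card ι) := Real.sqrt_nonneg _
    have hb := h₁ ι F J R hR f M hM hf hn hD h0
    refine Family.Reg.of_D ((hb.of_le (Nat.zero_le j) le_rfl).mono le_rfl le_rfl (by positivity) ?_)
      (hd.mono le_rfl le_rfl (by positivity) ?_)
    · gcongr
      linarith [mul_nonneg (abs_nonneg cd) (mul_nonneg hc hCX)]
    · calc |cd| * (c * CX * √(Fintype.card ι)) = |cd| * (c * CX) * √(Fintype.card ι) := by ring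
        _ ≤ _ := mul_le_mul (by linarith) (by linarith) hs (by positivity)

/-- Contraction of a regular field with an expression. -/
theorem Sys.reg_contract (S : Sys) (H : Tm S.β 2) (B1 : Tm S.β 3) (B0 : Tm S.β 2)
    {a b c m : ℕ} (ha : 0 < a) (hb : 0 < b) (e : Fin a ⊕ Fin b ≃ Fin m) (T : Tm S.β m)
    (j n : ℕ) : ∃ (n' : ℕ) (C' : ℝ), 0 ≤ C' ∧ ∀ (ι : Type) [Fintype ι] [DecidableEq ι]
      (F : Family ι) (J : Set ℝ) (R : S.Sem F J), Sys.Good₀ R H B1 B0 →
      ∀ (f : ℝ → Sp ι → Ten ι (b + c)) (M : ℝ), 0 ≤ M → F.Reg J j n' M f →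
      F.Reg J j n (C' * M) fun t x => contractTen e (T.eval R.v t x) (f t x) := by
  obtain ⟨C, hC⟩ := S.controlled H B1 B0
  obtain ⟨n', N, cc, hcalc⟩ := calc_closure C j n
  obtain ⟨CT, hCT, hT⟩ := S.good N T
  refine ⟨n', |cc * CT|, abs_nonneg _, fun ι _ _ F J R hR f M hM hf => ?_⟩
  exact ((hcalc ι F J (hC ι F J R hR.hess hR.gradB) M hM).2.2 a b c m e _ CT ha hb hCT
    (hT ι F J R) f hf).abs_const hM

end Vale.Agent.P347
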