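import Vale.Agent.P347.PathGadget
import Vale.Agent.P347.PathPair
import Vale.Agent.P347.PathReg

/-!
The expressions of the gadget calculus and the Hessian identities behind them.
-/

namespace Vale.Agent.P347

open scoped RealInnerProductSpace ContDiff

namespace PathG

/-- The names of the base fields: block identities, the same times `1/(τ - s)`, and derivatives
of the smoothed potential with one of three coefficients. -/
inductive GB : ℕ → Type
  | E (a b : Fin 3) : GB 2
  | Q (a b : Fin 3) : GB 2
  | K (j : Fin 3) (n : ℕ) : GB (n + 2)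

/-- The gradients of the base fields. -/
def gnb : ∀ n, GB n → CExpr GB (n + 1)
  | _, .E _ _ => .zero 3
  | _, .Q _ _ => .zero 3
  | _, .K j n => .leaf (.K j (n + 1))

/-- The product of two rank two expressions. -/
def mul2 (x y : CExpr GB 2) : CExpr GB 2 :=
  CExpr.mul splitId Nat.one_pos Nat.one_pos Nat.one_pos x y

/-- The leaf of a block identity. -/
def lE (a b : Fin 3) : CExpr GB 2 := .leaf (.E a b)

/-- The leaf of a scaled block identity. -/
def lQ (a b : Fin 3) : CExpr GB 2 := .leaf (.Q a b)

/-- The leaf of a derivative tensor. -/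
def lK (j : Fin 3) (n : ℕ) : CExpr GB (n + 2) := .leaf (.K j n)

/-- The antisymmetric matrix field of the rotation. -/
noncomputable def eW : CExpr GB 2 :=
  .add (mul2 (lE 2 1) (lK 1 0)) (.smul (-1) (mul2 (lK 1 0) (lE 1 2)))

/-- The Hessian of the potential. -/
noncomputable def eH : CExpr GB 2 :=
  .add (.add (lK 0 0) (lE 2 2))
    (.add (.add (lQ 0 0) (lQ 1 1)) (.smul (-1) (.add (lQ 1 0) (lQ 0 1))))

/-- The divergence part of the gradient of the field. -/
noncomputable def eB1 : CExpr GB 3 := .perm (swap01 1) (CExpr.grad gnb eW)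

/-- The rest of the gradient of the field. -/
noncomputable def eB0 : CExpr GB 2 :=
  .add (.smul (1 / 2) (.add (.add (lQ 0 1) (.smul (-1) (lQ 1 1))) (lK 0 0)))
    (actE splitId Nat.one_pos eH eW)

/-- The derivative along the field of a multiple of the score, as a divergence. -/
noncomputable def eX1 (j : Fin 3) : CExpr GB 2 :=
  .add (.smul (-(1 / 2)) (lK j 0)) (mul2 (mul2 (lE 2 1) (lK 1 0)) (lK j 0))

/-- The derivative along the field of the Gaussian vector, as a divergence. -/
noncomputable def eXxi : CExpr GB 2 := .smul (-1) (mul2 (lK 1 0) (lE 1 2))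

/-- The derivatives along the field of the derivative tensors. -/
noncomputable def dK (j : Fin 3) : (n : ℕ) → CExpr GB (n + 3) × CExpr GB (n + 2)
  | 0 => dPair gnb Nat.one_pos eH eB1 eB0 (eX1 j, .zero 1) (lK j 0)
  | n + 1 => dPair gnb (Nat.succ_pos _) eH eB1 eB0 (dK j n) (lK j (n + 1))

/-- The derivatives along the field of the base fields. -/
noncomputable def gdb : ∀ n, GB n → CExpr GB (n + 1) × CExpr GB n
  | _, .E _ _ => (.zero 3, .zero 2)
  | _, .Q a b => (.zero 3, mul2 (lQ a b) (lQ b b))
  | _, .K j n => dK j n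

/-- The bounds of the base fields. -/
def gcb (c : ℕ → ℝ) : ∀ n, GB n → ℝ
  | _, .E _ _ => 1
  | _, .Q _ _ => 1
  | _, .K _ n => c n

/-- The system of the gadget calculus. -/
noncomputable def sys (c : ℕ → ℝ) : Sys where
  β := GB
  cb := gcb c
  nb := gnb
  db := gdb

end PathG

/-! ### The Hessian and third derivatives in coordinates -/

open Set

variable {d : ℕ} {V : Euc d → ℝ}

/-- The entries of the Hessian of the smoothed potential. -/
noncomputable def hs (V : Euc d → ℝ) (t : ℝ) (y : Euc d) (i j : Fin d) : ℝ :=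
  derivTen (smoothPot V t) 2 y (pairIdx i j)

lemma hs_eq (hV : Weight V) {t : ℝ} (ht : 0 < t) (y : Euc d) (i j : Fin d) :
    hs V t y i j = fderiv ℝ (score V t) y (unitVec i) j := by
  rw [hs, derivTen_apply (smoothPot_tame hV) isOpen_Ioi ht 1]
  have e : ∀ z, derivTen (smoothPot V t) 1 z (Fin.tail (pairIdx i j)) = score V t z j := fun z =>
    derivTen_one_apply hV ht z _
  simp only [e, show pairIdx i j 0 = i from rfl]
  have h : HasFDerivAt (fun z => score V t z j)
      ((EuclideanSpace.proj j).comp (fderiv ℝ (score V t) y)) y :=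
    (EuclideanSpace.proj (𝕜 := ℝ) j).hasFDerivAt.comp y
      ((score_tame hV).differentiableAt_space (I := Ioi 0) ht y).hasFDerivAt
  rw [h.fderiv]
  rfl

lemma hs_symm (hV : Weight V) {t : ℝ} (ht : 0 < t) (y : Euc d) (i j : Fin d) :
    hs V t y i j = hs V t y j i := by
  have h := fderiv_score_symm hV ht y (unitVec i) (unitVec j)
  simp only [unitVec, EuclideanSpace.inner_single_right, EuclideanSpace.inner_single_left,
    map_one, one_mul, conj_trivial] at h
  rw [hs_eq hV ht, hs_eq hV ht]
  exact h

lemma fderiv_score_coord (hV : Weight V) {t : ℝ} (ht : 0 < t) (y v : Euc d) (j : Fin d) :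
    fderiv ℝ (score V t) y v j = ∑ i, v i * hs V t y i j := by
  conv_lhs => rw [← sum_inner_smul_unitVec v]
  simp only [unitVec, EuclideanSpace.inner_single_left, EuclideanSpace.inner_single_right, map_one, one_mul, conj_trivial]
  simp only [map_sum, map_smul, WithLp.ofLp_sum, WithLp.ofLp_smul, Finset.sum_apply, Pi.smul_apply,
    smul_eq_mul]
  exact Finset.sum_congr rfl fun i _ => by rw [hs_eq hV ht, unitVec]

lemma sum_third (hV : Weight V) {t : ℝ} (ht : 0 < t) (y : Euc d) (j : Fin d) :
    ∑ i, derivTen (smoothPot V t) 3 y (Fin.cons i (pairIdx i j))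
      = fderiv ℝ (lapPot V t) y (unitVec j) := by
  have hP := smoothPot_tame hV
  have hd : ∀ i ∈ (Finset.univ : Finset (Fin d)), DifferentiableAt ℝ
      (fun z => fderiv ℝ (fun w => fderiv ℝ (smoothPot V t) w (unitVec i)) z (unitVec i)) y :=
    fun i _ => ((tame_grad hV i).fderiv_space_apply isOpen_Ioi (unitVec i)).differentiableAt_space
      (I := Ioi 0) ht y
  rw [show lapPot V t = fun z => ∑ i,
      fderiv ℝ (fun w => fderiv ℝ (smoothPot V t) w (unitVec i)) z (unitVec i) from rfl,
    fderiv_fun_sum hd, sum_apply]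
  refine Finset.sum_congr rfl fun i _ => ?_
  rw [derivTen_eq_pdl isOpen_Ioi hP 3 ht,
    show List.ofFn (Fin.cons i (pairIdx i j) : Fin 3 → Fin d) = [i, i, j] by
      simp [List.ofFn_succ, pairIdx],
    pdl_perm hP isOpen_Ioi (show [i, i, j].Perm [j, i, i] from
      List.perm_append_comm (l₁ := [i, i]) (l₂ := [j])) ht y]
  rfl

lemma scoreDot_coord (hV : Weight V) {t : ℝ} (ht : 0 < t) (y : Euc d) (j : Fin d) :
    scoreDot V t y j = 1 / 2 * fderiv ℝ (lapPot V t) y (unitVec j)
      - ∑ i, score V t y i * hs V t y i j := by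
  have h := scoreDot_inner hV ht y (unitVec j)
  rw [show ⟪scoreDot V t y, unitVec j⟫ = scoreDot V t y j by
    simp [unitVec, EuclideanSpace.inner_single_right]] at h
  rw [h]
  congr 1
  rw [PiLp.inner_apply]
  refine Finset.sum_congr rfl fun i _ => ?_
  rw [← hs_eq hV ht, hs_symm hV ht y j i]
  simp [mul_comm]

end Vale.Agent.P347
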