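import Vale.Agent.P347.PathGadgetSys

/-!
Regularity of the observables of the gadget paths at unit scale.
-/

namespace Vale.Agent.P347

open MeasureTheory Set
open scoped RealInnerProductSpace ContDiff

namespace PathG

variable {d : ℕ} {V : Euc d → ℝ} {τ κ : ℝ}

/-- The score at the position. -/
noncomputable def oG (V : Euc d → ℝ) (t : ℝ) (z : Sp (Blk 3 d)) : Ten (Blk 3 d) 1 :=
  bvec 1 (score V t (py d z))

/-- The Hessian at the position applied to the Gaussian vector. -/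
noncomputable def oH (V : Euc d → ℝ) (t : ℝ) (z : Sp (Blk 3 d)) : Ten (Blk 3 d) 1 :=
  bvec 1 (fderiv ℝ (score V t) (py d z) (pxi d z))

/-- The Hessian at the position applied twice to the Gaussian vector. -/
noncomputable def oHH (V : Euc d → ℝ) (t : ℝ) (z : Sp (Blk 3 d)) : Ten (Blk 3 d) 1 :=
  bvec 1 (fderiv ℝ (score V t) (py d z) (fderiv ℝ (score V t) (py d z) (pxi d z)))

lemma oG_tame (hU : Weight V) : Tame (Ioo 0 τ) (oG (d := d) V) :=
  (tame_py hU (score_tame hU)).clm isOpen_Ioo (bvec 1)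

lemma oH_tame (hU : Weight V) : Tame (Ioo 0 τ) (oH (d := d) V) :=
  (tame_hess_apply hU (Tame.linear (pxi d))).clm isOpen_Ioo (bvec 1)

lemma oHH_tame (hU : Weight V) : Tame (Ioo 0 τ) (oHH (d := d) V) :=
  (tame_hess_apply hU (tame_hess_apply hU (Tame.linear (pxi d)))).clm isOpen_Ioo (bvec 1)

lemma sq_score_le (hU : Weight V) {t B : ℝ} (ht : t ∈ Ioo 0 τ)
    (hB : ∀ y i, |hs V t y i i| ≤ B) :
    ∫ z, ‖oG V t z‖ ^ 2 ∂((family hU τ κ).μ t) ≤ d * B := by
  set F := family hU τ κ with hF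
  have := F.prob t ht
  have hI : IsOpen (Ioo (0 : ℝ) τ) := isOpen_Ioo
  have hf : ∀ i, Tame (Ioo 0 τ) fun s z => score V s (py d z) i := fun i =>
    (tame_py hU (score_tame hU)).component hI i
  have hd : ∀ i (p : Blk 3 d) z, fderiv ℝ (fun z => score V t (py d z) i) z
      (EuclideanSpace.single p 1) = if p.1 = 1 then hs V t (py d z) p.2 i else 0 := by
    intro i p z
    have h : HasFDerivAt (fun z => score V t (py d z) i)
        ((EuclideanSpace.proj i).comp ((fderiv ℝ (score V t) (py d z)).comp (py d))) z :=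
      (EuclideanSpace.proj (𝕜 := ℝ) i).hasFDerivAt.comp z
        (((score_tame hU).differentiableAt_space (I := Ioi 0) ht.1 _).hasFDerivAt.comp z
          (py d).hasFDerivAt)
    simp only [h.fderiv, ContinuousLinearMap.comp_apply, bproj_single]
    split_ifs with h1
    · rw [hs_eq hU ht.1, unitVec]; rfl
    · simp
  have hi1 : ∀ i (p : Blk 3 d), Integrable (fun z => score V t (py d z) i
      * fderiv ℝ (pot V τ t) z (EuclideanSpace.single p 1)) (F.μ t) := fun i p =>
    ((hf i).mul ((pot_tame hU).fderiv_space_apply hI (EuclideanSpace.single p (1 : ℝ))) hI).integrable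
      ht _ (F.integrable_poly t ht)
  have hsq : ∀ z, ‖oG V t z‖ ^ 2 = ∑ i, score V t (py d z) i * score V t (py d z) i := by
    intro z
    rw [oG, norm_bvec, EuclideanSpace.real_norm_sq_eq]
    exact Finset.sum_congr rfl fun i _ => sq _
  simp only [hsq]
  rw [integral_finsetSum _ fun i _ => ((hf i).mul (hf i) hI).integrable ht _ (F.integrable_poly t ht)]
  refine (Finset.sum_le_sum (g := fun _ : Fin d => B) fun i _ => ?_).trans (by simp)
  have h1 := F.ibp t ht _ (hf i) ((1 : Fin 3), i)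
  have h0 := F.ibp t ht _ (hf i) ((0 : Fin 3), i)
  simp only [hd, show ((0 : Fin 3) = 1) = False by simp, if_false, if_true, integral_zero,
    show F.Ψ = pot V τ from rfl] at h1 h0
  have hsum := integral_add (hi1 i ((1 : Fin 3), i)) (hi1 i ((0 : Fin 3), i))
  rw [← h1, ← h0, add_zero] at hsum
  have e : ∀ z, score V t (py d z) i * fderiv ℝ (pot V τ t) z (EuclideanSpace.single ((1 : Fin 3), i) 1)
      + score V t (py d z) i * fderiv ℝ (pot V τ t) z (EuclideanSpace.single ((0 : Fin 3), i) 1)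
      = score V t (py d z) i * score V t (py d z) i := fun z => by
    have h2 := (pd_pot hU ht z i).2.1
    have h3 := (pd_pot hU ht z i).1
    simp only [pd] at h2 h3
    rw [h2, h3]; ring
  simp only [e] at hsum
  rw [hsum]
  refine (le_abs_self _).trans ((norm_integral_le_of_norm_le_const (C := B)
    (ae_of_all _ fun z => by rw [Real.norm_eq_abs]; exact hB (py d z) i)).trans_eq ?_)
  simp

lemma sq_xi_eq (hU : Weight V) {t : ℝ} (ht : t ∈ Ioo 0 τ) :
    ∫ z, ‖bvec (B := 3) 2 (pxi d z)‖ ^ 2 ∂((family hU τ κ).μ t) = d := by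
  set F := family hU τ κ with hF
  have := F.prob t ht
  have hI : IsOpen (Ioo (0 : ℝ) τ) := isOpen_Ioo
  have hf : ∀ i, Tame (Ioo 0 τ) fun (_ : ℝ) (z : Sp (Blk 3 d)) => pxi d z i := fun i =>
    (Tame.linear ((EuclideanSpace.proj (𝕜 := ℝ) i).comp (pxi d))).of_eq hI fun _ _ _ => rfl
  have hsq : ∀ z, ‖bvec (B := 3) 2 (pxi d z)‖ ^ 2 = ∑ i, pxi d z i * pxi d z i := by
    intro z
    rw [norm_bvec, EuclideanSpace.real_norm_sq_eq]
    exact Finset.sum_congr rfl fun i _ => sq _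
  simp only [hsq]
  rw [integral_finsetSum _ fun i _ => ((hf i).mul (hf i) hI).integrable ht _ (F.integrable_poly t ht)]
  have h : ∀ i : Fin d, ∫ z, pxi d z i * pxi d z i ∂(F.μ t) = 1 := by
    intro i
    have h1 := F.ibp t ht _ (hf i) ((2 : Fin 3), i)
    have e : ∀ z, fderiv ℝ (fun z => pxi d z i) z (EuclideanSpace.single ((2 : Fin 3), i) 1)
        = 1 := fun z => by
      rw [show (fun z => pxi d z i) = ⇑((EuclideanSpace.proj (𝕜 := ℝ) i).comp (pxi d)) from rfl,
        ContinuousLinearMap.fderiv]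
      simp
    have e2 : ∀ z, pxi d z i * fderiv ℝ (F.Ψ t) z (EuclideanSpace.single ((2 : Fin 3), i) 1)
        = pxi d z i * pxi d z i := fun z => by
      have := (pd_pot hU ht z i).2.2
      simp only [pd] at this
      rw [show F.Ψ = pot V τ from rfl, this]
    rw [integral_congr_ae (ae_of_all _ e), integral_congr_ae (ae_of_all _ e2)] at h1
    simpa using h1.symm
  rw [Finset.sum_congr rfl fun i _ => h i]
  simp

/-- Dimension-free bounds at unit scale. -/
theorem gadget_reg (hT : TensorBoundStatement) (j : ℕ) :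
    ∃ C : ℝ, 0 ≤ C ∧ ∀ (d : ℕ) (V : Euc d → ℝ) (σ : ℝ) (hV : NicePot d V σ (σ * 2)) (τ κ s : ℝ),
      1 ≤ s → 1 ≤ τ - s → 200 * (σ * s) ≤ 1 → |κ| * σ ≤ 1 →
      (family hV.weight τ κ).Reg {s} j 0 (C * √d) (fun t z => (√σ)⁻¹ • oG V t z) ∧
      (family hV.weight τ κ).Reg {s} j 0 (C * √d) (fun t z => σ⁻¹ • oH V t z) ∧
      (family hV.weight τ κ).Reg {s} j 0 (C * √d) (fun t z => (σ⁻¹ * σ⁻¹) • oHH V t z) := by
  choose C₀ hC₀ using fun n => hT (n + 2) (by omega)
  set c : ℕ → ℝ := fun n => 2 * |C₀ n| with hcdef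
  set S := sys c with hS
  set TH : Tm S.β 2 := mul2 (lK 2 0) (lE 1 2) with hTH
  obtain ⟨n₁, Cb, hCb, hb⟩ := S.reg_contract eH eB1 eB0 (a := 1) (b := 1) (c := 0) Nat.one_pos
    Nat.one_pos splitId (lK 2 0) j 0
  obtain ⟨n₂, Ca, hCa, ha⟩ := S.reg_contract eH eB1 eB0 (a := 1) (b := 1) (c := 0) Nat.one_pos
    Nat.one_pos splitId TH j n₁
  obtain ⟨n₃, Cd, hCd, hd'⟩ := S.reg_contract eH eB1 eB0 (a := 1) (b := 1) (c := 0) Nat.one_pos
    Nat.one_pos splitId TH j 0
  obtain ⟨Cg, hCg, hg⟩ := S.reg_vec eH eB1 eB0 (lK 2 0) (eX1 2) j 0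
  obtain ⟨Cx, hCx, hx⟩ := S.reg_vec eH eB1 eB0 (lE 2 2) eXxi j (max n₂ n₃)
  refine ⟨Cg * (√(c 0) + √3) + Cd * (Cx * (1 + √3)) + Cb * (Ca * (Cx * (1 + √3))), by positivity,
    fun d V σ hV τ κ s hs1 hs2 hsL hκ => ?_⟩
  have hσ := hV.pos
  have hU := hV.weight
  have hσ1 : σ ≤ 1 := by nlinarith
  have hsd : s ∈ Ioo 0 τ := ⟨by linarith, by linarith⟩
  set F := family hU τ κ with hF
  have hbase : ∀ n z, AllSplit (|C₀ n| * (σ * 2)) (dl V (n + 2) s z) := fun n z => by
    refine AllSplit.lift (by positivity) ?_ _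
    refine (hC₀ n d V σ (σ * 2) s hV hsd.1 (by linarith) (py d z)).mono ?_
    rw [Nat.add_sub_cancel]
    refine (div_le_div_of_nonneg_right (mul_le_mul_of_nonneg_right (le_abs_self _)
      (by positivity)) (by positivity)).trans (div_le_self (by positivity) ?_)
    exact one_le_pow₀ (Real.one_le_sqrt.2 hs1)
  have hR : ∀ w : ℝ, |w| * σ ≤ 1 → ∃ R : S.Sem F {s}, R.v = val V τ κ w := by
    intro w hw
    refine ⟨⟨val V τ κ w, fun t ht => by rw [mem_singleton_iff.1 ht]; exact hsd,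
      rules hU w (fun n => by positivity) (fun t ht => by rw [mem_singleton_iff.1 ht]; exact hs2)
        fun k n t ht z => ?_⟩, rfl⟩
    rw [mem_singleton_iff.1 ht, eval_lK]
    refine ((hbase n z).smul (co κ w k)).mono ?_
    have hco : |co κ w k| * σ ≤ 1 := by
      fin_cases k
      · simpa [co, abs_of_pos hσ] using hσ1
      · simpa [co] using hκ
      · simpa [co] using hw
    calc |co κ w k| * (|C₀ n| * (σ * 2)) = 2 * |C₀ n| * (|co κ w k| * σ) := by ring
      _ ≤ _ := by rw [hcdef]; exact mul_le_of_le_one_right (by positivity) hco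
  have hG₀ : ∀ (w : ℝ) (R : S.Sem F {s}), R.v = val V τ κ w → Sys.Good₀ R eH eB1 eB0 := by
    intro w R hv
    exact ⟨fun t ht z => by rw [hv]; exact hess_eq hU w ht z,
      fun t ht z => by rw [hv]; exact gradB_eq hU w ht z⟩
  have hcard : √((Fintype.card (Blk 3 d) : ℕ) : ℝ) = √3 * √(d : ℝ) := by
    simp [Real.sqrt_mul]
  have hJ : ({s} : Set ℝ) ⊆ F.dom := fun t ht => by rw [mem_singleton_iff.1 ht]; exact hsd
  have hsd' : 0 ≤ √(d : ℝ) := Real.sqrt_nonneg _
  constructor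
  · -- the score
    have hsσ : 0 < √σ := Real.sqrt_pos.2 hσ
    have hw : |(√σ)⁻¹| * σ ≤ 1 := by
      rw [abs_of_pos (inv_pos.2 hsσ), inv_mul_eq_div, Real.div_sqrt]
      exact Real.sqrt_le_one.2 hσ1
    obtain ⟨R, hv⟩ := hR (√σ)⁻¹ hw
    set M := √(c 0) * √(d : ℝ) with hM
    have h := hg _ F {s} R (hG₀ _ R hv) (fun t z => (√σ)⁻¹ • dl V 1 t z) M (by positivity)
      ((dl_tame hU 1).const_smul isOpen_Ioo _) (fun t ht z => ?_) (fun t ht z => ?_) (fun t ht => ?_)
    · refine (h.congr hJ fun t ht z => by rw [oG, dl_one hU ht.1]).mono le_rfl le_rfl (by positivity) ?_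
      rw [hcard, hM, ← add_mul, ← mul_assoc]
      refine mul_le_mul_of_nonneg_right ?_ hsd'
      have : 0 ≤ Cd * (Cx * (1 + √3)) := by positivity
      have : 0 ≤ Cb * (Ca * (Cx * (1 + √3))) := by positivity
      linarith
    · rw [hv, nabla_smul (dl_tame (τ := τ) hU 1) _ ht, nabla_dl hU 1 ht.1]
      rfl
    · rw [hv]
      exact D_vec hU (√σ)⁻¹ 2 ht z
    · obtain rfl := mem_singleton_iff.1 ht
      have hB : ∀ y i, |hs V t y i i| ≤ |C₀ 0| * (σ * 2) := by
        intro y i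
        have hb' := hC₀ 0 d V σ (σ * 2) t hV hsd.1 (by linarith) y 1 1 splitId one_pos one_pos
          (EuclideanSpace.single (fun _ => i) 1) (EuclideanSpace.single (fun _ => i) 1)
        simp [sum_pi_one, joinIdx_splitId, PiLp.single_apply, funext_iff] at hb'
        exact hb'.trans (mul_le_mul_of_nonneg_right (le_abs_self _) (by positivity))
      have hle := sq_score_le (κ := κ) hU hsd hB
      have e : ∀ z, ‖(√σ)⁻¹ • dl V 1 t z‖ ^ 2 = σ⁻¹ * ‖oG V t z‖ ^ 2 := fun z => by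
        rw [norm_smul, mul_pow, dl_one hU hsd.1, oG, Real.norm_eq_abs, sq_abs, inv_pow,
          Real.sq_sqrt hσ.le]
      simp only [e, integral_const_mul]
      rw [hM, mul_pow, Real.sq_sqrt (by positivity), Real.sq_sqrt (Nat.cast_nonneg _), hcdef]
      refine (mul_le_mul_of_nonneg_left hle (inv_nonneg.2 hσ.le)).trans_eq ?_
      field_simp
  · obtain ⟨R, hv⟩ := hR σ⁻¹ (by rw [abs_of_pos (inv_pos.2 hσ), inv_mul_cancel₀ hσ.ne'])
    have hG := hG₀ _ R hv
    have hxi := hx _ F {s} R hG (fun _ z => bvec 2 (pxi d z)) √(d : ℝ) hsd'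
      (Tame.linear ((bvec 2).comp (pxi d))) (fun t ht z => ?_) (fun t ht z => ?_) (fun t ht => ?_)
    rotate_left
    · rw [hv, nabla_bvec_bproj]; rfl
    · rw [hv]; exact D_xi hU σ⁻¹ ht z
    · obtain rfl := mem_singleton_iff.1 ht
      rw [sq_xi_eq hU hsd, Real.sq_sqrt (Nat.cast_nonneg _)]
    have hM0 : 0 ≤ Cx * (√(d : ℝ) + √((Fintype.card (Blk 3 d) : ℕ) : ℝ)) := by positivity
    have hsymm : ∀ (t : ℝ), t ∈ Ioo 0 τ → ∀ (y v : Euc d) (i : Fin d),
        fderiv ℝ (score V t) y v i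
          = ∑ k, derivTen (smoothPot V t) 2 y (pairIdx i k) * v k := by
      intro t ht y v i
      rw [fderiv_score_coord hU ht.1]
      exact Finset.sum_congr rfl fun k _ => by
        rw [hs_symm hU ht.1, mul_comm]; rfl
    have eTH : ∀ t (z : Sp (Blk 3 d)), TH.eval R.v t z
        = σ⁻¹ • liftTen ![1, 2] (derivTen (smoothPot V t) 2 (py d z)) := fun t z => by
      rw [hv, hTH]
      exact eval_lift_right (V := V) (τ := τ) (κ := κ) σ⁻¹ 2 2 t z
    have eA : ∀ t ∈ Ioo 0 τ, ∀ z, σ⁻¹ • oH V t z = contractTen splitId (TH.eval R.v t z)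
        (show Ten (Blk 3 d) (1 + 0) from bvec 2 (pxi d z)) := fun t ht z => by
      rw [eTH, contract_smul_left, contract_lift_bvec 1 2 _ _ _ (hsymm t ht _ (pxi d z))]
      rfl
    have hA := ((ha _ F {s} R hG _ _ hM0 (hxi.of_le le_rfl (le_max_left _ _))).congr hJ
      (g := fun t z => σ⁻¹ • oH V t z) fun t ht z => eA t ht z)
    have hA0 := ((hd' _ F {s} R hG _ _ hM0 (hxi.of_le le_rfl (le_max_right _ _))).congr hJ
      (g := fun t z => σ⁻¹ • oH V t z) fun t ht z => eA t ht z)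
    have eM : Cx * (√(d : ℝ) + √((Fintype.card (Blk 3 d) : ℕ) : ℝ)) = Cx * (1 + √3) * √(d : ℝ) := by
      rw [hcard]; ring
    have h1 : 0 ≤ Cg * (√(c 0) + √3) := by positivity
    have h2 : 0 ≤ Cd * (Cx * (1 + √3)) := by positivity
    have h3 : 0 ≤ Cb * (Ca * (Cx * (1 + √3))) := by positivity
    constructor
    · refine hA0.mono le_rfl le_rfl (by positivity) ?_
      rw [eM]
      calc Cd * (Cx * (1 + √3) * √(d : ℝ)) = Cd * (Cx * (1 + √3)) * √(d : ℝ) := by ring
        _ ≤ _ := mul_le_mul_of_nonneg_right (by linarith) hsd'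
    · have hB := hb _ F {s} R hG _ _ (mul_nonneg hCa hM0) hA
      refine (hB.congr hJ (g := fun t z => (σ⁻¹ * σ⁻¹) • oHH V t z) fun t ht z => ?_).mono le_rfl
        le_rfl (by positivity) ?_
      · rw [hv]
        show _ = contractTen splitId (σ⁻¹ • dl V (0 + 2) t z)
          (σ⁻¹ • (show Ten (Blk 3 d) (1 + 0) from oH V t z))
        rw [dl_two]
        show _ = contractTen splitId (σ⁻¹ • liftTen ![1, 1] (derivTen (smoothPot V t) 2 (py d z)))
          (σ⁻¹ • (show Ten (Blk 3 d) (1 + 0) from oH V t z))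
        rw [contract_smul_smul, oH,
          contract_lift_bvec 1 1 _ _ _ (hsymm t ht _ (fderiv ℝ (score V t) (py d z) (pxi d z)))]
        rfl
      · rw [eM]
        calc Cb * (Ca * (Cx * (1 + √3) * √(d : ℝ))) = Cb * (Ca * (Cx * (1 + √3))) * √(d : ℝ) := by
              ring
          _ ≤ _ := mul_le_mul_of_nonneg_right (by linarith) hsd'

end PathG

end Vale.Agent.P347
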