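import Vale.Agent.P347.PathBlocks
import Vale.Agent.P347.PathLevel

/-!
Vectors and tensors placed in blocks: gradients, contractions and adjoint gradients.
-/

namespace Vale.Agent.P347

open scoped RealInnerProductSpace ContDiff

/-- A vector read as a tensor of rank one. -/
noncomputable def tenL (ι : Type) [Fintype ι] : Sp ι →L[ℝ] Ten ι 1 :=
  ((EuclideanSpace.equiv (Fin 1 → ι) ℝ).symm : ((Fin 1 → ι) → ℝ) →L[ℝ] Ten ι 1).comp
    (ContinuousLinearMap.pi fun α => EuclideanSpace.proj (α 0))

@[simp] lemma tenL_apply {ι : Type} [Fintype ι] (v : Sp ι) (α : Fin 1 → ι) :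
    tenL ι v α = v (α 0) := rfl

variable {B d n : ℕ}

/-- The coordinatewise rescaling of the blocks. -/
noncomputable def diagL (d : ℕ) (r : Fin B → ℝ) : Sp (Blk B d) →L[ℝ] Sp (Blk B d) :=
  ((EuclideanSpace.equiv (Blk B d) ℝ).symm : (Blk B d → ℝ) →L[ℝ] Sp (Blk B d)).comp
    (ContinuousLinearMap.pi fun p => r p.1 • EuclideanSpace.proj p)

@[simp] lemma diagL_apply (r : Fin B → ℝ) (z : Sp (Blk B d)) (p : Blk B d) :
    diagL d r z p = r p.1 * z p := by simp [diagL]

lemma bproj_diagL (r : Fin B → ℝ) (k : Fin B) (z : Sp (Blk B d)) :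
    bproj k (diagL d r z) = r k • bproj k z := by
  ext i; simp

/-- The rescaling of the blocks as an equivalence. -/
noncomputable def diagE (d : ℕ) (r : Fin B → ℝ) (hr : ∀ k, r k ≠ 0) :
    Sp (Blk B d) ≃L[ℝ] Sp (Blk B d) :=
  ContinuousLinearEquiv.equivOfInverse (diagL d r) (diagL d fun k => (r k)⁻¹)
    (fun z => by ext p; simp [hr p.1]) (fun z => by ext p; simp [hr p.1])

/-- A vector placed in one block. -/
noncomputable def bincl (k : Fin B) : Euc d →L[ℝ] Sp (Blk B d) :=
  ((EuclideanSpace.equiv (Blk B d) ℝ).symm : (Blk B d → ℝ) →L[ℝ] Sp (Blk B d)).comp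
    (ContinuousLinearMap.pi fun p => if p.1 = k then EuclideanSpace.proj p.2 else 0)

@[simp] lemma bincl_apply (k : Fin B) (v : Euc d) (p : Blk B d) :
    bincl k v p = if p.1 = k then v p.2 else 0 := by
  by_cases h : p.1 = k <;> simp [bincl, h]

lemma bproj_bincl (k l : Fin B) (v : Euc d) :
    bproj l (bincl k v) = if l = k then v else 0 := by
  ext i; by_cases h : l = k <;> simp [h]

/-- A vector placed in one block, as a tensor of rank one. -/
noncomputable def bvec (k : Fin B) : Euc d →L[ℝ] Ten (Blk B d) 1 :=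
  (tenL (Blk B d)).comp (bincl k)

lemma bvec_apply (k : Fin B) (v : Euc d) (α : Fin 1 → Blk B d) :
    bvec k v α = if (α 0).1 = k then v (α 0).2 else 0 := by
  simp [bvec]

lemma bvec_eq_lift (k : Fin B) (v : Euc d) :
    bvec k v = liftTen (fun _ => k) (tenL (Fin d) v) := by
  ext α
  simp [bvec_apply, liftTen_apply, Fin.forall_fin_one]

lemma norm_bvec (k : Fin B) (v : Euc d) : ‖bvec k v‖ = ‖v‖ := by
  refine (sq_eq_sq₀ (norm_nonneg _) (norm_nonneg _)).1 ?_
  rw [EuclideanSpace.real_norm_sq_eq, EuclideanSpace.real_norm_sq_eq, sum_pi_one,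
    Fintype.sum_prod_type, Finset.sum_eq_single k]
  · simp [bvec_apply]
  · intro b _ hb; simp [bvec_apply, hb]
  · simp

/-- The vector in one block of a tensor of rank one. -/
noncomputable def bextr (k : Fin B) : Ten (Blk B d) 1 →L[ℝ] Euc d :=
  (bproj k).comp (vecL (Blk B d))

lemma bextr_bvec (k : Fin B) (v : Euc d) : bextr k (bvec k v) = v := by
  ext i; simp [bextr, bvec_apply]

lemma norm_bextr (k : Fin B) (T : Ten (Blk B d) 1) : ‖bextr k T‖ ≤ ‖T‖ :=
  (norm_bproj_le k _).trans (norm_vecL T).le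

/-- The gradient of a field of one block. -/
lemma nabla_lift_bproj (ks : Fin n → Fin B) (k : Fin B) {g : Euc d → Ten (Fin d) n}
    {z : Sp (Blk B d)} (hg : DifferentiableAt ℝ g (bproj k z)) :
    nabla (fun x => liftTen ks (g (bproj k x))) z
      = liftTen (Fin.cons k ks) (nabla g (bproj k z)) := by
  have h : HasFDerivAt (fun x => liftTen ks (g (bproj k x)))
      ((liftL ks).comp ((fderiv ℝ g (bproj k z)).comp (bproj k))) z :=
    (liftL ks).hasFDerivAt.comp z (hg.hasFDerivAt.comp z (bproj k).hasFDerivAt)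
  ext α
  simp only [nabla, h.fderiv, ContinuousLinearMap.comp_apply, bproj_single, liftL_apply,
    liftTen_apply, Fin.forall_fin_succ, Fin.cons_zero, Fin.cons_succ]
  by_cases h1 : ∀ s, (Fin.tail α s).1 = ks s
  · rw [if_pos h1]
    have h1' : ∀ i, (α (Fin.succ i)).1 = ks i := h1
    by_cases h0 : (α 0).1 = k
    · simp [h0, h1', Fin.tail]
      rfl
    · simp [h0]
  · rw [if_neg h1, if_neg (show ¬((α 0).1 = k ∧ ∀ i, (α (Fin.succ i)).1 = ks i) from fun h => h1 h.2)]

lemma lift_congr {ks ks' : Fin n → Fin B} (h : ∀ s, ks s = ks' s) (T : Ten (Fin d) n) :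
    liftTen ks T = liftTen ks' T := by rw [funext h]

lemma nabla_bvec_bproj (k l : Fin B) (z : Sp (Blk B d)) :
    nabla (fun x => bvec k (bproj l x)) z = blockId d l k := by
  ext α
  have h := ((bvec (d := d) k).comp (bproj l)).hasFDerivAt (x := z)
  simp only [nabla, show (fun x => bvec k (bproj l x))
    = ⇑((bvec (d := d) k).comp (bproj l)) from rfl, h.fderiv, ContinuousLinearMap.comp_apply,
    bproj_single, blockId_apply]
  by_cases h0 : (α 0).1 = l <;> by_cases h1 : (α 1).1 = k <;>
    simp [h0, h1, bvec_apply, PiLp.single_apply, eq_comm, Fin.tail]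

/-- Contraction of two rank two tensors placed in blocks. -/
lemma contract_lift (a b c : Fin B) (S T : Ten (Fin d) 2) :
    contractTen splitId (liftTen ![a, b] S) (show Ten (Blk B d) (1 + 1) from liftTen ![b, c] T)
      = liftTen ![a, c] (contractTen splitId S (show Ten (Fin d) (1 + 1) from T)) := by
  have e1 : ∀ {κ : Type} (α : Fin (1 + 1) → κ),
      (fun i => α (Fin.castAdd 1 i)) = fun _ : Fin 1 => α 0 := by
    intro κ α; funext i; congr 1; ext; simp
  have e2 : ∀ {κ : Type} (p : κ) (α : Fin (1 + 1) → κ),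
      (Fin.append (fun _ : Fin 1 => p) fun i => α (Fin.natAdd 1 i)) = pairIdx p (α 1) := by
    intro κ p α; funext s; fin_cases s <;> rfl
  ext α
  simp only [contractTen_apply, sum_pi_one, e1, e2, joinIdx_splitId, liftTen_apply,
    Fin.forall_fin_two, pairIdx, Matrix.cons_val_zero, Matrix.cons_val_one, Fintype.sum_prod_type]
  by_cases ha : (α 0).1 = a <;> by_cases hc : (α 1).1 = c <;>
    simp [ha, hc]
  refine Finset.sum_congr rfl fun i _ => ?_
  refine congrArg₂ _ (congrArg _ ?_) (congrArg _ ?_) <;> funext s <;> fin_cases s <;> rfl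

lemma contract_idTen_left (T : Ten (Fin d) 2) :
    contractTen splitId (WithLp.toLp 2 fun α => if α 0 = α 1 then 1 else 0)
      (show Ten (Fin d) (1 + 1) from T) = T := by
  ext α
  simp only [contractTen_apply, sum_pi_one]
  have e1 : (fun i => α (Fin.castAdd 1 i)) = fun _ : Fin 1 => α 0 := by
    funext i; congr 1; ext; simp
  simp only [e1, joinIdx_splitId, pairIdx, Matrix.cons_val_zero, Matrix.cons_val_one, ite_mul,
    one_mul, zero_mul, Finset.sum_ite_eq, Finset.mem_univ, if_true]
  refine congrArg _ ?_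
  funext s; fin_cases s <;> rfl

lemma contract_idTen_right (T : Ten (Fin d) 2) :
    contractTen splitId T (show Ten (Fin d) (1 + 1) from
      WithLp.toLp 2 fun α => if α 0 = α 1 then 1 else 0) = T := by
  ext α
  have e1 : (fun i => α (Fin.castAdd 1 i)) = fun _ : Fin 1 => α 0 := by
    funext i; congr 1; ext; simp
  have e2 : ∀ p : Fin d, (Fin.append (fun _ : Fin 1 => p) fun i => α (Fin.natAdd 1 i))
      = pairIdx p (α 1) := by
    intro p; funext s; fin_cases s <;> rfl
  simp only [contractTen_apply, sum_pi_one, e1, e2, joinIdx_splitId, pairIdx, Matrix.cons_val_zero,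
    Matrix.cons_val_one, mul_ite, mul_one, mul_zero, Finset.sum_ite_eq', Finset.mem_univ, if_true]
  refine congrArg _ ?_
  funext s; fin_cases s <;> rfl

lemma contract_blockId_left (a b c : Fin B) (T : Ten (Fin d) 2) :
    contractTen splitId (blockId d a b) (show Ten (Blk B d) (1 + 1) from liftTen ![b, c] T)
      = liftTen ![a, c] T := by
  rw [blockId, contract_lift, contract_idTen_left]

lemma contract_blockId_right (a b c : Fin B) (T : Ten (Fin d) 2) :
    contractTen splitId (liftTen ![a, b] T) (show Ten (Blk B d) (1 + 1) from blockId d b c)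
      = liftTen ![a, c] T := by
  rw [blockId, contract_lift, contract_idTen_right]

lemma contract_smul_smul {ι : Type} [Fintype ι] {a b c m : ℕ} (e : Fin a ⊕ Fin b ≃ Fin m)
    (r s : ℝ) (K : Ten ι m) (f : Ten ι (b + c)) :
    contractTen e (r • K) (s • f) = (r * s) • contractTen e K f := by
  ext α
  simp only [contractTen_apply, PiLp.smul_apply, smul_eq_mul, Finset.mul_sum]
  exact Finset.sum_congr rfl fun β _ => by ring

/-- A rank two tensor in blocks acting on a vector in a block. -/
lemma contract_lift_bvec (a b : Fin B) (T : Ten (Fin d) 2) (v w : Euc d)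
    (h : ∀ i, w i = ∑ j, T (pairIdx i j) * v j) :
    contractTen splitId (liftTen ![a, b] T) (show Ten (Blk B d) (1 + 0) from bvec b v)
      = (show Ten (Blk B d) (1 + 0) from bvec a w) := by
  ext α
  simp only [contractTen_apply, sum_pi_one]
  have e1 : (fun i => α (Fin.castAdd 0 i)) = fun _ : Fin 1 => α 0 := by
    funext i; congr 1; ext; simp
  simp only [e1, joinIdx_splitId, liftTen_apply, Fin.forall_fin_two, pairIdx,
    Matrix.cons_val_zero, Matrix.cons_val_one, Fintype.sum_prod_type]
  show _ = bvec a w α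
  rw [bvec_apply]
  have e3 : ∀ p : Blk B d, (bvec b v) (Fin.append (fun _ : Fin 1 => p)
      fun i => α (Fin.natAdd 1 i)) = if p.1 = b then v p.2 else 0 := fun p => by
    rw [bvec_apply]; rfl
  by_cases ha : (α 0).1 = a
  · simp only [ha, true_and, if_true, e3, h]
    rw [Finset.sum_eq_single b]
    · refine Finset.sum_congr rfl fun j _ => ?_
      simp
      left
      refine congrArg _ ?_
      funext s; fin_cases s <;> rfl
    · intro c _ hc; simp [hc]
    · simp
  · simp [ha]

variable {F : Family (Blk B d)}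

/-- The adjoint gradient of a matrix field of one block placed in two blocks. -/
lemma delta_lift (a c k : Fin B) {g : ℝ → Euc d → Ten (Fin d) 2}
    (hf : Tame F.dom fun s z => liftTen ![a, c] (g s (bproj k z))) {t : ℝ} (ht : t ∈ F.dom)
    (z : Sp (Blk B d)) (hg : DifferentiableAt ℝ (g t) (bproj k z)) :
    F.delta (fun s z => liftTen ![a, c] (g s (bproj k z))) t z
      = bvec c (WithLp.toLp 2 fun j => ∑ i, (pd (a, i) F.Ψ t z * g t (bproj k z) (pairIdx i j)
          - if a = k then nabla (g t) (bproj k z) (Fin.cons i (pairIdx i j)) else 0)) := by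
  ext α
  rw [F.delta_apply hf ht, bvec_apply]
  have hn : ∀ p, pd p (fun s y => liftTen ![a, c] (g s (bproj k y)) (Fin.cons p α)) t z
      = liftTen (Fin.cons k ![a, c]) (nabla (g t) (bproj k z)) (Fin.cons p (Fin.cons p α)) := by
    intro p
    rw [← nabla_lift_bproj ![a, c] k hg, nabla_apply hf ht]
    simp [pd]
  have hα : α = fun _ => α 0 := by funext s; rw [Subsingleton.elim s 0]
  rw [Finset.sum_congr rfl fun p _ => by rw [hn p]]
  simp only [liftTen_apply, Fin.forall_fin_two, Fin.forall_fin_succ, Fin.cons_zero,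
    Fin.cons_succ, Matrix.cons_val_zero, Matrix.cons_val_one, Fintype.sum_prod_type]
  have e0 : ∀ (p : Blk B d), (Fin.cons p α : Fin 2 → Blk B d) 0 = p := fun p => rfl
  have e1 : ∀ (p : Blk B d), (Fin.cons p α : Fin 2 → Blk B d) 1 = α 0 := fun p => rfl
  by_cases hc : (α 0).1 = c
  · rw [if_pos hc, Finset.sum_eq_single a]
    · refine Finset.sum_congr rfl fun i _ => ?_
      have h2 : (fun s => ((Fin.cons (a, i) α : Fin 2 → Blk B d) s).2)
          = pairIdx i (α 0).2 := by funext s; fin_cases s <;> rfl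
      have h3 : (fun s => ((Fin.cons (a, i) (Fin.cons (a, i) α) : Fin 3 → Blk B d) s).2)
          = Fin.cons i (pairIdx i (α 0).2) := by funext s; fin_cases s <;> rfl
      simp [hc, h2, h3]
    · intro b _ hb; simp [hb]
    · simp
  · simp [hc]

end Vale.Agent.P347
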