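import Vale.Agent.P347.Basic
import Vale.Agent.P347.SmoothBounded

/-!
Elementary facts on strongly convex potentials: gradient step, growth and Gibbs moments.
-/

namespace Vale.Agent.P347.Poincare

open MeasureTheory ProbabilityTheory Filter
open scoped RealInnerProductSpace ContDiff Topology

variable {d : ℕ}

/-- The Riesz map from linear forms to vectors. -/
noncomputable def riesz (d : ℕ) : StrongDual ℝ (Euc d) →L[ℝ] Euc d :=
  (InnerProductSpace.toDual ℝ (Euc d)).symm.toContinuousLinearEquiv.toContinuousLinearMap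

lemma inner_riesz (φ : StrongDual ℝ (Euc d)) (v : Euc d) : ⟪riesz d φ, v⟫ = φ v :=
  InnerProductSpace.toDual_symm_apply

lemma norm_riesz (φ : StrongDual ℝ (Euc d)) : ‖riesz d φ‖ = ‖φ‖ :=
  (InnerProductSpace.toDual ℝ (Euc d)).symm.norm_map φ

/-- The gradient vector of `W`. -/
noncomputable def gvec (W : Euc d → ℝ) (x : Euc d) : Euc d := riesz d (fderiv ℝ W x)

/-- One gradient step. -/
noncomputable def gstep (W : Euc d → ℝ) (η : ℝ) (x : Euc d) : Euc d := x - η • gvec W x

lemma bilin_form_le (S : Euc d →L[ℝ] Euc d →L[ℝ] ℝ) (hs : ∀ u v, S u v = S v u) {ρ : ℝ}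
    (h0 : ∀ v, 0 ≤ S v v) (h1 : ∀ v, S v v ≤ ρ * ‖v‖ ^ 2) (u v : Euc d) :
    |S u v| ≤ ρ * ‖u‖ * ‖v‖ := by
  have hq : ∀ s : ℝ, 0 ≤ S v v * (s * s) + (2 * S u v) * s + S u u := fun s => by
    have := h0 (u + s • v)
    simp only [map_add, map_smul, add_apply, smul_apply, smul_eq_mul, hs v u] at this
    linarith
  have hd := discrim_le_zero hq
  rw [discrim] at hd
  rcases (norm_nonneg u).eq_or_lt' with hu | hu
  · rw [norm_eq_zero] at hu; simp [hu]
  · have hρ : 0 ≤ ρ := by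
      have := (h0 u).trans (h1 u)
      exact nonneg_of_mul_nonneg_left this (pow_pos hu 2)
    refine abs_le_of_sq_le_sq ?_ (by positivity)
    nlinarith [mul_le_mul (h1 v) (h1 u) (h0 u) ((h0 v).trans (h1 v))]

/-- Quantitative data extracted from a nice potential. -/
structure PotData (d : ℕ) (W : Euc d → ℝ) (c M C3 : ℝ) : Prop where
  pos : 0 < c
  le : c ≤ M
  C3_nonneg : 0 ≤ C3
  diff1 : Differentiable ℝ W
  diff2 : Differentiable ℝ (fderiv ℝ W)
  symm : ∀ x u v, fderiv ℝ (fderiv ℝ W) x u v = fderiv ℝ (fderiv ℝ W) x v u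
  lower : ∀ x v : Euc d, c * ‖v‖ ^ 2 ≤ fderiv ℝ (fderiv ℝ W) x v v
  upper : ∀ x v : Euc d, fderiv ℝ (fderiv ℝ W) x v v ≤ M * ‖v‖ ^ 2
  hess_lip : ∀ x y, ‖fderiv ℝ (fderiv ℝ W) x - fderiv ℝ (fderiv ℝ W) y‖ ≤ C3 * ‖x - y‖

lemma exists_potData {W : Euc d → ℝ} {c M : ℝ} (h : NicePot d W c M) :
    ∃ C3, PotData d W c (max M c) C3 := by
  obtain ⟨C, hC⟩ := h.higher 3 le_rfl
  have hC0 : 0 ≤ C := (norm_nonneg _).trans (hC 0)
  have h1 : ContDiff ℝ ∞ (fderiv ℝ W) := h.smooth.fderiv_right le_rfl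
  have h2 : ContDiff ℝ ∞ (fderiv ℝ (fderiv ℝ W)) := h1.fderiv_right le_rfl
  refine ⟨C, h.pos, le_max_right _ _, hC0, h.smooth.differentiable (by simp),
    h1.differentiable (by simp), fun x u v => ?_, h.hessian_lower,
    fun x v => (h.hessian_upper x v).trans (by gcongr; exact le_max_left _ _), fun x y => ?_⟩
  · exact (h.smooth.contDiffAt.isSymmSndFDerivAt (n := ∞)
      (by simp only [minSmoothness_of_isRCLikeNormedField]; exact WithTop.coe_le_coe.mpr le_top)) u v
  · have hd : Differentiable ℝ (iteratedFDeriv ℝ 2 W) :=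
      h.smooth.differentiable_iteratedFDeriv (by exact WithTop.coe_lt_coe.mpr (ENat.natCast_lt_top 2))
    have hl : ‖iteratedFDeriv ℝ 2 W x - iteratedFDeriv ℝ 2 W y‖ ≤ C * ‖x - y‖ :=
      Convex.norm_image_sub_le_of_norm_fderiv_le (𝕜 := ℝ) (fun z _ => hd z)
        (fun z _ => by rw [norm_fderiv_iteratedFDeriv]; exact hC z) convex_univ
        (Set.mem_univ y) (Set.mem_univ x)
    refine ContinuousLinearMap.opNorm_le_bound₂ _ (by positivity) fun u v => ?_
    have e : (fderiv ℝ (fderiv ℝ W) x - fderiv ℝ (fderiv ℝ W) y) u v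
        = (iteratedFDeriv ℝ 2 W x - iteratedFDeriv ℝ 2 W y) ![u, v] := by
      simp [iteratedFDeriv_two_apply]
    rw [e]
    refine ((iteratedFDeriv ℝ 2 W x - iteratedFDeriv ℝ 2 W y).le_opNorm _).trans ?_
    rw [Fin.prod_univ_two, mul_assoc _ ‖u‖]
    exact mul_le_mul_of_nonneg_right hl (by positivity)

variable {W : Euc d → ℝ} {c M C3 η : ℝ}

lemma PotData.continuous (h : PotData d W c M C3) : Continuous W := h.diff1.continuous

lemma PotData.M_nonneg (h : PotData d W c M C3) : 0 ≤ M := h.pos.le.trans h.le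

lemma PotData.hess_bound (h : PotData d W c M C3) (x : Euc d) :
    ‖fderiv ℝ (fderiv ℝ W) x‖ ≤ M := by
  refine ContinuousLinearMap.opNorm_le_bound₂ _ h.M_nonneg fun u v => ?_
  rw [Real.norm_eq_abs]
  exact bilin_form_le _ (h.symm x) (fun w => (mul_nonneg h.pos.le (sq_nonneg _)).trans (h.lower x w))
    (h.upper x) u v

lemma PotData.continuous_fderiv (h : PotData d W c M C3) : Continuous (fderiv ℝ W) :=
  h.diff2.continuous

lemma PotData.grad_growth (h : PotData d W c M C3) (x : Euc d) :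
    ‖fderiv ℝ W x‖ ≤ ‖fderiv ℝ W 0‖ + M * ‖x‖ := by
  have := Convex.norm_image_sub_le_of_norm_fderiv_le (𝕜 := ℝ) (fun z _ => h.diff2 z)
    (fun z _ => h.hess_bound z) convex_univ (Set.mem_univ (0 : Euc d)) (Set.mem_univ x)
  rw [sub_zero] at this
  linarith [norm_le_norm_add_norm_sub' (fderiv ℝ W x) (fderiv ℝ W 0), sub_zero x]

lemma PotData.hasFDerivAt_gstep (h : PotData d W c M C3) (η : ℝ) (x : Euc d) :
    HasFDerivAt (gstep W η)
      (ContinuousLinearMap.id ℝ (Euc d) - η • (riesz d).comp (fderiv ℝ (fderiv ℝ W) x)) x :=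
  (hasFDerivAt_id x).sub (((riesz d).hasFDerivAt.comp x (h.diff2 x).hasFDerivAt).const_smul η)

lemma PotData.gstep_diff (h : PotData d W c M C3) (η : ℝ) : Differentiable ℝ (gstep W η) :=
  fun x => (h.hasFDerivAt_gstep η x).differentiableAt

lemma PotData.gstep_fderiv_bound (h : PotData d W c M C3) (hη : 0 ≤ η) (hηM : η * M ≤ 1)
    (x : Euc d) : ‖fderiv ℝ (gstep W η) x‖ ≤ 1 - c * η := by
  have hρ : 0 ≤ 1 - c * η := by nlinarith [mul_le_mul_of_nonneg_left h.le hη]
  rw [(h.hasFDerivAt_gstep η x).fderiv]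
  refine ContinuousLinearMap.opNorm_le_bound _ hρ fun u => ?_
  set A := (ContinuousLinearMap.id ℝ (Euc d) - η • (riesz d).comp (fderiv ℝ (fderiv ℝ W) x))
  have hA : ∀ u w, ⟪A u, w⟫ = ⟪u, w⟫ - η * fderiv ℝ (fderiv ℝ W) x u w := fun u w => by
    simp [A, inner_sub_left, real_inner_smul_left, inner_riesz]
  set S : Euc d →L[ℝ] Euc d →L[ℝ] ℝ :=
    (isBoundedBilinearMap_inner (𝕜 := ℝ) (E := Euc d)).toContinuousLinearMap
      - η • fderiv ℝ (fderiv ℝ W) x
  have hS : ∀ u w, S u w = ⟪u, w⟫ - η * fderiv ℝ (fderiv ℝ W) x u w := fun u w => by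
    simp [S, IsBoundedBilinearMap.toContinuousLinearMap]; rfl
  have key := bilin_form_le S (fun a b => by rw [hS, hS, real_inner_comm, h.symm x a b])
    (ρ := 1 - c * η) (fun v => ?_) (fun v => ?_) u (A u)
  · rw [hS, ← hA, real_inner_self_eq_norm_sq, abs_of_nonneg (sq_nonneg _)] at key
    rcases (norm_nonneg (A u)).eq_or_lt' with h0 | h0
    · rw [h0]; positivity
    · exact le_of_mul_le_mul_right (by linarith) h0
  · rw [hS, real_inner_self_eq_norm_sq]
    have := mul_le_mul_of_nonneg_left (h.upper x v) hη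
    have := mul_le_mul_of_nonneg_right hηM (sq_nonneg ‖v‖)
    nlinarith
  · rw [hS, real_inner_self_eq_norm_sq]
    have := mul_le_mul_of_nonneg_left (h.lower x v) hη
    nlinarith

lemma PotData.gstep_fderiv_lip (h : PotData d W c M C3) (hη : 0 ≤ η) (x y : Euc d) :
    ‖fderiv ℝ (gstep W η) x - fderiv ℝ (gstep W η) y‖ ≤ η * C3 * ‖x - y‖ := by
  rw [(h.hasFDerivAt_gstep η x).fderiv, (h.hasFDerivAt_gstep η y).fderiv]
  refine ContinuousLinearMap.opNorm_le_bound _ (by have := h.C3_nonneg; positivity) fun u => ?_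
  simp only [sub_apply, smul_apply, ContinuousLinearMap.comp_apply,
    sub_sub_sub_cancel_left]
  rw [← smul_sub, ← map_sub, norm_smul, Real.norm_eq_abs, abs_of_nonneg hη, norm_riesz]
  calc η * ‖fderiv ℝ (fderiv ℝ W) y u - fderiv ℝ (fderiv ℝ W) x u‖
      ≤ η * (C3 * ‖x - y‖ * ‖u‖) := by
        refine mul_le_mul_of_nonneg_left ?_ hη
        rw [norm_sub_rev, ← sub_apply]
        exact (ContinuousLinearMap.le_opNorm _ u).trans
          (mul_le_mul_of_nonneg_right (h.hess_lip x y) (norm_nonneg _))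
    _ = _ := by ring

/-- Quadratic lower bound of the potential. -/
lemma PotData.quadratic_lower (h : PotData d W c M C3) (x : Euc d) :
    W 0 + fderiv ℝ W 0 x + c / 2 * ‖x‖ ^ 2 ≤ W x := by
  set g : ℝ → ℝ := fun s => W (s • x) - W 0 - s * fderiv ℝ W 0 x - c / 2 * ‖x‖ ^ 2 * s ^ 2
  set g1 : ℝ → ℝ := fun s => fderiv ℝ W (s • x) x - fderiv ℝ W 0 x - c * ‖x‖ ^ 2 * s
  have hline : ∀ s : ℝ, HasDerivAt (fun s : ℝ => s • x) x s := fun s => by
    simpa using (hasDerivAt_id s).smul_const x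
  have hg : ∀ s, HasDerivAt g (g1 s) s := fun s => by
    have h1 := (h.diff1 (s • x)).hasFDerivAt.comp_hasDerivAt s (hline s)
    have h2 := (((h1.sub_const (W 0)).sub ((hasDerivAt_id s).mul_const (fderiv ℝ W 0 x)))).sub
      (((hasDerivAt_id s).pow 2).const_mul (c / 2 * ‖x‖ ^ 2))
    refine h2.congr_deriv ?_
    simp [g1]; ring
  have hg1 : ∀ s, HasDerivAt g1 (fderiv ℝ (fderiv ℝ W) (s • x) x x - c * ‖x‖ ^ 2) s := fun s => by
    have h0 : HasDerivAt (fun s : ℝ => fderiv ℝ W (s • x)) (fderiv ℝ (fderiv ℝ W) (s • x) x) s :=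
      (h.diff2 (s • x)).hasFDerivAt.comp_hasDerivAt s (hline s)
    have h1 : HasDerivAt (fun s : ℝ => fderiv ℝ W (s • x) x)
        (fderiv ℝ (fderiv ℝ W) (s • x) x x) s := by
      simpa using h0.clm_apply (hasDerivAt_const s x)
    have h2 := (h1.sub_const (fderiv ℝ W 0 x)).sub ((hasDerivAt_id s).const_mul (c * ‖x‖ ^ 2))
    refine h2.congr_deriv ?_
    simp
  have hmono : Monotone g1 := monotone_of_deriv_nonneg (fun s => (hg1 s).differentiableAt)
    fun s => by rw [(hg1 s).deriv]; linarith [h.lower (s • x) x]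
  have h0 : g1 0 = 0 := by simp [g1]
  have := monotoneOn_of_hasDerivWithinAt_nonneg (f := g) (f' := g1) (convex_Ici (0 : ℝ))
    (fun s _ => (hg s).continuousAt.continuousWithinAt) (fun s _ => (hg s).hasDerivWithinAt)
    (fun s hs => by
      rw [interior_Ici] at hs
      exact h0 ▸ hmono (le_of_lt hs)) (Set.self_mem_Ici) (Set.mem_Ici.mpr zero_le_one) zero_le_one
  simp only [g] at this
  simp at this
  linarith

lemma PotData.exp_bound (h : PotData d W c M C3) (p : ℕ) :
    ∃ A : ℝ, 0 ≤ A ∧ ∀ x : Euc d, ‖x‖ ^ p * Real.exp (-W x) ≤ A * Real.exp (-(c / 4) * ‖x‖ ^ 2) := by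
  set b := ‖fderiv ℝ W 0‖
  refine ⟨p.factorial * Real.exp (-W 0 + (1 + b) ^ 2 / c), by positivity, fun x => ?_⟩
  have h1 : ‖x‖ ^ p ≤ p.factorial * Real.exp ‖x‖ := by
    have := Real.pow_div_factorial_le_exp ‖x‖ (norm_nonneg x) p
    rwa [div_le_iff₀ (by positivity), mul_comm] at this
  have h2 : -W x ≤ -W 0 + b * ‖x‖ - c / 2 * ‖x‖ ^ 2 := by
    have := h.quadratic_lower x
    have := (fderiv ℝ W 0).le_opNorm x
    rw [Real.norm_eq_abs] at this
    have := neg_abs_le (fderiv ℝ W 0 x)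
    linarith
  calc ‖x‖ ^ p * Real.exp (-W x)
      ≤ p.factorial * Real.exp ‖x‖ * Real.exp (-W 0 + b * ‖x‖ - c / 2 * ‖x‖ ^ 2) :=
        mul_le_mul h1 (Real.exp_le_exp.mpr h2) (Real.exp_pos _).le (by positivity)
    _ ≤ _ := by
        rw [mul_assoc, mul_assoc, ← Real.exp_add, ← Real.exp_add]
        refine mul_le_mul_of_nonneg_left (Real.exp_le_exp.mpr ?_) (by positivity)
        have hc := h.pos
        have hsq : (1 + b) * ‖x‖ ≤ (1 + b) ^ 2 / c + c / 4 * ‖x‖ ^ 2 := by
          have : 0 ≤ (1 / c) * (c / 2 * ‖x‖ - (1 + b)) ^ 2 := by positivity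
          field_simp at this ⊢
          nlinarith
        linarith

lemma PotData.integrable_weight (h : PotData d W c M C3) (p : ℕ) :
    Integrable (fun x => ‖x‖ ^ p * Real.exp (-W x)) := by
  obtain ⟨A, hA0, hA⟩ := h.exp_bound p
  have hg : Integrable (fun x : Euc d => Real.exp (-(c / 4) * ‖x‖ ^ 2)) := by
    have := GaussianFourier.integrable_cexp_neg_mul_sq_norm_add
      (V := Euc d) (b := ((c / 4 : ℝ) : ℂ)) (by simpa using h.pos) 0 0
    refine this.norm.congr (.of_forall fun x => ?_)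
    simp [Complex.norm_exp, ← Complex.ofReal_pow, Complex.mul_re]
  refine (hg.const_mul A).mono' (((continuous_norm.pow p).mul
    h.continuous.neg.rexp).aestronglyMeasurable) (.of_forall fun x => ?_)
  rw [Real.norm_eq_abs, abs_of_nonneg (by positivity)]
  exact hA x

lemma PotData.integrable_exp (h : PotData d W c M C3) : Integrable (fun x => Real.exp (-W x)) := by
  simpa using h.integrable_weight 0

lemma PotData.isProb (h : PotData d W c M C3) : IsProbabilityMeasure (gibbs W) :=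
  isProbabilityMeasure_tilted h.integrable_exp

lemma PotData.integrable_gibbs_iff (h : PotData d W c M C3) {F : Type*} [NormedAddCommGroup F]
    [NormedSpace ℝ F] (g : Euc d → F) :
    Integrable g (gibbs W) ↔ Integrable (fun x => Real.exp (-W x) • g x) :=
  integrable_tilted_iff h.integrable_exp g

lemma PotData.integrable_moment (h : PotData d W c M C3) (p : ℕ) :
    Integrable (fun x => ‖x‖ ^ p) (gibbs W) := by
  rw [h.integrable_gibbs_iff]
  refine (h.integrable_weight p).congr (.of_forall fun x => ?_)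
  simp [mul_comm]

lemma PotData.integrable_of_growth (h : PotData d W c M C3) {g : Euc d → ℝ} (hg : Continuous g)
    {C : ℝ} {p : ℕ} (hb : ∀ x, |g x| ≤ C * (1 + ‖x‖ ^ p)) : Integrable g (gibbs W) := by
  have := h.isProb
  exact Integrable.mono' (((integrable_const (1 : ℝ)).add (h.integrable_moment p)).const_mul C)
    hg.aestronglyMeasurable (.of_forall fun x => by rw [Real.norm_eq_abs]; exact hb x)

end Vale.Agent.P347.Poincare
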