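import Vale.Agent.P347.PoincareBase

/-!
The Gaussian averaging step, the variance produced by one step and the stationarity defect.
-/

namespace Vale.Agent.P347.Poincare

open MeasureTheory ProbabilityTheory Filter
open scoped RealInnerProductSpace ContDiff Topology

variable {d : ℕ}

/-- Average of `f` over a Gaussian of scale `a`. -/
noncomputable def avg (a : ℝ) (f : Euc d → ℝ) (y : Euc d) : ℝ := ∫ ξ, f (y + a • ξ) ∂(gauss d)

/-- Moments of the standard Gaussian. -/
noncomputable def gmom (d p : ℕ) : ℝ := ∫ ξ, ‖ξ‖ ^ p ∂(gauss d)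

lemma gmom_nonneg (d p : ℕ) : 0 ≤ gmom d p := integral_nonneg fun ξ => by positivity

lemma hasFDerivAt_avg {f : Euc d → ℝ} (hd : Differentiable ℝ f) (hc : Continuous (fderiv ℝ f))
    {B L : ℝ} (hB : ∀ x, |f x| ≤ B) (hL : ∀ x, ‖fderiv ℝ f x‖ ≤ L) (a : ℝ) (y : Euc d) :
    HasFDerivAt (avg a f) (∫ ξ, fderiv ℝ f (y + a • ξ) ∂(gauss d)) y := by
  have hcf := hd.continuous
  refine hasFDerivAt_integral_of_dominated_of_fderiv_le (μ := gauss d)
    (F := fun y ξ => f (y + a • ξ)) (F' := fun y ξ => fderiv ℝ f (y + a • ξ))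
    (bound := fun _ => L) Filter.univ_mem ?_ ?_ ?_ ?_ (integrable_const L) ?_
  · exact .of_forall fun z => (hcf.comp (by fun_prop)).aestronglyMeasurable
  · exact (integrable_const B).mono' (hcf.comp (by fun_prop)).aestronglyMeasurable
      (.of_forall fun ξ => by rw [Real.norm_eq_abs]; exact hB _)
  · exact (hc.comp (by fun_prop)).aestronglyMeasurable
  · exact .of_forall fun ξ z _ => hL _
  · exact .of_forall fun ξ z _ => (hasFDerivAt_comp_add_right (a • ξ)).mpr (hd (z + a • ξ)).hasFDerivAt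

lemma abs_avg_le {f : Euc d → ℝ} {B : ℝ} (hB : ∀ x, |f x| ≤ B) (a : ℝ) (y : Euc d) :
    |avg a f y| ≤ B := by
  have := norm_integral_le_of_norm_le_const (μ := gauss d) (f := fun ξ => f (y + a • ξ))
    (C := B) (.of_forall fun ξ => by rw [Real.norm_eq_abs]; exact hB _)
  simpa [Real.norm_eq_abs, avg] using this

lemma norm_fderiv_avg_le {f : Euc d → ℝ} (hd : Differentiable ℝ f) (hc : Continuous (fderiv ℝ f))
    {B L : ℝ} (hB : ∀ x, |f x| ≤ B) (hL : ∀ x, ‖fderiv ℝ f x‖ ≤ L) (a : ℝ) (y : Euc d) :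
    ‖fderiv ℝ (avg a f) y‖ ≤ L := by
  rw [(hasFDerivAt_avg hd hc hB hL a y).fderiv]
  simpa using norm_integral_le_of_norm_le_const (μ := gauss d)
    (f := fun ξ => fderiv ℝ f (y + a • ξ)) (C := L) (.of_forall fun ξ => hL _)

variable {f : Euc d → ℝ} {B L K : ℝ}

lemma integrable_fderiv_shift (h : CBd f B L K) (a : ℝ) (y : Euc d) :
    Integrable (fun ξ => fderiv ℝ f (y + a • ξ)) (gauss d) :=
  (integrable_const L).mono' (h.continuous_fderiv.comp (by fun_prop)).aestronglyMeasurable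
    (.of_forall fun ξ => h.grad_bdd _)

lemma cbd_avg (h : CBd f B L K) (a : ℝ) : CBd (avg a f) B L K := by
  have hd := hasFDerivAt_avg h.diff h.continuous_fderiv h.bdd h.grad_bdd a
  refine ⟨fun y => (hd y).differentiableAt, abs_avg_le h.bdd a,
    norm_fderiv_avg_le h.diff h.continuous_fderiv h.bdd h.grad_bdd a, fun x y => ?_⟩
  rw [(hd x).fderiv, (hd y).fderiv, ← integral_sub (integrable_fderiv_shift h a x)
    (integrable_fderiv_shift h a y)]
  simpa using norm_integral_le_of_norm_le_const (μ := gauss d)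
    (f := fun ξ => fderiv ℝ f (x + a • ξ) - fderiv ℝ f (y + a • ξ)) (C := K * ‖x - y‖)
    (.of_forall fun ξ => (h.grad_lip _ _).trans (le_of_eq (by rw [add_sub_add_right_eq_sub])))

/-- Gaussian averaging makes the derivative Lipschitz. -/
lemma cbd_avg_of_lip {f : Euc d → ℝ} (hd : Differentiable ℝ f) (hc : Continuous (fderiv ℝ f))
    {B L : ℝ} (hB : ∀ x, |f x| ≤ B) (hL : ∀ x, ‖fderiv ℝ f x‖ ≤ L) {a : ℝ} (ha : 0 < a) :
    CBd (avg a f) B L (L * gmom d 1 / a) := by
  have hder := hasFDerivAt_avg hd hc hB hL a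
  refine ⟨fun y => (hder y).differentiableAt, abs_avg_le hB a,
    norm_fderiv_avg_le hd hc hB hL a, fun x y => ?_⟩
  have hL0 : 0 ≤ L := (norm_nonneg _).trans (hL 0)
  rw [(hder x).fderiv, (hder y).fderiv]
  refine ContinuousLinearMap.opNorm_le_bound _
    (mul_nonneg (div_nonneg (mul_nonneg hL0 (gmom_nonneg d 1)) ha.le) (norm_nonneg _)) fun u => ?_
  have hint : ∀ z, Integrable (fun ξ => fderiv ℝ f (z + a • ξ)) (gauss d) := fun z =>
    (integrable_const L).mono' (hc.comp (by fun_prop)).aestronglyMeasurable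
      (.of_forall fun ξ => hL _)
  have hid : ∀ z, (∫ ξ, fderiv ℝ f (z + a • ξ) ∂(gauss d)) u
      = a⁻¹ * ∫ ξ, f (z + a • ξ) * ⟪u, ξ⟫ ∂(gauss d) := by
    intro z
    have hg : ∀ ξ, HasFDerivAt (fun ξ => f (z + a • ξ))
        ((fderiv ℝ f (z + a • ξ)).comp (a • ContinuousLinearMap.id ℝ (Euc d))) ξ := fun ξ =>
      (hd _).hasFDerivAt.comp ξ (((hasFDerivAt_id ξ).const_smul a).const_add z)
    have hibp := gauss_ibp (f := fun ξ => f (z + a • ξ))
      ((contDiff_one_iff_fderiv.mpr ⟨hd, hc⟩).comp (by fun_prop)) (M := L * a) (fun ξ => by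
        rw [(hg ξ).fderiv]
        refine (ContinuousLinearMap.opNorm_comp_le _ _).trans (mul_le_mul (hL _) ?_ (norm_nonneg _) hL0)
        rw [norm_smul, Real.norm_eq_abs, abs_of_pos ha]
        exact mul_le_of_le_one_right ha.le ContinuousLinearMap.norm_id_le) u
    rw [ContinuousLinearMap.integral_apply (hint z), hibp, ← integral_const_mul]
    refine integral_congr_ae (.of_forall fun ξ => ?_)
    beta_reduce
    rw [(hg ξ).fderiv]
    simp [← mul_assoc, inv_mul_cancel₀ ha.ne']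
  have hint2 : ∀ z, Integrable (fun ξ => f (z + a • ξ) * ⟪u, ξ⟫) (gauss d) := fun z =>
    gauss_integrable_of_growth ((hd.continuous.comp (by fun_prop)).mul (by fun_prop)).aestronglyMeasurable
      (C := B * ‖u‖) (n := 1) fun ξ => by
        rw [Real.norm_eq_abs, abs_mul, pow_one]
        have := mul_le_mul (hB (z + a • ξ)) (abs_real_inner_le_norm u ξ) (abs_nonneg _)
          ((abs_nonneg _).trans (hB 0))
        have : 0 ≤ B * ‖u‖ := mul_nonneg ((abs_nonneg _).trans (hB 0)) (norm_nonneg u)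
        linarith
  rw [sub_apply, hid, hid, ← mul_sub, ← integral_sub (hint2 x) (hint2 y), Real.norm_eq_abs, abs_mul,
    abs_inv, abs_of_pos ha]
  have hlip : ∀ p q, |f p - f q| ≤ L * ‖p - q‖ := fun p q => by
    simpa [Real.norm_eq_abs] using Convex.norm_image_sub_le_of_norm_fderiv_le (𝕜 := ℝ)
      (fun z _ => hd z) (fun z _ => hL z) convex_univ (Set.mem_univ q) (Set.mem_univ p)
  calc a⁻¹ * |∫ ξ, (f (x + a • ξ) * ⟪u, ξ⟫ - f (y + a • ξ) * ⟪u, ξ⟫) ∂(gauss d)|
      ≤ a⁻¹ * ∫ ξ, L * ‖x - y‖ * ‖u‖ * ‖ξ‖ ^ 1 ∂(gauss d) := by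
        refine mul_le_mul_of_nonneg_left ?_ (inv_nonneg.mpr ha.le)
        rw [← Real.norm_eq_abs]
        refine norm_integral_le_of_norm_le ((gauss_integrable_norm_pow 1).const_mul _)
          (.of_forall fun ξ => ?_)
        rw [← sub_mul, Real.norm_eq_abs, abs_mul, pow_one]
        calc |f (x + a • ξ) - f (y + a • ξ)| * |⟪u, ξ⟫|
            ≤ L * ‖x - y‖ * (‖u‖ * ‖ξ‖) :=
              mul_le_mul ((hlip _ _).trans (le_of_eq (by rw [add_sub_add_right_eq_sub])))
                (abs_real_inner_le_norm u ξ) (abs_nonneg _) (by positivity)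
          _ = _ := by ring
    _ = _ := by rw [integral_const_mul, gmom]; field_simp

/-- The variance produced by one averaging step. -/
lemma avg_variance_le (h : CBd f B L K) (a : ℝ) (y : Euc d) :
    avg a (fun z => f z ^ 2) y - avg a f y ^ 2 ≤ 2 * (a * L) ^ 2 := by
  have hg : ∀ ξ, HasFDerivAt (fun ξ => f (y + a • ξ))
      ((fderiv ℝ f (y + a • ξ)).comp (a • ContinuousLinearMap.id ℝ (Euc d))) ξ := fun ξ =>
    (h.diff _).hasFDerivAt.comp ξ (((hasFDerivAt_id ξ).const_smul a).const_add y)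
  have hb : ∀ ξ, ‖fderiv ℝ (fun ξ => f (y + a • ξ)) ξ‖ ≤ L * |a| := fun ξ => by
    rw [(hg ξ).fderiv]
    refine (ContinuousLinearMap.opNorm_comp_le _ _).trans
      (mul_le_mul (h.grad_bdd _) ?_ (norm_nonneg _) h.grad_nonneg)
    rw [norm_smul, Real.norm_eq_abs]
    exact mul_le_of_le_one_right (abs_nonneg a) ContinuousLinearMap.norm_id_le
  refine (gauss_variance_le (f := fun ξ => f (y + a • ξ)) (h.contDiff.comp (by fun_prop)) hb).trans ?_
  refine mul_le_mul_of_nonneg_left ?_ two_pos.le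
  have := norm_integral_le_of_norm_le_const (μ := gauss d)
    (f := fun ξ => ‖fderiv ℝ (fun ξ => f (y + a • ξ)) ξ‖ ^ 2) (C := (L * |a|) ^ 2)
    (.of_forall fun ξ => by
      rw [Real.norm_eq_abs, abs_of_nonneg (sq_nonneg _)]
      exact pow_le_pow_left₀ (norm_nonneg _) (hb ξ) 2)
  rw [probReal_univ, mul_one, Real.norm_eq_abs] at this
  refine ((le_abs_self _).trans this).trans (le_of_eq ?_)
  rw [mul_pow, sq_abs]; ring

variable {W : Euc d → ℝ} {c M C3 : ℝ}

/-- Moments of `DW` under the Gibbs law used in the defect bound. -/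
noncomputable def defectConst (W : Euc d → ℝ) : ℝ :=
  (∫ x, ‖fderiv ℝ W x‖ ^ 2 ∂(gibbs W))
    + (∫ x, ‖fderiv ℝ W x‖ ∂(gibbs W)) * (gmom d 1 + gmom d 3)

lemma PotData.integrable_grad_pow (h : PotData d W c M C3) (p : ℕ) :
    Integrable (fun x => ‖fderiv ℝ W x‖ ^ p) (gibbs W) := by
  refine h.integrable_of_growth (h.continuous_fderiv.norm.pow p)
    (C := 2 ^ p * (‖fderiv ℝ W 0‖ + M + 1) ^ p) (p := p) fun x => ?_
  rw [abs_of_nonneg (by positivity)]
  have hb : ‖fderiv ℝ W x‖ ≤ (‖fderiv ℝ W 0‖ + M + 1) * (1 + ‖x‖) := by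
    have := h.grad_growth x
    nlinarith [norm_nonneg x, h.M_nonneg, norm_nonneg (fderiv ℝ W 0)]
  have h2 : (1 + ‖x‖) ^ p ≤ 2 ^ p * (1 + ‖x‖ ^ p) := by
    refine (add_pow_le (zero_le_one) (norm_nonneg x) p).trans ?_
    rw [one_pow]
    exact mul_le_mul_of_nonneg_right (pow_le_pow_right₀ one_le_two (Nat.sub_le p 1)) (by positivity)
  have hA : 0 ≤ ‖fderiv ℝ W 0‖ + M + 1 := by
    have := h.M_nonneg; positivity
  calc ‖fderiv ℝ W x‖ ^ p ≤ ((‖fderiv ℝ W 0‖ + M + 1) * (1 + ‖x‖)) ^ p :=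
        pow_le_pow_left₀ (norm_nonneg _) hb p
    _ = (‖fderiv ℝ W 0‖ + M + 1) ^ p * (1 + ‖x‖) ^ p := mul_pow _ _ _
    _ ≤ (‖fderiv ℝ W 0‖ + M + 1) ^ p * (2 ^ p * (1 + ‖x‖ ^ p)) :=
        mul_le_mul_of_nonneg_left h2 (pow_nonneg hA p)
    _ = _ := by ring

lemma defectConst_nonneg (W : Euc d → ℝ) : 0 ≤ defectConst W :=
  add_nonneg (integral_nonneg fun x => sq_nonneg _)
    (mul_nonneg (integral_nonneg fun x => norm_nonneg _)
      (add_nonneg (gmom_nonneg d 1) (gmom_nonneg d 3)))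

lemma PotData.integrable_gibbs_bdd (h : PotData d W c M C3) {g : Euc d → ℝ} (hg : Continuous g)
    {B : ℝ} (hb : ∀ x, |g x| ≤ B) : Integrable g (gibbs W) := by
  have := h.isProb
  exact (integrable_const B).mono' hg.aestronglyMeasurable
    (.of_forall fun x => by rw [Real.norm_eq_abs]; exact hb x)

/-- Integration by parts under the Gibbs law. -/
lemma PotData.ibp (h : PotData d W c M C3) {g : Euc d → ℝ} {B L K : ℝ} (hg : CBd g B L K)
    (v : Euc d) :
    ∫ x, fderiv ℝ g x v ∂(gibbs W) = ∫ x, g x * fderiv ℝ W x v ∂(gibbs W) := by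
  have hB := hg.bdd_nonneg
  have hL := hg.grad_nonneg
  have he : ∀ x, HasFDerivAt (fun x => Real.exp (-W x))
      (Real.exp (-W x) • -fderiv ℝ W x) x := fun x => (h.diff1 x).hasFDerivAt.neg.exp
  have hcont : Continuous fun x => Real.exp (-W x) := h.continuous.neg.rexp
  have hDg : Continuous fun x => fderiv ℝ g x v := hg.continuous_fderiv.clm_apply continuous_const
  have hDW : Continuous fun x => fderiv ℝ W x v := h.continuous_fderiv.clm_apply continuous_const
  have hi1 : Integrable (fun x => fderiv ℝ g x v * Real.exp (-W x)) := by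
    refine (h.integrable_exp.const_mul (L * ‖v‖)).mono' (hDg.mul hcont).aestronglyMeasurable
      (.of_forall fun x => ?_)
    rw [norm_mul, Real.norm_eq_abs (Real.exp _), Real.abs_exp]
    exact mul_le_mul_of_nonneg_right (((fderiv ℝ g x).le_opNorm v).trans
      (mul_le_mul_of_nonneg_right (hg.grad_bdd x) (norm_nonneg v))) (Real.exp_pos _).le
  have hi2 : Integrable (fun x => g x * fderiv ℝ (fun x => Real.exp (-W x)) x v) := by
    refine (((h.integrable_exp.const_mul ‖fderiv ℝ W 0‖).add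
        ((h.integrable_weight 1).const_mul M)).const_mul (B * ‖v‖)).mono'
      (hg.continuous.mul ?_).aestronglyMeasurable (.of_forall fun x => ?_)
    · simp only [fun x => (he x).fderiv]
      exact (hcont.mul hDW).neg.congr fun x => by simp
    · rw [(he x).fderiv]
      simp only [Pi.add_apply, smul_apply, neg_apply, smul_eq_mul,
        norm_mul, Real.norm_eq_abs, abs_neg, Real.abs_exp, pow_one]
      have h1 := ((fderiv ℝ W x).le_opNorm v).trans
        (mul_le_mul_of_nonneg_right (h.grad_growth x) (norm_nonneg v))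
      rw [Real.norm_eq_abs] at h1
      calc |g x| * (Real.exp (-W x) * |fderiv ℝ W x v|)
          ≤ B * (Real.exp (-W x) * ((‖fderiv ℝ W 0‖ + M * ‖x‖) * ‖v‖)) :=
            mul_le_mul (hg.bdd x) (mul_le_mul_of_nonneg_left h1 (Real.exp_pos _).le)
              (by positivity) hB
        _ = _ := by ring
  have hi3 : Integrable (fun x => g x * Real.exp (-W x)) := by
    refine (h.integrable_exp.const_mul B).mono' (hg.continuous.mul hcont).aestronglyMeasurable
      (.of_forall fun x => ?_)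
    rw [norm_mul, Real.norm_eq_abs, Real.norm_eq_abs, Real.abs_exp]
    exact mul_le_mul_of_nonneg_right (hg.bdd x) (Real.exp_pos _).le
  have key := integral_mul_fderiv_eq_neg_fderiv_mul_of_integrable (f := g)
    (g := fun x => Real.exp (-W x)) hi1 hi2 hi3 (fun x _ => hg.diff x)
    (fun x _ => (he x).differentiableAt)
  set Z := ∫ y, Real.exp (-W y)
  rw [gibbs, integral_tilted, integral_tilted]
  have e1 : ∀ x, Real.exp (-W x) / Z * fderiv ℝ g x v
      = Z⁻¹ * (fderiv ℝ g x v * Real.exp (-W x)) := fun x => by ring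
  have e2 : ∀ x, Real.exp (-W x) / Z * (g x * fderiv ℝ W x v)
      = Z⁻¹ * -(g x * fderiv ℝ (fun x => Real.exp (-W x)) x v) := fun x => by
    rw [(he x).fderiv]
    simp only [smul_apply, neg_apply, smul_eq_mul]
    ring
  refine ((integral_congr_ae (.of_forall e1)).trans ?_).trans (integral_congr_ae (.of_forall e2)).symm
  rw [integral_const_mul, integral_const_mul, integral_neg, key, neg_neg]

/-- Second order expansion of translations under the Gibbs law. -/
lemma PotData.shift_expansion (h : PotData d W c M C3) {φ : Euc d → ℝ} {B L K : ℝ}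
    (hφ : CBd φ B L K) (hK : 0 ≤ K) (v : Euc d) :
    |(∫ x, (φ (x + v) - φ x) ∂(gibbs W)) - (∫ x, φ x * fderiv ℝ W x v ∂(gibbs W))
        - (1 / 2) * ∫ x, fderiv ℝ φ x v * fderiv ℝ W x v ∂(gibbs W)|
      ≤ K * (∫ x, ‖fderiv ℝ W x‖ ∂(gibbs W)) * ‖v‖ ^ 3 := by
  have := h.isProb
  set μ := gibbs W
  set G1 := ∫ x, ‖fderiv ℝ W x‖ ∂μ
  set r0 := ∫ x, φ x * fderiv ℝ W x v ∂μ
  set b := ∫ x, fderiv ℝ φ x v * fderiv ℝ W x v ∂μ
  have hDv : Continuous fun x => fderiv ℝ W x v := h.continuous_fderiv.clm_apply continuous_const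
  have hG1i : Integrable (fun x => ‖fderiv ℝ W x‖) μ := by simpa using h.integrable_grad_pow 1
  have hDvb : ∀ x, |fderiv ℝ W x v| ≤ ‖fderiv ℝ W x‖ * ‖v‖ := fun x => by
    simpa [Real.norm_eq_abs] using (fderiv ℝ W x).le_opNorm v
  have hmulint : ∀ (g : Euc d → ℝ) (Bg : ℝ), Continuous g → (∀ x, |g x| ≤ Bg) →
      Integrable (fun x => g x * fderiv ℝ W x v) μ := by
    intro g Bg hg hb
    refine (hG1i.const_mul (Bg * ‖v‖)).mono' (hg.mul hDv).aestronglyMeasurable
      (.of_forall fun x => ?_)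
    rw [Real.norm_eq_abs, abs_mul]
    calc |g x| * |fderiv ℝ W x v| ≤ Bg * (‖fderiv ℝ W x‖ * ‖v‖) :=
          mul_le_mul (hb x) (hDvb x) (abs_nonneg _) ((abs_nonneg _).trans (hb x))
      _ = _ := by ring
  have hsh : ∀ s : ℝ, CBd (fun x => φ (x + s • v)) B L K := fun s => by
    refine (hφ.comp hK (T := fun x => x + s • v) (ρ := 1) (KT := 0) (by fun_prop)
      (fun x => ?_) fun x y => ?_).mono le_rfl (by simp) (by simp)
    · rw [fderiv_add_const, fderiv_fun_id]; exact ContinuousLinearMap.norm_id_le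
    · simp [fderiv_add_const]
  have hfd : ∀ (s : ℝ) (x : Euc d), fderiv ℝ (fun x => φ (x + s • v)) x = fderiv ℝ φ (x + s • v) :=
    fun s x => fderiv_comp_add_right (s • v)
  set u : ℝ → ℝ := fun s => (∫ x, φ (x + s • v) ∂μ) - s * r0 - s ^ 2 / 2 * b
  set u' : ℝ → ℝ := fun s => (∫ x, φ (x + s • v) * fderiv ℝ W x v ∂μ) - r0 - s * b
  have hcomp : ∀ s : ℝ, Continuous fun x => φ (x + s • v) := fun s => (hsh s).continuous
  have hdint : ∀ s, HasDerivAt (fun s => ∫ x, φ (x + s • v) ∂μ)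
      (∫ x, φ (x + s • v) * fderiv ℝ W x v ∂μ) s := fun s => by
    have key := hasDerivAt_integral_of_dominated_loc_of_deriv_le (μ := μ) (x₀ := s)
      (F := fun s x => φ (x + s • v)) (F' := fun s x => fderiv ℝ φ (x + s • v) v)
      (bound := fun _ => L * ‖v‖) Filter.univ_mem
      (.of_forall fun r => (hcomp r).aestronglyMeasurable)
      (h.integrable_gibbs_bdd (hcomp s) fun x => hφ.bdd _)
      ((hφ.continuous_fderiv.comp (by fun_prop)).clm_apply continuous_const).aestronglyMeasurable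
      (.of_forall fun x r _ => ((fderiv ℝ φ (x + r • v)).le_opNorm v).trans
        (mul_le_mul_of_nonneg_right (hφ.grad_bdd _) (norm_nonneg v)))
      (integrable_const _)
      (.of_forall fun x r _ => (hφ.diff (x + r • v)).hasFDerivAt.comp_hasDerivAt r
        (by simpa using ((hasDerivAt_id r).smul_const v).const_add x))
    refine key.2.congr_deriv ?_
    rw [← h.ibp (hsh s) v]
    simp only [hfd]
    rfl
  have hu : ∀ s, HasDerivAt u (u' s) s := fun s => by
    refine (((hdint s).sub ((hasDerivAt_id s).mul_const r0)).sub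
      ((((hasDerivAt_id s).pow 2).div_const 2).mul_const b)).congr_deriv ?_
    simp [u']
  have hb' : ∀ s ∈ Set.Ico (0 : ℝ) 1, ‖u' s‖ ≤ K * G1 * ‖v‖ ^ 3 := by
    intro s hs
    have hi1 := hmulint _ B (hcomp s) fun x => hφ.bdd _
    have hi2 := hmulint _ B hφ.continuous hφ.bdd
    have hi3 := hmulint (fun x => fderiv ℝ φ x v) (L * ‖v‖)
      (hφ.continuous_fderiv.clm_apply continuous_const) fun x => by
        simpa [Real.norm_eq_abs] using ((fderiv ℝ φ x).le_opNorm v).trans
          (mul_le_mul_of_nonneg_right (hφ.grad_bdd x) (norm_nonneg v))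
    have hi12 : Integrable (fun x => φ (x + s • v) * fderiv ℝ W x v - φ x * fderiv ℝ W x v) μ :=
      hi1.sub hi2
    have e : u' s = ∫ x, (φ (x + s • v) * fderiv ℝ W x v - φ x * fderiv ℝ W x v
        - s * (fderiv ℝ φ x v * fderiv ℝ W x v)) ∂μ := by
      rw [integral_sub hi12 (hi3.const_mul s), integral_sub hi1 hi2, integral_const_mul]
    rw [e]
    refine (norm_integral_le_of_norm_le (hG1i.const_mul (K * ‖v‖ ^ 3)) (.of_forall fun x => ?_)).trans
      (le_of_eq ?_)
    · have ht := hφ.taylor hK x (s • v)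
      rw [map_smul, smul_eq_mul, norm_smul, Real.norm_eq_abs, mul_pow, sq_abs] at ht
      have hs2 : s ^ 2 ≤ 1 := by nlinarith [hs.1, hs.2]
      calc ‖φ (x + s • v) * fderiv ℝ W x v - φ x * fderiv ℝ W x v
            - s * (fderiv ℝ φ x v * fderiv ℝ W x v)‖
          = |φ (x + s • v) - φ x - s * fderiv ℝ φ x v| * |fderiv ℝ W x v| := by
            rw [Real.norm_eq_abs, ← abs_mul]; ring_nf
        _ ≤ K * ‖v‖ ^ 2 * (‖fderiv ℝ W x‖ * ‖v‖) := by
            refine mul_le_mul (ht.trans ?_) (hDvb x) (abs_nonneg _) (by positivity)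
            refine mul_le_mul_of_nonneg_left ?_ hK
            exact mul_le_of_le_one_left (sq_nonneg _) hs2
        _ = _ := by ring
    · rw [integral_const_mul]; ring
  have := norm_image_sub_le_of_norm_deriv_le_segment_01'
    (fun s _ => (hu s).hasDerivWithinAt) hb'
  rw [Real.norm_eq_abs] at this
  refine le_trans (le_of_eq ?_) this
  congr 1
  simp only [u, one_smul, zero_smul, add_zero]
  rw [integral_sub (h.integrable_gibbs_bdd (by simpa using hcomp 1) fun x => hφ.bdd _)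
    (h.integrable_gibbs_bdd hφ.continuous hφ.bdd)]
  ring

lemma integral_linear_gauss (φ : StrongDual ℝ (Euc d)) : ∫ ξ, φ ξ ∂(gauss d) = 0 := by
  have h := gauss_ibp (f := fun _ : Euc d => (1 : ℝ)) contDiff_const (M := 0) (by simp) (riesz d φ)
  simp only [one_mul, inner_riesz] at h
  simpa using h

/-- The stationarity defect of the chain. -/
lemma PotData.defect (h : PotData d W c M C3) {φ : Euc d → ℝ} {B L K : ℝ} (hφ : CBd φ B L K)
    (hK : 0 ≤ K) {η a : ℝ} (ha : 0 ≤ a) (ha1 : a ≤ 1) (hη : 2 * η = a ^ 2) :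
    |(∫ x, avg a φ (gstep W η x) ∂(gibbs W)) - ∫ x, φ x ∂(gibbs W)|
      ≤ K * a ^ 3 * defectConst W := by
  have := h.isProb
  set μ := gibbs W with hμ
  set G1 := ∫ x, ‖fderiv ℝ W x‖ ∂μ with hG1
  set G2 := ∫ x, ‖fderiv ℝ W x‖ ^ 2 ∂μ with hG2
  have hη0 : 0 ≤ η := by nlinarith
  have hG10 : 0 ≤ G1 := integral_nonneg fun x => norm_nonneg _
  have hG20 : 0 ≤ G2 := integral_nonneg fun x => sq_nonneg _
  have hG1i : Integrable (fun x => ‖fderiv ℝ W x‖) μ := by simpa using h.integrable_grad_pow 1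
  have hG2i := h.integrable_grad_pow 2
  have havg := cbd_avg hφ a
  have hgv : Continuous (gvec W) := (riesz d).continuous.comp h.continuous_fderiv
  have hD : Continuous fun x => fderiv ℝ φ x (gvec W x) := hφ.continuous_fderiv.clm_apply hgv
  have hDb : ∀ x, |fderiv ℝ φ x (gvec W x)| ≤ L * ‖fderiv ℝ W x‖ := fun x => by
    have := ((fderiv ℝ φ x).le_opNorm (gvec W x)).trans
      (mul_le_mul_of_nonneg_right (hφ.grad_bdd x) (norm_nonneg _))
    simpa [gvec, norm_riesz, Real.norm_eq_abs] using this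
  have hDi : Integrable (fun x => fderiv ℝ φ x (gvec W x)) μ :=
    (hG1i.const_mul L).mono' hD.aestronglyMeasurable
      (.of_forall fun x => by rw [Real.norm_eq_abs]; exact hDb x)
  -- drift part
  have hI1p : ∀ x, |avg a φ (gstep W η x) - avg a φ x + η * fderiv ℝ φ x (gvec W x)|
      ≤ K * η ^ 2 * ‖fderiv ℝ W x‖ ^ 2 + η * K * a * gmom d 1 * ‖fderiv ℝ W x‖ := by
    intro x
    have ht := havg.taylor hK x (-(η • gvec W x))
    rw [← sub_eq_add_neg, map_neg, map_smul, smul_eq_mul, norm_neg, norm_smul, Real.norm_eq_abs,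
      abs_of_nonneg hη0, gvec, norm_riesz] at ht
    have hdiff : ‖fderiv ℝ (avg a φ) x - fderiv ℝ φ x‖ ≤ K * a * gmom d 1 := by
      rw [(hasFDerivAt_avg hφ.diff hφ.continuous_fderiv hφ.bdd hφ.grad_bdd a x).fderiv]
      have e : (∫ ξ, fderiv ℝ φ (x + a • ξ) ∂(gauss d)) - fderiv ℝ φ x
          = ∫ ξ, (fderiv ℝ φ (x + a • ξ) - fderiv ℝ φ x) ∂(gauss d) := by
        rw [integral_sub (integrable_fderiv_shift hφ a x) (integrable_const _), integral_const]
        simp
      rw [e]
      refine (norm_integral_le_of_norm_le ((gauss_integrable_norm_pow 1).const_mul (K * a))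
        (.of_forall fun ξ => ?_)).trans (le_of_eq ?_)
      · refine (hφ.grad_lip _ _).trans (le_of_eq ?_)
        rw [add_sub_cancel_left, norm_smul, Real.norm_eq_abs, abs_of_nonneg ha, pow_one]; ring
      · rw [integral_const_mul, gmom]
    have h2 : |fderiv ℝ (avg a φ) x (gvec W x) - fderiv ℝ φ x (gvec W x)|
        ≤ K * a * gmom d 1 * ‖fderiv ℝ W x‖ := by
      rw [← sub_apply, ← Real.norm_eq_abs]
      refine ((fderiv ℝ (avg a φ) x - fderiv ℝ φ x).le_opNorm _).trans ?_
      rw [gvec, norm_riesz]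
      exact mul_le_mul_of_nonneg_right hdiff (norm_nonneg _)
    have h3 := mul_le_mul_of_nonneg_left h2 hη0
    rw [← abs_of_nonneg hη0, ← abs_mul, abs_of_nonneg hη0, abs_le] at h3
    rw [abs_le] at ht ⊢
    simp only [gvec, gstep] at ht h3 ⊢
    constructor <;> nlinarith [ht.1, ht.2, h3.1, h3.2]
  -- diffusion part
  set F : Euc d → Euc d → ℝ := fun x ξ => φ (x + a • ξ) - φ x with hF
  have hFc : Continuous (Function.uncurry F) := by
    have := hφ.continuous
    simp only [hF, Function.uncurry_def]; fun_prop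
  have hFb : ∀ x ξ, |F x ξ| ≤ 2 * B := fun x ξ => by
    have := hφ.bdd (x + a • ξ); have := hφ.bdd x
    simp only [hF]; rw [abs_le] at *; constructor <;> linarith
  have hFi : Integrable (Function.uncurry F) (μ.prod (gauss d)) :=
    (integrable_const (2 * B)).mono' hFc.aestronglyMeasurable
      (.of_forall fun q => by rw [Real.norm_eq_abs]; exact hFb q.1 q.2)
  have hsw : (∫ x, avg a φ x ∂μ) - ∫ x, φ x ∂μ = ∫ ξ, ∫ x, F x ξ ∂μ ∂(gauss d) := by
    rw [← integral_integral_swap hFi, ← integral_sub (h.integrable_gibbs_bdd havg.continuous havg.bdd)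
      (h.integrable_gibbs_bdd hφ.continuous hφ.bdd)]
    refine integral_congr_ae (.of_forall fun x => ?_)
    simp only [hF, avg]
    have hi : Integrable (fun ξ => φ (x + a • ξ)) (gauss d) := (integrable_const B).mono'
      ((hφ.continuous.comp (by fun_prop : Continuous fun ξ : Euc d => x + a • ξ)).aestronglyMeasurable)
      (.of_forall fun ξ => by rw [Real.norm_eq_abs]; exact hφ.bdd _)
    rw [integral_sub hi (integrable_const _), integral_const]
    simp
  have hwi : Integrable (fun x => φ x • fderiv ℝ W x) μ :=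
    (hG1i.const_mul B).mono' (hφ.continuous.smul h.continuous_fderiv).aestronglyMeasurable
      (.of_forall fun x => by
        rw [norm_smul, Real.norm_eq_abs]
        exact mul_le_mul_of_nonneg_right (hφ.bdd x) (norm_nonneg _))
  set w : StrongDual ℝ (Euc d) := ∫ x, φ x • fderiv ℝ W x ∂μ with hw
  have hlin : ∀ v, ∫ x, φ x * fderiv ℝ W x v ∂μ = w v := fun v => by
    rw [hw, ContinuousLinearMap.integral_apply hwi]
    simp
  set Q : Euc d → Euc d → ℝ := fun x ξ => fderiv ℝ φ x ξ * fderiv ℝ W x ξ with hQ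
  have hQc : Continuous (Function.uncurry Q) :=
    ((hφ.continuous_fderiv.comp continuous_fst).clm_apply continuous_snd).mul
      ((h.continuous_fderiv.comp continuous_fst).clm_apply continuous_snd)
  have hQi : Integrable (Function.uncurry Q) (μ.prod (gauss d)) := by
    refine ((hG1i.mul_prod (gauss_integrable_norm_pow 2)).const_mul L).mono'
      hQc.aestronglyMeasurable (.of_forall fun q => ?_)
    simp only [hQ, Function.uncurry_def, norm_mul]
    calc ‖fderiv ℝ φ q.1 q.2‖ * ‖fderiv ℝ W q.1 q.2‖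
        ≤ (L * ‖q.2‖) * (‖fderiv ℝ W q.1‖ * ‖q.2‖) :=
          mul_le_mul (((fderiv ℝ φ q.1).le_opNorm _).trans
            (mul_le_mul_of_nonneg_right (hφ.grad_bdd _) (norm_nonneg _)))
            ((fderiv ℝ W q.1).le_opNorm _) (norm_nonneg _)
            (mul_nonneg hφ.grad_nonneg (norm_nonneg _))
      _ = _ := by ring
  have hQval : ∫ ξ, ∫ x, Q x ξ ∂μ ∂(gauss d) = ∫ x, fderiv ℝ φ x (gvec W x) ∂μ := by
    rw [← integral_integral_swap hQi]
    refine integral_congr_ae (.of_forall fun x => ?_)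
    simp only [hQ]
    have hr : ∀ ξ, fderiv ℝ φ x ξ * fderiv ℝ W x ξ
        = ⟪riesz d (fderiv ℝ φ x), ξ⟫ * ⟪gvec W x, ξ⟫ := fun ξ => by
      rw [inner_riesz, gvec, inner_riesz]
    simp only [hr]
    rw [gauss_integral_inner_mul_inner, inner_riesz]
  have hI2p : ∀ ξ, |(∫ x, F x ξ ∂μ) - a * w ξ - a ^ 2 / 2 * ∫ x, Q x ξ ∂μ|
      ≤ K * G1 * (a ^ 3 * ‖ξ‖ ^ 3) := fun ξ => by
    have h1 := h.shift_expansion hφ hK (a • ξ)
    rw [← hμ, ← hG1, hlin, map_smul, smul_eq_mul, norm_smul, Real.norm_eq_abs, abs_of_nonneg ha, mul_pow] at h1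
    refine le_trans (le_of_eq ?_) h1
    congr 2
    simp only [hQ, map_smul, smul_eq_mul, ← integral_const_mul]
    exact integral_congr_ae (.of_forall fun x => by ring)
  have hFo := hFi.swap.integral_prod_left
  have hQo := hQi.swap.integral_prod_left
  simp only [Function.comp_def, Prod.swap, Function.uncurry_def] at hFo hQo
  have hwi' : Integrable (fun ξ => a * w ξ) (gauss d) :=
    (IsGaussian.memLp_dual (gauss d) w 1 (by simp)).integrable le_rfl |>.const_mul a
  have hI2 : |((∫ x, avg a φ x ∂μ) - ∫ x, φ x ∂μ) - η * ∫ x, fderiv ℝ φ x (gvec W x) ∂μ|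
      ≤ K * a ^ 3 * (G1 * gmom d 3) := by
    have hFw : Integrable (fun ξ => (∫ x, F x ξ ∂μ) - a * w ξ) (gauss d) := hFo.sub hwi'
    have e : ((∫ x, avg a φ x ∂μ) - ∫ x, φ x ∂μ) - η * ∫ x, fderiv ℝ φ x (gvec W x) ∂μ
        = ∫ ξ, ((∫ x, F x ξ ∂μ) - a * w ξ - a ^ 2 / 2 * ∫ x, Q x ξ ∂μ) ∂(gauss d) := by
      rw [integral_sub hFw (hQo.const_mul _), integral_sub hFo hwi', integral_const_mul,
        integral_linear_gauss, integral_const_mul, hQval, hsw]
      rw [← hη]; ring
    rw [e, ← Real.norm_eq_abs]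
    refine (norm_integral_le_of_norm_le ((gauss_integrable_norm_pow 3).const_mul (K * G1 * a ^ 3))
      (.of_forall fun ξ => ?_)).trans (le_of_eq ?_)
    · rw [Real.norm_eq_abs]; exact (hI2p ξ).trans (le_of_eq (by ring))
    · rw [integral_const_mul, gmom]; ring
  have hTi : Integrable (fun x => avg a φ (gstep W η x)) μ :=
    h.integrable_gibbs_bdd (havg.continuous.comp (h.gstep_diff η).continuous) fun x => havg.bdd _
  have hai := h.integrable_gibbs_bdd havg.continuous havg.bdd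
  have hI1 : |((∫ x, avg a φ (gstep W η x) ∂μ) - ∫ x, avg a φ x ∂μ)
      + η * ∫ x, fderiv ℝ φ x (gvec W x) ∂μ|
      ≤ K * η ^ 2 * G2 + η * K * a * gmom d 1 * G1 := by
    have hTa : Integrable (fun x => avg a φ (gstep W η x) - avg a φ x) μ := hTi.sub hai
    have e : ((∫ x, avg a φ (gstep W η x) ∂μ) - ∫ x, avg a φ x ∂μ)
        + η * ∫ x, fderiv ℝ φ x (gvec W x) ∂μ
        = ∫ x, (avg a φ (gstep W η x) - avg a φ x + η * fderiv ℝ φ x (gvec W x)) ∂μ := by
      rw [integral_add hTa (hDi.const_mul η), integral_sub hTi hai, integral_const_mul]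
    rw [e, ← Real.norm_eq_abs]
    refine (norm_integral_le_of_norm_le ((hG2i.const_mul (K * η ^ 2)).add
      (hG1i.const_mul (η * K * a * gmom d 1))) (.of_forall fun x => ?_)).trans (le_of_eq ?_)
    · rw [Real.norm_eq_abs]; exact hI1p x
    · simp only [Pi.add_apply]
      rw [integral_add (hG2i.const_mul _) (hG1i.const_mul _), integral_const_mul, integral_const_mul]
  have he1 : η ^ 2 ≤ a ^ 3 := by
    have hη' : η = a ^ 2 / 2 := by linarith
    have h4 : a ^ 4 ≤ a ^ 3 := pow_le_pow_of_le_one ha ha1 (by norm_num)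
    have h5 : 0 ≤ a ^ 4 := by positivity
    have h6 : η ^ 2 = a ^ 4 / 4 := by rw [hη']; ring
    linarith
  have he2 : η * a ≤ a ^ 3 := by
    have h7 : η * a = a ^ 3 / 2 := by
      have hη' : η = a ^ 2 / 2 := by linarith
      rw [hη']; ring
    have : 0 ≤ a ^ 3 := by positivity
    linarith
  have hg1 := gmom_nonneg d 1
  have h5 := mul_le_mul_of_nonneg_left he1 (mul_nonneg hK hG20)
  have h6 := mul_le_mul_of_nonneg_left he2 (mul_nonneg hK (mul_nonneg hg1 hG10))
  calc |(∫ x, avg a φ (gstep W η x) ∂μ) - ∫ x, φ x ∂μ|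
      = |(((∫ x, avg a φ (gstep W η x) ∂μ) - ∫ x, avg a φ x ∂μ)
          + η * ∫ x, fderiv ℝ φ x (gvec W x) ∂μ)
        + (((∫ x, avg a φ x ∂μ) - ∫ x, φ x ∂μ) - η * ∫ x, fderiv ℝ φ x (gvec W x) ∂μ)| := by
        congr 1; ring
    _ ≤ _ := (abs_add_le _ _).trans (add_le_add hI1 hI2)
    _ ≤ _ := by
        rw [defectConst, ← hμ, ← hG1, ← hG2]
        linarith

end Vale.Agent.P347.Poincare
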