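import Vale.Agent.P347.HeatBackward

/-!
Gradient bound for posterior means: one derivative costs the square root of the time.
-/

namespace Vale.Agent.P347

open MeasureTheory ProbabilityTheory Filter Set
open scoped Gradient RealInnerProductSpace ContDiff Topology

variable {d : ℕ} {U V : Euc d → ℝ}

lemma postMean_one (hU : Weight U) (t : ℝ) (y : Euc d) :
    postMean U t (fun _ => (1 : ℝ)) y = 1 := by
  have h := smoothDensity_pos hU t y
  have e : heat t (fun z => Real.exp (-U z) • (1 : ℝ)) y = smoothDensity U t y := by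
    simp [smoothDensity]
  rw [postMean, e, smul_eq_mul, inv_mul_cancel₀ h.ne']

lemma postMean_add (hU : Weight U) {φ ψ : Euc d → ℝ} (hφ : Function.HasTemperateGrowth φ)
    (hψ : Function.HasTemperateGrowth ψ) (t : ℝ) (y : Euc d) :
    postMean U t (fun z => φ z + ψ z) y = postMean U t φ y + postMean U t ψ y := by
  have h := postMean_sub hU hφ hψ.neg t y
  rw [show (-ψ) = fun z => -ψ z from rfl, postMean_neg] at h
  simpa using h

lemma postMean_const_mul (U : Euc d → ℝ) (c : ℝ) (φ : Euc d → ℝ) (t : ℝ) (y : Euc d) :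
    postMean U t (fun z => c * φ z) y = c * postMean U t φ y := by
  simp only [postMean, heat, smul_eq_mul]
  rw [← mul_assoc c, mul_comm c, mul_assoc, ← integral_const_mul c]
  congr 2
  funext η
  ring

lemma postMean_mono (hU : Weight U) {φ ψ : Euc d → ℝ} (hφ : Function.HasTemperateGrowth φ)
    (hψ : Function.HasTemperateGrowth ψ) (h : ∀ z, φ z ≤ ψ z) (t : ℝ) (y : Euc d) :
    postMean U t φ y ≤ postMean U t ψ y :=
  smul_le_smul_of_nonneg_left
    (integral_mono ((hU.bddSmooth_smul hφ).heat_integrable t y)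
      ((hU.bddSmooth_smul hψ).heat_integrable t y)
      fun _ => mul_le_mul_of_nonneg_left (h _) (Real.exp_pos _).le)
    (inv_nonneg.2 (smoothDensity_pos hU t y).le)

lemma postMean_sum (hU : Weight U) {α : Type*} (s : Finset α) {φ : α → Euc d → ℝ}
    (hφ : ∀ a, Function.HasTemperateGrowth (φ a)) (t : ℝ) (y : Euc d) :
    postMean U t (fun z => ∑ a ∈ s, φ a z) y = ∑ a ∈ s, postMean U t (φ a) y := by
  classical
  induction s using Finset.induction_on with
  | empty => simp [postMean, heat]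
  | @insert a s ha ih =>
    simp only [Finset.sum_insert ha]
    rw [postMean_add hU (hφ a) (Function.HasTemperateGrowth.sum fun i _ => hφ i) t y, ih]

/-- The posterior mean of the position. -/
lemma postMean_inner_eq (hU : Weight U) {τ : ℝ} (hτ : 0 < τ) (y u : Euc d) :
    postMean U τ (fun z => ⟪u, z⟫) y = ⟪u, y⟫ - τ * fderiv ℝ (smoothPot U τ) y u := by
  have h1 := Function.HasTemperateGrowth.const (E := Euc d) (1 : ℝ)
  have h := postMean_wgrad_apply hU h1 hτ y u
  have e : postMean U τ (wgrad U fun _ => (1 : ℝ)) y u = -fderiv ℝ (smoothPot U τ) y u := by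
    rw [fderiv_smoothPot hU τ y,
      show postMean U τ (fderiv ℝ U) y u = postMean U τ (fun z => fderiv ℝ U z u) y from
        postMean_clm hU (temperate_fderiv hU.temperate) (ContinuousLinearMap.apply ℝ ℝ u) τ y]
    refine (postMean_clm hU (wgrad_temperate hU h1) (ContinuousLinearMap.apply ℝ ℝ u) τ y).trans ?_
    simpa [wgrad] using postMean_neg τ (fun z => fderiv ℝ U z u) y
  rw [e, postMean_one hU] at h
  simp only [smul_eq_mul, mul_one] at h
  field_simp at h ⊢
  linarith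

/-- The posterior variance of a linear functional. -/
lemma post_linear_variance_eq (hU : Weight U) {τ : ℝ} (hτ : 0 < τ) (y u : Euc d) :
    postMean U τ (fun z => ⟪u, z⟫ * ⟪u, z⟫) y - postMean U τ (fun z => ⟪u, z⟫) y ^ 2
      = τ * ‖u‖ ^ 2 - τ ^ 2 * fderiv ℝ (fderiv ℝ (smoothPot U τ)) y u u := by
  have h := fderiv_postMean_eq_cov hU (temperate_inner u) hτ y u
  have hd : DifferentiableAt ℝ (fderiv ℝ (smoothPot U τ)) y :=
    ((smoothPot_smooth hU hτ).fderiv_right (m := ∞) le_rfl).differentiable (by simp) y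
  have e2 : HasFDerivAt (fun y => ⟪u, y⟫ - τ * fderiv ℝ (smoothPot U τ) y u)
      (innerSL ℝ u - τ • (fderiv ℝ (fderiv ℝ (smoothPot U τ)) y).flip u) y := by
    refine HasFDerivAt.sub (innerSL ℝ u).hasFDerivAt (HasFDerivAt.const_mul ?_ τ)
    exact ((hd.hasFDerivAt.clm_apply (hasFDerivAt_const u y))).congr_fderiv (by ext; simp)
  have e3 : postMean U τ (fun z => ⟪u, z⟫) = fun y => ⟪u, y⟫ - τ * fderiv ℝ (smoothPot U τ) y u :=
    funext fun z => postMean_inner_eq hU hτ z u
  rw [e3, e2.fderiv] at h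
  simp only [sub_apply, smul_apply, innerSL_apply_apply, real_inner_self_eq_norm_sq,
    ContinuousLinearMap.flip_apply, smul_eq_mul] at h
  rw [e3]
  beta_reduce
  field_simp at h ⊢
  linarith

/-- Bounds on the Hessian of the smoothed potential, without any restriction on the time. -/
lemma hessian_smoothPot_bounds {Cp : ℝ} (hCp : 0 ≤ Cp)
    (hP : ∀ (d : ℕ) (W : Euc d → ℝ) (c M : ℝ), NicePot d W c M →
      IsProbabilityMeasure (gibbs W) ∧
      (∀ p : ℕ, Integrable (fun x => ‖x‖ ^ p) (gibbs W)) ∧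
      ∀ (f : Euc d → ℝ) (L : ℝ), ContDiff ℝ 1 f → (∀ x, ‖fderiv ℝ f x‖ ≤ L) →
        ∫ x, f x ^ 2 ∂(gibbs W) - (∫ x, f x ∂(gibbs W)) ^ 2 ≤ Cp * L ^ 2 / c)
    {l L : ℝ} (hV : NicePot d V l L) (hL : 0 ≤ L) {t : ℝ} (ht : 0 < t) (y v : Euc d) :
    l * ‖v‖ ^ 2 - Cp * L ^ 2 * t * ‖v‖ ^ 2 ≤ fderiv ℝ (fderiv ℝ (smoothPot V t)) y v v ∧
      fderiv ℝ (fderiv ℝ (smoothPot V t)) y v v ≤ L * ‖v‖ ^ 2 := by
  rw [hessian_smoothPot hV.weight ht]
  set f : Euc d → ℝ := fun z => fderiv ℝ V z v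
  have hfd : ∀ z, fderiv ℝ f z = (fderiv ℝ (fderiv ℝ V) z).flip v := fun z => by
    rw [fderiv_clm_apply (hV.contDiff_fderiv.differentiable (by simp) z) (differentiableAt_const v)]
    ext u; simp
  have hf : ContDiff ℝ 1 f := (hV.contDiff_fderiv.clm_apply contDiff_const).of_le (by simp)
  have hfK : ∀ z, ‖fderiv ℝ f z‖ ≤ L * ‖v‖ := fun z => by
    rw [hfd]
    refine ContinuousLinearMap.opNorm_le_bound _ (by positivity) fun u => ?_
    rw [Real.norm_eq_abs]
    simpa [mul_comm, mul_left_comm, mul_assoc] using hV.hessian_le z u v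
  obtain ⟨hvar0, hvar1⟩ := post_variance_le hCp hP hV ht hf hfK y
  have hW := hV.weight
  have hHt : Function.HasTemperateGrowth fun z => fderiv ℝ (fderiv ℝ V) z v v :=
    temperate_clm (temperate_clm (temperate_fderiv (temperate_fderiv hW.temperate))
      (ContinuousLinearMap.apply ℝ (Euc d →L[ℝ] ℝ) v)) (ContinuousLinearMap.apply ℝ ℝ v)
  have hc : ∀ c : ℝ, postMean V t (fun _ => c) y = c := fun c => by
    simpa [postMean_one hW] using postMean_const_mul V c (fun _ => (1 : ℝ)) t y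
  have hlo := postMean_mono hW (Function.HasTemperateGrowth.const (l * ‖v‖ ^ 2)) hHt
    (fun z => hV.hessian_lower z v) t y
  have hhi := postMean_mono hW hHt (Function.HasTemperateGrowth.const (L * ‖v‖ ^ 2))
    (fun z => hV.hessian_upper z v) t y
  rw [hc] at hlo hhi
  constructor
  · nlinarith
  · linarith

/-- The posterior covariance at every later level is at most a multiple of the elapsed time. -/
lemma level_linear_variance_le {Cp : ℝ} (hCp : 0 ≤ Cp)
    (hP : ∀ (d : ℕ) (W : Euc d → ℝ) (c M : ℝ), NicePot d W c M →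
      IsProbabilityMeasure (gibbs W) ∧
      (∀ p : ℕ, Integrable (fun x => ‖x‖ ^ p) (gibbs W)) ∧
      ∀ (f : Euc d → ℝ) (L : ℝ), ContDiff ℝ 1 f → (∀ x, ‖fderiv ℝ f x‖ ≤ L) →
        ∫ x, f x ^ 2 ∂(gibbs W) - (∫ x, f x ∂(gibbs W)) ^ 2 ≤ Cp * L ^ 2 / c)
    {l L : ℝ} (hV : NicePot d V l L) (hL : 0 ≤ L) {r t : ℝ} (hr : 0 ≤ r) (hrt : r < t)
    (hLt : L * t ≤ 1) (y u : Euc d) :
    postMean (smoothPot V r) (t - r) (fun z => ⟪u, z⟫ * ⟪u, z⟫) y
        - postMean (smoothPot V r) (t - r) (fun z => ⟪u, z⟫) y ^ 2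
      ≤ (1 + Cp) * (t - r) * ‖u‖ ^ 2 := by
  have hτ : 0 < t - r := sub_pos.2 hrt
  rw [post_linear_variance_eq (hV.weight.smoothPot hr) hτ,
    smoothPot_semigroup hV.weight hr hτ.le, add_sub_cancel]
  have h := (hessian_smoothPot_bounds hCp hP hV hL (hr.trans_lt hrt) y u).1
  have h2 : (L * t) ^ 2 ≤ 1 := pow_le_one₀ (mul_nonneg hL (by linarith)) hLt
  have h3 : -(Cp * L ^ 2 * t * ‖u‖ ^ 2) ≤ fderiv ℝ (fderiv ℝ (smoothPot V t)) y u u := by
    nlinarith [hV.pos]
  have h4 : (t - r) * (L ^ 2 * t) ≤ 1 := by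
    nlinarith [mul_nonneg (mul_nonneg hr (sq_nonneg L)) (show 0 ≤ t by linarith)]
  calc (t - r) * ‖u‖ ^ 2 - (t - r) ^ 2 * fderiv ℝ (fderiv ℝ (smoothPot V t)) y u u
      ≤ (t - r) * ‖u‖ ^ 2 + (t - r) ^ 2 * (Cp * L ^ 2 * t * ‖u‖ ^ 2) := by
        nlinarith [mul_le_mul_of_nonneg_left h3 (sq_nonneg (t - r))]
    _ = (t - r) * ‖u‖ ^ 2 * (1 + Cp * ((t - r) * (L ^ 2 * t))) := by ring
    _ ≤ (t - r) * ‖u‖ ^ 2 * (1 + Cp * 1) := by gcongr
    _ = _ := by ring

variable {κ : Type} [Fintype κ]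

/-- One derivative of a posterior mean, in Hilbert–Schmidt norm. -/
lemma sum_sq_fderiv_postMean_le (hU : Weight U) {τ v M : ℝ} (hτ : 0 < τ) (hv : 0 < v) (y : Euc d)
    (hvar : ∀ u : Euc d, postMean U τ (fun z => ⟪u, z⟫ * ⟪u, z⟫) y
      - postMean U τ (fun z => ⟪u, z⟫) y ^ 2 ≤ v * τ * ‖u‖ ^ 2)
    {φ : Euc d → EuclideanSpace ℝ κ} (hφ : Function.HasTemperateGrowth φ) (hM : ∀ z, ‖φ z‖ ≤ M) :
    ∑ i, ‖fderiv ℝ (postMean U τ φ) y (unitVec i)‖ ^ 2 ≤ v * M ^ 2 / τ := by
  have hφb : ∀ b, Function.HasTemperateGrowth fun z => φ z b := fun b =>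
    temperate_clm hφ (EuclideanSpace.proj b)
  set D := fderiv ℝ (postMean U τ φ) y with hD
  have key : ∀ b, ∑ i, D (unitVec i) b ^ 2 ≤ v / τ * postMean U τ (fun z => φ z b * φ z b) y := by
    intro b
    set S := ∑ i, D (unitVec i) b ^ 2 with hS
    set c : Euc d := WithLp.toLp 2 fun i => D (unitVec i) b with hc
    have hcn : ‖c‖ ^ 2 = S := by simp [hc, hS, EuclideanSpace.norm_sq_eq]
    have hdiff : fderiv ℝ (postMean U τ fun z => φ z b) y = (EuclideanSpace.proj b).comp D := by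
      have e : postMean U τ (fun z => φ z b)
          = fun x => (EuclideanSpace.proj b) (postMean U τ φ x) := funext fun x =>
        (postMean_clm hU hφ (EuclideanSpace.proj b) τ x).symm
      rw [e]
      exact ((EuclideanSpace.proj b).hasFDerivAt.comp y
        (hasFDerivAt_postMean_space hU hφ hτ y).differentiableAt.hasFDerivAt).fderiv
    have hDc : D c b = S := by
      conv_lhs => rw [← (EuclideanSpace.basisFun (Fin d) ℝ).sum_repr c]
      simp [hc, hS, unitVec, pow_two]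
    have h := fderiv_postMean_eq_cov hU (hφb b) hτ y c
    rw [hdiff] at h
    simp only [ContinuousLinearMap.comp_apply, PiLp.proj_apply, smul_eq_mul] at h
    rw [hDc] at h
    set m := postMean U τ (fun z => ⟪c, z⟫) y with hm
    have hc1 := temperate_inner c
    have hm1 : Function.HasTemperateGrowth fun _ : Euc d => m := Function.HasTemperateGrowth.const m
    have hl : Function.HasTemperateGrowth fun z => ⟪c, z⟫ - m := hc1.sub hm1
    have e1 : postMean U τ (fun z => (⟪c, z⟫ - m) * φ z b) y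
        = postMean U τ (fun z => ⟪c, z⟫ * φ z b) y - m * postMean U τ (fun z => φ z b) y := by
      rw [← postMean_const_mul, ← postMean_sub hU
        (show Function.HasTemperateGrowth fun z => ⟪c, z⟫ * φ z b from hc1.mul (hφb b))
        (show Function.HasTemperateGrowth fun z => m * φ z b from hm1.mul (hφb b))]
      exact congrArg (fun f => postMean U τ f y) (funext fun z => by ring)
    have e2 : postMean U τ (fun z => (⟪c, z⟫ - m) * (⟪c, z⟫ - m)) y
        = postMean U τ (fun z => ⟪c, z⟫ * ⟪c, z⟫) y - m ^ 2 := by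
      have hh : postMean U τ (fun z => 2 * m * ⟪c, z⟫ - m ^ 2 * 1) y = m ^ 2 := by
        rw [postMean_sub hU
          (show Function.HasTemperateGrowth fun z : Euc d => 2 * m * ⟪c, z⟫ from
            (Function.HasTemperateGrowth.const (2 * m)).mul hc1)
          (Function.HasTemperateGrowth.const (m ^ 2 * 1)),
          postMean_const_mul, postMean_const_mul, postMean_one hU, ← hm]
        ring
      calc _ = postMean U τ (fun z => ⟪c, z⟫ * ⟪c, z⟫ - (2 * m * ⟪c, z⟫ - m ^ 2 * 1)) y :=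
            congrArg (fun f => postMean U τ f y) (funext fun z => by ring)
        _ = _ := by
          rw [postMean_sub hU
            (show Function.HasTemperateGrowth fun z => ⟪c, z⟫ * ⟪c, z⟫ from hc1.mul hc1)
            (show Function.HasTemperateGrowth fun z => 2 * m * ⟪c, z⟫ - m ^ 2 * 1 from
              ((Function.HasTemperateGrowth.const (2 * m)).mul hc1).sub
                (Function.HasTemperateGrowth.const (m ^ 2 * 1))), hh]
    have hmono : 2 * v * postMean U τ (fun z => (⟪c, z⟫ - m) * φ z b) y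
        ≤ postMean U τ (fun z => (⟪c, z⟫ - m) * (⟪c, z⟫ - m)) y
          + v ^ 2 * postMean U τ (fun z => φ z b * φ z b) y := by
      have hll : Function.HasTemperateGrowth fun z => (⟪c, z⟫ - m) * (⟪c, z⟫ - m) := hl.mul hl
      have hbb : Function.HasTemperateGrowth fun z => v ^ 2 * (φ z b * φ z b) :=
        (Function.HasTemperateGrowth.const _).mul ((hφb b).mul (hφb b))
      rw [← postMean_const_mul, ← postMean_const_mul, ← postMean_add hU hll hbb]
      refine postMean_mono hU ((Function.HasTemperateGrowth.const _).mul (hl.mul (hφb b)))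
        (hll.add hbb) (fun z => ?_) τ y
      simp only [Pi.add_apply, Pi.mul_apply]
      nlinarith [sq_nonneg (⟪c, z⟫ - m - v * φ z b)]
    have h5 := hvar c
    rw [← hm, ← e2, hcn] at h5
    rw [← e1] at h
    have h6 : τ * S = postMean U τ (fun z => (⟪c, z⟫ - m) * φ z b) y := by
      rw [h, ← mul_assoc, mul_inv_cancel₀ hτ.ne', one_mul]
    rw [div_mul_eq_mul_div, le_div_iff₀ hτ]
    refine le_of_mul_le_mul_left (a := v) ?_ hv
    rw [← h6] at hmono
    nlinarith
  have hMb : ∀ z, ∑ b, φ z b * φ z b ≤ M ^ 2 := fun z => by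
    calc ∑ b, φ z b * φ z b = ‖φ z‖ ^ 2 := by
          rw [EuclideanSpace.norm_sq_eq]
          simp [pow_two]
      _ ≤ M ^ 2 := pow_le_pow_left₀ (norm_nonneg _) (hM z) 2
  calc ∑ i, ‖D (unitVec i)‖ ^ 2 = ∑ b, ∑ i, D (unitVec i) b ^ 2 := by
        rw [Finset.sum_comm]; simp [EuclideanSpace.norm_sq_eq]
    _ ≤ ∑ b, v / τ * postMean U τ (fun z => φ z b * φ z b) y := Finset.sum_le_sum fun b _ => key b
    _ = v / τ * postMean U τ (fun z => ∑ b, φ z b * φ z b) y := by
        rw [← Finset.mul_sum, postMean_sum hU]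
        exact fun b => (hφb b).mul (hφb b)
    _ ≤ v / τ * M ^ 2 := by
        refine mul_le_mul_of_nonneg_left ?_ (by positivity)
        have := postMean_mono hU (Function.HasTemperateGrowth.sum fun b _ => (hφb b).mul (hφb b))
          (Function.HasTemperateGrowth.const (M ^ 2)) hMb τ y
        refine this.trans (le_of_eq ?_)
        simpa [postMean_one hU] using postMean_const_mul U (M ^ 2) (fun _ => (1 : ℝ)) τ y
    _ = _ := by ring

lemma opNorm_le_hs {F : Type*} [NormedAddCommGroup F] [NormedSpace ℝ F] (T : Euc d →L[ℝ] F)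
    {S : ℝ} (hS : ∑ i, ‖T (unitVec i)‖ ^ 2 ≤ S) : ‖T‖ ≤ √S := by
  refine ContinuousLinearMap.opNorm_le_bound _ (Real.sqrt_nonneg _) fun u => ?_
  have hu : u = ∑ i, u i • unitVec i := by
    conv_lhs => rw [← (EuclideanSpace.basisFun (Fin d) ℝ).sum_repr u]
    simp
  calc ‖T u‖ = ‖∑ i, u i • T (unitVec i)‖ := by
        conv_lhs => rw [hu, map_sum]
        simp only [map_smul]
    _ ≤ ∑ i, |u i| * ‖T (unitVec i)‖ := (norm_sum_le _ _).trans_eq
        (Finset.sum_congr rfl fun i _ => by rw [norm_smul, Real.norm_eq_abs])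
    _ ≤ √(∑ i, |u i| ^ 2) * √(∑ i, ‖T (unitVec i)‖ ^ 2) :=
        Real.sum_mul_le_sqrt_mul_sqrt _ _ _
    _ ≤ ‖u‖ * √S := by
        gcongr
        rw [EuclideanSpace.norm_eq]
        simp
    _ = _ := mul_comm _ _

/-- The gradient form of Duhamel's formula. -/
theorem grad_duhamel_le (hU : Weight U) {v a t : ℝ} (ha : 0 < a) (hat : a < t) (hv : 0 < v)
    (hvar : ∀ r ∈ Ico a t, ∀ y u : Euc d,
      postMean (smoothPot U r) (t - r) (fun z => ⟪u, z⟫ * ⟪u, z⟫) y
        - postMean (smoothPot U r) (t - r) (fun z => ⟪u, z⟫) y ^ 2 ≤ v * (t - r) * ‖u‖ ^ 2)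
    {G : ℝ → Euc d → EuclideanSpace ℝ κ} (hG : Tame (Ioi 0) G) {M₀ M₁ : ℝ}
    (hM₀ : ∀ x, ‖G a x‖ ≤ M₀) (hM₁ : ∀ r ∈ Icc a t, ∀ x, ‖defect U G r x‖ ≤ M₁) (y : Euc d) :
    ∑ i, ‖fderiv ℝ (G t) y (unitVec i)‖ ^ 2
      ≤ (√(v / (t - a)) * M₀ + 2 * √(v * (t - a)) * M₁) ^ 2 := by
  set R := defect U G with hR
  have hRt : Tame (Ioi 0) R := hG.defect hU
  have hI : IsOpen (Ioi (0 : ℝ)) := isOpen_Ioi
  set P : (ℝ → Euc d → EuclideanSpace ℝ κ) → ℝ → Euc d → EuclideanSpace ℝ κ :=
    fun f r x => postMean (smoothPot U r) (t - r) (f r) x with hP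
  have hM₁0 : 0 ≤ M₁ := (norm_nonneg _).trans (hM₁ a ⟨le_rfl, hat.le⟩ y)
  have hM₀0 : 0 ≤ M₀ := (norm_nonneg _).trans (hM₀ y)
  -- one derivative at each level
  have hD : ∀ {f : ℝ → Euc d → EuclideanSpace ℝ κ}, Tame (Ioi 0) f → ∀ {r M : ℝ}, r ∈ Ico a t →
      (∀ x, ‖f r x‖ ≤ M) → ∀ x, HasFDerivAt (P f r) (fderiv ℝ (P f r) x) x ∧
        ∑ i, ‖fderiv ℝ (P f r) x (unitVec i)‖ ^ 2 ≤ v * M ^ 2 / (t - r) := by
    intro f hf r M hr hM x
    have hr0 : 0 < r := ha.trans_le hr.1
    exact ⟨(hasFDerivAt_postMean_space (hU.smoothPot hr0.le) (hf.temperate hI hr0)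
        (sub_pos.2 hr.2) x).differentiableAt.hasFDerivAt,
      sum_sq_fderiv_postMean_le (hU.smoothPot hr0.le) (sub_pos.2 hr.2) hv x (hvar r hr x)
        (hf.temperate hI hr0) hM⟩
  set b : ℝ → ℝ := fun r => √v * M₁ * (t - r) ^ (-(1 / 2) : ℝ) with hb
  have hbound : ∀ r ∈ Ico a t, ∀ x, ‖fderiv ℝ (P R r) x‖ ≤ b r := by
    intro r hr x
    refine (opNorm_le_hs _ (hD hRt hr (hM₁ r (Ico_subset_Icc_self hr)) x).2).trans (le_of_eq ?_)
    have h1 : 0 < t - r := sub_pos.2 hr.2
    simp only [hb]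
    rw [Real.sqrt_div (by positivity), Real.sqrt_mul hv.le, Real.sqrt_sq hM₁0,
      Real.rpow_neg h1.le, ← Real.sqrt_eq_rpow, div_eq_mul_inv]
  have hbint : IntervalIntegrable b volume a t := by
    refine IntervalIntegrable.const_mul ?_ _
    have := (intervalIntegral.intervalIntegrable_rpow' (a := t - a) (b := 0)
      (show (-1 : ℝ) < -(1 / 2) by norm_num)).comp_sub_left t
    simpa using this
  have hae : ∀ᵐ r, r ∈ Set.uIoc a t → r ∈ Ico a t := by
    filter_upwards [measure_eq_zero_iff_ae_notMem.1 (measure_singleton t : volume {t} = 0)] with r hr h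
    rw [uIoc_of_le hat.le] at h
    exact ⟨h.1.le, lt_of_le_of_ne h.2 hr⟩
  have hmeas : AEStronglyMeasurable (fun r => fderiv ℝ (P R r) y)
      (volume.restrict (Set.uIoc a t)) := by
    have hc : ContinuousOn (fun r => fderiv ℝ (P R r) y) (Ico a t) := by
      refine continuousOn_clm_apply.2 fun u => ?_
      have hu : Tame (Ioi 0) fun (_ : ℝ) (z : Euc d) => ⟪u, z⟫ :=
        ⟨((innerSL ℝ u).contDiff.comp contDiff_snd).contDiffOn, fun n J _ _ => by
          obtain ⟨k, C, hk⟩ :=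
            ((innerSL ℝ u).comp (ContinuousLinearMap.snd ℝ ℝ (Euc d))).hasTemperateGrowth.2 n
          obtain ⟨T, hT0, hT⟩ : ∃ T : ℝ, 0 ≤ T ∧ ∀ s ∈ J, |s| ≤ T := by
            obtain ⟨T, hT⟩ := (‹IsCompact J›).isBounded.exists_norm_le
            exact ⟨max T 0, le_max_right _ _, fun s hs => (hT s hs).trans (le_max_left _ _)⟩
          have hC : 0 ≤ C := by simpa using (norm_nonneg _).trans (hk 0)
          refine ⟨C * (1 + T) ^ k, k, fun s hs x => (hk (s, x)).trans ?_⟩
          rw [mul_assoc, ← mul_pow]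
          gcongr
          rw [Prod.norm_def, Real.norm_eq_abs]
          nlinarith [max_le_add_of_nonneg (abs_nonneg s) (norm_nonneg x), hT s hs,
            mul_nonneg hT0 (norm_nonneg x)]⟩
      have h1 := continuousOn_postMean_level hU (hu.bilin hRt hI (ContinuousLinearMap.lsmul ℝ ℝ))
        ha (t := t) y
      have h2 := continuousOn_postMean_level hU hu ha (t := t) y
      have h3 := continuousOn_postMean_level hU hRt ha (t := t) y
      refine (((ContinuousOn.inv₀ (continuousOn_const.sub continuousOn_id) fun r hr =>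
        (sub_pos.2 hr.2).ne').smul ((h1.sub (h2.smul h3)).mono Ico_subset_Icc_self))).congr
        fun r hr => ?_
      have hr0 : 0 < r := ha.trans_le hr.1
      simpa [hP] using fderiv_postMean_eq_cov (hU.smoothPot hr0.le) (hRt.temperate hI hr0)
        (sub_pos.2 hr.2) y u
    rw [uIoc_of_le hat.le,
      ← Measure.restrict_congr_set Ioo_ae_eq_Ioc]
    exact (hc.mono Ioo_subset_Ico_self).aestronglyMeasurable measurableSet_Ioo
  have hcont : ∀ x, ContinuousOn (fun r => P R r x) (Icc a t) := fun x =>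
    continuousOn_postMean_level hU hRt ha x
  have hI' : HasFDerivAt (fun x => ∫ r in a..t, P R r x) (∫ r in a..t, fderiv ℝ (P R r) y) y := by
    refine intervalIntegral.hasFDerivAt_integral_of_dominated_of_fderiv_le (s := univ)
      (F := fun x r => P R r x) (F' := fun x r => fderiv ℝ (P R r) x) univ_mem
      (.of_forall fun x => ?_) ((hcont y).intervalIntegrable_of_Icc hat.le) hmeas ?_ hbint ?_
    · rw [uIoc_of_le hat.le]
      exact ((hcont x).mono Ioc_subset_Icc_self).aestronglyMeasurable measurableSet_Ioc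
    · filter_upwards [hae] with r hr h x _ using hbound r (hr h) x
    · filter_upwards [hae] with r hr h x _ using
        (hD hRt (hr h) (hM₁ r (Ico_subset_Icc_self (hr h))) x).1
  have hGd : fderiv ℝ (G t) y = fderiv ℝ (P G a) y + ∫ r in a..t, fderiv ℝ (P R r) y := by
    have e : G t = fun x => P G a x + ∫ r in a..t, P R r x :=
      funext fun x => postMean_duhamel hU hG ha hat.le x
    rw [e]
    exact ((hD hG ⟨le_rfl, hat⟩ hM₀ y).1.add hI').fderiv
  -- the Hilbert–Schmidt norm as a Euclidean norm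
  set E : (Euc d →L[ℝ] EuclideanSpace ℝ κ) →L[ℝ] EuclideanSpace ℝ (Fin d × κ) :=
    LinearMap.toContinuousLinearMap
      { toFun := fun T => WithLp.toLp 2 fun q : Fin d × κ => T (unitVec q.1) q.2
        map_add' := fun T T' => by ext q; simp
        map_smul' := fun c T => by ext q; simp } with hE
  have hEn : ∀ T, ‖E T‖ ^ 2 = ∑ i, ‖T (unitVec i)‖ ^ 2 := fun T => by
    simp [hE, EuclideanSpace.norm_sq_eq, Fintype.sum_prod_type]
  have hEb : ∀ {f : ℝ → Euc d → EuclideanSpace ℝ κ}, Tame (Ioi 0) f → ∀ {r M : ℝ}, r ∈ Ico a t →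
      (∀ x, ‖f r x‖ ≤ M) → ‖E (fderiv ℝ (P f r) y)‖ ≤ √(v * M ^ 2 / (t - r)) := by
    intro f hf r M hr hM
    exact Real.le_sqrt_of_sq_le ((hEn _).le.trans (hD hf hr hM y).2)
  have hintD : IntervalIntegrable (fun r => fderiv ℝ (P R r) y) volume a t := by
    refine hbint.mono_fun' hmeas ((ae_restrict_iff' measurableSet_uIoc).2 ?_)
    filter_upwards [hae] with r hr h using hbound r (hr h) y
  have hrest : ‖E (∫ r in a..t, fderiv ℝ (P R r) y)‖ ≤ 2 * √(v * (t - a)) * M₁ := by
    rw [← E.intervalIntegral_comp_comm hintD]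
    refine (intervalIntegral.norm_integral_le_of_norm_le hat.le ?_ hbint).trans (le_of_eq ?_)
    · filter_upwards [hae] with r hr h
      rw [uIoc_of_le hat.le] at hr
      have hr' := hr h
      refine (hEb hRt hr' (hM₁ r (Ico_subset_Icc_self hr'))).trans (le_of_eq ?_)
      simp only [hb]
      rw [Real.sqrt_div (by positivity), Real.sqrt_mul hv.le, Real.sqrt_sq hM₁0,
        Real.rpow_neg (sub_pos.2 hr'.2).le, ← Real.sqrt_eq_rpow, div_eq_mul_inv]
    · rw [hb, intervalIntegral.integral_const_mul,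
        intervalIntegral.integral_comp_sub_left (fun x => x ^ (-(1 / 2) : ℝ)) t, sub_self,
        integral_rpow (Or.inl (by norm_num)), show (-(1 / 2) : ℝ) + 1 = 1 / 2 by norm_num,
        Real.zero_rpow (by norm_num), ← Real.sqrt_eq_rpow, Real.sqrt_mul hv.le]
      ring
  rw [← hEn, hGd, map_add]
  refine pow_le_pow_left₀ (norm_nonneg _) ((norm_add_le _ _).trans (add_le_add ?_ hrest)) 2
  refine (hEb hG ⟨le_rfl, hat⟩ hM₀).trans (le_of_eq ?_)
  rw [mul_div_right_comm, Real.sqrt_mul (div_nonneg hv.le (sub_nonneg.2 hat.le)),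
    Real.sqrt_sq hM₀0]

end Vale.Agent.P347
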