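import Vale.Agent.P347.Interfaces

/-!
Polynomial quadrature, extrapolation and numerical differentiation along random curves.
-/

namespace Vale.Agent.P347

open MeasureTheory Filter
open scoped Topology

variable {d P : ℕ}

/-- Lagrange basis functions of the nodes `t`. -/
noncomputable def lag (t : Fin P → ℝ) (i : Fin P) (x : ℝ) : ℝ :=
  ∏ j ∈ Finset.univ.erase i, (x - t j) / (t i - t j)

lemma continuous_lag (t : Fin P → ℝ) (i : Fin P) : Continuous (lag t i) := by
  unfold lag; fun_prop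

lemma differentiable_lag (t : Fin P → ℝ) (i : Fin P) : Differentiable ℝ (lag t i) := by
  unfold lag; fun_prop

lemma lag_exact {t : Fin P → ℝ} (ht : Function.Injective t) {k : ℕ} (hk : k < P) (c x : ℝ) :
    ∑ i, lag t i x * (t i - c) ^ k = (x - c) ^ k := by
  classical
  set p : Polynomial ℝ := (Polynomial.X - Polynomial.C c) ^ k with hp
  have hdeg : p.degree < ((Finset.univ : Finset (Fin P)).card : WithBot ℕ) := by
    simp only [hp, Polynomial.degree_pow, Polynomial.degree_X_sub_C, Finset.card_univ,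
      Fintype.card_fin, nsmul_one]
    exact WithBot.coe_lt_coe.2 hk
  have h := congrArg (Polynomial.eval x) (Lagrange.eq_interpolate ht.injOn hdeg)
  simp only [hp, Lagrange.interpolate_apply, Polynomial.eval_finsetSum, Polynomial.eval_mul,
    Polynomial.eval_C, Polynomial.eval_pow, Polynomial.eval_sub, Polynomial.eval_X] at h
  rw [h]
  refine Finset.sum_congr rfl fun i _ => ?_
  rw [mul_comm, Lagrange.basis, Polynomial.eval_prod]
  simp only [Lagrange.basisDivisor, Polynomial.eval_mul, Polynomial.eval_C, Polynomial.eval_sub,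
    Polynomial.eval_X, lag]
  congr 1
  exact Finset.prod_congr rfl fun j _ => by rw [div_eq_inv_mul]

lemma lag_affine (t : Fin P → ℝ) (i : Fin P) (a : ℝ) {h : ℝ} (hh : h ≠ 0) (x : ℝ) :
    lag (fun j => a + h * t j) i (a + h * x) = lag t i x := by
  refine Finset.prod_congr rfl fun j _ => ?_
  rw [add_sub_add_left_eq_sub, add_sub_add_left_eq_sub, ← mul_sub, ← mul_sub,
    mul_div_mul_left _ _ hh]

lemma deriv_lag_exact {t : Fin P → ℝ} (ht : Function.Injective t) {k : ℕ} (hk : k < P)
    (c x : ℝ) : ∑ i, deriv (lag t i) x * (t i - c) ^ k = k * (x - c) ^ (k - 1) := by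
  have h1 : HasDerivAt (fun u => ∑ i, lag t i u * (t i - c) ^ k)
      (∑ i, deriv (lag t i) x * (t i - c) ^ k) x :=
    HasDerivAt.fun_sum fun i _ => ((differentiable_lag t i x).hasDerivAt).mul_const _
  have h2 : HasDerivAt (fun u : ℝ => (u - c) ^ k) ((k : ℝ) * (x - c) ^ (k - 1)) x := by
    simpa using ((hasDerivAt_id x).sub_const c).fun_pow k
  simp only [lag_exact ht hk] at h1
  exact h1.unique h2

lemma deriv_lag_scale (t : Fin P → ℝ) (i : Fin P) {h : ℝ} (hh : h ≠ 0) :
    deriv (lag (fun j => h * t j) i) 0 = deriv (lag t i) 0 / h := by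
  have e : lag (fun j => h * t j) i = fun x => lag t i (h⁻¹ * x) := by
    funext x
    have := lag_affine t i 0 hh (h⁻¹ * x)
    simpa [mul_inv_cancel_left₀ hh] using this
  rw [e]
  have h3 : HasDerivAt (fun x => lag t i (h⁻¹ * x)) (deriv (lag t i) 0 * h⁻¹) 0 := by
    have h4 : HasDerivAt (fun x : ℝ => h⁻¹ * x) h⁻¹ 0 := by
      simpa using (hasDerivAt_id (0 : ℝ)).const_mul h⁻¹
    have h5 := (differentiable_lag t i (h⁻¹ * 0)).hasDerivAt.comp 0 h4
    simpa [Function.comp_def] using h5
  rw [h3.deriv, div_eq_mul_inv]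

/-! ## The Taylor remainder -/

section Taylor

variable {E : Type*} [NormedAddCommGroup E] [NormedSpace ℝ E] [CompleteSpace E]

lemma taylor_remainder_le {a b : ℝ} :
    ∀ (m : ℕ) (D : ℕ → ℝ → E),
      (∀ k, ContinuousOn (D k) (Set.Icc a b)) →
      (∀ k, ∀ t ∈ Set.Icc a b, HasDerivWithinAt (D k) (D (k + 1) t) (Set.Icc a b) t) →
      ∀ t ∈ Set.Icc a b,
        ‖D 0 t - ∑ i ∈ Finset.range (m + 1), ((t - a) ^ i / (i.factorial : ℝ)) • D i a‖
          ≤ (b - a) ^ m * ∫ u in a..b, ‖D (m + 1) u‖ := by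
  intro m
  induction m with
  | zero =>
      intro D hc hd t ht
      have hsub : Set.Icc a t ⊆ Set.Icc a b := Set.Icc_subset_Icc le_rfl ht.2
      have hftc : ∫ u in a..t, D 1 u = D 0 t - D 0 a := by
        refine intervalIntegral.integral_eq_sub_of_hasDerivAt_of_le ht.1 ((hc 0).mono hsub)
          (fun u hu => ?_) (((hc 1).mono hsub).intervalIntegrable_of_Icc ht.1)
        exact (hd 0 u (hsub ⟨hu.1.le, hu.2.le⟩)).hasDerivAt
          (Icc_mem_nhds hu.1 (hu.2.trans_le ht.2))
      simp only [zero_add, Finset.range_one, Finset.sum_singleton, pow_zero, Nat.factorial_zero,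
        Nat.cast_one, div_one, one_smul, one_mul]
      rw [← hftc]
      refine (intervalIntegral.norm_integral_le_integral_norm ht.1).trans ?_
      refine intervalIntegral.integral_mono_interval le_rfl ht.1 ht.2
        (.of_forall fun u => norm_nonneg _) ?_
      exact ((hc 1).norm).intervalIntegrable_of_Icc (ht.1.trans ht.2)
  | succ m ih =>
      intro D hc hd t ht
      set M := (b - a) ^ m * ∫ u in a..b, ‖D (m + 1 + 1) u‖ with hM
      set R : ℝ → E := fun u =>
        D 0 u - ∑ i ∈ Finset.range (m + 1 + 1), ((u - a) ^ i / (i.factorial : ℝ)) • D i a with hR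
      have hder : ∀ u ∈ Set.Icc a b, HasDerivWithinAt R
          (D 1 u - ∑ i ∈ Finset.range (m + 1), ((u - a) ^ i / (i.factorial : ℝ)) • D (i + 1) a)
          (Set.Icc a b) u := by
        intro u hu
        refine (hd 0 u hu).fun_sub ?_
        have hs : HasDerivAt
            (fun v => ∑ i ∈ Finset.range (m + 1 + 1), ((v - a) ^ i / (i.factorial : ℝ)) • D i a)
            (∑ i ∈ Finset.range (m + 1 + 1),
              ((i : ℝ) * (u - a) ^ (i - 1) / (i.factorial : ℝ)) • D i a) u := by
          refine HasDerivAt.fun_sum fun i _ => ?_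
          have h1 := (((hasDerivAt_id u).sub_const a).fun_pow i).div_const (i.factorial : ℝ)
          simpa using h1.smul_const (D i a)
        refine HasDerivAt.hasDerivWithinAt ?_
        refine hs.congr_deriv ?_
        rw [Finset.sum_range_succ' _ (m + 1)]
        simp only [Nat.cast_zero, zero_mul, zero_div, zero_smul, add_zero]
        refine Finset.sum_congr rfl fun i _ => ?_
        congr 1
        rw [Nat.add_sub_cancel, Nat.factorial_succ, Nat.cast_mul]
        field_simp
      have hbound : ∀ u ∈ Set.Icc a b,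
          ‖D 1 u - ∑ i ∈ Finset.range (m + 1), ((u - a) ^ i / (i.factorial : ℝ)) • D (i + 1) a‖
            ≤ M :=
        fun u hu => ih (fun k => D (k + 1)) (fun k => hc _) (fun k => hd _) u hu
      have h2 := Convex.norm_image_sub_le_of_norm_hasDerivWithin_le hder hbound (convex_Icc a b)
        ⟨le_rfl, ht.1.trans ht.2⟩ ht
      have hRa : R a = 0 := by
        simp only [hR, sub_self]
        rw [Finset.sum_range_succ' _ (m + 1)]
        simp
      rw [hRa, sub_zero, Real.norm_eq_abs, abs_of_nonneg (sub_nonneg.2 ht.1)] at h2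
      refine h2.trans ?_
      have hM0 : 0 ≤ M := (norm_nonneg _).trans (hbound t ht)
      calc M * (t - a) ≤ M * (b - a) := by gcongr; exact ht.2
        _ = _ := by rw [hM]; ring

end Taylor

/-- Pointwise majorant of the quadrature errors of order `P` of a random curve. -/
structure Majorant {Ω : Type*} (a b : ℝ) (G : ℝ → Ω → Euc d) (G₁ : ℝ → Ω → Euc d) (P : ℕ)
    (S S₁ : Ω → ℝ) : Prop where
  /-- the error of the Taylor polynomial of some coefficients -/
  exists_poly : ∀ ω, ∃ c : ℕ → Euc d,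
    (∀ t ∈ Set.Icc a b, ‖G t ω - ∑ i ∈ Finset.range P, ((t - a) ^ i) • c i‖ ≤ S ω) ∧
    ∀ t ∈ Set.Icc a b,
      ‖G₁ t ω - ∑ i ∈ Finset.range P, ((i : ℝ) * (t - a) ^ (i - 1)) • c i‖ ≤ S₁ ω

lemma CurveBound.exists_majorant {Ω : Type*} [TopologicalSpace Ω] [MeasurableSpace Ω]
    [OpensMeasurableSpace Ω] [SecondCountableTopology Ω] {μ : Measure Ω} [SFinite μ] {a b : ℝ}
    (hab : a < b) {G : ℝ → Ω → Euc d} {B : ℕ → ℝ → ℝ} (h : CurveBound μ a b G B) {G₁ : ℝ → Ω → Euc d}
    (h₁ : ∀ t ∈ Set.Icc a b, ∀ ω,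
      HasDerivWithinAt (fun u => G u ω) (G₁ t ω) (Set.Icc a b) t)
    {m : ℕ} {M : ℝ} (hM : ∀ t ∈ Set.Icc a b, B (m + 2) t ≤ M) :
    ∃ S : Ω → ℝ, (∀ ω, 0 ≤ S ω) ∧ Integrable S μ ∧ ∫ ω, S ω ∂μ ≤ (b - a) ^ (m + 2) * M ∧
      Majorant a b G G₁ (m + 2) S (fun ω => S ω / (b - a)) := by
  obtain ⟨D, hD0, hDc, hDd, hDb⟩ := h
  set F : ℝ × Ω → ℝ := fun p => ‖D (m + 2) p.1 p.2‖ with hF
  set ν := volume.restrict (Set.Ioc a b) with hν
  have : IsFiniteMeasure ν := ⟨by simp [hν, Real.volume_Ioc]⟩
  have hFc : ContinuousOn F (Set.Icc a b ×ˢ Set.univ) := (hDc _).norm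
  have hsm : AEStronglyMeasurable F (ν.prod μ) := by
    have h1 : AEStronglyMeasurable F ((volume.prod μ).restrict (Set.Icc a b ×ˢ Set.univ)) :=
      hFc.aestronglyMeasurable (measurableSet_Icc.prod MeasurableSet.univ)
    refine h1.mono_measure ?_
    rw [hν, ← Measure.prod_restrict, Measure.restrict_univ]
    exact Measure.prod_mono (Measure.restrict_mono Set.Ioc_subset_Icc_self le_rfl) le_rfl
  have hint : Integrable F (ν.prod μ) := by
    refine (integrable_prod_iff hsm).2 ⟨?_, ?_⟩
    · refine (ae_restrict_mem measurableSet_Ioc).mono fun t ht => ?_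
      exact (hDb _ t (Set.Ioc_subset_Icc_self ht)).1
    · refine Integrable.mono' (integrable_const M) hsm.norm.integral_prod_right' ?_
      refine (ae_restrict_mem measurableSet_Ioc).mono fun t ht => ?_
      have ht' := Set.Ioc_subset_Icc_self ht
      rw [Real.norm_eq_abs, abs_of_nonneg (integral_nonneg fun _ => norm_nonneg _)]
      simp only [hF, norm_norm]
      exact (hDb _ t ht').2.trans (hM t ht')
  set S : Ω → ℝ := fun ω => (b - a) ^ (m + 1) * ∫ t, F (t, ω) ∂ν with hS
  refine ⟨S, fun ω => mul_nonneg (pow_nonneg (by linarith) _)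
    (integral_nonneg fun _ => norm_nonneg _), hint.integral_prod_right.const_mul _, ?_, ⟨?_⟩⟩
  · rw [hS, integral_const_mul, pow_succ _ (m + 1), mul_assoc]
    refine mul_le_mul_of_nonneg_left ?_ (pow_nonneg (by linarith) _)
    rw [← integral_integral_swap (f := fun t ω => F (t, ω)) hint]
    refine (integral_mono_ae hint.integral_prod_left (integrable_const M) ?_).trans ?_
    · refine (ae_restrict_mem measurableSet_Ioc).mono fun t ht => ?_
      have ht' := Set.Ioc_subset_Icc_self ht
      exact (hDb _ t ht').2.trans (hM t ht')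
    · simp [hν, Measure.real, Real.volume_Ioc, hab.le, mul_comm]
  intro ω
  refine ⟨fun i => ((i.factorial : ℝ))⁻¹ • D i a ω, fun t ht => ?_, fun t ht => ?_⟩
  · have hcs : ∀ k, ContinuousOn (fun u => D k u ω) (Set.Icc a b) := fun k =>
      ((hDc k).comp (f := fun u => (u, ω)) (by fun_prop) fun u hu => ⟨hu, Set.mem_univ _⟩)
    have h2 := taylor_remainder_le (m + 1) (fun k u => D k u ω) hcs (fun k t ht => hDd k t ht ω)
      t ht
    rw [intervalIntegral.integral_of_le hab.le] at h2
    simp only [hD0 t ht ω] at h2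
    simp only [smul_smul, ← div_eq_mul_inv]
    exact h2
  · have hcs : ∀ k, ContinuousOn (fun u => D k u ω) (Set.Icc a b) := fun k =>
      ((hDc k).comp (f := fun u => (u, ω)) (by fun_prop) fun u hu => ⟨hu, Set.mem_univ _⟩)
    have h2 := taylor_remainder_le m (fun k u => D (k + 1) u ω) (fun k => hcs _)
      (fun k t ht => hDd _ t ht ω) t ht
    rw [intervalIntegral.integral_of_le hab.le] at h2
    have h1eq : G₁ t ω = D 1 t ω := by
      have hu : UniqueDiffWithinAt ℝ (Set.Icc a b) t := uniqueDiffOn_Icc hab t ht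
      have h3 := ((hDd 0 t ht ω).congr (fun u hu => (hD0 u hu ω).symm) (hD0 t ht ω).symm)
      exact hu.eq_deriv _ (h₁ t ht ω) h3
    rw [Finset.sum_range_succ' _ (m + 1), h1eq]
    simp only [Nat.cast_zero, zero_mul, zero_smul, add_zero, smul_smul, Nat.add_sub_cancel]
    have e : ∀ i : ℕ, ((i : ℝ) + 1) * (t - a) ^ i * (((i + 1).factorial : ℕ) : ℝ)⁻¹
        = (t - a) ^ i / (i.factorial : ℝ) := fun i => by
      rw [Nat.factorial_succ, Nat.cast_mul, Nat.cast_succ]; field_simp
    simp only [Nat.cast_succ, e]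
    refine h2.trans (le_of_eq ?_)
    have hne : b - a ≠ 0 := sub_ne_zero.2 hab.ne'
    simp only [hS, hF, hν]
    field_simp
    ring

variable {Ω : Type*} {a b : ℝ} {G G₁ : ℝ → Ω → Euc d} {S S₁ : Ω → ℝ}

lemma Majorant.extrapolate (h : Majorant a b G G₁ P S S₁) {t : Fin P → ℝ}
    (ht : Function.Injective t) (hmem : ∀ i, t i ∈ Set.Icc a b) {x : ℝ} (hx : x ∈ Set.Icc a b)
    (ω : Ω) :
    ‖∑ i, lag t i x • G (t i) ω - G x ω‖ ≤ (1 + ∑ i, |lag t i x|) * S ω := by
  obtain ⟨c, hc, -⟩ := h.exists_poly ω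
  set p : ℝ → Euc d := fun u => ∑ k ∈ Finset.range P, ((u - a) ^ k) • c k with hp
  have he : ∑ i, lag t i x • p (t i) = p x := by
    simp only [hp, Finset.smul_sum, smul_smul]
    rw [Finset.sum_comm]
    refine Finset.sum_congr rfl fun k hk => ?_
    rw [← Finset.sum_smul, lag_exact ht (Finset.mem_range.1 hk)]
  have e1 : ∑ i, lag t i x • G (t i) ω - G x ω
      = ∑ i, lag t i x • (G (t i) ω - p (t i)) - (G x ω - p x) := by
    simp only [smul_sub, Finset.sum_sub_distrib, he]; abel
  rw [e1, add_mul, one_mul, Finset.sum_mul, add_comm]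
  refine (norm_sub_le _ _).trans (add_le_add ((norm_sum_le _ _).trans ?_) (hc x hx))
  refine Finset.sum_le_sum fun i _ => ?_
  rw [norm_smul, Real.norm_eq_abs]
  exact mul_le_mul_of_nonneg_left (hc _ (hmem i)) (abs_nonneg _)

lemma Majorant.differentiate (h : Majorant a b G G₁ P S S₁) {t : Fin P → ℝ}
    (ht : Function.Injective t) (hmem : ∀ i, t i ∈ Set.Icc a b) {x : ℝ} (hx : x ∈ Set.Icc a b)
    (ω : Ω) :
    ‖∑ i, deriv (lag t i) x • G (t i) ω - G₁ x ω‖
      ≤ (∑ i, |deriv (lag t i) x|) * S ω + S₁ ω := by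
  obtain ⟨c, hc, hc₁⟩ := h.exists_poly ω
  set p : ℝ → Euc d := fun u => ∑ k ∈ Finset.range P, ((u - a) ^ k) • c k with hp
  set p₁ : ℝ → Euc d := fun u =>
    ∑ k ∈ Finset.range P, ((k : ℝ) * (u - a) ^ (k - 1)) • c k with hp₁
  have he : ∑ i, deriv (lag t i) x • p (t i) = p₁ x := by
    simp only [hp, hp₁, Finset.smul_sum, smul_smul]
    rw [Finset.sum_comm]
    refine Finset.sum_congr rfl fun k hk => ?_
    rw [← Finset.sum_smul, deriv_lag_exact ht (Finset.mem_range.1 hk)]
  have e1 : ∑ i, deriv (lag t i) x • G (t i) ω - G₁ x ω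
      = ∑ i, deriv (lag t i) x • (G (t i) ω - p (t i)) - (G₁ x ω - p₁ x) := by
    simp only [smul_sub, Finset.sum_sub_distrib, he]; abel
  rw [e1, Finset.sum_mul]
  refine (norm_sub_le _ _).trans (add_le_add ((norm_sum_le _ _).trans ?_) (hc₁ x hx))
  refine Finset.sum_le_sum fun i _ => ?_
  rw [norm_smul, Real.norm_eq_abs]
  exact mul_le_mul_of_nonneg_left (hc _ (hmem i)) (abs_nonneg _)

lemma Majorant.integrate (h : Majorant a b G G₁ P S S₁) {t : Fin P → ℝ}
    (ht : Function.Injective t) (hmem : ∀ i, t i ∈ Set.Icc a b) {u v : ℝ} (hu : u ∈ Set.Icc a b)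
    (hv : v ∈ Set.Icc a b) {φ : ℝ → ℝ} (hφ : ContinuousOn φ (Set.Icc a b)) (ω : Ω)
    (hG : ContinuousOn (fun r => G r ω) (Set.Icc a b)) {K Φ : ℝ}
    (hK : ∀ r ∈ Set.Icc a b, ∑ i, |lag t i r| ≤ K) (hΦ : abs (∫ r in u..v, |φ r|) ≤ Φ) :
    ‖∑ i, (∫ r in u..v, φ r * lag t i r) • G (t i) ω - ∫ r in u..v, φ r • G r ω‖
      ≤ (1 + K) * Φ * S ω := by
  have hsub : Set.uIcc u v ⊆ Set.Icc a b := Set.uIcc_subset_Icc hu hv
  have hi : ∀ i, IntervalIntegrable (fun r => φ r * lag t i r) volume u v := fun i =>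
    ((hφ.mono hsub).mul (continuous_lag t i).continuousOn).intervalIntegrable
  have hi2 : IntervalIntegrable (fun r => φ r • G r ω) volume u v :=
    ((hφ.mono hsub).smul (hG.mono hsub)).intervalIntegrable
  have e1 : ∑ i, (∫ r in u..v, φ r * lag t i r) • G (t i) ω
      = ∫ r in u..v, φ r • ∑ i, lag t i r • G (t i) ω := by
    simp only [← intervalIntegral.integral_smul_const]
    rw [← intervalIntegral.integral_finsetSum fun i _ =>
      (((hφ.mono hsub).fun_mul (continuous_lag t i).continuousOn).fun_smul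
        continuousOn_const).intervalIntegrable]
    simp only [Finset.smul_sum, smul_smul]
  have hc : ContinuousOn (fun r => ∑ i, lag t i r • G (t i) ω) (Set.uIcc u v) :=
    Continuous.continuousOn (continuous_finsetSum _ fun i _ =>
      (continuous_lag t i).smul continuous_const)
  rw [e1, ← intervalIntegral.integral_sub ((hφ.mono hsub).fun_smul hc).intervalIntegrable hi2]
  simp only [← smul_sub]
  have hS : 0 ≤ S ω := by
    obtain ⟨c, hc', -⟩ := h.exists_poly ω
    exact (norm_nonneg _).trans (hc' u hu)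
  have hK0 : 0 ≤ K := (Finset.sum_nonneg fun i _ => abs_nonneg _).trans (hK u hu)
  refine (intervalIntegral.norm_integral_le_abs_of_norm_le (g := fun r => (1 + K) * S ω * |φ r|)
    (ae_restrict_of_forall_mem measurableSet_uIoc fun r hr => ?_) ((((hφ.mono hsub).abs).intervalIntegrable).const_mul _)).trans ?_
  · have hr' := hsub (Set.uIoc_subset_uIcc hr)
    rw [norm_smul, Real.norm_eq_abs, mul_comm]
    refine mul_le_mul_of_nonneg_right ((h.extrapolate ht hmem hr' ω).trans ?_) (abs_nonneg _)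
    gcongr
    exact hK r hr'
  · rw [intervalIntegral.integral_const_mul, abs_mul, abs_of_nonneg (by positivity),
      mul_right_comm _ Φ]
    gcongr

end Vale.Agent.P347
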