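import Vale.Agent.P347.CleanLaws
import Vale.Agent.P347.GadgetDefs
import Vale.Agent.P347.HessSq
import Vale.Agent.P347.AvgExtract
import Vale.Agent.P347.Asymp

/-!
The setting of the cleaning step: data, hypotheses, laws and quadrature along the cleaning paths.
-/

namespace Vale.Agent.P347

open MeasureTheory ProbabilityTheory
open scoped RealInnerProductSpace

/-- The constant of the squared Hessian body. -/
noncomputable def hessConst (P It : ℕ) : ℕ := if h : 2 ≤ P then (hessSq P It h).choose else 0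

lemma one_le_hessConst {P : ℕ} (hP : 2 ≤ P) (It : ℕ) : 1 ≤ hessConst P It := by
  rw [hessConst, dif_pos hP]
  exact (hessSq P It hP).choose_spec.1

/-- Quadrature points in `[2/5, 9/10]`. -/
noncomputable def cleanNode {P : ℕ} (l : Fin P) : ℝ := 13 / 20 + 1 / 4 * eqNode l

lemma cleanNode_mem {P : ℕ} (hP : 2 ≤ P) (l : Fin P) :
    cleanNode l ∈ Set.Icc (2 / 5 : ℝ) (9 / 10) := by
  have h := abs_le.1 (abs_eqNode_le hP l)
  constructor <;> simp only [cleanNode] <;> linarith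

lemma cleanNode_injective {P : ℕ} (hP : 2 ≤ P) : Function.Injective (cleanNode (P := P)) := by
  intro a b h
  exact eqNode_injective hP (by simpa [cleanNode] using h)

lemma exists_cleanLag_bound (P : ℕ) : ∃ L : ℝ, 1 ≤ L ∧
    ∀ x ∈ Set.Icc (0 : ℝ) 1, ∑ i : Fin P, |lag (cleanNode (P := P)) i x| ≤ L := by
  obtain ⟨C, hC⟩ := isCompact_Icc.bddAbove_image
    (f := fun x => ∑ i : Fin P, |lag (cleanNode (P := P)) i x|) (K := Set.Icc (0 : ℝ) 1)
    (continuous_finsetSum _ fun i _ => (continuous_lag _ i).abs).continuousOn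
  exact ⟨max C 1, le_max_right _ _, fun x hx => (hC ⟨x, hx, rfl⟩).trans (le_max_left _ _)⟩

/-- Data of the cleaning step. -/
structure CleanData where
  /-- quadrature order -/
  P : ℕ
  /-- inner iterations -/
  It : ℕ
  /-- queries of the given operators -/
  M : ℕ
  /-- bound for the Lagrange functions -/
  L : ℝ
  /-- scale -/
  R : ℝ
  /-- level -/
  τ : ℝ
  /-- noise to clean -/
  ν : ℝ
  /-- variance carried by the path -/
  δe : ℝ
  /-- inner variance -/
  din : ℝ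
  /-- outer variance -/
  dout : ℝ
  /-- stability slack -/
  ε : ℝ
  /-- gain -/
  g : ℝ
  /-- error of the oracle -/
  EO : ℝ
  /-- error of the inner operators -/
  Ein : ℝ
  /-- error of the outer operators -/
  Eout : ℝ
  /-- constants of the derivative bounds -/
  Cc : ℕ → ℝ
  /-- the paths -/
  Φ : PathFam

namespace CleanData

variable (D : CleanData)

/-- The radius at a node. -/
noncomputable def rad (l : Fin D.P) : ℝ := √D.ν * cleanNode l

/-- The extraction step. -/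
noncomputable def lam : ℝ := √D.ν / D.R ^ 2

/-- The angle scale of the rotation. -/
noncomputable def kr : ℝ := √D.ν / (D.R ^ 2 * √D.din)

/-- Product integration weights from `√ν` to `v`. -/
noncomputable def wgt (φ : ℝ → ℝ) (v : ℝ) (j : Fin D.P) : ℝ :=
  ∫ u in √D.ν..v, φ u * lag D.rad j u

/-- The position on the path at radius `r`. -/
noncomputable def pos (r : ℝ) : VarFam :=
  fun d V ω => ω.1 + r • (D.Φ d V r (cleanPt D.ν ω)).1

/-- The Gaussian state on the path at radius `r`. -/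
noncomputable def xi (r : ℝ) : VarFam := fun d V ω => (D.Φ d V r (cleanPt D.ν ω)).2

/-- The Hessian at radius `r`. -/
noncomputable def hess (r : ℝ) : HessFam := hessFam (D.τ + r ^ 2) (D.ν - r ^ 2)

/-- The first integrand along the path. -/
noncomputable def int₁ (d : ℕ) (V : Euc d → ℝ) (r : ℝ) (p : Euc d × Euc d × Euc d) : Euc d :=
  hessAvg V (D.τ + r ^ 2) (D.ν - r ^ 2) (p.1 + r • (D.Φ d V r p).1) (D.Φ d V r p).2

/-- The second integrand along the path. -/
noncomputable def int₂ (d : ℕ) (V : Euc d → ℝ) (r : ℝ) (p : Euc d × Euc d × Euc d) : Euc d :=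
  hessAvg V (D.τ + r ^ 2) (D.ν - r ^ 2) (p.1 + r • (D.Φ d V r p).1) (D.int₁ d V r p)

/-- The law of the path coordinates. -/
noncomputable def law3 (d : ℕ) (V : Euc d → ℝ) : Measure (Euc d × Euc d × Euc d) :=
  (levelLaw V D.τ).prod ((gauss d).prod (gauss d))

/-- The residual unit. -/
noncomputable def res : ℝ := (1 + D.L) * |D.Cc D.P| * (√D.ν / √D.τ) ^ D.P

/-- The hypotheses. -/
structure Valid : Prop where
  two_le : 2 ≤ D.P
  one_le_L : 1 ≤ D.L
  lag_le : ∀ x ∈ Set.Icc (0 : ℝ) 1, ∑ i : Fin D.P, |lag (cleanNode (P := D.P)) i x| ≤ D.L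
  two_le_R : 2 ≤ D.R
  big : 20 * D.P * D.L * (diffSize D.P + hessConst D.P D.It) ≤ D.R
  τ_pos : 0 < D.τ
  ν_pos : 0 < D.ν
  ν_le : D.ν ≤ D.τ
  ν_le_δe : D.ν ≤ D.δe
  δe_le : D.δe ≤ 1
  din_pos : 0 < D.din
  dout_nonneg : 0 ≤ D.dout
  ε_nonneg : 0 ≤ D.ε
  ε_le : D.ε ≤ 1
  g_nonneg : 0 ≤ D.g
  g_le : D.g ≤ 1 / 4
  inner_gain : D.R ^ 5 * (√D.ν / √D.δe) ≤ D.g
  outer_gain : D.R ^ 10 * (√D.din / √D.δe) ≤ 1
  out_var : D.R ^ 12 * ((√D.din / √D.δe) ^ 2 * D.dout) ≤ D.δe
  kr_le : (hessConst D.P D.It : ℝ) * D.kr ≤ 1 / 2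
  prob : ∀ d V, Nice d V → IsProbabilityMeasure (levelLaw V D.τ)
  conv : ∀ d V, Nice d V → ∀ r ∈ Set.Icc 0 √D.ν,
    ((levelLaw V D.τ).prod (gauss d)).map (fun p => p.1 + r • p.2) = levelLaw V (D.τ + r ^ 2)
  hess_facts : ∀ d V, Nice d V → ∀ r ∈ Set.Icc 0 √D.ν,
    Continuous (scoreAvg V (D.τ + r ^ 2) (D.ν - r ^ 2)) ∧
      Continuous (hessAvg V (D.τ + r ^ 2) (D.ν - r ^ 2)) ∧
      (∀ y a b, ⟪hessAvg V (D.τ + r ^ 2) (D.ν - r ^ 2) y a, b⟫
        = ⟪a, hessAvg V (D.τ + r ^ 2) (D.ν - r ^ 2) y b⟫) ∧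
      ∀ y, ‖hessAvg V (D.τ + r ^ 2) (D.ν - r ^ 2) y‖ ≤ 2
  avg_int : ∀ d V, Nice d V → Integrable (fun y => ‖scoreAvg V D.τ D.ν y‖) (levelLaw V D.τ)
  cont : ∀ d V, Nice d V → ContinuousOn
    (fun q : ℝ × (Euc d × Euc d × Euc d) => D.Φ d V q.1 q.2) (Set.Icc 0 √D.ν ×ˢ Set.univ)
  pos_eq : ∀ d V, Nice d V → ∀ p, ∀ r ∈ Set.Icc 0 √D.ν,
    (D.Φ d V r p).1 = p.2.1 + (√D.δe)⁻¹ • ∫ u in √D.ν..r, D.int₁ d V u p
  xi_eq : ∀ d V, Nice d V → ∀ p, ∀ r ∈ Set.Icc 0 √D.ν,
    √D.δe • (D.Φ d V r p).2 + scoreAvg V (D.τ + r ^ 2) (D.ν - r ^ 2) (p.1 + r • (D.Φ d V r p).1)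
      = √D.δe • p.2.2 + score V (D.τ + D.ν) (p.1 + √D.ν • p.2.1)
        + (√D.δe)⁻¹ • ∫ u in √D.ν..r, u • D.int₂ d V u p
  invariant : ∀ d V, Nice d V → ∀ z, ∀ r ∈ Set.Icc 0 √D.ν,
    ((gauss d).prod (gauss d)).map (fun q => D.Φ d V r (z, q.1, q.2))
      = (gauss d).prod (gauss d)
  bound₁ : ∀ d V, Nice d V → CurveBound (D.law3 d V) 0 √D.ν (D.int₁ d V)
    fun k _ => D.Cc k * ((d : ℝ) + 1) ^ 2 / √D.τ ^ k
  bound₂ : ∀ d V, Nice d V → CurveBound (D.law3 d V) 0 √D.ν (D.int₂ d V)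
    fun k _ => D.Cc k * ((d : ℝ) + 1) ^ 2 / √D.τ ^ k
  EO_nonneg : 0 ≤ D.EO
  Ein_nonneg : 0 ≤ D.Ein
  Eout_nonneg : 0 ≤ D.Eout
  oracle : ∃ op, OpOK op D.M D.ε (scoreFam (D.τ + D.ν)) (levelFam (D.τ + D.ν)) 0 (D.δe / 2) D.EO
  clean : ∀ l, ∃ op, OpOK op D.M D.ε (avgFam (D.τ + D.rad l ^ 2) (D.ν - D.rad l ^ 2))
    (levelFam (D.τ + D.rad l ^ 2)) (D.ν - D.rad l ^ 2) D.din D.Ein
  extractIn : ∀ l, Extractor D.P (levelFam (D.τ + D.rad l ^ 2)) (D.hess (D.rad l)) D.lam
    (D.ν - D.rad l ^ 2 - D.lam ^ 2) D.din (D.M * 2) D.ε D.Ein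
  extractOut : ∀ l, Extractor D.P (levelFam (D.τ + D.rad l ^ 2)) (D.hess (D.rad l)) D.lam
    (D.ν - D.rad l ^ 2 - D.lam ^ 2) D.dout (D.M * 2) D.ε D.Eout

namespace Valid

variable {D} (h : D.Valid)
include h

lemma sqrt_ν_pos : 0 < √D.ν := Real.sqrt_pos.2 h.ν_pos

lemma δe_pos : 0 < D.δe := h.ν_pos.trans_le h.ν_le_δe

lemma R_pos : 0 < D.R := zero_lt_two.trans_le h.two_le_R

lemma L_pos : 0 < D.L := zero_lt_one.trans_le h.one_le_L

lemma K_one_le : (1 : ℝ) ≤ hessConst D.P D.It := by exact_mod_cast one_le_hessConst h.two_le _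

lemma lam_pos : 0 < D.lam := div_pos h.sqrt_ν_pos (pow_pos h.R_pos 2)

lemma kr_pos : 0 < D.kr :=
  div_pos h.sqrt_ν_pos (mul_pos (pow_pos h.R_pos 2) (Real.sqrt_pos.2 h.din_pos))

lemma rad_mem (l : Fin D.P) : D.rad l ∈ Set.Icc 0 √D.ν := by
  obtain ⟨h1, h2⟩ := cleanNode_mem h.two_le l
  exact ⟨mul_nonneg h.sqrt_ν_pos.le (by linarith),
    mul_le_of_le_one_right h.sqrt_ν_pos.le (by linarith)⟩

lemma rad_sq (l : Fin D.P) : D.rad l ^ 2 = D.ν * cleanNode l ^ 2 := by
  rw [rad, mul_pow, Real.sq_sqrt h.ν_pos.le]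

lemma rad_injective : Function.Injective D.rad :=
  (mul_right_injective₀ h.sqrt_ν_pos.ne').comp (cleanNode_injective h.two_le)

lemma isProb (d : ℕ) (V : Euc d → ℝ) (hV : Nice d V) :
    IsProbabilityMeasure (cleanLaw D.τ D.ν d V) :=
  have := h.prob d V hV
  isProbabilityMeasure_cleanLaw

lemma lag_rad_le {u : ℝ} (hu : u ∈ Set.Icc 0 √D.ν) : ∑ i, |lag D.rad i u| ≤ D.L := by
  have e : ∀ i, lag D.rad i u = lag (cleanNode (P := D.P)) i (u / √D.ν) := fun i => by
    have h1 := lag_affine (cleanNode (P := D.P)) i 0 h.sqrt_ν_pos.ne' (u / √D.ν)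
    show lag (fun j => √D.ν * cleanNode j) i u = _
    simpa [mul_div_cancel₀ u h.sqrt_ν_pos.ne'] using h1
  simp only [e]
  exact h.lag_le _ ⟨div_nonneg hu.1 (Real.sqrt_nonneg _), (div_le_one h.sqrt_ν_pos).2 hu.2⟩

lemma wgt_one_le {v : ℝ} (hv : v ∈ Set.Icc 0 √D.ν) (j : Fin D.P) :
    |D.wgt (fun _ => 1) v j| ≤ D.L * √D.ν := by
  have h1 := intervalIntegral.norm_integral_le_of_norm_le_const
    (f := fun u => (1 : ℝ) * lag D.rad j u) (C := D.L) (a := √D.ν) (b := v) fun u hu => by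
      have hu' : u ∈ Set.Icc 0 √D.ν := Set.uIcc_subset_Icc ⟨h.sqrt_ν_pos.le, le_rfl⟩ hv
        (Set.uIoc_subset_uIcc hu)
      rw [one_mul, Real.norm_eq_abs]
      exact (Finset.single_le_sum (f := fun i => |lag D.rad i u|) (fun i _ => abs_nonneg _)
        (Finset.mem_univ j)).trans (h.lag_rad_le hu')
  rw [Real.norm_eq_abs] at h1
  refine h1.trans (mul_le_mul_of_nonneg_left ?_ h.L_pos.le)
  rw [abs_sub_comm, abs_of_nonneg (by linarith [hv.2])]
  linarith [hv.1]

lemma wgt_id_le {v : ℝ} (hv : v ∈ Set.Icc 0 √D.ν) (j : Fin D.P) :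
    |D.wgt id v j| ≤ D.L * D.ν := by
  have h1 := intervalIntegral.norm_integral_le_of_norm_le_const
    (f := fun u => id u * lag D.rad j u) (C := √D.ν * D.L) (a := √D.ν) (b := v) fun u hu => by
      have hu' : u ∈ Set.Icc 0 √D.ν := Set.uIcc_subset_Icc ⟨h.sqrt_ν_pos.le, le_rfl⟩ hv
        (Set.uIoc_subset_uIcc hu)
      rw [norm_mul, Real.norm_eq_abs, Real.norm_eq_abs, id, abs_of_nonneg hu'.1]
      exact mul_le_mul hu'.2 ((Finset.single_le_sum (f := fun i => |lag D.rad i u|)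
        (fun i _ => abs_nonneg _) (Finset.mem_univ j)).trans (h.lag_rad_le hu')) (abs_nonneg _)
        (Real.sqrt_nonneg _)
  rw [Real.norm_eq_abs] at h1
  refine h1.trans ?_
  have h2 : |v - √D.ν| ≤ √D.ν := by
    rw [abs_sub_comm, abs_of_nonneg (by linarith [hv.2])]; linarith [hv.1]
  calc √D.ν * D.L * |v - √D.ν| ≤ √D.ν * D.L * √D.ν :=
        mul_le_mul_of_nonneg_left h2 (mul_nonneg (Real.sqrt_nonneg _) h.L_pos.le)
    _ = _ := by rw [mul_right_comm, Real.mul_self_sqrt h.ν_pos.le, mul_comm]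

lemma continuous_path {d : ℕ} {V : Euc d → ℝ} (hV : Nice d V) {r : ℝ}
    (hr : r ∈ Set.Icc 0 √D.ν) : Continuous (D.Φ d V r) :=
  (h.cont d V hV).comp_continuous (f := fun p => (r, p)) (by fun_prop)
    fun p => ⟨hr, Set.mem_univ _⟩

lemma map_cleanPt {d : ℕ} {V : Euc d → ℝ} (hV : Nice d V) :
    (cleanLaw D.τ D.ν d V).map (cleanPt D.ν) = D.law3 d V := by
  have := h.prob d V hV
  have e : (Measure.pi fun _ : Fin 3 => gauss d).map (fun s => (s 0, s 1))
      = (gauss d).prod (gauss d) := by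
    have h1 := (measurePreserving_piFinSuccAbove (fun _ : Fin 3 => gauss d) 2).map_eq
    have h2 := (measurePreserving_piFinTwo fun _ : Fin 2 => gauss d).map_eq
    have h3 : (fun s : Fin 3 → Euc d => (s 0, s 1)) = Prod.snd ∘
        Prod.map id (MeasurableEquiv.piFinTwo fun _ => Euc d) ∘
        (MeasurableEquiv.piFinSuccAbove (fun _ : Fin 3 => Euc d) 2) := by
      funext s; rfl
    rw [h3, ← Function.comp_assoc, ← Measure.map_map (by fun_prop) (MeasurableEquiv.measurable _),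
      h1, ← Measure.map_map (g := Prod.snd) (by fun_prop) (by fun_prop),
      ← Measure.map_prod_map _ _ measurable_id (MeasurableEquiv.measurable _), h2, Measure.map_id]
    exact (measurePreserving_snd (μ := gauss d) (ν := (gauss d).prod (gauss d))).map_eq
  rw [cleanLaw, Measure.map_map (measurable_cleanPt _) (measurable_cleanMap _), CleanData.law3,
    ← e]
  conv_rhs => rw [← Measure.map_id (μ := levelLaw V D.τ),
    Measure.map_prod_map _ _ measurable_id (by fun_prop)]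
  congr 1
  funext p
  simp [cleanPt, Prod.map, h.sqrt_ν_pos.ne']

lemma map_state {d : ℕ} {V : Euc d → ℝ} (hV : Nice d V) {r : ℝ} (hr : r ∈ Set.Icc 0 √D.ν) :
    Measurable (fun ω : Rand d => (D.pos r d V ω, ω.2 2, D.xi r d V ω)) ∧
      (cleanLaw D.τ D.ν d V).map (fun ω => (D.pos r d V ω, ω.2 2, D.xi r d V ω))
        = (levelLaw V (D.τ + r ^ 2)).prod ((gauss d).prod (gauss d)) :=
  have := h.prob d V hV
  cleanLaw_map_path h.ν_pos (h.continuous_path hV hr) (fun z => h.invariant d V hV z r hr)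
    (h.conv d V hV r hr)

lemma map_pos {d : ℕ} {V : Euc d → ℝ} (hV : Nice d V) {r : ℝ} (hr : r ∈ Set.Icc 0 √D.ν) :
    AEMeasurable (D.pos r d V) (cleanLaw D.τ D.ν d V) ∧
      (cleanLaw D.τ D.ν d V).map (D.pos r d V) = levelLaw V (D.τ + r ^ 2) := by
  obtain ⟨hm, he⟩ := h.map_state hV hr
  refine ⟨(measurable_fst.comp hm).aemeasurable, ?_⟩
  have h1 := Measure.map_map (μ := cleanLaw D.τ D.ν d V) measurable_fst hm
  rw [he, (measurePreserving_fst (ν := (gauss d).prod (gauss d))).map_eq] at h1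
  exact h1.symm

lemma map_pair {d : ℕ} {V : Euc d → ℝ} (hV : Nice d V) {r : ℝ} (hr : r ∈ Set.Icc 0 √D.ν) :
    AEMeasurable (fun ω => (D.pos r d V ω, D.xi r d V ω)) (cleanLaw D.τ D.ν d V) ∧
      (cleanLaw D.τ D.ν d V).map (fun ω => (D.pos r d V ω, D.xi r d V ω))
        = (levelLaw V (D.τ + r ^ 2)).prod (gauss d) := by
  have := h.prob d V hV
  have : IsProbabilityMeasure (levelLaw V (D.τ + r ^ 2)) := by
    rw [← h.conv d V hV r hr]
    exact Measure.isProbabilityMeasure_map (Measurable.aemeasurable (by fun_prop))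
  obtain ⟨hm, he⟩ := h.map_state hV hr
  have hg : Measurable (Prod.map id Prod.snd : Euc d × Euc d × Euc d → Euc d × Euc d) := by fun_prop
  refine ⟨(hg.comp hm).aemeasurable, ?_⟩
  have h1 := Measure.map_map (μ := cleanLaw D.τ D.ν d V) hg hm
  rw [he, ← Measure.map_prod_map _ _ measurable_id measurable_snd, Measure.map_id,
    (measurePreserving_snd (μ := gauss d)).map_eq] at h1
  exact h1.symm

lemma map_slot {d : ℕ} {V : Euc d → ℝ} (hV : Nice d V) :
    AEMeasurable (fun ω : Rand d => ω.2 0) (cleanLaw D.τ D.ν d V) ∧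
      (cleanLaw D.τ D.ν d V).map (fun ω => ω.2 0) = levelLaw V (D.τ + D.ν) := by
  have := h.prob d V hV
  refine ⟨(by fun_prop : Measurable fun ω : Rand d => ω.2 0).aemeasurable, cleanLaw_map_slot ?_⟩
  have h1 := h.conv d V hV √D.ν ⟨h.sqrt_ν_pos.le, le_rfl⟩
  rwa [Real.sq_sqrt h.ν_pos.le] at h1

/-- The drift of the path is bounded in mean. -/
lemma drift_le {d : ℕ} {V : Euc d → ℝ} (hV : Nice d V) {r : ℝ} (hr : r ∈ Set.Icc 0 √D.ν)
    {f : Euc d × Euc d × Euc d → Euc d} (hf : Continuous f)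
    (hb : ∀ p, ‖f p‖ ≤ startSize (p.1, D.Φ d V r p) + startSize p) :
    Integrable (fun ω => ‖f (cleanPt D.ν ω)‖) (cleanLaw D.τ D.ν d V) ∧
      ∫ ω, ‖f (cleanPt D.ν ω)‖ ∂(cleanLaw D.τ D.ν d V) ≤ 4 * dimFac d := by
  have := h.prob d V hV
  have hc := h.continuous_path hV hr
  have hs : Continuous (startSize (d := d)) := by unfold startSize; fun_prop
  have hT : Measurable fun p : Euc d × Euc d × Euc d => (p.1, D.Φ d V r p) := by fun_prop
  have hT' : (D.law3 d V).map (fun p => (p.1, D.Φ d V r p)) = D.law3 d V := by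
    refine (MeasurePreserving.skew_product (g := fun z (q : Euc d × Euc d) => D.Φ d V r (z, q.1, q.2))
      (MeasurePreserving.id _) ?_ (.of_forall fun z => h.invariant d V hV z r hr)).map_eq
    exact (by fun_prop : Continuous (Function.uncurry
      fun z (q : Euc d × Euc d) => D.Φ d V r (z, q.1, q.2))).measurable
  obtain ⟨hi, hle⟩ := integral_triple_le (levelLaw V D.τ) (f := startSize (d := d))
    hs.aestronglyMeasurable zero_le_one fun p => by
      exact (abs_of_nonneg (add_nonneg (norm_nonneg _) (norm_nonneg _))).le.trans (one_mul _).ge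
  have hi' : Integrable (fun p => startSize (p.1, D.Φ d V r p)) (D.law3 d V) := by
    have h1 := hi
    rw [show (levelLaw V D.τ).prod ((gauss d).prod (gauss d))
      = (D.law3 d V).map (fun p => (p.1, D.Φ d V r p)) from hT'.symm] at h1
    exact (integrable_map_measure hs.aestronglyMeasurable hT.aemeasurable).1 h1
  have he : ∫ p, startSize (p.1, D.Φ d V r p) ∂(D.law3 d V) = ∫ p, startSize p ∂(D.law3 d V) := by
    conv_rhs => rw [← hT']
    rw [integral_map hT.aemeasurable hs.aestronglyMeasurable]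
  have hif : Integrable (fun p => ‖f p‖) (D.law3 d V) :=
    (hi'.add hi).mono' hf.norm.aestronglyMeasurable (.of_forall fun p => by simpa using hb p)
  have hm := (measurable_cleanPt (d := d) D.ν).aemeasurable (μ := cleanLaw D.τ D.ν d V)
  have hif' := hif
  rw [← h.map_cleanPt hV] at hif'
  refine ⟨(integrable_map_measure hif'.aestronglyMeasurable hm).1 hif', ?_⟩
  rw [← integral_map hm hif'.aestronglyMeasurable, h.map_cleanPt hV]
  refine (integral_mono hif (hi'.add hi) hb).trans ?_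
  rw [integral_add' hi' hi, he, CleanData.law3]
  linarith

/-- Quadrature along the path. -/
lemma quad {d : ℕ} {V : Euc d → ℝ} (hV : Nice d V)
    {G : ℝ → Euc d × Euc d × Euc d → Euc d}
    (hG : CurveBound (D.law3 d V) 0 √D.ν G fun k _ => D.Cc k * ((d : ℝ) + 1) ^ 2 / √D.τ ^ k)
    {φ : ℝ → ℝ} (hφ : Continuous φ) {B : ℝ} (hB : ∀ u ∈ Set.Icc 0 √D.ν, |φ u| ≤ B)
    {v : ℝ} (hv : v ∈ Set.Icc 0 √D.ν) :
    Integrable (fun ω => ‖∑ j, D.wgt φ v j • G (D.rad j) (cleanPt D.ν ω)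
        - ∫ u in √D.ν..v, φ u • G u (cleanPt D.ν ω)‖) (cleanLaw D.τ D.ν d V) ∧
      ∫ ω, ‖∑ j, D.wgt φ v j • G (D.rad j) (cleanPt D.ν ω)
        - ∫ u in √D.ν..v, φ u • G u (cleanPt D.ν ω)‖ ∂(cleanLaw D.τ D.ν d V)
        ≤ B * √D.ν * D.res * dimFac d := by
  have := h.prob d V hV
  have : IsProbabilityMeasure (D.law3 d V) := by unfold CleanData.law3; infer_instance
  have hs := h.sqrt_ν_pos
  obtain ⟨G₁, S, hS0, hSi, hSle, -, hmaj⟩ := hG.exists_majorant' (P := D.P) hs h.two_le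
    (M := |D.Cc D.P| * dimFac d / √D.τ ^ D.P) fun t _ => by
      have := Real.sqrt_nonneg D.τ
      refine div_le_div_of_nonneg_right ?_ (by positivity)
      exact mul_le_mul (le_abs_self _) (pow_le_pow_right₀ (by simp) (by norm_num)) (by positivity)
        (abs_nonneg _)
  have hB0 : 0 ≤ B := (abs_nonneg _).trans (hB 0 ⟨le_rfl, hs.le⟩)
  have hsub : Set.uIcc √D.ν v ⊆ Set.Icc 0 √D.ν := Set.uIcc_subset_Icc ⟨hs.le, le_rfl⟩ hv
  have hGc := hG.continuousOn
  set F : Euc d × Euc d × Euc d → ℝ := fun p =>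
    ‖∑ j, D.wgt φ v j • G (D.rad j) p - ∫ u in √D.ν..v, φ u • G u p‖ with hF
  have hpt : ∀ p, F p ≤ (1 + D.L) * (B * √D.ν) * S p := fun p => by
    refine hmaj.integrate h.rad_injective h.rad_mem ⟨hs.le, le_rfl⟩ hv hφ.continuousOn p
      (hGc.comp (f := fun r => (r, p)) (by fun_prop) fun r hr => ⟨hr, Set.mem_univ _⟩)
      (fun r hr => h.lag_rad_le hr) ?_
    have h1 := intervalIntegral.norm_integral_le_of_norm_le_const (f := fun r => |φ r|) (C := B)
      (a := √D.ν) (b := v) fun u hu => by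
        rw [Real.norm_eq_abs, abs_abs]; exact hB u (hsub (Set.uIoc_subset_uIcc hu))
    rw [Real.norm_eq_abs] at h1
    refine h1.trans (mul_le_mul_of_nonneg_left ?_ hB0)
    rw [abs_sub_comm, abs_of_nonneg (by linarith [hv.2])]
    linarith [hv.1]
  have hFc : Continuous F := by
    refine Continuous.norm (Continuous.sub (continuous_finsetSum _ fun j _ => ?_) ?_)
    · have hl : Continuous fun p => G (D.rad j) p :=
        hGc.comp_continuous (f := fun p => (D.rad j, p)) (by fun_prop)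
          fun p => ⟨h.rad_mem j, Set.mem_univ _⟩
      exact hl.const_smul (D.wgt φ v j)
    · have h2 : ∀ p, ∫ u in √D.ν..v, φ u • G u p
          = ∫ u in √D.ν..v, φ u • G (Set.projIcc 0 √D.ν hs.le u) p := fun p =>
        intervalIntegral.integral_congr fun u hu => by
          simp [Set.projIcc_of_mem hs.le (hsub hu)]
      simp only [h2]
      refine intervalIntegral.continuous_parametric_intervalIntegral_of_continuous'
        (Continuous.smul (f := fun q : (Euc d × Euc d × Euc d) × ℝ => φ q.2) (hφ.comp continuous_snd)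
          ?_) _ _
      exact hGc.comp_continuous
        (f := fun q : (Euc d × Euc d × Euc d) × ℝ => ((Set.projIcc 0 √D.ν hs.le q.2 : ℝ), q.1))
        (by fun_prop) fun q => ⟨Subtype.mem _, Set.mem_univ _⟩
  have hFi : Integrable F (D.law3 d V) :=
    (hSi.const_mul _).mono' hFc.aestronglyMeasurable
      (.of_forall fun p => by simp only [hF, norm_norm]; exact hpt p)
  have hm := (measurable_cleanPt (d := d) D.ν).aemeasurable (μ := cleanLaw D.τ D.ν d V)
  have hFi' := hFi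
  rw [← h.map_cleanPt hV] at hFi'
  refine ⟨(integrable_map_measure hFi'.aestronglyMeasurable hm).1 hFi', ?_⟩
  refine le_of_eq_of_le (integral_map hm hFi'.aestronglyMeasurable).symm ?_
  rw [h.map_cleanPt hV]
  refine (integral_mono hFi (hSi.const_mul _) hpt).trans ?_
  rw [integral_const_mul]
  calc (1 + D.L) * (B * √D.ν) * ∫ p, S p ∂(D.law3 d V)
      ≤ (1 + D.L) * (B * √D.ν)
          * ((√D.ν - 0) ^ D.P * (|D.Cc D.P| * dimFac d / √D.τ ^ D.P)) := by
        have := h.L_pos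
        exact mul_le_mul_of_nonneg_left hSle (by positivity)
    _ = _ := by rw [CleanData.res, div_pow, sub_zero]; ring

end Valid

end CleanData

end Vale.Agent.P347
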