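import Vale.Agent.P347.RecCleanPass

/-!
The operator of the cleaning step.
-/

namespace Vale.Agent.P347

open MeasureTheory ProbabilityTheory
open scoped RealInnerProductSpace

/-- Adding two Gaussian vectors of variance `v` about a centre. -/
lemma integral_gN_gauss {d : ℕ} (A : Euc d) {v : ℝ} (hv : 0 ≤ v) {f : Euc d → ℝ}
    (hf : LipschitzWith 1 f) :
    ∫ η, ∫ w, f w ∂(gN (√v • η + A) v) ∂(gauss d) = ∫ w, f w ∂(gN A (2 * v)) := by
  have hc := hf.continuous
  simp only [integral_gN _ _ hc]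
  have hg : Continuous fun p : Euc d × Euc d => f (√v • p.1 + A + √v • p.2) := by fun_prop
  have hn := gauss_integrable_norm (d := d)
  have hi : Integrable (fun p : Euc d × Euc d => f (√v • p.1 + A + √v • p.2))
      ((gauss d).prod (gauss d)) := by
    refine ((((integrable_const (|f 0| + ‖A‖)).add ((hn.comp_fst (gauss d)).const_mul √v))).add
      ((hn.comp_snd (gauss d)).const_mul √v)).mono' hg.aestronglyMeasurable (.of_forall fun p => ?_)
    have h1 := abs_le_of_lipschitz (lipschitz_abs_sub hf) (√v • p.1 + A + √v • p.2)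
    have h2 := norm_add₃_le (a := √v • p.1) (b := A) (c := √v • p.2)
    simp only [norm_smul, Real.norm_eq_abs, abs_of_nonneg (Real.sqrt_nonneg v), Pi.add_apply] at h2 ⊢
    linarith
  rw [← integral_prod _ hi]
  have h3 := integral_gauss_combine (d := d) √v √v (f := fun x => f (A + x)) (by fun_prop)
  rw [Real.sq_sqrt hv, ← two_mul] at h3
  rw [← h3]
  refine integral_congr_ae (.of_forall fun p => ?_)
  show f _ = f _
  congr 1
  abel

namespace CleanData

variable (D : CleanData)

/-- The output along an outcome. -/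
noncomputable def out : VarFam :=
  fun d V ω => √D.δe • D.xi 0 d V ω + scoreAvg V D.τ D.ν ω.1

/-- The error of the operator after passes ending with error `e`. -/
noncomputable def outErr (e : ℝ) : ℝ :=
  D.EO + D.R ^ 5 * (√D.din / √D.δe)
      * (e + D.Eout + (D.kr ^ D.P + ((hessConst D.P D.It : ℝ) * D.kr) ^ D.It))
    + D.g * D.Ein + D.res

namespace Valid

variable {D} (h : D.Valid)
include h

lemma zero_mem : (0 : ℝ) ∈ Set.Icc 0 √D.ν := ⟨le_rfl, h.sqrt_ν_pos.le⟩

/-- Pointwise identity for the quadrature of the output. -/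
lemma out_residual {d : ℕ} {V : Euc d → ℝ} (hV : Nice d V) (ω : Rand d) :
    √D.δe • ω.2 1 + (score V (D.τ + D.ν) (ω.2 0)
        + ∑ j, (D.wgt id 0 j / √D.δe) • D.int₂ d V (D.rad j) (cleanPt D.ν ω))
      - D.out d V ω
      = (√D.δe)⁻¹ • (∑ j, D.wgt id 0 j • D.int₂ d V (D.rad j) (cleanPt D.ν ω)
        - ∫ u in √D.ν..0, id u • D.int₂ d V u (cleanPt D.ν ω)) := by
  have h1 := h.xi_eq d V hV (cleanPt D.ν ω) 0 h.zero_mem
  have h2 : (cleanPt D.ν ω).1 + √D.ν • (cleanPt D.ν ω).2.1 = ω.2 0 := by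
    simp [cleanPt, h.sqrt_ν_pos.ne']
  rw [h2] at h1
  simp only [zero_pow two_ne_zero, add_zero, sub_zero, zero_smul] at h1
  rw [show (cleanPt D.ν ω).1 = ω.1 from rfl, show (cleanPt D.ν ω).2.2 = ω.2 1 from rfl] at h1
  simp only [CleanData.out, CleanData.xi, h1, id, smul_sub, Finset.smul_sum, smul_smul,
    div_eq_inv_mul]
  module

/-- The output given the anchor is Gaussian about the averaged score. -/
lemma out_law {d : ℕ} {V : Euc d → ℝ} (hV : Nice d V) (y : Euc d) {f : Euc d → ℝ}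
    (hf : LipschitzWith 1 f) :
    ∫ s, ∫ w, f w ∂(gN (D.out d V (y, s)) D.δe) ∂(Measure.pi (Node.kern3 (fun z => gN z D.ν) y))
      = ∫ w, f w ∂(gN (scoreAvg V D.τ D.ν y) (2 * D.δe)) := by
  set A := scoreAvg V D.τ D.ν y with hA
  set g : Euc d → ℝ := fun η => ∫ w, f w ∂(gN (√D.δe • η + A) D.δe) with hg
  have hgl : LipschitzWith (Real.toNNReal √D.δe) g := by
    refine LipschitzWith.of_dist_le_mul fun a b => ?_
    rw [Real.dist_eq, dist_eq_norm, Real.coe_toNNReal _ (Real.sqrt_nonneg _)]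
    refine (dualClose_gN_shift _ _ _ f hf).trans (le_of_eq ?_)
    rw [add_sub_add_right_eq_sub, ← smul_sub, norm_smul, Real.norm_eq_abs,
      abs_of_nonneg (Real.sqrt_nonneg _)]
  have hc := h.continuous_path hV h.zero_mem
  have hΨ : Continuous fun q : Euc d × Euc d => (D.Φ d V 0 (y, q.1, q.2)).2 := by fun_prop
  have hpair : Measurable fun s : Fin 3 → Euc d => ((√D.ν)⁻¹ • (s 0 - y), s 1) := by fun_prop
  calc ∫ s, ∫ w, f w ∂(gN (D.out d V (y, s)) D.δe) ∂(Measure.pi (Node.kern3 (fun z => gN z D.ν) y))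
      = ∫ q, g (D.Φ d V 0 (y, q.1, q.2)).2 ∂((Measure.pi ![gN y D.ν, gauss d, gauss d]).map
          fun s => ((√D.ν)⁻¹ • (s 0 - y), s 1)) := by
        rw [integral_map hpair.aemeasurable
          (show AEStronglyMeasurable (fun q : Euc d × Euc d => g (D.Φ d V 0 (y, q.1, q.2)).2) _
            from (hgl.continuous.comp hΨ).aestronglyMeasurable)]
        rfl
    _ = ∫ q, g (D.Φ d V 0 (y, q.1, q.2)).2 ∂((gauss d).prod (gauss d)) := by
        rw [map_cleanPt_kern h.ν_pos]
    _ = ∫ p, g p.2 ∂((gauss d).prod (gauss d)) := by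
        have hΨ' : Continuous fun q : Euc d × Euc d => D.Φ d V 0 (y, q.1, q.2) := by fun_prop
        have hg2 : Continuous fun p : Euc d × Euc d => g p.2 := hgl.continuous.comp continuous_snd
        conv_rhs => rw [← h.invariant d V hV y 0 h.zero_mem]
        exact (integral_map hΨ'.aemeasurable hg2.aestronglyMeasurable).symm
    _ = _ := by
        rw [integral_fun_snd (μ := gauss d) (ν := gauss d) g, probReal_univ, one_smul]
        exact integral_gN_gauss A h.δe_pos.le hf

/-- The body of the cleaning step, closed to an operator. -/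
lemma finalOp {e : ℝ} (he : 0 ≤ e) {Qc : ℕ} (hQc : 1 ≤ Qc) (hp : ∀ l, D.PosState e Qc l)
    (hx : ∀ l, D.XiState e Qc l) {ε' : ℝ} (hε' : D.ε + 2 / D.R ≤ ε') :
    ∃ op, OpOK op (D.fac * Qc * 2) ε' (avgFam D.τ D.ν) (levelFam D.τ) D.ν (2 * D.δe)
      (D.outErr e) := by
  have hν := h.ν_pos
  have hδ := h.δe_pos
  have hsd := Real.sqrt_pos.2 hδ
  have hR := h.R_pos
  have hL := h.L_pos
  have hε0 := h.ε_nonneg
  have hkr := h.kr_pos
  obtain ⟨-, hB⟩ := h.size_le
  obtain ⟨opO, hO⟩ := h.oracle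
  have hO1 := ((Node.slot0 (P := cleanLaw D.τ D.ν) (ν := D.ν)).app hε0 hO (by positivity)
    fun d V hV => h.map_slot hV).mono (S' := 0) (S₀' := 1 / 2 + D.ε) (E' := D.EO) le_rfl
    (by simp) (by simp) (by simp)
  choose Tb Qb hQb hTb using h.hess_body he hQc hp hx
  set Kh := hessConst D.P D.It with hKh
  set K' := (Kh : ℝ) / (D.kr * D.lam) with hK'
  have hK'0 : 0 ≤ K' := by have := h.lam_pos; positivity
  set σ := √D.ν / √D.δe with hσ
  set θ := √D.din / √D.δe with hθ
  have hσ0 : 0 ≤ σ := sigma_nonneg (D := D)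
  have hθ0 : 0 ≤ θ := by positivity
  set a : Fin D.P → ℝ := fun j => D.wgt id 0 j / √D.δe with ha
  have hab : ∀ j, |a j| ≤ D.L * √D.ν * σ := fun j => (h.coef_id_le h.zero_mem j).2
  have hscale : (D.P : ℝ) * (D.L * √D.ν * σ) * K' ≤ D.R ^ 5 * θ / 20 := by
    calc _ = (D.P : ℝ) * ((D.L * √D.ν * σ) * K') := by ring
      _ = (D.P : ℝ) * D.L * Kh * (D.R ^ 4 * θ) := by rw [h.scale_out]; ring
      _ ≤ D.R / 20 * (D.R ^ 4 * θ) := mul_le_mul_of_nonneg_right hB (by positivity)
      _ = _ := by ring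
  set E₂ := 2 * e + D.kr * D.Ein + D.Eout + (D.kr ^ D.P + ((Kh : ℝ) * D.kr) ^ D.It) with hE₂
  have hE₂0 : 0 ≤ E₂ := by have := h.Ein_nonneg; have := h.Eout_nonneg; positivity
  have h1 := Node.comb (n := D.P + 2)
    (a := Fin.cons √D.δe (Fin.cons 1 a))
    (Ts := Fin.cons (Body.slot 1) (Fin.cons (Body.app opO (Body.slot 0)) Tb))
    (Qs := Fin.cons 1 (Fin.cons (D.M * (1 + 1)) Qb))
    (cs := Fin.cons 0 (Fin.cons (3 / 2 * 0) fun _ => 0))
    (cs₀ := Fin.cons 0 (Fin.cons (3 / 2 * 1) fun _ => 0))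
    (Ss := Fin.cons 0 (Fin.cons 0 fun _ => 3 * K'))
    (Ss₀ := Fin.cons 0 (Fin.cons (1 / 2 + D.ε) fun _ => 3 * K'))
    (Xs := Fin.cons (fun _ _ ω => ω.2 1) (Fin.cons (fun d V ω => scoreFam (D.τ + D.ν) d V (ω.2 0))
      fun j d V ω => D.int₂ d V (D.rad j) (cleanPt D.ν ω)))
    (vs := Fin.cons 0 (Fin.cons (D.δe / 2) fun _ => K' ^ 2 * D.dout))
    (Es := Fin.cons 0 (Fin.cons D.EO fun _ => K' * E₂))
    (Fin.cases (Node.slot 1 (by decide)) (Fin.cases hO1 hTb))
    (X' := fun d V ω => √D.δe • ω.2 1 + (score V (D.τ + D.ν) (ω.2 0)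
      + ∑ j, a j • D.int₂ d V (D.rad j) (cleanPt D.ν ω)))
    (fun d V _ ω => by
      simp [Fin.sum_univ_succ (n := D.P + 1), Fin.sum_univ_succ (n := D.P), scoreFam])
    (c' := 0) (c₀' := 3 / 2) (x := 0) (v' := D.δe)
    (by simp [Fin.sum_univ_succ]) (by simp [Fin.sum_univ_succ]) le_rfl
    (by simp [Fin.sum_univ_succ]) (by
      simp only [Fin.sum_univ_succ (n := D.P + 1), Fin.sum_univ_succ (n := D.P), Fin.cons_zero,
        Fin.cons_succ, mul_zero, zero_add, one_pow, one_mul]
      have hd := h.dout_nonneg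
      refine (add_le_add le_rfl (sum_coef_sq_le hab (by positivity))).trans ?_
      calc D.δe / 2 + (D.P : ℝ) * (D.L * √D.ν * σ) ^ 2 * (K' ^ 2 * D.dout)
          ≤ D.δe / 2 + ((D.P : ℝ) * (D.L * √D.ν * σ) * K') ^ 2 * D.dout := by
            rw [mul_pow _ K', mul_pow (D.P : ℝ), mul_assoc ((D.P : ℝ) ^ 2 * _)]
            gcongr
            exact le_self_pow₀ (by exact_mod_cast (by have := h.two_le; omega : 1 ≤ D.P))
              two_ne_zero
        _ ≤ D.δe / 2 + (D.R ^ 5 * θ / 20) ^ 2 * D.dout := by gcongr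
        _ = D.δe / 2 + D.R ^ 10 * (θ ^ 2 * D.dout) / 400 := by ring
        _ ≤ D.δe / 2 + D.R ^ 12 * (θ ^ 2 * D.dout) / 400 := by
            gcongr
            · linarith [h.two_le_R]
            · norm_num
        _ ≤ D.δe := by linarith [h.out_var])
  have h2 := h1.shift (X' := D.out) (E' := D.res) fun d V hV => by
    obtain ⟨hi, hle⟩ := h.quad hV (h.bound₂ d V hV) (φ := id) continuous_id (B := √D.ν)
      (fun u hu => by rw [id, abs_of_nonneg hu.1]; exact hu.2) h.zero_mem
    simp only [ha, h.out_residual hV, norm_smul]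
    refine ⟨hi.const_mul _, ?_⟩
    rw [integral_const_mul, Real.norm_eq_abs, abs_of_pos (inv_pos.2 hsd)]
    refine (mul_le_mul_of_nonneg_left hle (inv_nonneg.2 hsd.le)).trans ?_
    calc (√D.δe)⁻¹ * (√D.ν * √D.ν * D.res * dimFac d)
        = D.ν / √D.δe * (D.res * dimFac d) := by rw [Real.mul_self_sqrt hν.le]; ring
      _ ≤ 1 * (D.res * dimFac d) := by
          refine mul_le_mul_of_nonneg_right ?_ (mul_nonneg h.res_nonneg (dimFac_nonneg d))
          rw [div_le_one hsd]
          exact h.ν_le_δe.trans (Real.le_sqrt_of_sq_le (by nlinarith [h.δe_le]))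
      _ = _ := one_mul _
  have hR5 := h.pow_mul_theta_le (k := 10) le_rfl
  have hS : (D.P : ℝ) * (D.L * √D.ν * σ) * (3 * K') ≤ D.R⁻¹ := by
    rw [inv_eq_one_div, le_div_iff₀ hR]
    calc (D.P : ℝ) * (D.L * √D.ν * σ) * (3 * K') * D.R
        = 3 * ((D.P : ℝ) * (D.L * √D.ν * σ) * K') * D.R := by ring
      _ ≤ 3 * (D.R ^ 5 * θ / 20) * D.R := by gcongr
      _ = D.R ^ 6 * θ * (3 / 20) := by ring
      _ ≤ 1 * (3 / 20) := mul_le_mul_of_nonneg_right (h.pow_mul_theta_le (by norm_num)) (by norm_num)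
      _ ≤ 1 := by norm_num
  have hQY : ∑ i : Fin (D.P + 2), (Fin.cons 1 (Fin.cons (D.M * (1 + 1)) Qb) : Fin (D.P + 2) → ℕ) i
      ≤ D.fac * Qc := by
    simp only [Fin.sum_univ_succ (n := D.P + 1), Fin.sum_univ_succ (n := D.P), Fin.cons_zero,
      Fin.cons_succ]
    refine le_trans (Nat.add_le_add le_rfl (Nat.add_le_add le_rfl
      (Finset.sum_le_card_nsmul _ _ _ fun j _ => hQb j))) (le_trans ?_
        (query_le (D := D) hQc).2)
    simp only [Finset.card_univ, Fintype.card_fin, smul_eq_mul, ← hKh]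
    omega
  have h3 := h2.mono hQY (S' := D.R⁻¹) (S₀' := 1 / 2 + D.ε + D.R⁻¹) (E' := D.outErr e) (by
      simp only [Fin.sum_univ_succ (n := D.P + 1), Fin.sum_univ_succ (n := D.P), Fin.cons_zero,
        Fin.cons_succ, mul_zero, zero_add, add_zero]
      exact (sum_coef_le hab (by positivity)).trans hS) (by
      simp only [Fin.sum_univ_succ (n := D.P + 1), Fin.sum_univ_succ (n := D.P), Fin.cons_zero,
        Fin.cons_succ, mul_zero, zero_add, abs_one, one_mul]
      exact add_le_add le_rfl ((sum_coef_le hab (by positivity)).trans hS)) (by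
      simp only [Fin.sum_univ_succ (n := D.P + 1), Fin.sum_univ_succ (n := D.P), Fin.cons_zero,
        Fin.cons_succ, mul_zero, zero_add, abs_one, one_mul]
      have hEb : ∑ j, |a j| * (K' * E₂) ≤ D.R ^ 5 * θ / 20 * E₂ :=
        ((sum_coef_le hab (by positivity)).trans (le_of_eq (by ring))).trans
          (mul_le_mul_of_nonneg_right hscale hE₂0)
      refine (add_le_add (add_le_add le_rfl hEb) le_rfl).trans ?_
      have hk : D.R ^ 5 * θ * (D.kr * D.Ein) ≤ 20 * (D.g * D.Ein) := by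
        have h4 : D.R ^ 5 * θ * D.kr = D.R ^ 3 * σ := by
          have h6 := Real.sqrt_pos.2 h.din_pos
          rw [hσ, hθ, CleanData.kr]
          field_simp
        rw [← mul_assoc, h4, ← mul_assoc]
        refine mul_le_mul_of_nonneg_right ?_ h.Ein_nonneg
        linarith [h.pow_mul_sigma_le (k := 3) (by norm_num), h.g_nonneg]
      have h5 : 0 ≤ D.R ^ 5 * θ := by positivity
      have h7 : 0 ≤ D.R ^ 5 * θ * (e + D.Eout + (D.kr ^ D.P + ((Kh : ℝ) * D.kr) ^ D.It)) := by
        have := h.Eout_nonneg; positivity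
      have h8 : 0 ≤ D.R ^ 5 * θ * e := by positivity
      have h9 : 0 ≤ D.R ^ 5 * θ * D.Eout := mul_nonneg h5 h.Eout_nonneg
      have h10 : 0 ≤ D.R ^ 5 * θ * (D.kr ^ D.P + ((Kh : ℝ) * D.kr) ^ D.It) := by positivity
      simp only [CleanData.outErr, hE₂, ← hθ, ← hKh]
      linarith)
  obtain ⟨op, hop⟩ := h3.closeAnchor (ε := ε') (δ := 2 * D.δe) (Et := 0) (μ := levelFam D.τ)
    (u := avgFam D.τ D.ν) (by
      rw [zero_add, sub_self, abs_zero, add_zero]
      rw [div_eq_mul_inv] at hε'; linarith) (by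
      rw [abs_zero, zero_add, abs_of_pos (by norm_num : (0:ℝ) < 3 / 2)]
      rw [div_eq_mul_inv] at hε'; linarith)
    (fun d V hV => by
      have := h.prob d V hV
      refine ⟨h.isProb d V hV, ?_⟩
      exact disint_cleanLaw hν)
    (fun d V hV => by
      have := h.prob d V hV
      have := h.isProb d V hV
      obtain ⟨hm, he'⟩ := h.map_pair hV h.zero_mem
      have hc := h.continuous_path hV h.zero_mem
      have hxc : Continuous (D.xi 0 d V) := by
        unfold CleanData.xi
        have hcp : Continuous (cleanPt (d := d) D.ν) := by unfold cleanPt; fun_prop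
        exact continuous_snd.comp (hc.comp hcp)
      have hac : Continuous (scoreAvg V D.τ D.ν) := by
        simpa using (h.hess_facts d V hV 0 h.zero_mem).1
      have hmeas : Measurable (D.out d V) := by
        refine Continuous.measurable ?_
        unfold CleanData.out
        fun_prop
      refine ⟨hmeas, ?_⟩
      have : IsProbabilityMeasure (levelLaw V (D.τ + (0:ℝ) ^ 2)) := by simpa using h.prob d V hV
      have hi : Integrable (fun p : Euc d × Euc d => √D.δe * ‖p.2‖ + ‖scoreAvg V D.τ D.ν p.1‖)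
          ((levelLaw V (D.τ + (0:ℝ) ^ 2)).prod (gauss d)) := by
        refine ((gauss_integrable_norm (d := d)).comp_snd _).const_mul _ |>.add ?_
        simpa using (h.avg_int d V hV).comp_fst (gauss d)
      rw [← he'] at hi
      refine ((integrable_map_measure hi.aestronglyMeasurable hm).1 hi).mono'
        hmeas.norm.aestronglyMeasurable (.of_forall fun ω => ?_)
      simp only [Function.comp_apply, norm_norm, CleanData.out, CleanData.pos, zero_smul, add_zero]
      exact (norm_add_le _ _).trans (by rw [norm_smul, Real.norm_eq_abs, abs_of_pos hsd]))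
    (fun d V hV => by
      have := h.prob d V hV
      refine ⟨fun _ => 0, fun _ => le_rfl, integrable_zero _ _ _, by simp,
        .of_forall fun y f hf => ?_⟩
      rw [h.out_law hV y hf]
      simp [avgFam])
  exact ⟨op, hop.mono le_rfl le_rfl (by rw [add_zero])⟩

end Valid

end CleanData

end Vale.Agent.P347
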