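import Vale.Agent.P347.RecCleanOp
import Vale.Agent.P347.Params

/-!
The parameter inequalities of the cleaning step and the crude operator at the last noise level.
-/

namespace Vale.Agent.P347

open MeasureTheory ProbabilityTheory

/-- An operator for exact inputs accepts noisy ones at the cost of the noise. -/
lemma OpOK.relaxVar {op : Op} {Q : ℕ} {ε : ℝ} {u : FieldFam} {μ : MeasFam} {δ E : ℝ}
    (h : OpOK op Q ε u μ 0 δ E) (hε : 0 ≤ ε) {ν : ℝ}
    (hμ : ∀ d V, Nice d V → IsProbabilityMeasure (μ d V)) :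
    OpOK op Q ε u μ ν δ (E + (2 + ε) * √ν) where
  cost := h.cost
  stable := h.stable
  evals d V hV := by
    obtain ⟨hΛ, err, h0, hi, hle, hy⟩ := h.evals d V hV
    have := hμ d V hV
    have hd : ∫ η, ‖η‖ ∂(gauss d) ≤ dimFac d := by
      refine gauss_integral_norm_le.trans ?_
      have h1 : (1 : ℝ) ≤ (d : ℝ) + 1 := le_add_of_nonneg_left (Nat.cast_nonneg d)
      refine le_trans ?_ (le_self_pow₀ h1 (by norm_num : (3 : ℕ) ≠ 0))
      rw [Real.sqrt_le_iff]
      exact ⟨by positivity, by nlinarith⟩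
    have hdc : ∀ y : Euc d, DualClose (gN y ν) (gN y 0) (√ν * dimFac d) := fun y f hf => by
      have hc := hf.continuous
      rw [integral_gN y ν hc, integral_gN y 0 hc]
      simp only [Real.sqrt_zero, zero_smul, add_zero, integral_const, probReal_univ, one_smul]
      have hI := integrable_of_lipschitzWith (gN_integrable_norm y ν) hf
      rw [gN, integrable_map_measure hc.aestronglyMeasurable (by fun_prop)] at hI
      simp only [Function.comp_def] at hI
      calc |∫ η, f (y + √ν • η) ∂(gauss d) - f y|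
          = |∫ η, (f (y + √ν • η) - f y) ∂(gauss d)| := by
            rw [integral_sub hI (integrable_const _)]; simp
        _ ≤ ∫ η, |f (y + √ν • η) - f y| ∂(gauss d) := abs_integral_le_integral_abs
        _ ≤ ∫ η, √ν * ‖η‖ ∂(gauss d) := by
            refine integral_mono (hI.sub (integrable_const _)).abs
              (gauss_integrable_norm.const_mul _) fun η => ?_
            refine (lipschitz_abs_sub hf _ _).trans ?_
            rw [one_mul, add_sub_cancel_left, norm_smul, Real.norm_eq_abs,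
              abs_of_nonneg (Real.sqrt_nonneg _)]
        _ ≤ _ := by
            rw [integral_const_mul]
            exact mul_le_mul_of_nonneg_left hd (Real.sqrt_nonneg _)
    have hd0 := dimFac_nonneg d
    refine ⟨hΛ, fun y => err y + (2 + ε) * (√ν * dimFac d), fun y => add_nonneg (h0 y) (by positivity),
      hi.add (integrable_const _), ?_, ?_⟩
    · rw [integral_add hi (integrable_const _), integral_const, probReal_univ, one_smul]
      linarith
    · filter_upwards [hy] with y hy k p x e he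
      refine (hy k p x _ (he.trans (hdc y))).mono (le_of_eq ?_)
      ring

/-- The crude cleaning operator. -/
lemma exists_clean_crude (hlev : LevelFactsStatement) :
    ∃ c₀ C : ℝ, 0 < c₀ ∧ 0 ≤ C ∧ ∀ (op : Op) (Q : ℕ) (ε τ ν δ E : ℝ), 0 ≤ ε → ε ≤ 1 → 0 < τ →
      0 ≤ ν → ν ≤ 1 → τ + ν ≤ c₀ → OpOK op Q ε (scoreFam τ) (levelFam τ) 0 δ E →
      OpOK op Q ε (avgFam τ ν) (levelFam τ) ν δ (E + C) := by
  obtain ⟨c₀, C, hc₀, hC, hlev⟩ := hlev
  refine ⟨c₀, 3 + 2 * C, hc₀, by positivity, fun op Q ε τ ν δ E hε hε1 hτ hν hν1 hc h => ?_⟩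
  have h1 := (h.relaxVar hε (ν := ν) fun d V hV =>
    ((hlev d V hV.pot hV.grad_zero).1 τ hτ.le (by linarith)).1).shift
    (u' := avgFam τ ν) (E' := 2 * C) fun d V hV => by
      obtain ⟨hl1, -, hl3, -⟩ := hlev d V hV.pot hV.grad_zero
      obtain ⟨hp, hmom, -, -⟩ := hl1 τ hτ.le (by linarith)
      obtain ⟨hd0, -, -, -, hlip0, heq0, hint0⟩ := hl3 τ 0 hτ le_rfl (by linarith)
      obtain ⟨hd1, -, -, -, hlip1, -, hint1⟩ := hl3 τ ν hτ hν hc
      have hn : ∀ ρ, Continuous (scoreAvg V τ ρ) →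
          (∀ a b, ‖scoreAvg V τ ρ a - scoreAvg V τ ρ b‖ ≤ 2 * ‖a - b‖) →
          Integrable (fun y => ‖scoreAvg V τ ρ y‖) (levelLaw V τ) := fun ρ hc' hl => by
        refine ((integrable_const ‖scoreAvg V τ ρ 0‖).add
          ((hmom 1).const_mul 2)).mono'
          hc'.norm.aestronglyMeasurable (.of_forall fun y => ?_)
        rw [norm_norm]
        refine (norm_le_norm_add_norm_sub' _ (scoreAvg V τ ρ 0)).trans (add_le_add le_rfl ?_)
        simpa using hl y 0
      have e : ∀ y, scoreFam τ d V y = scoreAvg V τ 0 y := fun y => (heq0 y).symm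
      simp only [e, avgFam]
      have hi0 := hn 0 hd0.continuous hlip0
      have hi1 := hn ν hd1.continuous hlip1
      have hcd : Continuous fun y => ‖scoreAvg V τ 0 y - scoreAvg V τ ν y‖ :=
        (hd0.continuous.sub hd1.continuous).norm
      have hi : Integrable (fun y => ‖scoreAvg V τ 0 y - scoreAvg V τ ν y‖) (levelLaw V τ) :=
        (hi0.add hi1).mono' hcd.aestronglyMeasurable (.of_forall fun y => by
          rw [norm_norm]; exact norm_sub_le _ _)
      refine ⟨hi, (integral_mono hi (hi0.add hi1) fun y => norm_sub_le _ _).trans ?_⟩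
      rw [integral_add' hi0 hi1]
      have hd : (d : ℝ) + 1 ≤ dimFac d := le_self_pow₀ (by simp) (by norm_num)
      nlinarith
  refine h1.mono le_rfl le_rfl ?_
  have : √ν ≤ 1 := Real.sqrt_le_one.2 hν1
  nlinarith [Real.sqrt_nonneg ν]

variable {R : ℝ}

lemma mul_pow_le_half (hR : 2 ≤ R) {x y : ℝ} {N : ℕ} (hx : 0 ≤ x)
    (h : x * R ^ (2 * (N + 1)) ≤ y) : x * R ^ (2 * N) ≤ y / 2 := by
  have h4 : (2 : ℝ) ≤ R ^ 2 := by nlinarith
  rw [mul_add, pow_add, mul_one, ← mul_assoc] at h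
  have h5 : 0 ≤ x * R ^ (2 * N) := mul_nonneg hx (pow_nonneg (by linarith) _)
  have := mul_le_mul_of_nonneg_left h4 h5
  linarith

lemma pow_mul_inv_pow_le (hR : 1 ≤ R) {k N M : ℕ} (h : k + M ≤ N) :
    R ^ k * (R ^ N)⁻¹ ≤ (R ^ M)⁻¹ := by
  have hR0 : 0 < R := by linarith
  rw [← div_eq_mul_inv, div_le_iff₀ (by positivity), inv_mul_eq_div, le_div_iff₀ (by positivity),
    ← pow_add]
  exact pow_le_pow_right₀ hR h

/-- The inequalities of the cleaning step. -/
lemma clean_params {n a i j : ℕ} {τ ν δ K : ℝ} (ha : lossC n + 11 ≤ a) (hi : i ≤ n) (hj : j < n)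
    (hR : 2 ≤ R) (hK1 : 1 ≤ K) (hK : K ≤ R) (hτ : 0 ≤ τ) (hν : 0 ≤ ν)
    (htop : τ + ν ≤ (R ^ (4 * n * a - 1))⁻¹)
    (hwin : lad a j R ≤ R ^ (4 * (n - i) + 4) * δ) (hδ : δ ≤ lad a j R) :
    0 < δ ∧ τ + ν ≤ δ / 2 ∧ δ / 2 ≤ 1 ∧
      R ^ 5 * (√ν / √(δ / 2)) ≤ (R ^ gainExp n a)⁻¹ ∧
      (∀ k : ℕ, k ≤ 10 → R ^ k * (√(lad a (j + 1) R) / √(δ / 2)) ≤ (R ^ (a - lossC n))⁻¹) ∧
      R ^ 12 * ((√(lad a (j + 1) R) / √(δ / 2)) ^ 2 * lad a j R) ≤ δ / 2 ∧
      K * (√ν / (R ^ 2 * √(lad a (j + 1) R))) ≤ (R ^ gainExp n a)⁻¹ := by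
  have hR0 : 0 < R := by linarith
  have hR1 : 1 ≤ R := by linarith
  have hlj := lad_pos hR0 a j
  have hδ0 : 0 < δ := by
    by_contra hneg
    have := mul_nonpos_of_nonneg_of_nonpos (pow_nonneg hR0.le (4 * (n - i) + 4)) (not_lt.1 hneg)
    linarith
  have hinner : ∀ k, k ≤ 20 * (n + 1) → ∀ x, 0 ≤ x → x ≤ τ + ν →
      x * R ^ (2 * (gainExp n a + k)) ≤ δ := fun k hk x _ hx =>
    level_mul_le hR1 hj ha hk (hx.trans htop) hwin
  have h6 : lossC n = 40 * (n + 1) := rfl
  have hθ : √(lad a (j + 1) R) / √(δ / 2) ≤ (R ^ (a - lossC n + (20 * n + 19)))⁻¹ :=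
    sqrt_div_le_inv_pow hR0 (lad_pos hR0 _ _).le (by linarith)
      (mul_pow_le_half hR (lad_pos hR0 _ _).le
        (by rw [add_assoc]; exact lad_succ_mul_le hR1 ha (by omega) hwin))
  have hθ0 : 0 ≤ √(lad a (j + 1) R) / √(δ / 2) := by positivity
  refine ⟨hδ0, ?_, by linarith [lad_le_one hR1 a j], ?_, fun k hk => ?_, ?_, ?_⟩
  · have h1 := mul_pow_le_half hR (by linarith : 0 ≤ τ + ν) (N := gainExp n a)
      (hinner 1 (by omega) _ (by linarith) le_rfl)
    exact (le_mul_of_one_le_right (by linarith) (one_le_pow₀ hR1)).trans h1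
  · have h1 : √ν / √(δ / 2) ≤ (R ^ (gainExp n a + 6))⁻¹ :=
      sqrt_div_le_inv_pow hR0 hν (by linarith)
        (mul_pow_le_half hR hν (hinner 7 (by omega) ν hν (by linarith)))
    exact (mul_le_mul_of_nonneg_left h1 (pow_nonneg hR0.le _)).trans
      (pow_mul_inv_pow_le hR1 (by omega))
  · exact (mul_le_mul_of_nonneg_left hθ (pow_nonneg hR0.le _)).trans
      (pow_mul_inv_pow_le hR1 (by omega))
  · have h1 : lad a j R ≤ R ^ (4 * n + 5) * (δ / 2) := by
      refine (lad_le_mul hR1 hδ0.le hwin).trans ?_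
      rw [pow_succ R (4 * n + 4), mul_assoc]
      refine mul_le_mul_of_nonneg_left ?_ (by positivity)
      nlinarith
    calc R ^ 12 * ((√(lad a (j + 1) R) / √(δ / 2)) ^ 2 * lad a j R)
        ≤ R ^ 12 * (((R ^ (a - lossC n + (20 * n + 19)))⁻¹) ^ 2 * (R ^ (4 * n + 5) * (δ / 2))) := by
          gcongr
      _ = R ^ (12 + (4 * n + 5)) * (R ^ ((a - lossC n + (20 * n + 19)) * 2))⁻¹ * (δ / 2) := by
          rw [inv_pow, ← pow_mul, pow_add]; ring
      _ ≤ (R ^ 0)⁻¹ * (δ / 2) :=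
          mul_le_mul_of_nonneg_right (pow_mul_inv_pow_le hR1 (by omega)) (by linarith)
      _ = δ / 2 := by simp
  · have h1 : √ν / √(lad a (j + 1) R) ≤ (R ^ (gainExp n a + 1))⁻¹ := by
      refine sqrt_div_le_inv_pow hR0 hν (lad_pos hR0 _ _) ?_
      refine (mul_le_mul_of_nonneg_right ((by linarith : ν ≤ τ + ν).trans htop) (by positivity)).trans ?_
      rw [lad, mul_comm]
      refine pow_mul_inv_pow_le hR1 ?_
      have h2 : 2 * a * (j + 1) ≤ 2 * a * n := Nat.mul_le_mul_left _ hj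
      have h3 : gainExp n a + n * lossC n = n * a := by
        rw [gainExp, ← Nat.mul_add]; congr 1; omega
      have h4 : 2 * a * n = 2 * (n * a) := by ring
      have h5 : 4 * n * a = 4 * (n * a) := by ring
      have h7 : lossC n ≤ n * lossC n := Nat.le_mul_of_pos_left _ (by omega)
      omega
    have h2 : K / R ^ 2 ≤ 1 := by
      rw [div_le_one (by positivity)]; exact hK.trans (le_self_pow₀ hR1 two_ne_zero)
    calc K * (√ν / (R ^ 2 * √(lad a (j + 1) R)))
        = K / R ^ 2 * (√ν / √(lad a (j + 1) R)) := by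
          rw [div_mul_div_comm, mul_div_assoc']
      _ ≤ 1 * (R ^ (gainExp n a + 1))⁻¹ := mul_le_mul h2 h1 (by positivity) zero_le_one
      _ ≤ _ := by
          rw [one_mul]
          exact inv_anti₀ (by positivity) (pow_le_pow_right₀ hR1 (by omega))

end Vale.Agent.P347
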