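import Vale.Agent.P347.RecCleanData

/-!
The iterations and the body of the cleaning step.
-/

namespace Vale.Agent.P347

open MeasureTheory ProbabilityTheory
open scoped RealInnerProductSpace

lemma map_pi3_pair {d : ℕ} (μ : Measure (Euc d)) [IsProbabilityMeasure μ] :
    (Measure.pi fun _ : Fin 3 => μ).map (fun s => (s 0, s 1)) = μ.prod μ := by
  have h1 := (measurePreserving_piFinSuccAbove (fun _ : Fin 3 => μ) 2).map_eq
  have h2 := (measurePreserving_piFinTwo fun _ : Fin 2 => μ).map_eq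
  have h3 : (fun s : Fin 3 → Euc d => (s 0, s 1)) = Prod.snd ∘
      Prod.map id (MeasurableEquiv.piFinTwo fun _ => Euc d) ∘
      (MeasurableEquiv.piFinSuccAbove (fun _ : Fin 3 => Euc d) 2) := by
    funext s; rfl
  rw [h3, ← Function.comp_assoc, ← Measure.map_map (by fun_prop) (MeasurableEquiv.measurable _),
    h1, ← Measure.map_map (g := Prod.snd) (by fun_prop) (by fun_prop),
    ← Measure.map_prod_map _ _ measurable_id (MeasurableEquiv.measurable _), h2, Measure.map_id]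
  exact (measurePreserving_snd (μ := μ) (ν := μ.prod μ)).map_eq

lemma map_cleanPt_kern {d : ℕ} {ν : ℝ} (hν : 0 < ν) (y : Euc d) :
    (Measure.pi ![gN y ν, gauss d, gauss d]).map
        (fun s => ((√ν)⁻¹ • (s 0 - y), s 1))
      = (gauss d).prod (gauss d) := by
  set f : Fin 3 → Euc d → Euc d := ![fun u => y + √ν • u, id, id] with hf
  have hfm : ∀ i, Measurable (f i) := fun i => by fin_cases i <;> simp [hf] <;> fun_prop
  have : ∀ i, IsProbabilityMeasure ((gauss d).map (f i)) := fun i =>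
    Measure.isProbabilityMeasure_map (hfm i).aemeasurable
  have h1 : Measure.pi ![gN y ν, gauss d, gauss d]
      = (Measure.pi fun _ : Fin 3 => gauss d).map fun s i => f i (s i) := by
    rw [Measure.pi_map_pi (μ := fun _ : Fin 3 => gauss d) fun i => (hfm i).aemeasurable]
    congr 1
    funext i
    fin_cases i <;> simp [hf, gN]
  rw [h1, Measure.map_map (by fun_prop)
    (measurable_pi_lambda (fun (s : Fin 3 → Euc d) i => f i (s i)) fun i =>
      (hfm i).comp (measurable_pi_apply i)), ← map_pi3_pair (gauss d)]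
  congr 1
  funext s
  simp [hf, (Real.sqrt_pos.2 hν).ne']

namespace CleanData

variable (D : CleanData)

/-- Query factor of one pass. -/
noncomputable def fac : ℕ :=
  (8 * (D.P + 1) ^ 2 * (hessConst D.P D.It + 1) * (D.M + 1)) ^ (D.It + 3)

/-- The error of a pass that does not depend on the previous one. -/
noncomputable def err : ℝ :=
  D.EO + D.Ein + D.Eout + D.kr ^ D.P + ((hessConst D.P D.It : ℝ) * D.kr) ^ D.It

/-- A body for the position at a node. -/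
def PosState (e : ℝ) (Qc : ℕ) (l : Fin D.P) : Prop :=
  ∃ T, Node (cleanLaw D.τ D.ν) D.ν T Qc (1 - cleanNode l) (cleanNode l) D.R⁻¹ D.R⁻¹
    (D.pos (D.rad l)) ((1 - cleanNode l) ^ 2 * D.ν + D.ν / 20) e

/-- A body for the Gaussian state at a node. -/
def XiState (e : ℝ) (Qc : ℕ) (l : Fin D.P) : Prop :=
  ∃ T, Node (cleanLaw D.τ D.ν) D.ν T Qc 0 0 (√D.ν)⁻¹ (√D.ν)⁻¹ (D.xi (D.rad l)) 1 (e / √D.ν)

namespace Valid

variable {D} (h : D.Valid)
include h

lemma size_le : (D.P : ℝ) * D.L * diffSize D.P ≤ D.R / 20 ∧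
    (D.P : ℝ) * D.L * hessConst D.P D.It ≤ D.R / 20 := by
  have := h.big
  have := h.L_pos
  have := one_le_diffSize D.P
  have := h.K_one_le
  have h1 : 0 ≤ (D.P : ℝ) * D.L * diffSize D.P := by positivity
  have h2 : 0 ≤ (D.P : ℝ) * D.L * hessConst D.P D.It := by positivity
  constructor <;> linarith

lemma inv_R_le : D.R⁻¹ ≤ 1 / 2 := by
  rw [inv_eq_one_div]; exact one_div_le_one_div_of_le two_pos h.two_le_R

omit h in
lemma sigma_nonneg : 0 ≤ √D.ν / √D.δe := by positivity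

lemma pow_mul_sigma_le {k : ℕ} (hk : k ≤ 5) : D.R ^ k * (√D.ν / √D.δe) ≤ D.g :=
  le_trans (mul_le_mul_of_nonneg_right (pow_le_pow_right₀ (by linarith [h.two_le_R]) hk)
    (sigma_nonneg (D := D))) h.inner_gain

lemma pow_mul_theta_le {k : ℕ} (hk : k ≤ 10) : D.R ^ k * (√D.din / √D.δe) ≤ 1 :=
  le_trans (mul_le_mul_of_nonneg_right (pow_le_pow_right₀ (by linarith [h.two_le_R]) hk)
    (by positivity)) h.outer_gain

lemma sigma_sq : (√D.ν / √D.δe) ^ 2 = D.ν / D.δe := by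
  rw [div_pow, Real.sq_sqrt h.ν_pos.le, Real.sq_sqrt h.δe_pos.le]

lemma kr_le_one : D.kr ≤ 1 := by
  have := h.kr_le
  nlinarith [h.K_one_le, h.kr_pos]

lemma lam_le_one : D.lam ≤ 1 := by
  have h1 : √D.ν ≤ 1 := Real.sqrt_le_one.2 (h.ν_le_δe.trans h.δe_le)
  rw [lam, div_le_one (pow_pos h.R_pos 2)]
  nlinarith [h.two_le_R]

lemma lam_div_le : D.lam / √D.ν ≤ 1 := by
  rw [div_le_one h.sqrt_ν_pos, lam]
  exact div_le_self h.sqrt_ν_pos.le (one_le_pow₀ (by linarith [h.two_le_R]))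

lemma err_nonneg : 0 ≤ D.err := by
  have := h.EO_nonneg; have := h.Ein_nonneg; have := h.Eout_nonneg; have := h.kr_pos
  unfold CleanData.err; positivity

lemma res_nonneg : 0 ≤ D.res := by
  have := h.L_pos
  unfold CleanData.res; positivity

lemma coef_one_le (l j : Fin D.P) :
    |D.rad l / √D.δe * D.wgt (fun _ => 1) (D.rad l) j| ≤ D.L * √D.ν * (√D.ν / √D.δe) := by
  obtain ⟨h1, h2⟩ := h.rad_mem l
  rw [abs_mul, abs_of_nonneg (by positivity : 0 ≤ D.rad l / √D.δe)]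
  calc D.rad l / √D.δe * |D.wgt (fun _ => 1) (D.rad l) j|
      ≤ √D.ν / √D.δe * (D.L * √D.ν) :=
        mul_le_mul (div_le_div_of_nonneg_right h2 (Real.sqrt_nonneg _)) (h.wgt_one_le ⟨h1, h2⟩ j)
          (abs_nonneg _) (sigma_nonneg (D := D))
    _ = _ := by ring

lemma coef_id_le {v : ℝ} (hv : v ∈ Set.Icc 0 √D.ν) (j : Fin D.P) :
    |D.wgt id v j / D.δe| ≤ D.L * (√D.ν / √D.δe) ^ 2 ∧
      |D.wgt id v j / √D.δe| ≤ D.L * √D.ν * (√D.ν / √D.δe) := by
  have h1 := h.wgt_id_le hv j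
  have h2 := h.δe_pos
  constructor
  · rw [abs_div, abs_of_pos h2, h.sigma_sq, mul_div_assoc']
    exact div_le_div_of_nonneg_right h1 h2.le
  · rw [abs_div, abs_of_pos (Real.sqrt_pos.2 h2), mul_assoc, mul_div_assoc',
      Real.mul_self_sqrt h.ν_pos.le, mul_div_assoc']
    exact div_le_div_of_nonneg_right h1 (Real.sqrt_nonneg _)

omit h in
lemma sum_coef_le {a : Fin D.P → ℝ} {b : ℝ} (ha : ∀ j, |a j| ≤ b) {A : ℝ} (hA : 0 ≤ A) :
    ∑ j, |a j| * A ≤ (D.P : ℝ) * b * A :=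
  (Finset.sum_le_sum fun j _ => mul_le_mul_of_nonneg_right (ha j) hA).trans
    (le_of_eq (by simp; ring))

omit h in
lemma sum_coef_sq_le {a : Fin D.P → ℝ} {b : ℝ} (ha : ∀ j, |a j| ≤ b) {A : ℝ} (hA : 0 ≤ A) :
    ∑ j, a j ^ 2 * A ≤ (D.P : ℝ) * b ^ 2 * A := by
  refine (Finset.sum_le_sum fun j _ => mul_le_mul_of_nonneg_right ?_ hA).trans
    (le_of_eq (by simp; ring) : ∑ _j : Fin D.P, b ^ 2 * A ≤ _)
  rw [← sq_abs]
  exact pow_le_pow_left₀ (abs_nonneg _) (ha j) 2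

/-- Pointwise identity for the quadrature of the position. -/
lemma pos_residual {d : ℕ} {V : Euc d → ℝ} (hV : Nice d V) (l : Fin D.P) (ω : Rand d) :
    (1 - cleanNode l) • ω.1 + (cleanNode l • ω.2 0 + ∑ j,
        (D.rad l / √D.δe * D.wgt (fun _ => 1) (D.rad l) j) • D.int₁ d V (D.rad j) (cleanPt D.ν ω))
      - D.pos (D.rad l) d V ω
      = (D.rad l / √D.δe) • (∑ j, D.wgt (fun _ => 1) (D.rad l) j •
          D.int₁ d V (D.rad j) (cleanPt D.ν ω)
        - ∫ u in √D.ν..D.rad l, (1 : ℝ) • D.int₁ d V u (cleanPt D.ν ω)) := by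
  have h1 := h.pos_eq d V hV (cleanPt D.ν ω) (D.rad l) (h.rad_mem l)
  have h2 : D.rad l • (√D.ν)⁻¹ • (ω.2 0 - ω.1) = cleanNode l • (ω.2 0 - ω.1) := by
    rw [smul_smul, CleanData.rad, mul_right_comm, mul_inv_cancel₀ h.sqrt_ν_pos.ne', one_mul]
  simp only [CleanData.pos]
  rw [h1, smul_add, smul_smul, ← div_eq_mul_inv,
    show (cleanPt D.ν ω).2.1 = (√D.ν)⁻¹ • (ω.2 0 - ω.1) from rfl, h2]
  simp only [one_smul, smul_sub (D.rad l / √D.δe), Finset.smul_sum, smul_smul]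
  module

/-- Pointwise identity for the quadrature of the Gaussian state. -/
lemma xi_residual {d : ℕ} {V : Euc d → ℝ} (hV : Nice d V) (l : Fin D.P) (ω : Rand d) :
    ω.2 1 + ((√D.δe)⁻¹ • score V (D.τ + D.ν) (ω.2 0)
        + ((-(√D.δe)⁻¹) • scoreAvg V (D.τ + D.rad l ^ 2) (D.ν - D.rad l ^ 2) (D.pos (D.rad l) d V ω)
        + ∑ j, (D.wgt id (D.rad l) j / D.δe) • D.int₂ d V (D.rad j) (cleanPt D.ν ω)))
      - D.xi (D.rad l) d V ω
      = D.δe⁻¹ • (∑ j, D.wgt id (D.rad l) j • D.int₂ d V (D.rad j) (cleanPt D.ν ω)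
        - ∫ u in √D.ν..D.rad l, id u • D.int₂ d V u (cleanPt D.ν ω)) := by
  have h1 := h.xi_eq d V hV (cleanPt D.ν ω) (D.rad l) (h.rad_mem l)
  have h2 : (cleanPt D.ν ω).1 + √D.ν • (cleanPt D.ν ω).2.1 = ω.2 0 := by
    simp [cleanPt, h.sqrt_ν_pos.ne']
  rw [h2] at h1
  have hs : √D.δe ≠ 0 := (Real.sqrt_pos.2 h.δe_pos).ne'
  have h3 : D.xi (D.rad l) d V ω = (√D.δe)⁻¹ • (√D.δe • (cleanPt D.ν ω).2.2
      + score V (D.τ + D.ν) (ω.2 0)
      + (√D.δe)⁻¹ • (∫ u in √D.ν..D.rad l, u • D.int₂ d V u (cleanPt D.ν ω))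
      - scoreAvg V (D.τ + D.rad l ^ 2) (D.ν - D.rad l ^ 2) (D.pos (D.rad l) d V ω)) := by
    rw [← h1]
    simp [CleanData.xi, CleanData.pos, cleanPt, hs]
  have h4 : (√D.δe)⁻¹ * (√D.δe)⁻¹ = D.δe⁻¹ := by
    rw [← mul_inv, Real.mul_self_sqrt h.δe_pos.le]
  rw [h3]
  simp only [id, smul_sub, smul_add, smul_smul, h4, inv_mul_cancel₀ hs, Finset.smul_sum,
    div_eq_inv_mul, one_smul]
  rw [show (cleanPt D.ν ω).2.2 = ω.2 1 from rfl]
  module

/-- The positions after a pass. -/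
lemma pos_step {e : ℝ} (he : 0 ≤ e) {Qc : ℕ} (hp : ∀ l, D.PosState e Qc l)
    (hx : ∀ l, D.XiState e Qc l) (l : Fin D.P) :
    D.PosState (D.g * (e + D.err) + D.res)
      (1 + (1 + D.P * (D.P * (D.M * 2 * (1 + (Qc + Qc)))))) l := by
  have hν := h.ν_pos
  have hs := h.sqrt_ν_pos
  have hR := h.R_pos
  have hRinv := h.inv_R_le
  have hDd := one_le_diffSize D.P
  have hL := h.L_pos
  have hlam := h.lam_pos
  obtain ⟨hB, -⟩ := h.size_le
  set Dd := diffSize D.P with hDd'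
  set σ := √D.ν / √D.δe with hσ
  have hσ0 : 0 ≤ σ := (sigma_nonneg (D := D))
  have hTh : ∀ j, ∃ T, Node (cleanLaw D.τ D.ν) D.ν T (D.P * (D.M * 2 * (1 + (Qc + Qc)))) 0 0
      (9 * (Dd / D.lam)) (9 * (Dd / D.lam))
      (fun d V ω => D.int₁ d V (D.rad j) (cleanPt D.ν ω)) ((Dd / D.lam) ^ 2 * D.din)
      (Dd / D.lam * (6 * e + 2 * D.Ein)) := fun j => by
    obtain ⟨T, hT⟩ := hp j
    obtain ⟨Z, hZ⟩ := hx j
    obtain ⟨hj1, hj2⟩ := cleanNode_mem h.two_le j
    obtain ⟨T', hT'⟩ := Node.hess (v' := (Dd / D.lam) ^ 2 * D.din) h.two_le h.ε_nonneg hlam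
      h.din_pos.le (h.extractIn j) hT hZ he zero_le_one (by
        rw [h.rad_sq, CleanData.lam, div_pow, Real.sq_sqrt hν.le]
        have h4 : D.ν / (D.R ^ 2) ^ 2 ≤ D.ν / 16 := by
          gcongr
          nlinarith [h.two_le_R, pow_le_pow_left₀ (by norm_num : (0:ℝ) ≤ 4)
            (by nlinarith [h.two_le_R] : (4:ℝ) ≤ D.R ^ 2) 2]
        nlinarith [mul_le_mul_of_nonneg_left (show cleanNode j * (1 - cleanNode j) ≥ 9 / 100 by
          nlinarith) hν.le])
      (fun d V hV => h.map_pair hV (h.rad_mem j)) le_rfl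
    have h5 : D.lam * (√D.ν)⁻¹ ≤ 1 := by rw [← div_eq_mul_inv]; exact h.lam_div_le
    have h6 : Dd / D.lam * (2 + D.ε) ≤ Dd / D.lam * 3 :=
      mul_le_mul_of_nonneg_left (by linarith [h.ε_le]) (by positivity)
    refine ⟨T', hT'.mono le_rfl ?_ ?_ ?_⟩
    · refine (mul_le_mul h6 (by
        rw [abs_of_nonneg (by linarith)]; linarith : _ ≤ (3 : ℝ)) (by positivity)
        (by positivity)).trans (le_of_eq (by ring))
    · refine (mul_le_mul h6 (by
        rw [abs_of_nonneg (by linarith)]; linarith : _ ≤ (3 : ℝ)) (by positivity)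
        (by positivity)).trans (le_of_eq (by ring))
    · refine mul_le_mul_of_nonneg_left ?_ (by positivity)
      rw [abs_of_nonneg (by positivity : (0:ℝ) ≤ e / √D.ν), abs_of_nonneg h.Ein_nonneg]
      have h7 : D.lam * (e / √D.ν) ≤ e := by
        rw [div_eq_mul_inv, mul_comm e, ← mul_assoc]; exact mul_le_of_le_one_left he h5
      have := mul_le_mul_of_nonneg_right h.ε_le
        (by positivity : (0:ℝ) ≤ e + D.lam * (e / √D.ν))
      linarith
  choose Th hTh using hTh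
  obtain ⟨hl1, hl2⟩ := cleanNode_mem h.two_le l
  set a : Fin D.P → ℝ := fun j => D.rad l / √D.δe * D.wgt (fun _ => 1) (D.rad l) j with ha
  have hab : ∀ j, |a j| ≤ D.L * √D.ν * σ := h.coef_one_le l
  have hscale : (D.P : ℝ) * (D.L * √D.ν * σ) * (Dd / D.lam)
      = (D.P : ℝ) * D.L * Dd * (D.R ^ 2 * σ) := by
    rw [CleanData.lam]; field_simp
  have h1 := Node.comb (n := D.P + 2)
    (a := Fin.cons (1 - cleanNode l) (Fin.cons (cleanNode l) a))
    (Ts := Fin.cons Body.anchor (Fin.cons (Body.slot 0) Th))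
    (Qs := Fin.cons 1 (Fin.cons 1 fun _ => D.P * (D.M * 2 * (1 + (Qc + Qc)))))
    (cs := Fin.cons 1 (Fin.cons 0 fun _ => 0)) (cs₀ := Fin.cons 0 (Fin.cons 1 fun _ => 0))
    (Ss := Fin.cons 0 (Fin.cons 0 fun _ => 9 * (Dd / D.lam)))
    (Ss₀ := Fin.cons 0 (Fin.cons 0 fun _ => 9 * (Dd / D.lam)))
    (Xs := Fin.cons (fun _ _ ω => ω.1) (Fin.cons (fun _ _ ω => ω.2 0)
      fun j d V ω => D.int₁ d V (D.rad j) (cleanPt D.ν ω)))
    (vs := Fin.cons D.ν (Fin.cons 0 fun _ => (Dd / D.lam) ^ 2 * D.din))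
    (Es := Fin.cons 0 (Fin.cons 0 fun _ => Dd / D.lam * (6 * e + 2 * D.Ein)))
    (Fin.cases (Node.anchor hν.le) (Fin.cases Node.slot0 hTh))
    (X' := fun d V ω => (1 - cleanNode l) • ω.1 + (cleanNode l • ω.2 0
      + ∑ j, a j • D.int₁ d V (D.rad j) (cleanPt D.ν ω)))
    (fun d V _ ω => by simp [Fin.sum_univ_succ (n := D.P + 1), Fin.sum_univ_succ (n := D.P)])
    (c' := 1 - cleanNode l) (c₀' := cleanNode l) (x := 0)
    (v' := (1 - cleanNode l) ^ 2 * D.ν + D.ν / 20)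
    (by simp [Fin.sum_univ_succ]) (by simp [Fin.sum_univ_succ]) le_rfl
    (by simp [Fin.sum_univ_succ]) (by
      simp only [Fin.sum_univ_succ (n := D.P + 1), Fin.sum_univ_succ (n := D.P), Fin.cons_zero,
        Fin.cons_succ, mul_zero, zero_add]
      refine add_le_add le_rfl ((sum_coef_sq_le hab (by have := h.din_pos; positivity)).trans ?_)
      set θ := √D.din / √D.δe with hθ
      have e1 : (D.P : ℝ) * (D.L * √D.ν * σ) ^ 2 * ((Dd / D.lam) ^ 2 * D.din)
          = D.ν * ((D.P : ℝ) * (D.L * Dd * (D.R ^ 2 * θ)) ^ 2) := by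
        rw [hθ, mul_pow, mul_pow, mul_pow (D.L * Dd), mul_pow (D.R ^ 2), hσ, div_pow (√D.ν),
          div_pow (√D.din), CleanData.lam, div_pow Dd, div_pow (√D.ν), Real.sq_sqrt hν.le,
          Real.sq_sqrt h.δe_pos.le, Real.sq_sqrt h.din_pos.le]
        field_simp
      rw [e1]
      calc D.ν * ((D.P : ℝ) * (D.L * Dd * (D.R ^ 2 * θ)) ^ 2)
          ≤ D.ν * ((D.P : ℝ) * D.L * Dd * (D.R ^ 2 * θ)) ^ 2 := by
            refine mul_le_mul_of_nonneg_left ?_ hν.le
            have hP1 : (1:ℝ) ≤ D.P := by exact_mod_cast (by have := h.two_le; omega : 1 ≤ D.P)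
            calc _ ≤ (D.P : ℝ) ^ 2 * (D.L * Dd * (D.R ^ 2 * θ)) ^ 2 := by
                  gcongr; exact le_self_pow₀ hP1 two_ne_zero
              _ = _ := by ring
        _ ≤ D.ν * (1 / 20) ^ 2 := by
            refine mul_le_mul_of_nonneg_left (pow_le_pow_left₀ (by positivity) ?_ 2) hν.le
            calc (D.P : ℝ) * D.L * Dd * (D.R ^ 2 * θ) ≤ D.R / 20 * (D.R ^ 2 * θ) :=
                  mul_le_mul_of_nonneg_right hB (by positivity)
              _ = D.R ^ 3 * θ / 20 := by ring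
              _ ≤ _ := by have := h.pow_mul_theta_le (k := 3) (by norm_num); linarith
        _ ≤ _ := by linarith)
  have h2 := h1.shift (X' := D.pos (D.rad l)) (E' := D.res) fun d V hV => by
    obtain ⟨hi, hle⟩ := h.quad hV (h.bound₁ d V hV) (φ := fun _ => (1 : ℝ)) continuous_const
      (B := 1) (fun u _ => by simp) (h.rad_mem l)
    simp only [ha, h.pos_residual hV l, norm_smul]
    refine ⟨hi.const_mul _, ?_⟩
    rw [integral_const_mul]
    obtain ⟨hr1, hr2⟩ := h.rad_mem l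
    calc ‖D.rad l / √D.δe‖ * _ ≤ √D.ν / √D.δe * (1 * √D.ν * D.res * dimFac d) := by
          refine mul_le_mul ?_ hle (integral_nonneg fun _ => norm_nonneg _) hσ0
          rw [Real.norm_eq_abs, abs_of_nonneg (by positivity)]
          exact div_le_div_of_nonneg_right hr2 (Real.sqrt_nonneg _)
      _ = D.ν / √D.δe * (D.res * dimFac d) := by
          rw [div_mul_eq_mul_div, div_mul_eq_mul_div]
          congr 1
          linear_combination D.res * dimFac d * (Real.mul_self_sqrt hν.le)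
      _ ≤ 1 * (D.res * dimFac d) := by
          refine mul_le_mul_of_nonneg_right ?_ (mul_nonneg h.res_nonneg (dimFac_nonneg d))
          rw [div_le_one (Real.sqrt_pos.2 h.δe_pos)]
          refine h.ν_le_δe.trans (Real.le_sqrt_of_sq_le ?_)
          nlinarith [h.δe_pos, h.δe_le]
      _ = _ := one_mul _
  have hspread : (D.P : ℝ) * (D.L * √D.ν * σ) * (9 * (Dd / D.lam)) ≤ D.R⁻¹ := by
    calc _ = 9 * ((D.P : ℝ) * (D.L * √D.ν * σ) * (Dd / D.lam)) := by ring
      _ ≤ 9 * (D.R / 20 * (D.R ^ 2 * σ)) := by rw [hscale]; gcongr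
      _ = 9 / 20 * (D.R ^ 3 * σ) := by ring
      _ ≤ D.R⁻¹ := by
          have h8 : D.R ^ 5 * σ ≤ 1 / 4 := h.inner_gain.trans h.g_le
          rw [inv_eq_one_div, le_div_iff₀ hR]
          have h9 : D.R ^ 4 * σ ≤ D.R ^ 5 * σ :=
            mul_le_mul_of_nonneg_right (pow_le_pow_right₀ (by linarith [h.two_le_R]) (by norm_num))
              hσ0
          linarith
  refine ⟨_, h2.mono ?_ ?_ ?_ ?_⟩
  · simp [Fin.sum_univ_succ]
  · simp only [Fin.sum_univ_succ (n := D.P + 1), Fin.sum_univ_succ (n := D.P), Fin.cons_zero,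
      Fin.cons_succ, mul_zero, zero_add, add_zero]
    exact (sum_coef_le hab (by positivity)).trans hspread
  · simp only [Fin.sum_univ_succ (n := D.P + 1), Fin.sum_univ_succ (n := D.P), Fin.cons_zero,
      Fin.cons_succ, mul_zero, zero_add]
    exact (sum_coef_le hab (by positivity)).trans hspread
  · simp only [Fin.sum_univ_succ (n := D.P + 1), Fin.sum_univ_succ (n := D.P), Fin.cons_zero,
      Fin.cons_succ, mul_zero, zero_add]
    refine add_le_add ((sum_coef_le hab (by have := h.Ein_nonneg; positivity)).trans ?_) le_rfl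
    calc _ = ((D.P : ℝ) * (D.L * √D.ν * σ) * (Dd / D.lam)) * (6 * e + 2 * D.Ein) := by ring
      _ ≤ D.R / 20 * (D.R ^ 2 * σ) * (6 * (e + D.err)) := by
          have := h.Ein_nonneg; have := h.EO_nonneg; have := h.Eout_nonneg; have := h.kr_pos
          rw [hscale]
          refine mul_le_mul (mul_le_mul_of_nonneg_right hB (by positivity)) ?_ (by positivity)
            (by positivity)
          simp only [CleanData.err]
          nlinarith [pow_nonneg h.kr_pos.le D.P,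
            pow_nonneg (mul_nonneg (Nat.cast_nonneg (hessConst D.P D.It)) h.kr_pos.le) D.It]
      _ = D.R ^ 3 * σ * (6 / 20 * (e + D.err)) := by ring
      _ ≤ D.g * (1 * (e + D.err)) := by
          have := h.err_nonneg
          refine mul_le_mul (h.pow_mul_sigma_le (by norm_num)) ?_ (by positivity) h.g_nonneg
          linarith
      _ = _ := by ring

lemma lam_sq : D.lam ^ 2 = D.ν / D.R ^ 4 := by
  rw [CleanData.lam, div_pow, Real.sq_sqrt h.ν_pos.le]; ring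

lemma kr_sq : D.kr ^ 2 * (D.din / D.lam ^ 2) = 1 := by
  have h1 := h.ν_pos; have h2 := h.din_pos; have h3 := h.R_pos
  rw [h.lam_sq, CleanData.kr, div_pow, mul_pow, Real.sq_sqrt h1.le, Real.sq_sqrt h2.le]
  field_simp

lemma scale_out : (D.L * √D.ν * (√D.ν / √D.δe)) * ((hessConst D.P D.It : ℝ) / (D.kr * D.lam))
    = D.L * hessConst D.P D.It * (D.R ^ 4 * (√D.din / √D.δe)) := by
  have h1 := h.sqrt_ν_pos; have h2 := Real.sqrt_pos.2 h.δe_pos; have h3 := h.R_pos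
  have h4 := Real.sqrt_pos.2 h.din_pos
  rw [CleanData.kr, CleanData.lam]
  field_simp

lemma scale_in : (D.L * (√D.ν / √D.δe) ^ 2) * ((hessConst D.P D.It : ℝ) / (D.kr * D.lam)) * √D.ν
    = D.L * hessConst D.P D.It * (D.R ^ 4 * (√D.din / √D.δe) * (√D.ν / √D.δe)) := by
  have h1 := h.sqrt_ν_pos; have h2 := Real.sqrt_pos.2 h.δe_pos; have h3 := h.R_pos
  have h4 := Real.sqrt_pos.2 h.din_pos
  rw [CleanData.kr, CleanData.lam]
  field_simp

/-- Bodies for the second integrand. -/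
lemma hess_body {e : ℝ} (he : 0 ≤ e) {Qc : ℕ} (hQc : 1 ≤ Qc) (hp : ∀ l, D.PosState e Qc l)
    (hx : ∀ l, D.XiState e Qc l) (j : Fin D.P) :
    ∃ T Q, Q ≤ (hessConst D.P D.It * (1 + D.M * 2 + D.M * 2)) ^ (D.It + 1) * (1 + Qc + Qc) ∧
      Node (cleanLaw D.τ D.ν) D.ν T Q 0 0
        (3 * ((hessConst D.P D.It : ℝ) / (D.kr * D.lam)))
        (3 * ((hessConst D.P D.It : ℝ) / (D.kr * D.lam)))
        (fun d V ω => D.int₂ d V (D.rad j) (cleanPt D.ν ω))
        (((hessConst D.P D.It : ℝ) / (D.kr * D.lam)) ^ 2 * D.dout)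
        ((hessConst D.P D.It : ℝ) / (D.kr * D.lam) *
          (2 * e + D.kr * D.Ein + D.Eout
            + (D.kr ^ D.P + ((hessConst D.P D.It : ℝ) * D.kr) ^ D.It))) := by
  have hν := h.ν_pos
  have hs := h.sqrt_ν_pos
  have hR := h.R_pos
  have hlam := h.lam_pos
  have hkr := h.kr_pos
  have hRinv := h.inv_R_le
  obtain ⟨-, hB⟩ := h.size_le
  obtain ⟨T, hT⟩ := hp j
  obtain ⟨Z, hZ⟩ := hx j
  obtain ⟨hj1, hj2⟩ := cleanNode_mem h.two_le j
  obtain ⟨Z', hZ'⟩ := ((Node.slot (P := cleanLaw D.τ D.ν) (ν := D.ν) 2 (by decide)).mono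
    (Q' := Qc) (S' := (√D.ν)⁻¹) (S₀' := (√D.ν)⁻¹) (E' := e / √D.ν) hQc (by positivity)
    (by positivity) (by positivity)).pad (v' := 1) zero_le_one
  set Kh := hessConst D.P D.It with hKh
  have hKspec := ((hessSq D.P D.It h.two_le).choose_spec).2
  rw [show (hessSq D.P D.It h.two_le).choose = Kh by rw [hKh, hessConst, dif_pos h.two_le]]
    at hKspec
  obtain ⟨T', Q', hQ', hT'⟩ := hKspec (cleanLaw D.τ D.ν) D.ν (levelFam (D.τ + D.rad j ^ 2))
    (D.hess (D.rad j)) D.lam (D.ν - D.rad j ^ 2 - D.lam ^ 2) D.din D.dout (D.M * 2) (D.M * 2)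
    D.ε D.Ein D.Eout h.ε_nonneg h.ε_le hlam h.din_pos.le h.dout_nonneg h.Ein_nonneg h.Eout_nonneg
    (fun d V hV => by
      obtain ⟨-, h1, h2, h3⟩ := h.hess_facts d V hV _ (h.rad_mem j)
      refine ⟨?_, h.isProb d V hV, h1, h2, h3⟩
      show IsProbabilityMeasure (levelLaw V (D.τ + D.rad j ^ 2))
      have := h.prob d V hV
      rw [← h.conv d V hV _ (h.rad_mem j)]
      exact Measure.isProbabilityMeasure_map (Measurable.aemeasurable (by fun_prop)))
    (h.extractIn j) (h.extractOut j) T Qc _ _ _ _ _ _ _ hT (by positivity) he Z Z' Qc _ _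
    (D.xi (D.rad j)) (fun _ _ ω => ω.2 2) 1 (e / √D.ν) hZ hZ' zero_le_one (by positivity)
    (fun d V hV => h.map_state hV (h.rad_mem j)) D.kr
    (((Kh : ℝ) / (D.kr * D.lam)) ^ 2 * D.dout) hkr h.kr_le (by
      have hK1 := h.K_one_le
      have h4 : D.lam ^ 2 * ((Kh : ℝ) * (1 + D.kr ^ 2 * (D.din / D.lam ^ 2))) + D.lam ^ 2
          ≤ 3 * ((Kh : ℝ) * D.lam ^ 2) := by
        rw [h.kr_sq]; nlinarith [sq_nonneg D.lam]
      have hK2 : (Kh : ℝ) ≤ D.R / 20 := by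
        refine le_trans ?_ hB
        have : 1 ≤ (D.P : ℝ) * D.L := one_le_mul_of_one_le_of_one_le
          (by exact_mod_cast (by have := h.two_le; omega : 1 ≤ D.P)) h.one_le_L
        exact le_mul_of_one_le_left (by positivity) this
      have h5 : (Kh : ℝ) * D.lam ^ 2 ≤ D.ν / 100 := by
        rw [h.lam_sq, mul_div_assoc', div_le_iff₀ (by positivity)]
        have h6 : (8 : ℝ) ≤ D.R ^ 3 := by
          nlinarith [pow_le_pow_left₀ (by norm_num : (0:ℝ) ≤ 2) h.two_le_R 3]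
        nlinarith [mul_le_mul_of_nonneg_right hK2 hν.le,
          mul_le_mul_of_nonneg_left h6 (by positivity : (0:ℝ) ≤ D.ν * D.R)]
      rw [h.rad_sq]
      nlinarith [mul_le_mul_of_nonneg_left (show cleanNode j * (1 - cleanNode j) ≥ 9 / 100 by
        nlinarith) hν.le])
    le_rfl
  have h5 : D.lam * (√D.ν)⁻¹ ≤ 1 := by rw [← div_eq_mul_inv]; exact h.lam_div_le
  have hKpos : 0 ≤ (Kh : ℝ) / (D.kr * D.lam) := by positivity
  have h3 : ∀ x : ℝ, 0 ≤ x → x ≤ 1 →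
      (Kh : ℝ) / (D.kr * D.lam) * (|x| + D.R⁻¹ + D.lam * (√D.ν)⁻¹)
        ≤ 3 * ((Kh : ℝ) / (D.kr * D.lam)) := fun x hx hx' => by
    rw [mul_comm (3 : ℝ)]
    refine mul_le_mul_of_nonneg_left ?_ hKpos
    rw [abs_of_nonneg hx]; linarith
  refine ⟨T', Q', hQ', hT'.mono le_rfl (h3 _ (by linarith) (by linarith))
    (h3 _ (by linarith) (by linarith)) (mul_le_mul_of_nonneg_left ?_ hKpos)⟩
  have h7 : D.lam * (e / √D.ν) ≤ e := by
    rw [div_eq_mul_inv, mul_comm e, ← mul_assoc]; exact mul_le_of_le_one_left he h5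
  have h8 : D.lam * (D.kr ^ D.P + ((Kh : ℝ) * D.kr) ^ D.It)
      ≤ D.kr ^ D.P + ((Kh : ℝ) * D.kr) ^ D.It :=
    mul_le_of_le_one_left (by positivity) h.lam_le_one
  linarith

lemma xi_var_le :
    D.δe⁻¹ * (D.δe / 2) + (D.δe⁻¹ * D.din + (D.P : ℝ) * (D.L * (√D.ν / √D.δe) ^ 2) ^ 2
      * (((hessConst D.P D.It : ℝ) / (D.kr * D.lam)) ^ 2 * D.dout)) ≤ 1 := by
  have hν := h.ν_pos
  have hs := h.sqrt_ν_pos
  have hδ := h.δe_pos
  have hR := h.R_pos
  have hd := h.dout_nonneg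
  obtain ⟨-, hB⟩ := h.size_le
  set σ := √D.ν / √D.δe with hσ
  set θ := √D.din / √D.δe with hθ
  set Kh := (hessConst D.P D.It : ℝ) with hKh
  set K' := Kh / (D.kr * D.lam) with hK'
  have hθ0 : 0 ≤ θ := by positivity
  have hL := h.L_pos
  have h10 : D.δe⁻¹ * (D.δe / 2) = 1 / 2 := by field_simp
  have h11 : D.δe⁻¹ * D.din ≤ 1 / 4 := by
    have h12 : D.δe⁻¹ * D.din = θ ^ 2 := by
      rw [hθ, div_pow, Real.sq_sqrt h.din_pos.le, Real.sq_sqrt hδ.le, inv_mul_eq_div]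
    have h13 : θ * 2 ≤ 1 := by
      refine le_trans ?_ (h.pow_mul_theta_le (k := 1) (by norm_num))
      rw [pow_one, mul_comm]; exact mul_le_mul_of_nonneg_right h.two_le_R hθ0
    rw [h12]; nlinarith
  have e1 : (D.P : ℝ) * (D.L * σ ^ 2) ^ 2 * (K' ^ 2 * D.dout)
      = (D.P : ℝ) * ((D.L * σ ^ 2 * K' * √D.ν) ^ 2) * D.dout / D.ν := by
    rw [mul_pow _ √D.ν, Real.sq_sqrt hν.le]; field_simp
  have e2 : σ ^ 2 = D.ν / D.δe := h.sigma_sq
  have h14 : (D.P : ℝ) * (D.L * σ ^ 2) ^ 2 * (K' ^ 2 * D.dout) ≤ 1 / 4 := by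
    rw [e1, h.scale_in]
    calc (D.P : ℝ) * (D.L * Kh * (D.R ^ 4 * θ * σ)) ^ 2 * D.dout / D.ν
        ≤ (D.P : ℝ) ^ 2 * (D.L * Kh * (D.R ^ 4 * θ * σ)) ^ 2 * D.dout / D.ν := by
          gcongr
          exact le_self_pow₀ (by exact_mod_cast (by have := h.two_le; omega : 1 ≤ D.P)) two_ne_zero
      _ = ((D.P : ℝ) * D.L * Kh) ^ 2 * (D.R ^ 8 * θ ^ 2 * D.dout) * (σ ^ 2 / D.ν) := by ring
      _ ≤ (D.R / 20) ^ 2 * (D.R ^ 8 * θ ^ 2 * D.dout) * (σ ^ 2 / D.ν) := by gcongr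
      _ = D.R ^ 10 * (θ ^ 2 * D.dout) / D.δe / 400 := by rw [e2]; field_simp; ring
      _ ≤ D.R ^ 12 * (θ ^ 2 * D.dout) / D.δe / 400 := by
          gcongr
          · linarith [h.two_le_R]
          · norm_num
      _ ≤ D.δe / D.δe / 400 := by gcongr; exact h.out_var
      _ ≤ 1 / 4 := by rw [div_self hδ.ne']; norm_num
  linarith

lemma xi_scale_le :
    (D.P : ℝ) * (D.L * (√D.ν / √D.δe) ^ 2)
        * ((hessConst D.P D.It : ℝ) / (D.kr * D.lam) * √D.ν) ≤ √D.ν / √D.δe / 20 ∧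
      32 * (√D.ν / √D.δe) ≤ D.g := by
  have hR := h.R_pos
  obtain ⟨-, hB⟩ := h.size_le
  have hσ0 : 0 ≤ √D.ν / √D.δe := by positivity
  have hθ0 : 0 ≤ √D.din / √D.δe := by positivity
  refine ⟨?_, le_trans (mul_le_mul_of_nonneg_right (by
    nlinarith [pow_le_pow_left₀ (by norm_num : (0:ℝ) ≤ 2) h.two_le_R 5]) hσ0) h.inner_gain⟩
  set σ := √D.ν / √D.δe with hσ
  set θ := √D.din / √D.δe with hθ
  set Kh := (hessConst D.P D.It : ℝ) with hKh
  calc (D.P : ℝ) * (D.L * σ ^ 2) * (Kh / (D.kr * D.lam) * √D.ν)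
      = (D.P : ℝ) * ((D.L * σ ^ 2) * (Kh / (D.kr * D.lam)) * √D.ν) := by ring
    _ = (D.P : ℝ) * D.L * Kh * (D.R ^ 4 * θ * σ) := by rw [h.scale_in]; ring
    _ ≤ D.R / 20 * (D.R ^ 4 * θ * σ) := mul_le_mul_of_nonneg_right hB (by positivity)
    _ = D.R ^ 5 * θ * σ / 20 := by ring
    _ ≤ _ := div_le_div_of_nonneg_right
        (mul_le_of_le_one_left hσ0 (h.pow_mul_theta_le (k := 5) (by norm_num))) (by norm_num)

lemma xi_spread_le :
    (√D.δe)⁻¹ * 3 + ((√D.δe)⁻¹ * 6 + (D.P : ℝ) * (D.L * (√D.ν / √D.δe) ^ 2)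
        * (3 * ((hessConst D.P D.It : ℝ) / (D.kr * D.lam)))) ≤ (√D.ν)⁻¹ := by
  obtain ⟨h1, h2⟩ := h.xi_scale_le
  have hσinv : (√D.δe)⁻¹ * √D.ν = √D.ν / √D.δe := by rw [div_eq_mul_inv, mul_comm]
  rw [inv_eq_one_div (√D.ν), le_div_iff₀ h.sqrt_ν_pos]
  calc _ = 9 * ((√D.δe)⁻¹ * √D.ν) + 3 * ((D.P : ℝ) * (D.L * (√D.ν / √D.δe) ^ 2)
        * ((hessConst D.P D.It : ℝ) / (D.kr * D.lam) * √D.ν)) := by ring
    _ ≤ 1 := by rw [hσinv]; linarith [h.g_le, (sigma_nonneg (D := D))]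

lemma xi_err_le {e : ℝ} (he : 0 ≤ e) :
    (√D.δe)⁻¹ * D.EO + ((√D.δe)⁻¹ * (3 * (D.g * (e + D.err) + D.res) + D.Ein)
      + (D.P : ℝ) * (D.L * (√D.ν / √D.δe) ^ 2)
        * ((hessConst D.P D.It : ℝ) / (D.kr * D.lam) * (2 * (e + D.err)))) + D.res / √D.ν
      ≤ (D.g * (e + D.err) + 2 * D.res) / √D.ν := by
  have hs := h.sqrt_ν_pos
  have hEO := h.EO_nonneg; have hEin := h.Ein_nonneg; have hEout := h.Eout_nonneg
  have hkr := h.kr_pos
  have hA := h.err_nonneg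
  have hr0 := h.res_nonneg
  have hσ0 := sigma_nonneg (D := D)
  obtain ⟨hθσ, hσg⟩ := h.xi_scale_le
  set σ := √D.ν / √D.δe with hσ
  set Kh := (hessConst D.P D.It : ℝ) with hKh
  have hσinv : (√D.δe)⁻¹ * √D.ν = σ := by rw [hσ, div_eq_mul_inv, mul_comm]
  rw [le_div_iff₀ hs]
  calc _ = ((√D.δe)⁻¹ * √D.ν) * (D.EO + (3 * (D.g * (e + D.err) + D.res) + D.Ein))
        + 2 * ((D.P : ℝ) * (D.L * σ ^ 2) * (Kh / (D.kr * D.lam) * √D.ν)) * (e + D.err) + D.res := by
        field_simp; ring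
    _ ≤ σ * (D.EO + (3 * (D.g * (e + D.err) + D.res) + D.Ein))
        + 2 * (σ / 20) * (e + D.err) + D.res := by rw [hσinv]; gcongr
    _ ≤ D.g * (e + D.err) + 2 * D.res := by
        have h20 : D.EO + (3 * (D.g * (e + D.err) + D.res) + D.Ein)
            ≤ 5 * (e + D.err) + 3 * D.res := by
          have h21 : D.g * (e + D.err) ≤ 1 * (e + D.err) :=
            mul_le_mul_of_nonneg_right (by linarith [h.g_le]) (by positivity)
          have h9 : 0 ≤ D.kr ^ D.P + (Kh * D.kr) ^ D.It := by positivity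
          have h22 : D.EO + D.Ein ≤ D.err := by
            simp only [CleanData.err, ← hKh]; linarith
          linarith
        nlinarith [mul_le_mul_of_nonneg_left h20 hσ0,
          mul_le_mul_of_nonneg_right hσg (by positivity : (0:ℝ) ≤ e + D.err),
          mul_le_mul_of_nonneg_right hσg hr0, h.g_le]

/-- The Gaussian states after a pass. -/
lemma xi_step {e : ℝ} (he : 0 ≤ e) {Qc Qp : ℕ} (hQc : 1 ≤ Qc) (hp : ∀ l, D.PosState e Qc l)
    (hx : ∀ l, D.XiState e Qc l) (hp' : ∀ l, D.PosState (D.g * (e + D.err) + D.res) Qp l)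
    (l : Fin D.P) :
    D.XiState (D.g * (e + D.err) + 2 * D.res)
      (1 + (D.M * (1 + 1) + (D.M * 2 * (1 + Qp) + D.P *
        ((hessConst D.P D.It * (1 + D.M * 2 + D.M * 2)) ^ (D.It + 1) * (1 + Qc + Qc))))) l := by
  have hν := h.ν_pos
  have hs := h.sqrt_ν_pos
  have hδ := h.δe_pos
  have hsd := Real.sqrt_pos.2 hδ
  have hR := h.R_pos
  have hRinv := h.inv_R_le
  have hL := h.L_pos
  have hε := h.ε_le
  have hε0 := h.ε_nonneg
  have hEO := h.EO_nonneg; have hEin := h.Ein_nonneg; have hEout := h.Eout_nonneg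
  have hkr := h.kr_pos; have hkr1 := h.kr_le_one
  obtain ⟨-, hB⟩ := h.size_le
  obtain ⟨opO, hO⟩ := h.oracle
  obtain ⟨opC', hC'⟩ := h.clean l
  obtain ⟨hl1, hl2⟩ := cleanNode_mem h.two_le l
  obtain ⟨opC, hC⟩ := hC'.padIn (v' := (1 - cleanNode l) ^ 2 * D.ν + D.ν / 20) (by positivity)
    (by rw [h.rad_sq]
        nlinarith [mul_le_mul_of_nonneg_left (show cleanNode l * (1 - cleanNode l) ≥ 9 / 100 by
          nlinarith) hν.le])
  obtain ⟨Tp, hTp⟩ := hp' l
  set e' := D.g * (e + D.err) + D.res with he'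
  have hA := h.err_nonneg
  have hr0 := h.res_nonneg
  have he'0 : 0 ≤ e' := by have := h.g_nonneg; positivity
  have hO1 := (((Node.slot0 (P := cleanLaw D.τ D.ν) (ν := D.ν)).app hε0 hO (by positivity) fun d V hV => h.map_slot hV).recentre0).mono
    (S' := 3) (S₀' := 3) (E' := D.EO) le_rfl (by simp)
    (by simp only [abs_one, mul_zero, zero_add, mul_one]; norm_num; linarith) (by simp)
  have hC1 := ((hTp.app hε0 hC h.din_pos.le fun d V hV => h.map_pos hV (h.rad_mem l)).recentre0).mono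
    (S' := 6) (S₀' := 6) (E' := 3 * e' + D.Ein) le_rfl
    (by
      rw [abs_mul, abs_of_pos (by norm_num : (0:ℝ) < 3 / 2), abs_of_nonneg (by linarith : 0 ≤ 1 - cleanNode l)]
      nlinarith [inv_nonneg.2 hR.le])
    (by
      rw [abs_mul, abs_of_pos (by norm_num : (0:ℝ) < 3 / 2), abs_of_nonneg (by linarith : 0 ≤ cleanNode l)]
      nlinarith [inv_nonneg.2 hR.le])
    (by nlinarith [mul_le_mul_of_nonneg_right hε he'0])
  set Kh := hessConst D.P D.It with hKh
  set K' := (Kh : ℝ) / (D.kr * D.lam) with hK'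
  have hlam := h.lam_pos
  have hK'0 : 0 ≤ K' := by positivity
  have hTb : ∀ j, ∃ T, Node (cleanLaw D.τ D.ν) D.ν T
      ((Kh * (1 + D.M * 2 + D.M * 2)) ^ (D.It + 1) * (1 + Qc + Qc)) 0 0 (3 * K') (3 * K')
      (fun d V ω => D.int₂ d V (D.rad j) (cleanPt D.ν ω)) (K' ^ 2 * D.dout)
      (K' * (2 * (e + D.err))) := fun j => by
    obtain ⟨T, Q, hQ, hT⟩ := h.hess_body he hQc hp hx j
    refine ⟨T, hT.mono hQ le_rfl le_rfl (mul_le_mul_of_nonneg_left ?_ hK'0)⟩
    have h9 : 0 ≤ D.kr ^ D.P + ((Kh : ℝ) * D.kr) ^ D.It := by positivity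
    simp only [CleanData.err, ← hKh]
    nlinarith [mul_le_of_le_one_left hEin hkr1]
  choose Tb hTb using hTb
  set σ := √D.ν / √D.δe with hσ
  set θ := √D.din / √D.δe with hθ
  have hσ0 : 0 ≤ σ := (sigma_nonneg (D := D))
  have hθ0 : 0 ≤ θ := by positivity
  set a : Fin D.P → ℝ := fun j => D.wgt id (D.rad l) j / D.δe with ha
  have hab : ∀ j, |a j| ≤ D.L * σ ^ 2 := fun j => (h.coef_id_le (h.rad_mem l) j).1
  have h1 := Node.comb0 (n := D.P + 3)
    (a := Fin.cons 1 (Fin.cons (√D.δe)⁻¹ (Fin.cons (-(√D.δe)⁻¹) a)))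
    (Ts := Fin.cons (Body.slot 1) (Fin.cons (Body.app opO (Body.slot 0))
      (Fin.cons (Body.app opC Tp) Tb)))
    (Qs := Fin.cons 1 (Fin.cons (D.M * (1 + 1)) (Fin.cons (D.M * 2 * (1 + Qp))
      fun _ => (Kh * (1 + D.M * 2 + D.M * 2)) ^ (D.It + 1) * (1 + Qc + Qc))))
    (Ss := Fin.cons 0 (Fin.cons 3 (Fin.cons 6 fun _ => 3 * K')))
    (Ss₀ := Fin.cons 0 (Fin.cons 3 (Fin.cons 6 fun _ => 3 * K')))
    (Xs := Fin.cons (fun _ _ ω => ω.2 1) (Fin.cons (fun d V ω => scoreFam (D.τ + D.ν) d V (ω.2 0))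
      (Fin.cons (fun d V ω => avgFam (D.τ + D.rad l ^ 2) (D.ν - D.rad l ^ 2) d V
          (D.pos (D.rad l) d V ω))
        fun j d V ω => D.int₂ d V (D.rad j) (cleanPt D.ν ω))))
    (vs := Fin.cons 0 (Fin.cons (D.δe / 2) (Fin.cons D.din fun _ => K' ^ 2 * D.dout)))
    (Es := Fin.cons 0 (Fin.cons D.EO (Fin.cons (3 * e' + D.Ein) fun _ => K' * (2 * (e + D.err)))))
    (Fin.cases (Node.slot 1 (by decide)) (Fin.cases hO1 (Fin.cases hC1 hTb)))
    (X' := fun d V ω => ω.2 1 + ((√D.δe)⁻¹ • score V (D.τ + D.ν) (ω.2 0)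
      + ((-(√D.δe)⁻¹) • scoreAvg V (D.τ + D.rad l ^ 2) (D.ν - D.rad l ^ 2) (D.pos (D.rad l) d V ω)
      + ∑ j, a j • D.int₂ d V (D.rad j) (cleanPt D.ν ω))))
    (fun d V _ ω => by
      simp [Fin.sum_univ_succ (n := D.P + 2), Fin.sum_univ_succ (n := D.P + 1),
        Fin.sum_univ_succ (n := D.P), scoreFam, avgFam])
    (v' := 1) (by
      simp only [Fin.sum_univ_succ (n := D.P + 2), Fin.sum_univ_succ (n := D.P + 1),
        Fin.sum_univ_succ (n := D.P), Fin.cons_zero, Fin.cons_succ, mul_zero, zero_add, neg_sq,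
        inv_pow, Real.sq_sqrt hδ.le]
      exact (add_le_add le_rfl (add_le_add le_rfl (sum_coef_sq_le hab
        (by have := h.dout_nonneg; positivity)))).trans h.xi_var_le)
  have h2 := h1.shift (X' := D.xi (D.rad l)) (E' := D.res / √D.ν) fun d V hV => by
    obtain ⟨hi, hle⟩ := h.quad hV (h.bound₂ d V hV) (φ := id) continuous_id (B := √D.ν)
      (fun u hu => by rw [id, abs_of_nonneg hu.1]; exact hu.2) (h.rad_mem l)
    simp only [ha, h.xi_residual hV l, norm_smul]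
    refine ⟨hi.const_mul _, ?_⟩
    rw [integral_const_mul, Real.norm_eq_abs, abs_of_pos (inv_pos.2 hδ)]
    refine (mul_le_mul_of_nonneg_left hle (inv_nonneg.2 hδ.le)).trans ?_
    have hd0 := dimFac_nonneg d
    calc D.δe⁻¹ * (√D.ν * √D.ν * D.res * dimFac d)
        = D.ν / D.δe * (D.res * dimFac d) := by
          rw [Real.mul_self_sqrt hν.le]; ring
      _ ≤ 1 * (D.res * dimFac d) := mul_le_mul_of_nonneg_right ((div_le_one hδ).2 h.ν_le_δe)
          (by positivity)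
      _ ≤ _ := by
          rw [one_mul]
          refine mul_le_mul_of_nonneg_right (le_div_self hr0 hs ?_) hd0
          exact Real.sqrt_le_one.2 (h.ν_le_δe.trans h.δe_le)
  refine ⟨_, h2.mono ?_ ?_ ?_ ?_⟩
  · simp [Fin.sum_univ_succ (n := D.P + 2), Fin.sum_univ_succ (n := D.P + 1),
      Fin.sum_univ_succ (n := D.P)]
  · simp only [Fin.sum_univ_succ (n := D.P + 2), Fin.sum_univ_succ (n := D.P + 1),
      Fin.sum_univ_succ (n := D.P), Fin.cons_zero, Fin.cons_succ, mul_zero, zero_add, abs_neg,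
      abs_of_pos (inv_pos.2 hsd)]
    exact (add_le_add le_rfl (add_le_add le_rfl (sum_coef_le hab (by positivity)))).trans h.xi_spread_le
  · simp only [Fin.sum_univ_succ (n := D.P + 2), Fin.sum_univ_succ (n := D.P + 1),
      Fin.sum_univ_succ (n := D.P), Fin.cons_zero, Fin.cons_succ, mul_zero, zero_add, abs_neg,
      abs_of_pos (inv_pos.2 hsd)]
    exact (add_le_add le_rfl (add_le_add le_rfl (sum_coef_le hab (by positivity)))).trans h.xi_spread_le
  · simp only [Fin.sum_univ_succ (n := D.P + 2), Fin.sum_univ_succ (n := D.P + 1),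
      Fin.sum_univ_succ (n := D.P), Fin.cons_zero, Fin.cons_succ, mul_zero, zero_add, abs_neg,
      abs_of_pos (inv_pos.2 hsd)]
    exact (add_le_add (add_le_add le_rfl (add_le_add le_rfl (sum_coef_le hab (by positivity))))
      le_rfl).trans (h.xi_err_le he)

omit h in
lemma query_le {Qc : ℕ} (hQc : 1 ≤ Qc) :
    1 + (1 + D.P * (D.P * (D.M * 2 * (1 + (Qc + Qc))))) ≤ D.fac * Qc ∧
      1 + (D.M * (1 + 1) + (D.M * 2 * (1 + (1 + (1 + D.P * (D.P * (D.M * 2 * (1 + (Qc + Qc)))))))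
        + D.P * ((hessConst D.P D.It * (1 + D.M * 2 + D.M * 2)) ^ (D.It + 1) * (1 + Qc + Qc))))
        ≤ D.fac * Qc := by
  unfold CleanData.fac
  generalize hessConst D.P D.It = K
  generalize D.P = P
  generalize D.M = M
  set X := 8 * (P + 1) ^ 2 * (K + 1) * (M + 1) with hX
  have hX8 : 8 ≤ X := by
    calc 8 = 8 * 1 ^ 2 * 1 * 1 := rfl
      _ ≤ X := by rw [hX]; gcongr <;> omega
  have hK4 : K * (1 + M * 2 + M * 2) ≤ X := by
    calc K * (1 + M * 2 + M * 2) ≤ (K + 1) * (8 * (M + 1)) :=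
          Nat.mul_le_mul (by omega) (by omega)
      _ = 8 * 1 ^ 2 * (K + 1) * (M + 1) := by ring
      _ ≤ X := by rw [hX]; gcongr; omega
  have hP3 : P * 3 ≤ X := by
    calc P * 3 ≤ 8 * (P + 1) ^ 2 := by nlinarith
      _ = 8 * (P + 1) ^ 2 * 1 * 1 := by ring
      _ ≤ X := by rw [hX]; gcongr <;> omega
  have hA : 1 + (1 + P * (P * (M * 2 * (1 + (Qc + Qc))))) ≤ X * Qc := by
    calc 1 + (1 + P * (P * (M * 2 * (1 + (Qc + Qc)))))
        ≤ 1 * Qc + (1 * Qc + P * (P * (M * 2 * (3 * Qc)))) := by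
          refine Nat.add_le_add (by omega) (Nat.add_le_add (by omega) ?_)
          gcongr
          omega
      _ = (2 + 6 * P ^ 2 * M) * Qc := by ring
      _ ≤ (8 * (P + 1) ^ 2 * 1 * (M + 1)) * Qc := Nat.mul_le_mul_right _ (by nlinarith)
      _ ≤ X * Qc := by rw [hX]; gcongr; omega
  have hM2 : 1 + M * (1 + 1) + M * 2 ≤ X := by
    calc 1 + M * (1 + 1) + M * 2 ≤ 8 * 1 ^ 2 * 1 * (M + 1) := by omega
      _ ≤ X := by rw [hX]; gcongr <;> omega
  have hpow : X * X ≤ X ^ (D.It + 2) := by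
    rw [← sq]; exact Nat.pow_le_pow_right (by omega) (by omega)
  have hfac : ∀ Y, Y ≤ X ^ (D.It + 2) * Qc * 3 → Y ≤ X ^ (D.It + 3) * Qc := fun Y hY =>
    hY.trans (by
      rw [pow_succ X (D.It + 2), mul_right_comm _ Qc 3]
      exact Nat.mul_le_mul_right _ (Nat.mul_le_mul_left _ (by omega)))
  have hX2 : X * Qc ≤ X ^ (D.It + 2) * Qc :=
    Nat.mul_le_mul_right _ ((Nat.le_mul_self X).trans hpow)
  refine ⟨hfac _ (hA.trans (hX2.trans (Nat.le_mul_of_pos_right _ (by norm_num)))), hfac _ ?_⟩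
  have hB : P * ((K * (1 + M * 2 + M * 2)) ^ (D.It + 1) * (1 + Qc + Qc))
      ≤ X ^ (D.It + 2) * Qc := by
    calc P * ((K * (1 + M * 2 + M * 2)) ^ (D.It + 1) * (1 + Qc + Qc))
        ≤ P * (X ^ (D.It + 1) * (3 * Qc)) := by gcongr; omega
      _ = (P * 3) * X ^ (D.It + 1) * Qc := by ring
      _ ≤ X * X ^ (D.It + 1) * Qc := by gcongr
      _ = _ := by ring
  generalize P * ((K * (1 + M * 2 + M * 2)) ^ (D.It + 1) * (1 + Qc + Qc)) = B at hB ⊢
  generalize 1 + (1 + P * (P * (M * 2 * (1 + (Qc + Qc))))) = A at hA ⊢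
  have h1 : 1 + M * (1 + 1) + M * 2 ≤ X ^ (D.It + 2) * Qc :=
    hM2.trans ((Nat.le_mul_of_pos_right _ hQc).trans hX2)
  have h2 : M * 2 * A ≤ X ^ (D.It + 2) * Qc := by
    calc M * 2 * A ≤ X * (X * Qc) := Nat.mul_le_mul (by omega) hA
      _ = X * X * Qc := by ring
      _ ≤ _ := Nat.mul_le_mul_right _ hpow
  rw [mul_add (M * 2)]
  omega

/-- One pass. -/
lemma pass {e : ℝ} (he : 0 ≤ e) {Qc : ℕ} (hQc : 1 ≤ Qc) (hp : ∀ l, D.PosState e Qc l)
    (hx : ∀ l, D.XiState e Qc l) (l : Fin D.P) :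
    D.PosState (D.g * (e + D.err) + 2 * D.res) (D.fac * Qc) l ∧
      D.XiState (D.g * (e + D.err) + 2 * D.res) (D.fac * Qc) l := by
  obtain ⟨hq1, hq2⟩ := query_le (D := D) hQc
  have hr := h.res_nonneg
  constructor
  · obtain ⟨T, hT⟩ := h.pos_step he hp hx l
    exact ⟨T, hT.mono hq1 le_rfl le_rfl (by linarith)⟩
  · obtain ⟨T, hT⟩ := h.xi_step he hQc hp hx (h.pos_step he hp hx) l
    exact ⟨T, hT.mono hq2 le_rfl le_rfl le_rfl⟩

/-- The start of the iteration. -/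
lemma start (l : Fin D.P) : D.PosState 4 2 l ∧ D.XiState 4 2 l := by
  have hν := h.ν_pos
  have hs := h.sqrt_ν_pos
  have hs1 : √D.ν ≤ 1 := Real.sqrt_le_one.2 (h.ν_le_δe.trans h.δe_le)
  obtain ⟨hr1, hr2⟩ := h.rad_mem l
  obtain ⟨hl1, hl2⟩ := cleanNode_mem h.two_le l
  have hR0 : 0 ≤ D.R⁻¹ := inv_nonneg.2 h.R_pos.le
  constructor
  · have h1 := Node.comb (n := 2) (P := cleanLaw D.τ D.ν) (ν := D.ν)
      (a := ![1 - cleanNode l, cleanNode l]) (Ts := ![Body.anchor, Body.slot 0]) (Qs := ![1, 1])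
      (cs := ![1, 0]) (cs₀ := ![0, 1]) (Ss := ![0, 0]) (Ss₀ := ![0, 0])
      (Xs := ![fun _ _ ω => ω.1, fun _ _ ω => ω.2 0]) (vs := ![D.ν, 0]) (Es := ![0, 0])
      (Fin.forall_fin_two.2 ⟨Node.anchor hν.le, Node.slot0⟩)
      (X' := fun d V ω => (1 - cleanNode l) • ω.1 + cleanNode l • ω.2 0)
      (fun d V _ ω => by simp [Fin.sum_univ_two]) (c' := 1 - cleanNode l) (c₀' := cleanNode l)
      (x := 0) (v' := (1 - cleanNode l) ^ 2 * D.ν + D.ν / 20) (by simp [Fin.sum_univ_two])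
      (by simp [Fin.sum_univ_two]) le_rfl (by simp [Fin.sum_univ_two])
      (by simp [Fin.sum_univ_two]; linarith)
    have h2 := h1.shift (X' := D.pos (D.rad l)) (E' := 4) fun d V hV => by
      have hc := h.continuous_path hV (h.rad_mem l)
      obtain ⟨hi, hle⟩ := h.drift_le hV (h.rad_mem l)
        (f := fun p => D.rad l • (p.2.1 - (D.Φ d V (D.rad l) p).1)) (by fun_prop) fun p => by
          rw [norm_smul, Real.norm_eq_abs, abs_of_nonneg hr1]
          refine (mul_le_of_le_one_left (norm_nonneg _) (hr2.trans hs1)).trans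
            ((norm_sub_le _ _).trans ?_)
          simp only [startSize]
          linarith [norm_nonneg p.2.2, norm_nonneg (D.Φ d V (D.rad l) p).2]
      have he : ∀ ω : Rand d, (1 - cleanNode l) • ω.1 + cleanNode l • ω.2 0 - D.pos (D.rad l) d V ω
          = D.rad l • ((cleanPt D.ν ω).2.1 - (D.Φ d V (D.rad l) (cleanPt D.ν ω)).1) := fun ω => by
        have h3 : D.rad l • (cleanPt D.ν ω).2.1 = cleanNode l • (ω.2 0 - ω.1) := by
          show D.rad l • (√D.ν)⁻¹ • (ω.2 0 - ω.1) = _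
          rw [smul_smul, CleanData.rad, mul_right_comm, mul_inv_cancel₀ hs.ne', one_mul]
        rw [smul_sub (D.rad l), h3, CleanData.pos]
        module
      simp only [he]
      exact ⟨hi, hle⟩
    exact ⟨_, h2.mono (by simp [Fin.sum_univ_two]) (by simp [Fin.sum_univ_two, hR0])
      (by simp [Fin.sum_univ_two, hR0]) (by simp [Fin.sum_univ_two])⟩
  · obtain ⟨T, hT⟩ := ((Node.slot (P := cleanLaw D.τ D.ν) (ν := D.ν) 1 (by decide)).shift
      (X' := D.xi (D.rad l)) (E' := 4) fun d V hV => by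
        have hc := h.continuous_path hV (h.rad_mem l)
        exact h.drift_le hV (h.rad_mem l) (f := fun p => p.2.2 - (D.Φ d V (D.rad l) p).2)
          (by fun_prop) fun p => by
            refine (norm_sub_le _ _).trans ?_
            simp only [startSize]
            linarith [norm_nonneg p.2.1, norm_nonneg (D.Φ d V (D.rad l) p).1]).pad
      (v' := 1) zero_le_one
    exact ⟨T, hT.mono (by norm_num) (by positivity) (by positivity)
      (by rw [zero_add]; exact le_div_self (by norm_num) hs hs1)⟩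

/-- The error after `k` passes. -/
lemma iterate (k : ℕ) :
    ∀ l, D.PosState (4 * D.g ^ k + 2 * (D.g * D.err + 2 * D.res)) (D.fac ^ k * 2) l ∧
      D.XiState (4 * D.g ^ k + 2 * (D.g * D.err + 2 * D.res)) (D.fac ^ k * 2) l := by
  have hg := h.g_nonneg; have hA := h.err_nonneg; have hr := h.res_nonneg
  induction k with
  | zero =>
    intro l
    obtain ⟨⟨T, hT⟩, ⟨T', hT'⟩⟩ := h.start l
    have hs := h.sqrt_ν_pos
    refine ⟨⟨T, hT.mono (by simp) le_rfl le_rfl ?_⟩, ⟨T', hT'.mono (by simp) le_rfl le_rfl ?_⟩⟩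
    · have : 0 ≤ D.g * D.err + 2 * D.res := by positivity
      simp only [pow_zero]; linarith
    · have : 0 ≤ D.g * D.err + 2 * D.res := by positivity
      simp only [pow_zero]
      exact div_le_div_of_nonneg_right (by linarith) hs.le
  | succ k ih =>
    intro l
    have hQ : 1 ≤ D.fac ^ k * 2 := by
      have : 1 ≤ D.fac ^ k := Nat.one_le_pow _ _ (Nat.pow_pos (by positivity))
      omega
    obtain ⟨⟨T, hT⟩, ⟨T', hT'⟩⟩ := h.pass (by positivity) hQ (fun l => (ih l).1)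
      (fun l => (ih l).2) l
    have hE : D.g * (4 * D.g ^ k + 2 * (D.g * D.err + 2 * D.res) + D.err) + 2 * D.res
        ≤ 4 * D.g ^ (k + 1) + 2 * (D.g * D.err + 2 * D.res) := by
      have h1 := mul_le_mul_of_nonneg_right h.g_le
        (by positivity : 0 ≤ 2 * (D.g * D.err + 2 * D.res))
      have h2 : 0 ≤ D.g * D.err := mul_nonneg hg hA
      rw [pow_succ' D.g k]
      linarith
    refine ⟨⟨T, hT.mono ?_ le_rfl le_rfl hE⟩,
      ⟨T', hT'.mono ?_ le_rfl le_rfl (div_le_div_of_nonneg_right hE (Real.sqrt_nonneg _))⟩⟩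
    all_goals exact le_of_eq (by ring)


end Valid

end CleanData

end Vale.Agent.P347
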