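import Vale.Agent.P347.Asymp

/-!
Score evaluation from noisy samples, by extrapolation of the cleaning operators.
-/

namespace Vale.Agent.P347

open MeasureTheory
open scoped Gradient

theorem hasEval_of_hasClean (hlev : LevelFactsStatement) (hcurve : CleanCurveStatement)
    {n a m i q : ℕ} (hn : 1 ≤ n) (ha : 11 ≤ a) (h : HasClean n a m i q) :
    HasEval n a m i (q + 2) := by
  intro ε hε
  obtain ⟨c₁, C₁, hc₁, -, hlev⟩ := hlev
  obtain ⟨c₂, hc₂, Cc, hcurve⟩ := hcurve
  set ε₁ := min (ε / 4) (1 / 4) with hε₁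
  have hε₁0 : 0 < ε₁ := by positivity
  obtain ⟨C, R₁, hC, hR₁, hop⟩ := h ε₁ hε₁0
  obtain ⟨P, hP2, hPX⟩ : ∃ P : ℕ, 2 ≤ P ∧ ∀ j, accExp n a m j ≤ P :=
    ⟨ordP n a, le_add_of_nonneg_of_le (Nat.zero_le _) (by norm_num), fun j =>
      accExp_le_ordP n a m j hn ha⟩
  obtain ⟨R₂, hR₂, hgeo⟩ := exists_geo_lag (P := P) (by omega) hε₁0
  refine ⟨2 * C + 3 * |Cc P|, max (max R₁ R₂) (max ((2 * P : ℕ) : ℝ) (max (2 / c₁) (max (2 / c₂) 2))),
    by positivity, le_max_of_le_left (le_max_of_le_left hR₁), ?_⟩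
  intro R hR j t v δ hj ht hv hvt htop hwin hδ
  simp only [max_le_iff] at hR
  obtain ⟨⟨hR₁', hR₂'⟩, hRP, hRc₁, hRc₂, hR2⟩ := hR
  have hR0 : 0 < R := by linarith
  set x : ℝ := R ^ ((P : ℝ)⁻¹) with hx
  have hx1 : 1 < x := Real.one_lt_rpow (by linarith) (by positivity)
  have hxP : x ^ P = R := Real.rpow_inv_natCast_pow hR0.le (by omega)
  set ν₀ := t / R ^ 2 with hν₀
  have hν₀0 : 0 < ν₀ := by positivity
  set node : Fin P → ℝ := fun l => 0 + ν₀ * geoNode x l with hnode
  have hnode_inj : Function.Injective node := fun _ _ h =>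
    geoNode_injective hx1 (mul_left_cancel₀ hν₀0.ne' (add_left_cancel h))
  have hnode_ge : ∀ l, ν₀ ≤ node l := fun l => by
    simp only [hnode, zero_add]
    exact le_mul_of_one_le_right hν₀0.le (one_le_pow₀ hx1.le)
  have hnode_le : ∀ l, node l * R ≤ t := fun l => by
    simp only [hnode, zero_add, hν₀]
    have h1 : geoNode x l ≤ R := by
      rw [← hxP]; exact pow_le_pow_right₀ hx1.le l.2.le
    rw [div_mul_eq_mul_div, div_mul_eq_mul_div, div_le_iff₀ (by positivity), sq, mul_assoc]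
    exact mul_le_mul_of_nonneg_left (mul_le_mul_of_nonneg_right h1 hR0.le) ht.le
  have hnode_t : ∀ l, node l ≤ t / R := fun l => (le_div_iff₀ hR0).2 (hnode_le l)
  have htR : t / R ≤ t := div_le_self ht.le (by linarith)
  have hop' : ∀ l, ∃ (op : Op) (Q : ℕ), (Q : ℝ) ≤ R ^ q * 2 ∧
      OpOK op Q ε₁ (avgFam t (node l)) (levelFam t) v (δ / 2) (C / R ^ accExp n a m j) := by
    intro l
    obtain ⟨op, Q, hQ, hok⟩ := hop R hR₁' j t (node l) (δ / 2) hj
      (hν₀0.trans_le (hnode_ge l)) (hnode_le l)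
      (le_trans (mul_le_mul_of_nonneg_left (by linarith [(hnode_t l).trans htR]) (by positivity)) htop)
      (by
        refine hwin.trans ?_
        rw [pow_succ R (4 * (n - i) + 1), mul_assoc]
        gcongr
        have : 0 ≤ δ := by
          by_contra hneg
          have := lad_pos hR0 a j
          have := mul_neg_of_pos_of_neg (pow_pos hR0 (4 * (n - i) + 1)) (not_le.1 hneg)
          linarith
        nlinarith)
      (by have := lad_pos hR0 a j; linarith)
    obtain ⟨op', hok'⟩ := hok.padIn hv (v' := v)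
      ((by rw [hν₀, le_div_iff₀ (by positivity)]; exact hvt : v ≤ ν₀).trans (hnode_ge l))
    exact ⟨op', Q * 2, by push_cast; linarith, hok'⟩
  choose ops Qs hQs hoks using hop'
  set w : Fin P → ℝ := fun l => lag node l 0 with hw
  have hsum : ∑ l, w l = 1 := by
    simpa [hw] using lag_exact hnode_inj (k := 0) (by omega) 0 0
  have habs : ∑ l, |w l| ≤ 1 + ε₁ := by
    have h1 : ∀ l, w l = lag (geoNode x) l 0 := fun l => by
      simpa [hw, hnode] using lag_affine (geoNode x) l 0 hν₀0.ne' 0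
    simp only [h1]
    exact hgeo R hR₂'
  have habs0 : 0 ≤ ∑ l, |w l| := Finset.sum_nonneg fun l _ => abs_nonneg _
  have hε₁4 : ε₁ ≤ 1 / 4 := min_le_right _ _
  have hε₁ε : ε₁ ≤ ε / 4 := min_le_left _ _
  have hδ0 : 0 ≤ δ := by
    by_contra hneg
    have := lad_pos hR0 a j
    have := mul_neg_of_pos_of_neg (pow_pos hR0 (4 * (n - i) + 1)) (not_le.1 hneg)
    linarith
  have hsq : ∑ l, w l ^ 2 * (δ / 2) ≤ δ := by
    rw [← Finset.sum_mul]
    have h1 : ∑ l, w l ^ 2 ≤ (∑ l, |w l|) ^ 2 := by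
      simpa [sq_abs] using
        Finset.sum_sq_le_sq_sum_of_nonneg (s := Finset.univ) (f := fun l => |w l|)
          fun l _ => abs_nonneg _
    have h2 : (∑ l, |w l|) ^ 2 ≤ 2 := by nlinarith
    have := mul_le_mul_of_nonneg_right (h1.trans h2) (by linarith : (0 : ℝ) ≤ δ / 2)
    linarith
  have hcomb := OpOK.comb (a := w) hoks (fun _ => by linarith) hsum
    (ε' := ε) (δ' := δ) (by nlinarith) hsq
  refine ⟨_, ∑ l, Qs l, ?_, (hcomb.shift (u' := scoreFam t)
    (E' := 3 * |Cc P| / R ^ accExp n a m j) ?_).mono le_rfl le_rfl ?_⟩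
  · push_cast
    calc ∑ l, (Qs l : ℝ) ≤ ∑ _l : Fin P, R ^ q * 2 := Finset.sum_le_sum fun l _ => hQs l
      _ = R ^ q * ((2 * P : ℕ) : ℝ) := by simp; ring
      _ ≤ R ^ q * R ^ 2 := by
          gcongr
          calc ((2 * P : ℕ) : ℝ) ≤ R := hRP
            _ ≤ R ^ 2 := le_self_pow₀ (by linarith) two_ne_zero
      _ = R ^ (q + 2) := (pow_add _ _ _).symm
  · intro d V hV
    obtain ⟨hl1, -, hl3, -⟩ := hlev d V hV.pot hV.grad_zero
    have htop' : 2 * t ≤ R⁻¹ :=
      (le_mul_of_one_le_left (by linarith) (one_le_pow₀ one_le_two)).trans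
        (htop.trans (topLevel_le_inv (by linarith) n a i))
    have htc : ∀ c : ℝ, 0 < c → 2 / c ≤ R → 2 * t ≤ c := fun c hc hRc => by
      refine htop'.trans ?_
      rw [inv_le_comm₀ hR0 hc]
      calc c⁻¹ ≤ 2 / c := by rw [inv_eq_one_div]; gcongr; norm_num
        _ ≤ R := hRc
    have htc₁ := htc c₁ hc₁ hRc₁
    have hp := (hl1 t ht.le (by linarith)).1
    have hc := (hcurve d V hV.pot hV.grad_zero t ht (by linarith [htc c₂ hc₂ hRc₂])).restrict
      (a' := 0) le_rfl htR
    obtain ⟨G₁, S, hS0, hSi, hSle, -, hmaj⟩ := hc.exists_majorant' (P := P)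
      (M := |Cc P| * ((d : ℝ) + 1) ^ 2 / t ^ P) (by positivity) hP2 fun s _ => by
        gcongr
        exact le_abs_self _
    have hpt : ∀ y, ‖∑ l, w l • avgFam t (node l) d V y - scoreFam t d V y‖
        ≤ (1 + ∑ l, |w l|) * S y := fun y => by
      have h1 := hmaj.extrapolate (t := node) hnode_inj
        (fun l => ⟨hν₀0.le.trans (hnode_ge l), hnode_t l⟩) (x := 0) ⟨le_rfl, by positivity⟩ y
      rw [(hl3 t 0 ht le_rfl (by linarith)).2.2.2.2.2.1 y] at h1
      exact h1
    have hcont : ∀ r : ℝ, r ∈ Set.Icc 0 (t / R) → Continuous fun y => scoreAvg V t r y :=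
      fun r hr => hc.continuousOn.comp_continuous (f := fun y => (r, y)) (by fun_prop)
        fun y => ⟨hr, Set.mem_univ _⟩
    have hcs : Continuous fun y => scoreFam t d V y := by
      refine (hcont 0 ⟨le_rfl, by positivity⟩).congr fun y => ?_
      exact (hl3 t 0 ht le_rfl (by linarith)).2.2.2.2.2.1 y
    have hmeas : Continuous fun y => ‖∑ l, w l • avgFam t (node l) d V y - scoreFam t d V y‖ := by
      refine Continuous.norm (Continuous.sub ?_ hcs)
      refine continuous_finsetSum _ fun l _ => ?_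
      have hl : Continuous fun y => avgFam t (node l) d V y :=
        hcont (node l) ⟨hν₀0.le.trans (hnode_ge l), hnode_t l⟩
      exact Continuous.const_smul (M := ℝ) hl (w l)
    have hint : Integrable
        (fun y => ‖∑ l, w l • avgFam t (node l) d V y - scoreFam t d V y‖) (levelFam t d V) :=
      (hSi.const_mul (1 + ∑ l, |w l|)).mono' hmeas.aestronglyMeasurable
        (.of_forall fun y => by rw [norm_norm]; exact hpt y)
    refine ⟨hint, (integral_mono hint (hSi.const_mul _) hpt).trans ?_⟩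
    rw [integral_const_mul]
    have hpow : (t / R - 0) ^ P * (|Cc P| * ((d : ℝ) + 1) ^ 2 / t ^ P)
        = |Cc P| * ((d : ℝ) + 1) ^ 2 / R ^ P := by
      rw [sub_zero, div_pow]; field_simp
    rw [hpow] at hSle
    have hdim : ((d : ℝ) + 1) ^ 2 ≤ dimFac d := pow_le_pow_right₀ (by simp) (by norm_num)
    calc (1 + ∑ l, |w l|) * ∫ y, S y ∂(levelLaw V t)
        ≤ 3 * (|Cc P| * ((d : ℝ) + 1) ^ 2 / R ^ P) :=
          mul_le_mul (by linarith) hSle (integral_nonneg hS0) (by norm_num)
      _ ≤ 3 * (|Cc P| * dimFac d / R ^ accExp n a m j) := by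
          have hd0 := dimFac_nonneg d
          gcongr
          · linarith
          · exact hPX j
      _ = _ := by ring
  · rw [← Finset.sum_mul, add_div]
    gcongr
    rw [mul_div_assoc]
    exact mul_le_mul_of_nonneg_right (by linarith) (by positivity)

end Vale.Agent.P347
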