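import Vale.Agent.P347.SpecsRot

/-!
The rotation generated by a symmetric operator field preserves two Gaussian vectors.
-/

namespace Vale.Agent.P347

open MeasureTheory ProbabilityTheory
open scoped RealInnerProductSpace

variable {d : ℕ}

/-- The skew generator `(a, b) ↦ (K b, -K a)`. -/
noncomputable def rotGen (d : ℕ) :
    (Euc d →L[ℝ] Euc d) →L[ℝ] (Euc d × Euc d →L[ℝ] Euc d × Euc d) :=
  ((ContinuousLinearMap.compL ℝ (Euc d × Euc d) (Euc d) (Euc d × Euc d))
      (ContinuousLinearMap.inl ℝ (Euc d) (Euc d))).comp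
    ((ContinuousLinearMap.compL ℝ (Euc d × Euc d) (Euc d) (Euc d)).flip
      (ContinuousLinearMap.snd ℝ (Euc d) (Euc d))) -
  ((ContinuousLinearMap.compL ℝ (Euc d × Euc d) (Euc d) (Euc d × Euc d))
      (ContinuousLinearMap.inr ℝ (Euc d) (Euc d))).comp
    ((ContinuousLinearMap.compL ℝ (Euc d × Euc d) (Euc d) (Euc d)).flip
      (ContinuousLinearMap.fst ℝ (Euc d) (Euc d)))

lemma rotGen_apply (K : Euc d →L[ℝ] Euc d) (w : Euc d × Euc d) :
    rotGen d K w = (K w.2, -K w.1) := by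
  simp [rotGen]

/-- The rotation `exp (θ A)`. -/
noncomputable def rot (K : Euc d →L[ℝ] Euc d) (θ : ℝ) : Euc d × Euc d →L[ℝ] Euc d × Euc d :=
  NormedSpace.exp (θ • rotGen d K)

lemma rot_continuous {H : Euc d → Euc d →L[ℝ] Euc d} (hH : Continuous H) :
    Continuous fun q : ℝ × Euc d => rot (H q.2) q.1 := by
  letI : NormedAlgebra ℚ (Euc d × Euc d →L[ℝ] Euc d × Euc d) :=
    NormedAlgebra.restrictScalars ℚ ℝ _
  exact NormedSpace.exp_continuous.comp
    (continuous_fst.smul ((rotGen d).continuous.comp (hH.comp continuous_snd)))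

lemma rot_zero (K : Euc d →L[ℝ] Euc d) (w : Euc d × Euc d) : rot K 0 w = w := by
  rw [rot, show (0 : ℝ) • rotGen d K = 0 from by ext w <;> simp, NormedSpace.exp_zero]
  rfl

lemma rot_hasDerivAt (K : Euc d →L[ℝ] Euc d) (w : Euc d × Euc d) (θ : ℝ) :
    HasDerivAt (fun u => rot K u w) (K (rot K θ w).2, -K (rot K θ w).1) θ := by
  have h := hasDerivAt_exp_smul_const' (𝕂 := ℝ) (rotGen d K) θ
  refine ((ContinuousLinearMap.apply ℝ (Euc d × Euc d) w).hasFDerivAt.comp_hasDerivAt θ h).congr_deriv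
    ?_
  simp [rot, rotGen_apply]

lemma rot_inverse (K : Euc d →L[ℝ] Euc d) (θ : ℝ) (w : Euc d × Euc d) :
    rot K θ (rot K (-θ) w) = w := by
  letI : NormedAlgebra ℚ (Euc d × Euc d →L[ℝ] Euc d × Euc d) :=
    NormedAlgebra.restrictScalars ℚ ℝ _
  have h : rot K θ * rot K (-θ) = 1 := by
    rw [rot, rot, ← NormedSpace.exp_add_of_commute (?_ : Commute (θ • rotGen d K) ((-θ) • rotGen d K)),
      show θ • rotGen d K + (-θ) • rotGen d K = 0 from by ext w <;> simp,
      NormedSpace.exp_zero]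
    show (θ • rotGen d K).comp ((-θ) • rotGen d K) = ((-θ) • rotGen d K).comp (θ • rotGen d K)
    ext w <;> simp
  exact congrArg (fun L : Euc d × Euc d →L[ℝ] Euc d × Euc d => L w) h

lemma rot_inner {K : Euc d →L[ℝ] Euc d} (hK : ∀ a b, ⟪K a, b⟫ = ⟪a, K b⟫)
    (v w : Euc d × Euc d) (θ : ℝ) :
    ⟪(rot K θ v).1, (rot K θ w).1⟫ + ⟪(rot K θ v).2, (rot K θ w).2⟫
      = ⟪v.1, w.1⟫ + ⟪v.2, w.2⟫ := by
  have hd : ∀ u, HasDerivAt (fun u => ⟪(rot K u v).1, (rot K u w).1⟫
      + ⟪(rot K u v).2, (rot K u w).2⟫) 0 u := fun u => by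
    have h1 := rot_hasDerivAt K v u
    have h2 := rot_hasDerivAt K w u
    refine (((hasFDerivAt_fst.comp_hasDerivAt u h1).inner ℝ
      (hasFDerivAt_fst.comp_hasDerivAt u h2)).add
      ((hasFDerivAt_snd.comp_hasDerivAt u h1).inner ℝ
        (hasFDerivAt_snd.comp_hasDerivAt u h2))).congr_deriv ?_
    simp [inner_neg_right, inner_neg_left, hK]
  have h := is_const_of_deriv_eq_zero (fun u => (hd u).differentiableAt) (fun u => (hd u).deriv) θ 0
  simpa [rot_zero] using h

lemma rot_map_gauss {K : Euc d →L[ℝ] Euc d} (hK : ∀ a b, ⟪K a, b⟫ = ⟪a, K b⟫) (θ : ℝ) :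
    ((gauss d).prod (gauss d)).map (rot K θ) = (gauss d).prod (gauss d) := by
  haveI : IsProbabilityMeasure (((gauss d).prod (gauss d)).map (rot K θ)) :=
    Measure.isProbabilityMeasure_map (rot K θ).continuous.measurable.aemeasurable
  refine Measure.ext_of_charFunDual ?_
  funext L
  set a := (InnerProductSpace.toDual ℝ (Euc d)).symm (L.comp (ContinuousLinearMap.inl ℝ _ _))
  set b := (InnerProductSpace.toDual ℝ (Euc d)).symm (L.comp (ContinuousLinearMap.inr ℝ _ _))
  have hL : ∀ w : Euc d × Euc d, L w = ⟪a, w.1⟫ + ⟪b, w.2⟫ := fun w => by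
    simp [a, b, InnerProductSpace.toDual_symm_apply, ← map_add]
  set p := rot K (-θ) (a, b)
  have hLp : ∀ w, L (rot K θ w) = ⟪p.1, w.1⟫ + ⟪p.2, w.2⟫ := fun w => by
    rw [hL, ← rot_inner hK p w θ, rot_inverse]
  have hnorm : ‖p.1‖ ^ 2 + ‖p.2‖ ^ 2 = ‖a‖ ^ 2 + ‖b‖ ^ 2 := by
    have := rot_inner hK (a, b) (a, b) (-θ)
    simpa [p, real_inner_self_eq_norm_sq] using this
  rw [charFunDual_apply, charFunDual_apply,
    integral_map (rot K θ).continuous.measurable.aemeasurable (by fun_prop)]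
  have key : ∀ a b : Euc d, ∫ w : Euc d × Euc d, Complex.exp (((⟪a, w.1⟫ + ⟪b, w.2⟫ : ℝ) : ℂ)
      * Complex.I) ∂((gauss d).prod (gauss d))
      = Complex.exp (((-(‖a‖ ^ 2 + ‖b‖ ^ 2) / 2 : ℝ) : ℂ)) := fun a b => by
    have h1 : ∀ c : Euc d, ∫ z, Complex.exp ((⟪c, z⟫ : ℝ) * Complex.I) ∂(gauss d)
        = Complex.exp (((-‖c‖ ^ 2 / 2 : ℝ) : ℂ)) := fun c => by
      have h := charFun_stdGaussian (E := Euc d) c
      rw [charFun_apply] at h
      simp only [real_inner_comm c] at h ⊢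
      rw [h]
      push_cast
      rfl
    simp only [Complex.ofReal_add, add_mul, Complex.exp_add]
    rw [integral_prod_mul (fun z => Complex.exp ((⟪a, z⟫ : ℝ) * Complex.I))
      (fun z => Complex.exp ((⟪b, z⟫ : ℝ) * Complex.I)), h1, h1, ← Complex.exp_add]
    congr 1
    push_cast
    ring
  rw [show (fun w => Complex.exp ((L (rot K θ w) : ℂ) * Complex.I))
      = fun w => Complex.exp (((⟪p.1, w.1⟫ + ⟪p.2, w.2⟫ : ℝ) : ℂ) * Complex.I) from
      funext fun w => by rw [hLp],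
    show (fun w => Complex.exp ((L w : ℂ) * Complex.I))
      = fun w => Complex.exp (((⟪a, w.1⟫ + ⟪b, w.2⟫ : ℝ) : ℂ) * Complex.I) from
      funext fun w => by rw [hL],
    key, key, hnorm]

/-- The rotation generated by a symmetric operator field preserves two Gaussian vectors. -/
theorem rotation : RotationStatement := by
  intro d H hH hsymm _
  refine ⟨fun θ p => rot (H p.1) θ p.2, ?_, fun p => rot_zero _ _,
    fun p θ => rot_hasDerivAt _ _ θ, fun p θ => ?_, fun y θ => rot_map_gauss (hsymm y) θ⟩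
  · exact ((rot_continuous hH).comp (continuous_fst.prodMk
      (continuous_fst.comp continuous_snd))).clm_apply (continuous_snd.comp continuous_snd)
  · have h := rot_inner (hsymm p.1) p.2 p.2 θ
    simp only [real_inner_self_eq_norm_sq] at h
    have h1 := norm_nonneg p.2.1
    have h2 := norm_nonneg p.2.2
    constructor <;> nlinarith [norm_nonneg (rot (H p.1) θ p.2).1, norm_nonneg (rot (H p.1) θ p.2).2]

end Vale.Agent.P347
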