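import Vale.Agent.P347.HeatBackward
import Vale.Agent.P347.Poincare
import Vale.Agent.P347.Interfaces
import Vale.Agent.P347.FlowPotential

/-!
The score of the smoothed potential as a function of time and space: its equation, its derivatives
and the bounds needed to define flows.
-/

namespace Vale.Agent.P347

open MeasureTheory ProbabilityTheory Filter Set
open scoped Gradient RealInnerProductSpace ContDiff Topology

variable {d : ℕ} {U V : Euc d → ℝ}

lemma score_inner (U : Euc d → ℝ) (t : ℝ) (y v : Euc d) :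
    ⟪score U t y, v⟫ = fderiv ℝ (smoothPot U t) y v := by
  simp [score, gradient]

lemma score_apply (U : Euc d → ℝ) (t : ℝ) (y : Euc d) (i : Fin d) :
    score U t y i = fderiv ℝ (smoothPot U t) y (unitVec i) := by
  rw [← score_inner]
  simp [EuclideanSpace.inner_single_right]

lemma score_tame (hU : Weight U) : Tame (Ioi 0) (score U) :=
  Tame.euclidean isOpen_Ioi fun i => (tame_grad hU i).of_eq isOpen_Ioi
    fun t _ y => score_apply U t y i

lemma hessAvg_zero (U : Euc d → ℝ) (t : ℝ) (y : Euc d) :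
    hessAvg U t 0 y = fderiv ℝ (score U t) y := by
  rw [hessAvg, show scoreAvg U t 0 = score U t from funext fun z => by simp [scoreAvg]]

/-- The time derivative of the score. -/
noncomputable def scoreDot (U : Euc d → ℝ) (t : ℝ) (y : Euc d) : Euc d :=
  fderiv ℝ (fun q : ℝ × Euc d => score U q.1 q.2) (t, y) (1, 0)

/-- The Laplacian of the smoothed potential. -/
noncomputable def lapPot (U : Euc d → ℝ) (t : ℝ) (y : Euc d) : ℝ :=
  ∑ j, fderiv ℝ (fun z => fderiv ℝ (smoothPot U t) z (unitVec j)) y (unitVec j)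

lemma scoreDot_tame (hU : Weight U) : Tame (Ioi 0) (scoreDot U) :=
  (score_tame hU).fderiv_apply (Tame.const ((1 : ℝ), (0 : Euc d))) isOpen_Ioi

lemma lapPot_tame (hU : Weight U) : Tame (Ioi 0) (lapPot U) :=
  Tame.sum Finset.univ isOpen_Ioi fun j _ =>
    (tame_grad hU j).fderiv_space_apply isOpen_Ioi (unitVec j)

lemma fderiv_score_inner (hU : Weight U) {t : ℝ} (ht : 0 < t) (y u v : Euc d) :
    ⟪fderiv ℝ (score U t) y u, v⟫ = fderiv ℝ (fun z => fderiv ℝ (smoothPot U t) z v) y u := by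
  have h := ((score_tame hU).differentiableAt_space (I := Ioi 0) ht y).hasFDerivAt.inner ℝ
    (hasFDerivAt_const v y)
  rw [show (fun z => fderiv ℝ (smoothPot U t) z v) = fun z => ⟪score U t z, v⟫ from
    funext fun z => (score_inner U t z v).symm, h.fderiv]
  simp [fderivInnerCLM_apply]

lemma fderiv_dir_comm {f : Euc d → ℝ} (hf : ContDiff ℝ ∞ f) (y u v : Euc d) :
    fderiv ℝ (fun z => fderiv ℝ f z v) y u = fderiv ℝ (fun z => fderiv ℝ f z u) y v := by
  have hd : Differentiable ℝ (fderiv ℝ f) :=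
    (hf.fderiv_right (m := ∞) le_rfl).differentiable (by simp)
  have hs : IsSymmSndFDerivAt ℝ f y :=
    ((hf.contDiffAt).of_le (show ((2 : ℕ∞) : WithTop ℕ∞) ≤ ∞ from
      WithTop.coe_le_coe.2 le_top)).isSymmSndFDerivAt (by simp)
  rw [fderiv_clm_apply (hd y) (differentiableAt_const v),
    fderiv_clm_apply (hd y) (differentiableAt_const u)]
  simpa using hs.eq u v

lemma fderiv_score_symm (hU : Weight U) {t : ℝ} (ht : 0 < t) (y u v : Euc d) :
    ⟪fderiv ℝ (score U t) y u, v⟫ = ⟪u, fderiv ℝ (score U t) y v⟫ := by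
  rw [real_inner_comm (fderiv ℝ (score U t) y v) u, fderiv_score_inner hU ht,
    fderiv_score_inner hU ht, fderiv_dir_comm (smoothPot_smooth hU ht)]

/-- The trace of the gradient of a score component field. -/
lemma sum_fderiv_score (U : Euc d → ℝ) (t : ℝ) (y : Euc d) :
    ∑ j, fderiv ℝ (fun z => score U t z j) y (unitVec j) = lapPot U t y := by
  simp [lapPot, score_apply]

/-- The heat equation for the smoothed potential. -/
lemma pdt_smoothPot (hU : Weight U) {t : ℝ} (ht : 0 < t) (y : Euc d) :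
    fderiv ℝ (fun q : ℝ × Euc d => smoothPot U q.1 q.2) (t, y) (1, 0)
      = (1 / 2 : ℝ) * lapPot U t y - (1 / 2 : ℝ) * ‖score U t y‖ ^ 2 := by
  have hq := smoothDensity_pos hU t y
  have hs : ContDiff ℝ ∞ (smoothPot U t) := smoothPot_smooth hU ht
  have h1 := pdt_smoothDensity hU ht y
  rw [pdt, (fderiv_smoothDensity_joint hU ht y).fderiv] at h1
  simp only [neg_apply, smul_apply, smul_eq_mul] at h1
  have e : smoothDensity U t = fun z => Real.exp (-smoothPot U t z) :=
    funext fun z => (exp_neg_smoothPot hU t z).symm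
  have hd : ∀ z, HasFDerivAt (fun z => Real.exp (-smoothPot U t z))
      (Real.exp (-smoothPot U t z) • -fderiv ℝ (smoothPot U t) z) z := fun z =>
    (hs.differentiable (by simp) z).hasFDerivAt.neg.exp
  have hterm : ∀ j, fderiv ℝ (fun z => fderiv ℝ (smoothDensity U t) z (unitVec j)) y (unitVec j)
      = smoothDensity U t y * (fderiv ℝ (smoothPot U t) y (unitVec j) ^ 2
        - fderiv ℝ (fun z => fderiv ℝ (smoothPot U t) z (unitVec j)) y (unitVec j)) := by
    intro j
    have e1 : (fun z => fderiv ℝ (smoothDensity U t) z (unitVec j))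
        = fun z => Real.exp (-smoothPot U t z) * -fderiv ℝ (smoothPot U t) z (unitVec j) := by
      funext z
      rw [e, (hd z).fderiv]
      rfl
    have hj : DifferentiableAt ℝ (fun z => fderiv ℝ (smoothPot U t) z (unitVec j)) y :=
      ((hs.fderiv_right (m := ∞) le_rfl).clm_apply contDiff_const).differentiable (by simp) y
    have hj' : HasFDerivAt (fun z => -fderiv ℝ (smoothPot U t) z (unitVec j))
        (-fderiv ℝ (fun z => fderiv ℝ (smoothPot U t) z (unitVec j)) y) y := hj.hasFDerivAt.neg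
    rw [e1, ((hd y).fun_mul hj').fderiv, exp_neg_smoothPot hU t y]
    simp only [add_apply, smul_apply, neg_apply, smul_eq_mul]
    ring
  have hlap : lapF (smoothDensity U t) y
      = smoothDensity U t y * (∑ j, fderiv ℝ (smoothPot U t) y (unitVec j) ^ 2 - lapPot U t y) := by
    rw [lapF_eq_sum (by rw [e]; exact Real.contDiff_exp.comp hs.neg), Finset.sum_congr rfl
      fun j _ => hterm j, ← Finset.mul_sum, Finset.sum_sub_distrib, lapPot]
  have hn : ‖score U t y‖ ^ 2 = ∑ j, fderiv ℝ (smoothPot U t) y (unitVec j) ^ 2 := by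
    simp [EuclideanSpace.norm_sq_eq, score_apply]
  rw [hlap, ← hn] at h1
  refine mul_left_cancel₀ hq.ne' ?_
  linear_combination -h1

/-- The equation of the score. -/
lemma scoreDot_inner (hU : Weight U) {t : ℝ} (ht : 0 < t) (y v : Euc d) :
    ⟪scoreDot U t y, v⟫
      = (1 / 2 : ℝ) * fderiv ℝ (lapPot U t) y v - ⟪score U t y, fderiv ℝ (score U t) y v⟫ := by
  have hI : IsOpen (Ioi (0 : ℝ)) := isOpen_Ioi
  have hP := smoothPot_tame hU
  set J := fun q : ℝ × Euc d => smoothPot U q.1 q.2 with hJ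
  have hJ1 : DifferentiableAt ℝ (fderiv ℝ J) (t, y) :=
    ((hP.fderiv_joint hI).differentiableAt hI ht y)
  have hsymm : IsSymmSndFDerivAt ℝ J (t, y) :=
    ((hP.contDiffAt hI ht y).of_le (show ((2 : ℕ∞) : WithTop ℕ∞) ≤ ∞ from
      WithTop.coe_le_coe.2 le_top)).isSymmSndFDerivAt (by simp)
  have hcurve : HasDerivAt (fun s : ℝ => (s, y)) ((1 : ℝ), (0 : Euc d)) t :=
    (hasDerivAt_id t).prodMk (hasDerivAt_const t y)
  have h2 : HasDerivAt (fun s => fderiv ℝ J (s, y) ((0 : ℝ), v))
      (fderiv ℝ (fderiv ℝ J) (t, y) (1, 0) (0, v)) t :=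
    (ContinuousLinearMap.apply ℝ ℝ ((0 : ℝ), v)).hasFDerivAt.comp_hasDerivAt t
      (HasFDerivAt.comp_hasDerivAt (f := fun s : ℝ => (s, y)) t hJ1.hasFDerivAt hcurve)
  have hg : HasDerivAt (fun s => score U s y) (scoreDot U t y) t :=
    HasFDerivAt.comp_hasDerivAt (f := fun s : ℝ => (s, y)) t
      ((score_tame hU).differentiableAt hI ht y).hasFDerivAt hcurve
  have h3 : HasDerivAt (fun s => ⟪score U s y, v⟫) ⟪scoreDot U t y, v⟫ t := by
    simpa using hg.inner ℝ (hasDerivAt_const t v)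
  have he : (fun s => ⟪score U s y, v⟫) =ᶠ[𝓝 t] fun s => fderiv ℝ J (s, y) ((0 : ℝ), v) := by
    filter_upwards [hI.mem_nhds (show t ∈ Ioi (0 : ℝ) from ht)] with s hs
    rw [score_inner, hP.fderiv_space hI hs]
  rw [(h3.congr_of_eventuallyEq he.symm).unique h2, hsymm.eq]
  have h4 : fderiv ℝ (fun z => fderiv ℝ J (t, z) ((1 : ℝ), (0 : Euc d))) y v
      = fderiv ℝ (fderiv ℝ J) (t, y) (0, v) (1, 0) := by
    have := ((ContinuousLinearMap.apply ℝ ℝ ((1 : ℝ), (0 : Euc d))).hasFDerivAt.comp y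
      (hJ1.hasFDerivAt.comp y (hasFDerivAt_prodMk_right (𝕜 := ℝ) t y)))
    simp only [Function.comp_def, ContinuousLinearMap.apply_apply] at this
    rw [this.fderiv]
    rfl
  rw [← h4, show (fun z => fderiv ℝ J (t, z) ((1 : ℝ), (0 : Euc d)))
      = fun z => (1 / 2 : ℝ) * lapPot U t z - (1 / 2 : ℝ) * ‖score U t z‖ ^ 2 from
    funext fun z => pdt_smoothPot hU ht z]
  have hl := ((lapPot_tame hU).differentiableAt_space (I := Ioi 0) ht y).hasFDerivAt
  have hn := ((score_tame hU).differentiableAt_space (I := Ioi 0) ht y).hasFDerivAt.norm_sq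
  rw [((hl.const_mul (1 / 2 : ℝ)).fun_sub (hn.const_mul (1 / 2 : ℝ))).fderiv]
  simp

/-- Below a fixed level the Hessian of the smoothed potential is at most `2`. -/
lemma exists_hessian_level :
    ∃ c₀ : ℝ, 0 < c₀ ∧ ∀ (d : ℕ) (V : Euc d → ℝ), NicePot d V 1 2 → ∀ t, 0 < t → t ≤ c₀ →
      ∀ y, ‖fderiv ℝ (score V t) y‖ ≤ 2 := by
  obtain ⟨c₀, hc₀, h⟩ := hessianBound poincare
  refine ⟨c₀ / 2, by positivity, fun d V hV t ht htc y => ?_⟩
  have hU := hV.weight
  set B : Euc d →L[ℝ] Euc d →L[ℝ] ℝ := fderiv ℝ (fderiv ℝ (smoothPot V t)) y with hB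
  have hd : DifferentiableAt ℝ (fderiv ℝ (smoothPot V t)) y :=
    ((smoothPot_smooth hU ht).fderiv_right (m := ∞) le_rfl).differentiable (by simp) y
  have hBeq : ∀ u v, B u v = fderiv ℝ (fun z => fderiv ℝ (smoothPot V t) z v) y u := fun u v => by
    rw [fderiv_clm_apply hd (differentiableAt_const v)]
    simp [hB]
  refine ContinuousLinearMap.opNorm_le_bound _ zero_le_two fun u => ?_
  set w := fderiv ℝ (score V t) y u with hw
  have hb := h d V 1 2 t hV (by norm_num) ht (by linarith) y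
  have hq := bilin_le_of_quad (B := B) (L := 2)
    (fun a b => by rw [hBeq, hBeq, fderiv_dir_comm (smoothPot_smooth hU ht)])
    (fun v => le_trans (by positivity) (hb v).1) (fun v => (hb v).2) u w
  rw [hBeq, ← fderiv_score_inner hU ht, ← hw, real_inner_self_eq_norm_sq,
    abs_of_nonneg (sq_nonneg _)] at hq
  rcases (norm_nonneg w).eq_or_lt with h0 | h0
  · rw [← h0]; positivity
  · nlinarith

/-- Linear growth of the score on compact time intervals. -/
lemma score_growth (hU : Weight U) {a b : ℝ} (ha : 0 < a)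
    (hH : ∀ t ∈ Icc a b, ∀ y, ‖fderiv ℝ (score U t) y‖ ≤ 2) :
    ∃ G, 0 ≤ G ∧ ∀ t ∈ Icc a b, ∀ y, ‖score U t y‖ ≤ G + 2 * ‖y‖ := by
  obtain ⟨G, p, hG, h⟩ := (score_tame hU).bound_upTo 0 (isCompact_Icc (a := a) (b := b))
    fun t ht => lt_of_lt_of_le ha ht.1
  refine ⟨G, hG, fun t ht y => ?_⟩
  have h1 := convex_univ.norm_image_sub_le_of_norm_fderiv_le (𝕜 := ℝ)
    (fun z _ => (score_tame hU).differentiableAt_space (I := Ioi 0) (lt_of_lt_of_le ha ht.1) z)
    (fun z _ => hH t ht z) (mem_univ (0 : Euc d)) (mem_univ y)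
  have h0 : ‖score U t 0‖ ≤ G := by simpa using h 0 le_rfl t ht 0
  rw [sub_zero] at h1
  linarith [norm_le_norm_add_norm_sub' (score U t y) (score U t 0)]

lemma derivTen_apply {U : ℝ → Euc d → ℝ} {I : Set ℝ} (hU : Tame I U) (hI : IsOpen I) {t : ℝ}
    (ht : t ∈ I) (n : ℕ) (y : Euc d) (α : Fin (n + 1) → Fin d) :
    derivTen (U t) (n + 1) y α
      = fderiv ℝ (fun z => derivTen (U t) n z (Fin.tail α)) y (unitVec (α 0)) :=
  nabla_apply (hU.derivTen hI n) ht y α

/-- The gradient of the Laplacian of the smoothed potential is bounded. -/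
lemma exists_lapPot_bound (hT : TensorBoundStatement) :
    ∃ C : ℝ, ∀ (d : ℕ) (V : Euc d → ℝ), NicePot d V 1 2 → ∀ t, 0 < t → 100 * (2 * t) ≤ 1 →
      ∀ y, ‖fderiv ℝ (lapPot V t) y‖ ≤ d * (d * |C * 2 / √t ^ 1|) := by
  obtain ⟨C, hC⟩ := hT 3 (by norm_num)
  refine ⟨C, fun d V hV t ht htc y => ?_⟩
  have hA := hC d V 1 2 t hV ht htc y
  have hP := smoothPot_tame hV.weight
  have hentry : ∀ i j, |fderiv ℝ
      (fun z => fderiv ℝ (fun w => fderiv ℝ (smoothPot V t) w (unitVec j)) z (unitVec j))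
      y (unitVec i)| ≤ |C * 2 / √t ^ 1| := by
    intro i j
    have h1 : ∀ (z : Euc d) (α : Fin 1 → Fin d),
        derivTen (smoothPot V t) 1 z α = fderiv ℝ (smoothPot V t) z (unitVec (α 0)) := fun z α =>
      derivTen_apply hP isOpen_Ioi ht 0 z α
    have h2 : ∀ (z : Euc d) (α : Fin 2 → Fin d), derivTen (smoothPot V t) 2 z α
        = fderiv ℝ (fun w => fderiv ℝ (smoothPot V t) w (unitVec (α 1))) z (unitVec (α 0)) := by
      intro z α
      rw [derivTen_apply hP isOpen_Ioi ht 1 z α]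
      simp only [h1]
      rfl
    have h3 := derivTen_apply hP isOpen_Ioi ht 2 y ![i, j, j]
    simp only [h2] at h3
    have := hA 1 2 finSumFinEquiv (by norm_num) (by norm_num)
      (EuclideanSpace.single ![i] 1) (EuclideanSpace.single ![j, j] 1)
    rw [Fintype.sum_eq_single ![i] (fun α hα => by simp [hα]),
      Fintype.sum_eq_single ![j, j] (fun β hβ => by simp [hβ])] at this
    have hj : joinIdx (finSumFinEquiv (m := 1) (n := 2)) ![i] ![j, j] = ![i, j, j] := by
      funext k; fin_cases k <;> rfl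
    simp only [hj, PiLp.single_apply, if_true, mul_one, PiLp.norm_single, norm_one] at this
    rw [h3] at this
    simp only [show (3 : ℕ) - 2 = 1 from rfl] at this
    refine le_trans (le_of_eq ?_) (this.trans (le_abs_self _))
    rfl
  have hdir : ∀ i, |fderiv ℝ (lapPot V t) y (unitVec i)| ≤ d * |C * 2 / √t ^ 1| := fun i => by
    have hd : ∀ j ∈ (Finset.univ : Finset (Fin d)), DifferentiableAt ℝ
        (fun z => fderiv ℝ (fun w => fderiv ℝ (smoothPot V t) w (unitVec j)) z (unitVec j)) y :=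
      fun j _ => ((tame_grad hV.weight j).fderiv_space_apply isOpen_Ioi (unitVec j)).differentiableAt_space
        (I := Ioi 0) ht y
    rw [show lapPot V t = fun z => ∑ j,
        fderiv ℝ (fun w => fderiv ℝ (smoothPot V t) w (unitVec j)) z (unitVec j) from rfl,
      fderiv_fun_sum hd, sum_apply]
    refine (Finset.abs_sum_le_sum_abs _ _).trans ((Finset.sum_le_sum fun j _ => hentry i j).trans ?_)
    simp
  refine ContinuousLinearMap.opNorm_le_bound _ (by positivity) fun v => ?_
  conv_lhs => rw [← (EuclideanSpace.basisFun (Fin d) ℝ).sum_repr v]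
  simp only [map_sum, map_smul, EuclideanSpace.basisFun_repr, EuclideanSpace.basisFun_apply]
  refine (norm_sum_le _ _).trans ((Finset.sum_le_sum
    (g := fun _ : Fin d => ‖v‖ * (d * |C * 2 / √t ^ 1|)) fun i _ => ?_).trans ?_)
  · rw [norm_smul, Real.norm_eq_abs (fderiv ℝ _ _ _)]
    exact mul_le_mul (PiLp.norm_apply_le v i) (hdir i) (abs_nonneg _) (norm_nonneg _)
  · simp; rw [mul_comm ‖v‖]; ring_nf; rfl

/-- Coercivity of the smoothed potentials, locally uniformly in time. -/
lemma smoothPot_coercive (hU : Weight U) {J : Set ℝ} (hJ : IsCompact J) (hJI : J ⊆ Ioi 0) :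
    ∃ c C₀ : ℝ, 0 < c ∧ ∀ t ∈ J, ∀ y, c * ‖y‖ ^ 2 - C₀ ≤ smoothPot U t y := by
  obtain ⟨T, hT⟩ := hJ.bddAbove
  obtain ⟨c, M, hc, hM, hup⟩ := smoothDensity_upper hU T
  refine ⟨c, Real.log M, hc, fun t ht y => ?_⟩
  have h2 := Real.log_le_log (smoothDensity_pos hU t y) (hup t ⟨(hJI ht).le, hT ht⟩ y)
  rw [Real.log_mul hM.ne' (Real.exp_pos _).ne', Real.log_exp] at h2
  rw [smoothPot]
  linarith

end Vale.Agent.P347
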