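import Vale.Agent.P347.Approx
import Vale.Agent.P347.Basic

/-!
Target statements of the algorithmic wrappers of P347, as propositions (no proofs here).
-/

namespace Vale.Agent.P347

open MeasureTheory ProbabilityTheory
open scoped Gradient RealInnerProductSpace

/-- Every closed expression is realised by an algorithm with the same law and query budget. -/
def RealiseStatement : Prop :=
  ∀ (d q : ℕ) (e : Expr 0), e.queries ≤ q → ∃ A : Algorithm d q,
    ∀ V : Euc d → ℝ, Continuous (∇ V) → seedLaw.map (A.run V) = e.law (∇ V) Fin.elim0

/-- A closed expression which samples all smooth potentials with Hessian in `[1, 2]` within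
total variation `1/10` samples every admissible potential. -/
def ReductionStatement : Prop :=
  ∀ (d : ℕ) (e : Expr 0),
    (∀ V : Euc d → ℝ, NicePot d V 1 2 → ∇ V 0 = 0 → ∀ B : Set (Euc d), MeasurableSet B →
      |(e.law (∇ V) Fin.elim0).real B - (gibbs V).real B| ≤ 1 / 10) →
    ∀ V : Euc d → ℝ, Admissible d V → ∀ B : Set (Euc d), MeasurableSet B →
      |(e.law (∇ V) Fin.elim0).real B - (gibbs V).real B| ≤ 1 / 10

end Vale.Agent.P347
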