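import Vale.Agent.P347.Extract
import Vale.Agent.P347.SpecsRot

/-!
The body computing a squared Hessian applied to a Gaussian vector, as a proposition.
-/

namespace Vale.Agent.P347

open MeasureTheory ProbabilityTheory
open scoped Gradient RealInnerProductSpace

/-- From a position and two independent Gaussian vectors, a body for `H (H ξ)`: the first
application through the rotation generated by `H`, at angle scale `κr`. -/
def HessSqStatement : Prop :=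
  ∀ P It : ℕ, 2 ≤ P → ∃ K : ℕ, 1 ≤ K ∧
    ∀ (Pr : RandFam) (ν : ℝ) (μ₀ : MeasFam) (H : HessFam) (lam v₀ δin δout : ℝ) (Qin Qout : ℕ)
      (ε Ein Eout : ℝ), 0 ≤ ε → ε ≤ 1 → 0 < lam → 0 ≤ δin → 0 ≤ δout → 0 ≤ Ein → 0 ≤ Eout →
      (∀ d V, Nice d V → IsProbabilityMeasure (μ₀ d V) ∧ IsProbabilityMeasure (Pr d V) ∧
        Continuous (H d V) ∧ (∀ y a b, ⟪H d V y a, b⟫ = ⟪a, H d V y b⟫) ∧
        ∀ y, ‖H d V y‖ ≤ 2) →
      Extractor P μ₀ H lam v₀ δin Qin ε Ein → Extractor P μ₀ H lam v₀ δout Qout ε Eout →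
      ∀ (T : Body) (QT : ℕ) (c c₀ S S₀ : ℝ) (X : VarFam) (vy Ey : ℝ),
        Node Pr ν T QT c c₀ S S₀ X vy Ey → 0 ≤ vy → 0 ≤ Ey →
      ∀ (Z Z' : Body) (QZ : ℕ) (Sz Sz₀ : ℝ) (ξ ξ' : VarFam) (vz Ez : ℝ),
        Node Pr ν Z QZ 0 0 Sz Sz₀ ξ vz Ez → Node Pr ν Z' QZ 0 0 Sz Sz₀ ξ' vz Ez →
        0 ≤ vz → 0 ≤ Ez →
      (∀ d V, Nice d V → Measurable (fun ω => (X d V ω, ξ' d V ω, ξ d V ω)) ∧
        (Pr d V).map (fun ω => (X d V ω, ξ' d V ω, ξ d V ω))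
          = (μ₀ d V).prod ((gauss d).prod (gauss d))) →
      ∀ κr v' : ℝ, 0 < κr → (K : ℝ) * κr ≤ 1 / 2 →
        vy + lam ^ 2 * ((K : ℝ) * (vz + κr ^ 2 * (δin / lam ^ 2))) ≤ v₀ →
        ((K : ℝ) / (κr * lam)) ^ 2 * δout ≤ v' →
        ∃ (T' : Body) (Q' : ℕ), Q' ≤ (K * (1 + Qin + Qout)) ^ (It + 1) * (1 + QT + QZ) ∧
          Node Pr ν T' Q' 0 0 ((K : ℝ) / (κr * lam) * (|c| + S + lam * Sz))
            ((K : ℝ) / (κr * lam) * (|c₀| + S₀ + lam * Sz₀))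
            (fun d V ω => H d V (X d V ω) (H d V (X d V ω) (ξ d V ω))) v'
            ((K : ℝ) / (κr * lam) *
              (Ey + lam * Ez + κr * Ein + Eout + lam * (κr ^ P + ((K : ℝ) * κr) ^ It)))

end Vale.Agent.P347
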