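import Vale.Agent.P347.SpecsPass

/-!
The forward pass of the oracle step and the closing of the gadget, as propositions.
-/

namespace Vale.Agent.P347

open MeasureTheory ProbabilityTheory
open scoped Gradient

/-- The start of the forward path read off an outcome. -/
noncomputable def fwdStart (s₁ low : ℝ) (Φb : PathFam) (d : ℕ) (V : Euc d → ℝ) (ω : Rand d) :
    Euc d × Euc d × Euc d :=
  (ω.1, (Φb d V low (backPt s₁ ω)).1, ω.2 1)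

/-- The gadget value at the top. -/
noncomputable def gadgetTop (δe top s₁ low : ℝ) (Φb Φf : PathFam) : VarFam := fun d V ω =>
  √δe • (Φf d V top (fwdStart s₁ low Φb d V ω)).2
    + score V top (Φf d V top (fwdStart s₁ low Φb d V ω)).1

/-- The forward pass: a body for the gadget value at the top. -/
def ForwardStatement : Prop :=
  Inputs → ∀ n qE qE' qB : ℕ, 1 ≤ n → ∃ q a₀ : ℕ, ∀ a : ℕ, a₀ ≤ a → ∀ m i : ℕ, i < n →
    HasEval n a (m + 1) i qE → HasEval n a m n qE' →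
    ∀ (Cb Cf : ℕ → ℝ) (C₁ ε : ℝ), 0 < ε → ∃ C R₀ : ℝ, 0 ≤ C ∧ 1 ≤ R₀ ∧ ∀ R : ℝ, R₀ ≤ R →
      ∀ (j : ℕ) (τ δ : ℝ), j < n → (R ^ (topExp n a 0 + 1))⁻¹ ≤ τ →
        2 ^ (m + 1) * τ ≤ topLevel n a (i + 1) R →
        lad a j R ≤ R ^ (4 * (n - (i + 1)) + 4) * δ → δ ≤ lad a j R →
        ∀ Φb Φf : PathFam, BackPath τ (gadgetLow τ R) (τ - gadgetGap n a τ R) Φb Cb →
          FwdPath τ (gadgetLow τ R) (τ - gadgetGap n a τ R) (-(1 / (2 * √(δ / 2)))) Φf Cf →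
          ∀ (Tb : Body) (Qb : ℕ), (Qb : ℝ) ≤ R ^ qB →
            Node (gadgetLaw τ (gadgetGap n a τ R)) 0 Tb Qb 1 (√(τ - gadgetLow τ R)) R⁻¹ 1
              (fun d V ω => (Φb d V (gadgetLow τ R) (backPt (gadgetGap n a τ R) ω)).1)
              (gadgetLow τ R / R ^ 4) (C₁ / R ^ accExp n a (m + 1) j) →
          ∃ (T : Body) (Q : ℕ) (c₀ S S₀ : ℝ), (Q : ℝ) ≤ R ^ q ∧ S ≤ 1 / 2 + ε ∧ |c₀| + S₀ ≤ R ∧
            Node (gadgetLaw τ (gadgetGap n a τ R)) 0 T Q (3 / 2) c₀ S S₀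
              (gadgetTop (δ / 2) (τ - gadgetGap n a τ R) (gadgetGap n a τ R) (gadgetLow τ R) Φb Φf)
              (δ / 2) (C / R ^ accExp n a (m + 1) j)

/-- Closing the gadget: an operator for the score at level `τ`. -/
def GadgetCloseStatement : Prop :=
  Inputs → ∃ c₀ K : ℝ, 0 < c₀ ∧ 0 ≤ K ∧
    ∀ (τ low s₁ δ : ℝ) (Φb Φf : PathFam) (κ : ℝ) (Cb Cf : ℕ → ℝ) (T : Body) (Q : ℕ)
      (c₀' S S₀ ε E : ℝ),
      0 < low → low < τ - s₁ → 0 < s₁ → 2 * s₁ ≤ τ → τ ≤ c₀ → 0 ≤ δ →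
      BackPath τ low (τ - s₁) Φb Cb → FwdPath τ low (τ - s₁) κ Φf Cf →
      Node (gadgetLaw τ s₁) 0 T Q (3 / 2) c₀' S S₀
        (gadgetTop (δ / 2) (τ - s₁) s₁ low Φb Φf) (δ / 2) E →
      S ≤ 1 / 2 + ε → 0 ≤ ε →
      ∃ op, OpOK op Q ε (scoreFam τ) (levelFam τ) 0 δ
        (E + K * (1 + (|c₀'| + S₀)) * √s₁)

end Vale.Agent.P347
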