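import Vale.Agent.P347.GadgetDefs
import Vale.Agent.P347.Params

/-!
The grid, its quadrature rules and the backward pass, as propositions.
-/

namespace Vale.Agent.P347

open MeasureTheory ProbabilityTheory
open scoped Gradient

/-- A grid on `[a, b]` fine relative to the distance to `0` and to `τ`. -/
structure Grid (τ a b R : ℝ) where
  /-- number of intervals -/
  K : ℕ
  /-- points -/
  pt : ℕ → ℝ
  /-- first point -/
  pt_zero : pt 0 = a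
  /-- last point -/
  pt_last : pt K = b
  /-- increasing -/
  pt_lt : ∀ k, k < K → pt k < pt (k + 1)
  /-- not too many intervals -/
  K_le : (K : ℝ) ≤ R ^ 3
  /-- fine intervals -/
  width : ∀ k, k < K → (pt (k + 1) - pt k) * R ≤ min (pt k) (τ - pt (k + 1))

/-- The nodes of a grid. -/
noncomputable def Grid.node {τ a b R : ℝ} (g : Grid τ a b R) {P : ℕ} (p : Fin g.K × Fin P) : ℝ :=
  g.pt p.1 + (g.pt (p.1 + 1) - g.pt p.1) * ((p.2 : ℕ) / ((P : ℝ) - 1))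

/-- Existence of grids and their product integration rules. -/
def GridStatement : Prop :=
  ∀ P : ℕ, 4 ≤ P → ∃ KP R₀ : ℝ, 1 ≤ KP ∧ 1 ≤ R₀ ∧ ∀ R : ℝ, R₀ ≤ R → ∀ τ a b : ℝ,
    0 < a → a < b → b < τ →
    (Real.log (b / (τ - b) * ((τ - a) / a)) ≤ R → Nonempty (Grid τ a b R)) ∧
    ∀ (g : Grid τ a b R) (s : ℝ), s ∈ Set.Icc a b →
      ∃ W W₁ Wb : Fin g.K × Fin P → ℝ,
        (∀ p, |W p| ≤ KP * (g.pt (p.1 + 1) - g.pt p.1) ∧
          |W₁ p| ≤ KP * (g.pt (p.1 + 1) - g.pt p.1) ∧ |Wb p| ≤ KP * τ / R) ∧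
        (∀ p, s ≤ g.pt p.1 → W p = 0 ∧ W₁ p = 0) ∧
        ∀ (d : ℕ) (μ : Measure (Euc d × Euc d × Euc d)) (G : ℝ → Euc d × Euc d × Euc d → Euc d)
          (B : ℕ → ℝ → ℝ) (M : ℝ), IsProbabilityMeasure μ → CurveBound μ a b G B →
          (∀ u ∈ Set.Icc a b, B P u ≤ M / min u (τ - u) ^ P) → 0 ≤ M →
          (Integrable (fun ω => ‖∑ p, W p • G (g.node p) ω
              - ∫ u in a..s, √((τ - s) / (τ - u)) • G u ω‖) μ ∧
            ∫ ω, ‖∑ p, W p • G (g.node p) ω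
              - ∫ u in a..s, √((τ - s) / (τ - u)) • G u ω‖ ∂μ ≤ KP * τ * M / R ^ (P - 3)) ∧
          (Integrable (fun ω => ‖∑ p, W₁ p • G (g.node p) ω - ∫ u in a..s, G u ω‖) μ ∧
            ∫ ω, ‖∑ p, W₁ p • G (g.node p) ω - ∫ u in a..s, G u ω‖ ∂μ
              ≤ KP * τ * M / R ^ (P - 3)) ∧
          (Integrable (fun ω => ‖∑ p, Wb p • G (g.node p) ω
              - ∫ u in b..s, √((τ - s) / (τ - u)) • G u ω‖) μ ∧
            ∫ ω, ‖∑ p, Wb p • G (g.node p) ω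
              - ∫ u in b..s, √((τ - s) / (τ - u)) • G u ω‖ ∂μ ≤ KP * τ * M / R ^ (P - 3))

/-- The lowest level of the gadget at level `τ`. -/
noncomputable def gadgetLow (τ R : ℝ) : ℝ := τ ^ 2 * R ^ 8

/-- The distance of the gadget to its level. -/
noncomputable def gadgetGap (n a : ℕ) (τ R : ℝ) : ℝ := τ / R ^ (2 * topExp n a 0)

/-- The backward pass of the oracle step. -/
def BackPassStatement : Prop :=
  Inputs → ∀ n qE' : ℕ, 1 ≤ n → ∃ q a₀ : ℕ, ∀ a : ℕ, a₀ ≤ a → ∀ m : ℕ, HasEval n a m n qE' →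
    ∀ (Cb : ℕ → ℝ) (ε : ℝ), 0 < ε → ∃ C R₀ : ℝ, 0 ≤ C ∧ 1 ≤ R₀ ∧ ∀ R : ℝ, R₀ ≤ R →
      ∀ (j : ℕ) (τ : ℝ), j < n → (R ^ (topExp n a 0 + 1))⁻¹ ≤ τ →
        2 ^ (m + 1) * τ ≤ topLevel n a n R →
        ∀ Φ : PathFam, BackPath τ (gadgetLow τ R) (τ - gadgetGap n a τ R) Φ Cb →
          ∃ (T : Body) (Q : ℕ), (Q : ℝ) ≤ R ^ q ∧
            Node (gadgetLaw τ (gadgetGap n a τ R)) 0 T Q 1 (√(τ - gadgetLow τ R)) R⁻¹ 1
              (fun d V ω => (Φ d V (gadgetLow τ R) (backPt (gadgetGap n a τ R) ω)).1)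
              (gadgetLow τ R / R ^ 4) (C / R ^ accExp n a (m + 1) j)

end Vale.Agent.P347
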