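import Vale.Agent.P347.Defs

/-!
Coordinate tensors, iterated gradients and bounds for all index splittings.

`Ten ι k` is the space of rank `k` tensors with the Frobenius norm.
-/

namespace Vale.Agent.P347

open scoped RealInnerProductSpace

/-- Real coordinate space over a finite index type. -/
abbrev Sp (ι : Type) : Type := EuclideanSpace ℝ ι

/-- Rank `k` tensors on `Sp ι` with the Frobenius norm. -/
abbrev Ten (ι : Type) (k : ℕ) : Type := EuclideanSpace ℝ (Fin k → ι)

variable {ι : Type} [Fintype ι] [DecidableEq ι]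

/-- A scalar as a rank zero tensor. -/
noncomputable def scalarTen (a : ℝ) : Ten ι 0 := WithLp.toLp 2 fun _ => a

/-- The gradient of a tensor field; the new index is the first one. -/
noncomputable def nabla {k : ℕ} (f : Sp ι → Ten ι k) (x : Sp ι) : Ten ι (k + 1) :=
  WithLp.toLp 2 fun α => fderiv ℝ f x (EuclideanSpace.single (α 0) 1) (Fin.tail α)

/-- The iterated gradient of a tensor field. -/
noncomputable def nablaIter {k : ℕ} (f : Sp ι → Ten ι k) : (i : ℕ) → Sp ι → Ten ι (k + i)
  | 0 => f
  | i + 1 => nabla (nablaIter f i)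

/-- The tensor of `n`-th derivatives of a scalar function. -/
noncomputable def derivTen (U : Sp ι → ℝ) : (n : ℕ) → Sp ι → Ten ι n
  | 0 => fun x => scalarTen (U x)
  | n + 1 => nabla (derivTen U n)

/-- The multi-index obtained from `α` and `β` along a splitting `e` of the `n` index slots. -/
def joinIdx {a b n : ℕ} (e : Fin a ⊕ Fin b ≃ Fin n) (α : Fin a → ι) (β : Fin b → ι) :
    Fin n → ι :=
  Sum.elim α β ∘ e.symm

/-- Every splitting of the index slots of `T` into two nonempty groups gives a linear map of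
operator norm at most `C`. -/
def AllSplit {n : ℕ} (C : ℝ) (T : Ten ι n) : Prop :=
  ∀ (a b : ℕ) (e : Fin a ⊕ Fin b ≃ Fin n), 0 < a → 0 < b →
    ∀ (A : Ten ι a) (B : Ten ι b),
      |∑ α : Fin a → ι, ∑ β : Fin b → ι, T (joinIdx e α β) * A α * B β| ≤ C * ‖A‖ * ‖B‖

/-- Contraction of the `b` indices of `K` singled out by `e` with the first `b` indices of `f`. -/
noncomputable def contractTen {a b c n : ℕ} (e : Fin a ⊕ Fin b ≃ Fin n) (K : Ten ι n)
    (f : Ten ι (b + c)) : Ten ι (a + c) :=
  WithLp.toLp 2 fun α => ∑ β : Fin b → ι,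
    K (joinIdx e (fun i => α (Fin.castAdd c i)) β)
      * f (Fin.append β fun i => α (Fin.natAdd a i))

/-- Reindexing the slots of a tensor. -/
noncomputable def permTen {k l : ℕ} (σ : Fin k ≃ Fin l) (f : Ten ι k) : Ten ι l :=
  WithLp.toLp 2 fun α => f (α ∘ σ)

end Vale.Agent.P347
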