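import Vale.Agent.P347.PostGrad
import Vale.Agent.P347.SymTensor

/-!
Dimension-free bounds on all derivative tensors of the smoothed potential.
-/

namespace Vale.Agent.P347

open Set Finset
open scoped ContDiff RealInnerProductSpace

variable {d : ℕ}

/-- Every splitting of the derivative tensor of rank `n` has operator norm at most `C`. -/
def SymBound (u : ℝ → Euc d → ℝ) (t : ℝ) (x : Euc d) (n : ℕ) (C : ℝ) : Prop :=
  ∀ (σ τ : Type) [Fintype σ] [Fintype τ] [DecidableEq σ] [DecidableEq τ],
    Fintype.card σ + Fintype.card τ = n → 0 < Fintype.card σ → 0 < Fintype.card τ →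
      Bil C fun (f : σ → Fin d) (g : τ → Fin d) => pdm u (mOf f + mOf g) t x

/-- Multi-indices over the slots in `S` and outside `S`. -/
def splitFun {σ : Type*} [Fintype σ] [DecidableEq σ] {ι : Type*} (S : Finset σ) :
    (σ → ι) ≃ (↥S → ι) × (↥(Sᶜ) → ι) where
  toFun f := (fun a => f a, fun a => f a)
  invFun p a := if h : a ∈ S then p.1 ⟨a, h⟩ else p.2 ⟨a, Finset.mem_compl.2 h⟩
  left_inv f := by
    funext a
    by_cases h : a ∈ S <;> simp [h]
  right_inv p := by
    refine Prod.ext ?_ ?_
    · funext a; simp [a.2]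
    · funext a
      have h : (a : σ) ∉ S := Finset.mem_compl.1 a.2
      simp [h]

lemma mOf_option_cons {ι σ : Type*} [Fintype σ] (k : ι) (g : σ → ι) :
    mOf (fun o : Option σ => o.elim k g) = k ::ₘ mOf g := by
  rw [mOf_option]
  rfl

/-- One term of the quadratic part of the evolution equation. -/
lemma bil_term_oriented {u : ℝ → Euc d → ℝ} {t : ℝ} {x : Euc d} {n : ℕ} {c : ℕ → ℝ}
    (hc : ∀ k, 0 ≤ c k) (hb : ∀ k, 2 ≤ k → k ≤ n → SymBound u t x k (c k))
    {σ τ : Type} [Fintype σ] [Fintype τ] [DecidableEq σ] [DecidableEq τ]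
    (hn : Fintype.card σ + Fintype.card τ = n) (S : Finset σ) (T : Finset τ)
    (hS : S.Nonempty) (hT : Tᶜ.Nonempty) :
    Bil (c (S.card + T.card + 1) * c (Sᶜ.card + Tᶜ.card + 1))
      fun (f : σ → Fin d) (g : τ → Fin d) =>
        ∑ k, pdm u (k ::ₘ (S.val.map f + T.val.map g)) t x
          * pdm u (k ::ₘ (Sᶜ.val.map f + Tᶜ.val.map g)) t x := by
  have hS1 : 0 < S.card := hS.card_pos
  have hT1 : 0 < Tᶜ.card := hT.card_pos
  have hSc := S.card_add_card_compl
  have hTc := T.card_add_card_compl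
  have hM : Bil (c (S.card + T.card + 1)) fun (a : ↥S → Fin d) (p : Fin d × (↥T → Fin d)) =>
      pdm u (p.1 ::ₘ (mOf a + mOf p.2)) t x := by
    have h := (hb (S.card + T.card + 1) (by omega) (by omega) (↥S) (Option ↥T)
      (by simp; omega) (by simpa using hS1) (by simp)).reindex (Equiv.refl _)
      (Equiv.piOptionEquivProd (β := fun _ : Option ↥T => Fin d)).symm
    refine h.congr fun a p => ?_
    have e : mOf ((Equiv.piOptionEquivProd (β := fun _ : Option ↥T => Fin d)).symm p)
        = p.1 ::ₘ mOf p.2 := by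
      rw [mOf_option]
      rfl
    rw [Equiv.refl_apply, e, Multiset.add_cons]
  have hN : Bil (c (Sᶜ.card + Tᶜ.card + 1)) fun (p : Fin d × (↥(Sᶜ) → Fin d)) (b : ↥(Tᶜ) → Fin d) =>
      pdm u (p.1 ::ₘ (mOf p.2 + mOf b)) t x := by
    have h := (hb (Sᶜ.card + Tᶜ.card + 1) (by omega) (by omega) (Option ↥(Sᶜ)) (↥(Tᶜ))
      (by simp; omega) (by simp) (by rw [Fintype.card_coe]; exact hT1)).reindex
      (Equiv.piOptionEquivProd (β := fun _ : Option ↥(Sᶜ) => Fin d)).symm (Equiv.refl _)
    refine h.congr fun p b => ?_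
    have e : mOf ((Equiv.piOptionEquivProd (β := fun _ : Option ↥(Sᶜ) => Fin d)).symm p)
        = p.1 ::ₘ mOf p.2 := by
      rw [mOf_option]
      rfl
    rw [Equiv.refl_apply, e, Multiset.cons_add]
  refine ((Bil.compose (hc _) (hc _) hM hN).reindex (splitFun S) (splitFun T)).congr fun f g => ?_
  refine Finset.sum_congr rfl fun k _ => ?_
  simp [splitFun, map_val_eq_mOf]

lemma defect_clm {U : Euc d → ℝ} {F F' : Type} [NormedAddCommGroup F] [NormedSpace ℝ F]
    [NormedAddCommGroup F'] [NormedSpace ℝ F'] (T : F →L[ℝ] F') {G : ℝ → Euc d → F}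
    (hG : Tame (Ioi 0) G) {t : ℝ} (ht : 0 < t) (x : Euc d) :
    defect U (fun r z => T (G r z)) t x = T (defect U G t x) := by
  have hs := hG.contDiff_space ht
  have h1 : pdt (fun r z => T (G r z)) t x = T (pdt G t x) := by
    have h := (T.hasFDerivAt.comp (t, x) (hG.differentiableAt isOpen_Ioi ht x).hasFDerivAt).fderiv
    simp only [Function.comp_def] at h
    simp [pdt, h]
  have h2 : ∀ y v, fderiv ℝ (fun z => T (G t z)) y v = T (fderiv ℝ (G t) y v) := fun y v => by
    have h := (T.hasFDerivAt.comp y (hs.differentiable (by simp) y).hasFDerivAt).fderiv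
    simp only [Function.comp_def] at h
    simp [h]
  have h3 : lapF (fun z => T (G t z)) x = T (lapF (G t) x) := by
    rw [lapF_eq_sum (f := fun z => T (G t z)) (T.contDiff.comp hs), lapF_eq_sum hs, map_sum]
    refine Finset.sum_congr rfl fun i _ => ?_
    simp only [h2]
    have hd : DifferentiableAt ℝ (fun y => fderiv ℝ (G t) y (unitVec i)) x :=
      ((hs.fderiv_right (m := ∞) le_rfl).clm_apply contDiff_const).differentiable (by simp) x
    have h := (T.hasFDerivAt.comp x hd.hasFDerivAt).fderiv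
    simp only [Function.comp_def] at h
    simp [h]
  simp [defect, h1, h3, h2, map_sum, map_smul]

lemma defect_pdm {U : Euc d → ℝ} (hU : Weight U) (m : Multiset (Fin d)) {t : ℝ} (ht : 0 < t)
    (x : Euc d) :
    defect U (pdm (smoothPot U) m) t x
      = (∑ k, pdm (smoothPot U) (k ::ₘ 0) t x * pdm (smoothPot U) (k ::ₘ m) t x)
        - (1 / 2) * (m.antidiagonal.map fun p =>
          ∑ k, pdm (smoothPot U) (k ::ₘ p.1) t x * pdm (smoothPot U) (k ::ₘ p.2) t x).sum := by
  have hu := smoothPot_tame hU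
  have hI : IsOpen (Ioi (0 : ℝ)) := isOpen_Ioi
  have hs := (hu.pdm hI m).contDiff_space (show t ∈ Ioi (0 : ℝ) from ht)
  have h2 : lapF (pdm (smoothPot U) m t) x = ∑ k, pdm (smoothPot U) (k ::ₘ k ::ₘ m) t x := by
    rw [lapF_eq_sum hs]
    refine Finset.sum_congr rfl fun k _ => ?_
    rw [pdm_cons hu hI k _ ht, pd_congr (fun y => pdm_cons hu hI k m ht y)]
    rfl
  have h3 : ∑ k, fderiv ℝ (smoothPot U t) x (unitVec k)
      * fderiv ℝ (pdm (smoothPot U) m t) x (unitVec k)
      = ∑ k, pdm (smoothPot U) (k ::ₘ 0) t x * pdm (smoothPot U) (k ::ₘ m) t x := by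
    refine Finset.sum_congr rfl fun k _ => ?_
    rw [pdm_cons hu hI k m ht, pdm_cons hu hI k 0 ht, pdm_zero]
    rfl
  rw [defect, pdt_pdm hu hI (fun r hr y => smoothPot_pde hU hr y) m ht, h2]
  simp only [smul_eq_mul, h3]
  ring

/-- The defect of a derivative tensor, over all splittings. -/
lemma bil_defect {U : Euc d → ℝ} (hU : Weight U) {t : ℝ} (ht : 0 < t) (x : Euc d) {n : ℕ}
    {c : ℕ → ℝ} (hc : ∀ k, 0 ≤ c k)
    (hb : ∀ k, 2 ≤ k → k ≤ n → SymBound (smoothPot U) t x k (c k)) {K : ℝ}
    (hK : ∀ p q, 1 ≤ p → 1 ≤ q → p + q = n → c (p + 1) * c (q + 1) ≤ K)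
    {σ τ : Type} [Fintype σ] [Fintype τ] [DecidableEq σ] [DecidableEq τ]
    (hn : Fintype.card σ + Fintype.card τ = n) (hσ : 0 < Fintype.card σ)
    (hτ : 0 < Fintype.card τ) :
    Bil (2 ^ n * K) fun (f : σ → Fin d) (g : τ → Fin d) =>
      defect U (pdm (smoothPot U) (mOf f + mOf g)) t x := by
  set u := smoothPot U
  set a : Finset σ × Finset τ := (∅, ∅)
  set b : Finset σ × Finset τ := (univ, univ)
  set term : Finset σ × Finset τ → (σ → Fin d) → (τ → Fin d) → ℝ := fun p f g =>
    ∑ k, pdm u (k ::ₘ (p.1.val.map f + p.2.val.map g)) t x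
      * pdm u (k ::ₘ (p.1ᶜ.val.map f + p.2ᶜ.val.map g)) t x
  set s := (Finset.univ \ {a, b} : Finset (Finset σ × Finset τ))
  have hK0 : 0 ≤ K := le_trans (mul_nonneg (hc _) (hc _))
    (hK (Fintype.card σ) (Fintype.card τ) hσ hτ hn)
  have hab : a ≠ b := by
    intro h
    have h' := congrArg (fun p : Finset σ × Finset τ => p.1.card) h
    simp [a, b] at h'
    omega
  have hterm : ∀ p ∈ s, Bil K fun f g => term p f g := by
    rintro ⟨S, T⟩ hp
    simp only [s, Finset.mem_sdiff, Finset.mem_univ, true_and, Finset.mem_insert,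
      Finset.mem_singleton, not_or] at hp
    obtain ⟨ha', hb'⟩ := hp
    have hbound : ∀ (S : Finset σ) (T : Finset τ), S.Nonempty → Tᶜ.Nonempty →
        c (S.card + T.card + 1) * c (Sᶜ.card + Tᶜ.card + 1) ≤ K := by
      intro S T hS hT
      have h1 := hS.card_pos
      have h2 := hT.card_pos
      have h3 := S.card_add_card_compl
      have h4 := T.card_add_card_compl
      exact hK _ _ (by omega) (by omega) (by omega)
    by_cases h1 : S.Nonempty ∧ Tᶜ.Nonempty
    · exact (bil_term_oriented hc hb hn S T h1.1 h1.2).mono (hbound S T h1.1 h1.2)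
    · have h2 : Sᶜ.Nonempty ∧ T.Nonempty := by
        simp only [Finset.nonempty_iff_ne_empty, ne_eq, Finset.compl_eq_empty_iff] at h1 ⊢
        constructor
        · rintro rfl
          apply h1
          refine ⟨fun h => ?_, fun h => hb' (by rw [h])⟩
          have := congrArg Finset.card h
          simp at this
          omega
        · rintro rfl
          apply h1
          refine ⟨fun h => ha' (by rw [h]), fun h => ?_⟩
          have := congrArg Finset.card h
          simp at this
          omega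
      have hTcc : (Tᶜᶜ : Finset τ).Nonempty := by rw [compl_compl]; exact h2.2
      refine ((bil_term_oriented hc hb hn Sᶜ Tᶜ h2.1 hTcc).mono (hbound Sᶜ Tᶜ h2.1 hTcc)).congr
        fun f g => ?_
      simp only [term, compl_compl, mul_comm]
  have hsum := ((Bil.sum s hterm).const_mul (-(1 / 2))).mono (D := 2 ^ n * K) (by
    have hcard : (s.card : ℝ) ≤ 2 ^ n := by
      have : s.card ≤ 2 ^ n := (Finset.card_le_univ s).trans_eq (by simp [← hn, pow_add])
      exact_mod_cast this
    rw [Finset.sum_const, nsmul_eq_mul, show |(-(1 / 2) : ℝ)| = 1 / 2 by norm_num]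
    nlinarith [mul_le_mul_of_nonneg_right hcard hK0, mul_nonneg (show (0 : ℝ) ≤ 2 ^ n by positivity) hK0])
  refine hsum.congr fun f g => ?_
  have hz : ∀ (φ : σ → Fin d), (Finset.univ : Finset σ).val.map φ = mOf φ := fun _ => rfl
  have hz' : ∀ (φ : τ → Fin d), (Finset.univ : Finset τ).val.map φ = mOf φ := fun _ => rfl
  rw [defect_pdm hU _ ht, antidiagonal_two f g
    (fun m m' => ∑ k, pdm u (k ::ₘ m) t x * pdm u (k ::ₘ m') t x),
    ← Finset.sum_sdiff (Finset.subset_univ ({a, b} : Finset _)), Finset.sum_pair hab]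
  simp only [term, a, b, s, Finset.empty_val, Multiset.map_zero, Finset.compl_empty, hz, hz',
    add_zero, Finset.compl_univ, mul_comm (pdm u (_ ::ₘ (mOf f + mOf g)) t x)]
  ring

/-- The gradient step: bounds at rank `n` give bounds at rank `n + 1`. -/
lemma bil_step {V : Euc d → ℝ} (hV : Weight V) {v t M₀ M₁ : ℝ} (ht : 0 < t) (hv : 0 < v)
    (hM₀ : 0 ≤ M₀) (hM₁ : 0 ≤ M₁)
    (hvar : ∀ r ∈ Ico (t / 2) t, ∀ y u : Euc d,
      postMean (smoothPot V r) (t - r) (fun z => ⟪u, z⟫ * ⟪u, z⟫) y
        - postMean (smoothPot V r) (t - r) (fun z => ⟪u, z⟫) y ^ 2 ≤ v * (t - r) * ‖u‖ ^ 2)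
    {σ τ : Type} [Fintype σ] [Fintype τ] [DecidableEq σ] [DecidableEq τ]
    (h0 : ∀ x, Bil M₀ fun (f : σ → Fin d) (g : τ → Fin d) =>
      pdm (smoothPot V) (mOf f + mOf g) (t / 2) x)
    (h1 : ∀ r ∈ Icc (t / 2) t, ∀ x, Bil M₁ fun (f : σ → Fin d) (g : τ → Fin d) =>
      defect V (pdm (smoothPot V) (mOf f + mOf g)) r x) (y : Euc d) :
    Bil (√(v / (t - t / 2)) * M₀ + 2 * √(v * (t - t / 2)) * M₁)
      fun (f : σ → Fin d) (p : Fin d × (τ → Fin d)) =>
        pdm (smoothPot V) (p.1 ::ₘ (mOf f + mOf p.2)) t y := by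
  have hI : IsOpen (Ioi (0 : ℝ)) := isOpen_Ioi
  have hu := smoothPot_tame hV
  refine Bil.of_sum_sq_le (by positivity) fun A => ?_
  set α := √(∑ f, A f ^ 2) with hα
  set full : ℝ → Euc d → EuclideanSpace ℝ ((σ → Fin d) × (τ → Fin d)) := fun r z =>
    WithLp.toLp 2 fun p => pdm (smoothPot V) (mOf p.1 + mOf p.2) r z with hfull
  have hfullT : Tame (Ioi 0) full := Tame.euclidean hI fun p => hu.pdm hI _
  set T : EuclideanSpace ℝ ((σ → Fin d) × (τ → Fin d)) →L[ℝ] EuclideanSpace ℝ (τ → Fin d) :=
    LinearMap.toContinuousLinearMap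
      { toFun := fun w => WithLp.toLp 2 fun g => ∑ f, w (f, g) * A f
        map_add' := fun w w' => by ext g; simp [add_mul, Finset.sum_add_distrib]
        map_smul' := fun c w => by ext g; simp [Finset.mul_sum, mul_assoc] } with hT
  set G : ℝ → Euc d → EuclideanSpace ℝ (τ → Fin d) := fun r z => T (full r z) with hG
  have hGT : Tame (Ioi 0) G := hfullT.clm hI T
  have hnorm : ∀ {M : ℝ} {w : EuclideanSpace ℝ ((σ → Fin d) × (τ → Fin d))}, 0 ≤ M →
      Bil M (fun f g => w (f, g)) → ‖T w‖ ≤ M * α := by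
    intro M w hM hw
    rw [EuclideanSpace.norm_eq, hα, ← Real.sqrt_sq hM, ← Real.sqrt_mul (sq_nonneg M)]
    refine Real.sqrt_le_sqrt ?_
    simpa [hT] using hw.sum_sq_le hM A
  have hfd : ∀ p : (σ → Fin d) × (τ → Fin d), ∀ r, 0 < r → ∀ z,
      defect V full r z p = defect V (pdm (smoothPot V) (mOf p.1 + mOf p.2)) r z :=
    fun p r hr z => (defect_clm (EuclideanSpace.proj p) hfullT hr z).symm
  have key := grad_duhamel_le hV (a := t / 2) (t := t) (by linarith) (by linarith) hv hvar hGT
    (M₀ := M₀ * α) (M₁ := M₁ * α)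
    (fun z => hnorm hM₀ ((h0 z).congr fun f g => rfl))
    (fun r hr z => by
      have hr0 : 0 < r := lt_of_lt_of_le (by linarith) hr.1
      rw [hG, defect_clm T hfullT hr0 z]
      exact hnorm hM₁ ((h1 r hr z).congr fun f g => hfd (f, g) r hr0 z)) y
  have e : ∀ i g, fderiv ℝ (G t) y (unitVec i) g
      = ∑ f, pdm (smoothPot V) (i ::ₘ (mOf f + mOf g)) t y * A f := by
    intro i g
    have hd := hfullT.differentiableAt_space (show t ∈ Ioi (0 : ℝ) from ht) y
    have h2 := (T.hasFDerivAt.comp y hd.hasFDerivAt).fderiv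
    simp only [Function.comp_def] at h2
    rw [show G t = fun z => T (full t z) from rfl, h2]
    simp only [ContinuousLinearMap.comp_apply, hT, LinearMap.coe_toContinuousLinearMap',
      LinearMap.coe_mk, AddHom.coe_mk]
    refine Finset.sum_congr rfl fun f _ => ?_
    congr 1
    have h3 := ((EuclideanSpace.proj (𝕜 := ℝ) (f, g)).hasFDerivAt.comp y hd.hasFDerivAt).fderiv
    simp only [Function.comp_def] at h3
    rw [pdm_cons hu hI i _ ht, pd,
      show pdm (smoothPot V) (mOf f + mOf g) t = fun z => (EuclideanSpace.proj (f, g)) (full t z)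
        from rfl, h3]
    rfl
  calc ∑ p : Fin d × (τ → Fin d),
        (∑ f, pdm (smoothPot V) (p.1 ::ₘ (mOf f + mOf p.2)) t y * A f) ^ 2
      = ∑ i, ‖fderiv ℝ (G t) y (unitVec i)‖ ^ 2 := by
        rw [Fintype.sum_prod_type]
        simp [EuclideanSpace.norm_sq_eq, e]
    _ ≤ _ := key
    _ = _ := by
        rw [← Real.sq_sqrt (Finset.sum_nonneg fun f _ => sq_nonneg (A f)), ← hα]
        ring

lemma symBound_two {U : Euc d → ℝ} (hU : Weight U) {t : ℝ} (ht : 0 < t) (x : Euc d) {K : ℝ}
    (hK : 0 ≤ K) (hB : ∀ v w, |fderiv ℝ (fderiv ℝ (smoothPot U t)) x v w| ≤ K * ‖v‖ * ‖w‖) :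
    SymBound (smoothPot U) t x 2 K := by
  intro σ τ _ _ _ _ hn hσ hτ
  have hu := smoothPot_tame hU
  have hI : IsOpen (Ioi (0 : ℝ)) := isOpen_Ioi
  obtain ⟨i₀, hi⟩ := Fintype.card_eq_one_iff.1 (show Fintype.card σ = 1 by omega)
  obtain ⟨j₀, hj⟩ := Fintype.card_eq_one_iff.1 (show Fintype.card τ = 1 by omega)
  haveI : Unique σ := ⟨⟨i₀⟩, hi⟩
  haveI : Unique τ := ⟨⟨j₀⟩, hj⟩
  have h : Bil K fun i j : Fin d =>
      fderiv ℝ (fderiv ℝ (smoothPot U t)) x (unitVec i) (unitVec j) := by
    intro A B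
    have hv : ∀ A : Fin d → ℝ, ‖∑ i, A i • unitVec i‖ = √(∑ i, A i ^ 2) := fun A => by
      have e : ∑ i, A i • unitVec i = WithLp.toLp 2 A := by
        conv_rhs => rw [← (EuclideanSpace.basisFun (Fin d) ℝ).sum_repr (WithLp.toLp 2 A)]
        simp
      simp [e, EuclideanSpace.norm_eq]
    have := hB (∑ i, A i • unitVec i) (∑ j, B j • unitVec j)
    rw [hv, hv] at this
    refine le_of_eq_of_le ?_ this
    congr 1
    simp only [map_sum, map_smul, _root_.sum_apply, smul_apply, smul_eq_mul, Finset.mul_sum]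
    rw [Finset.sum_comm]
    exact Finset.sum_congr rfl fun j _ => Finset.sum_congr rfl fun i _ => by ring
  refine (h.reindex (Equiv.funUnique σ (Fin d)) (Equiv.funUnique τ (Fin d))).congr fun f g => ?_
  rw [mOf_unique f, mOf_unique g, show ({f default} : Multiset (Fin d)) + {g default}
      = f default ::ₘ g default ::ₘ 0 from rfl,
    pdm_cons hu hI _ _ ht, pd_congr (fun y => pdm_cons hu hI (g default) 0 ht y), pdm_zero]
  have hd : DifferentiableAt ℝ (fderiv ℝ (smoothPot U t)) x :=
    ((smoothPot_smooth hU ht).fderiv_right (m := ∞) le_rfl).differentiable (by simp) x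
  show fderiv ℝ (fun y => fderiv ℝ (smoothPot U t) y (unitVec (g default))) x (unitVec (f default)) = _
  rw [fderiv_clm_apply hd (differentiableAt_const _)]
  simp [Equiv.funUnique]

/-- Bounds for all ranks, for the potential in its coordinate form. -/
theorem symBound (h : PoincareStatement) : ∀ n : ℕ, ∃ C : ℝ, 0 ≤ C ∧ ∀ k, 2 ≤ k → k ≤ n →
    ∀ (d : ℕ) (V : Euc d → ℝ) (l L t : ℝ), NicePot d V l L → 0 ≤ L → 0 < t → L * t ≤ 1 →
      ∀ y : Euc d, SymBound (smoothPot V) t y k (C * L / √t ^ (k - 2)) := by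
  obtain ⟨Cp, hCp, hP⟩ := h
  intro n
  induction n with
  | zero => exact ⟨0, le_rfl, fun k h1 h2 => absurd h2 (by omega)⟩
  | succ n ih =>
    obtain ⟨C, hC, hind⟩ := ih
    rcases Nat.lt_or_ge n 2 with hn | hn
    · refine ⟨1 + 2 * Cp, by positivity, fun k h1 h2 d V l L t hV hL ht hLt y => ?_⟩
      obtain rfl : k = 2 := by omega
      have hW := hV.weight
      simp only [Nat.sub_self, pow_zero, div_one]
      refine symBound_two hW ht y (by positivity) fun v w => ?_
      set B := fderiv ℝ (fderiv ℝ (smoothPot V t)) y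
      have hb := hessian_smoothPot_bounds hCp.le hP hV hL ht y
      have hsym : ∀ u v, B u v = B v u := fun u v =>
        ((smoothPot_smooth hW ht).contDiffAt.of_le
          (show ((2 : ℕ∞) : WithTop ℕ∞) ≤ ∞ from WithTop.coe_le_coe.2 le_top)).isSymmSndFDerivAt
            (by simp) u v
      have hkey := bilin_le_of_quad (B := B + (Cp * L) • innerForm d) (L := L + Cp * L)
        (fun u v => by
          simp only [add_apply, smul_apply, innerForm, hsym u v]
          rw [innerSL_apply_apply, innerSL_apply_apply, real_inner_comm])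
        (fun u => by
          have := (hb u).1
          simp only [add_apply, smul_apply, innerForm, smul_eq_mul]
          rw [innerSL_apply_apply, real_inner_self_eq_norm_sq]
          nlinarith [mul_nonneg hV.pos.le (sq_nonneg ‖u‖),
            mul_le_mul_of_nonneg_left hLt (mul_nonneg (mul_nonneg hCp.le hL) (sq_nonneg ‖u‖))])
        (fun u => by
          have := (hb u).2
          simp only [add_apply, smul_apply, innerForm, smul_eq_mul]
          rw [innerSL_apply_apply, real_inner_self_eq_norm_sq]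
          linarith) v w
      simp only [add_apply, smul_apply, innerForm, smul_eq_mul] at hkey
      rw [innerSL_apply_apply] at hkey
      have h5 : |Cp * L * ⟪v, w⟫| ≤ Cp * L * (‖v‖ * ‖w‖) := by
        rw [abs_mul, abs_of_nonneg (mul_nonneg hCp.le hL)]
        exact mul_le_mul_of_nonneg_left (abs_real_inner_le_norm v w) (mul_nonneg hCp.le hL)
      have h6 := abs_sub (B v w + Cp * L * ⟪v, w⟫) (Cp * L * ⟪v, w⟫)
      rw [add_sub_cancel_right] at h6
      linarith
    · set R := √(2 * (1 + Cp)) * 2 ^ (n - 2) * C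
        + 2 * √(1 + Cp) * (2 ^ (n - 2) * (2 ^ n * C ^ 2)) with hR
      refine ⟨max C R, le_max_of_le_left hC, fun k h1 h2 d V l L t hV hL ht hLt y => ?_⟩
      rcases Nat.lt_or_ge k (n + 1) with hk | hk
      · intro σ τ _ _ _ _ hc hσ hτ
        refine (hind k h1 (by omega) d V l L t hV hL ht hLt y σ τ hc hσ hτ).mono ?_
        gcongr
        exact le_max_left _ _
      obtain rfl : k = n + 1 := by omega
      have hW := hV.weight
      have hpos : 0 < √t := Real.sqrt_pos.2 ht
      set E := 2 ^ (n - 2) / √t ^ (n - 2) with hE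
      have hhalf : ∀ r, t / 2 ≤ r → 1 / √r ^ (n - 2) ≤ E := fun r hr => by
        have h3 : √t / 2 ≤ √r := by
          rw [Real.le_sqrt (by positivity) (by linarith), div_pow, Real.sq_sqrt ht.le]
          linarith
        calc 1 / √r ^ (n - 2) ≤ 1 / (√t / 2) ^ (n - 2) := by gcongr
          _ = E := by rw [hE, div_pow, one_div_div]
      -- the case of a splitting whose second block contains a marked slot and at least one more
      have main : ∀ (σ τ : Type) [Fintype σ] [Fintype τ] [DecidableEq σ] [DecidableEq τ],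
          Fintype.card σ + Fintype.card τ = n → 0 < Fintype.card σ → 0 < Fintype.card τ →
          Bil (R * L / √t ^ (n - 1)) fun (f : σ → Fin d) (p : Fin d × (τ → Fin d)) =>
            pdm (smoothPot V) (p.1 ::ₘ (mOf f + mOf p.2)) t y := by
        intro σ τ _ _ _ _ hcard hσ hτ
        have h0 : ∀ x, Bil (C * L * E) fun (f : σ → Fin d) (g : τ → Fin d) =>
            pdm (smoothPot V) (mOf f + mOf g) (t / 2) x := fun x => by
          refine (hind n hn le_rfl d V l L (t / 2) hV hL (by linarith) (by nlinarith) x σ τ hcard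
            hσ hτ).mono ?_
          rw [div_eq_mul_one_div]
          exact mul_le_mul_of_nonneg_left (hhalf _ le_rfl) (by positivity)
        have h1' : ∀ r ∈ Icc (t / 2) t, ∀ x, Bil (2 ^ n * (C ^ 2 * L ^ 2 * E))
            fun (f : σ → Fin d) (g : τ → Fin d) =>
              defect V (pdm (smoothPot V) (mOf f + mOf g)) r x := fun r hr x => by
          have hr0 : 0 < r := lt_of_lt_of_le (by linarith) hr.1
          have hrs : 0 < √r := Real.sqrt_pos.2 hr0
          refine bil_defect hW hr0 x (n := n) (c := fun k => C * L / √r ^ (k - 2))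
            (fun k => by positivity)
            (fun k hk1 hk2 => hind k hk1 hk2 d V l L r hV hL hr0 (by nlinarith [hr.2]) x)
            (fun p q hp hq hpq => ?_) hcard hσ hτ
          calc C * L / √r ^ (p + 1 - 2) * (C * L / √r ^ (q + 1 - 2))
              = C ^ 2 * L ^ 2 * (1 / √r ^ (n - 2)) := by
                rw [show n - 2 = p + 1 - 2 + (q + 1 - 2) by omega, pow_add]
                field_simp
            _ ≤ _ := mul_le_mul_of_nonneg_left (hhalf r hr.1) (by positivity)
        refine (bil_step hW ht (v := 1 + Cp) (by positivity) (by positivity) (by positivity)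
          (fun r hr z u => level_linear_variance_le hCp.le hP hV hL (by linarith [hr.1]) hr.2
            hLt z u) h0 h1' y).mono ?_
        have e1 : √((1 + Cp) / (t - t / 2)) = √(2 * (1 + Cp)) / √t := by
          rw [← Real.sqrt_div' _ ht.le]; congr 1; field_simp; ring
        have e2 : √((1 + Cp) * (t - t / 2)) ≤ √(1 + Cp) * √t := by
          rw [← Real.sqrt_mul (by positivity)]
          exact Real.sqrt_le_sqrt (mul_le_mul_of_nonneg_left (by linarith) (by positivity))
        have e3 : L ^ 2 * √t ≤ L / √t := by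
          rw [le_div_iff₀ hpos, mul_assoc, Real.mul_self_sqrt ht.le]
          nlinarith
        calc √((1 + Cp) / (t - t / 2)) * (C * L * E)
              + 2 * √((1 + Cp) * (t - t / 2)) * (2 ^ n * (C ^ 2 * L ^ 2 * E))
            ≤ √(2 * (1 + Cp)) / √t * (C * L * E)
              + 2 * (√(1 + Cp) * √t) * (2 ^ n * (C ^ 2 * L ^ 2 * E)) := by
              rw [e1]; gcongr
          _ = √(2 * (1 + Cp)) * C * E * (L / √t)
              + 2 * √(1 + Cp) * (2 ^ n * C ^ 2) * E * (L ^ 2 * √t) := by ring
          _ ≤ √(2 * (1 + Cp)) * C * E * (L / √t)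
              + 2 * √(1 + Cp) * (2 ^ n * C ^ 2) * E * (L / √t) := by gcongr
          _ = R * L / √t ^ (n - 1) := by
              rw [show n - 1 = n - 2 + 1 by omega, pow_succ, hR, hE]
              field_simp
              ring
      have hle : R * L / √t ^ (n - 1) ≤ max C R * L / √t ^ (n + 1 - 2) := by
        rw [show n + 1 - 2 = n - 1 by omega]
        gcongr
        exact le_max_right _ _
      have gen : ∀ (σ τ : Type) [Fintype σ] [Fintype τ] [DecidableEq σ] [DecidableEq τ],
          Fintype.card σ + Fintype.card τ = n + 1 → 0 < Fintype.card σ → 2 ≤ Fintype.card τ →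
          Bil (max C R * L / √t ^ (n + 1 - 2)) fun (f : σ → Fin d) (g : τ → Fin d) =>
            pdm (smoothPot V) (mOf f + mOf g) t y := by
        intro σ τ _ _ _ _ hcard hσ hτ
        obtain ⟨j₀⟩ := Fintype.card_pos_iff.1 (show 0 < Fintype.card τ by omega)
        have hc' : Fintype.card {j // j ≠ j₀} = Fintype.card τ - 1 := by simp
        have h3 := main σ {j // j ≠ j₀} (by omega) hσ (by omega)
        refine ((h3.reindex (Equiv.refl _) (((Equiv.optionSubtypeNe j₀).arrowCongr
          (Equiv.refl (Fin d))).symm.trans Equiv.piOptionEquivProd)).mono hle).congr fun f g => ?_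
        have e : mOf g = g j₀ ::ₘ mOf fun j : {j // j ≠ j₀} => g j := by
          rw [← mOf_comp (Equiv.optionSubtypeNe j₀) g, mOf_option]
          simp [Function.comp_def]
        simp [e, Multiset.add_cons, Equiv.piOptionEquivProd, Equiv.arrowCongr, Function.comp_def]
      intro σ τ _ _ _ _ hcard hσ hτ
      rcases Nat.lt_or_ge (Fintype.card τ) 2 with hτ1 | hτ2
      · refine (gen τ σ (by omega) hτ (by omega)).swap.congr fun f g => ?_
        rw [add_comm]
      · exact gen σ τ hcard hσ hτ2

end Vale.Agent.P347
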